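import Crest.Agent.R078.Defs
import Crest.Agent.S0165

/-! Row 78, S0103: the distance to the commutant (Arveson's formula and S0165). -/

set_option autoImplicit false

open scoped InnerProductSpace

namespace Crest.Agent.R078

variable {H : Type*} [NormedAddCommGroup H] [InnerProductSpace ℂ H] [CompleteSpace H]

/-- The diagonal operator on a finite Hilbert sum. -/
noncomputable def adDg (h : ℕ) (y : Op H) : Op (PiLp 2 fun _ : Fin h => H) :=
  (PiLp.continuousLinearEquiv 2 ℂ fun _ : Fin h => H).symm.toContinuousLinearMap ∘L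
    ContinuousLinearMap.pi fun i => y ∘L PiLp.proj 2 (fun _ : Fin h => H) i

/-- The inclusion of a summand. -/
noncomputable def adSg {h : ℕ} (j : Fin h) : H →L[ℂ] PiLp 2 fun _ : Fin h => H :=
  (PiLp.continuousLinearEquiv 2 ℂ fun _ : Fin h => H).symm.toContinuousLinearMap ∘L
    ContinuousLinearMap.single ℂ (fun _ : Fin h => H) j

omit [CompleteSpace H] in
theorem adDg_apply {h : ℕ} (y : Op H) (v : PiLp 2 fun _ : Fin h => H) (i : Fin h) :
    adDg h y v i = y (v i) := rfl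

omit [CompleteSpace H] in
theorem adSg_apply {h : ℕ} (j : Fin h) (η : H) (i : Fin h) :
    adSg j η i = if i = j then η else 0 := by
  change (Pi.single j η : Fin h → H) i = _
  rw [Pi.single_apply]

theorem ad_fin {M : VN H} {T : Op H} {c : ℝ} {h : ℕ}
    (hcb : ∀ (X : Op (PiLp 2 fun _ : Fin h => H)) (x : Fin h → Fin h → Op H), (∀ i j, x i j ∈ M) →
      (∀ v i, X v i = ∑ j, x i j (v j)) → ‖X‖ ≤ 1 → ‖adDg h T * X - X * adDg h T‖ ≤ c)
    (ξ η : PiLp 2 fun _ : Fin h => H) (h0 : ∀ y ∈ M.commutant, ⟪η, adDg h y ξ⟫_ℂ = 0) :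
    ‖⟪η, adDg h T ξ⟫_ℂ‖ ≤ c * ‖η‖ * ‖ξ‖ := by
  let U₀ : Submodule ℂ (PiLp 2 fun _ : Fin h => H) :=
    { carrier := {v | ∃ y ∈ M.commutant, v = adDg h y ξ}
      zero_mem' := ⟨0, zero_mem _, by ext i; rfl⟩
      add_mem' := by
        rintro _ _ ⟨y, hy, rfl⟩ ⟨z, hz, rfl⟩
        exact ⟨y + z, add_mem hy hz, by ext i; rfl⟩
      smul_mem' := by
        rintro a _ ⟨y, hy, rfl⟩
        exact ⟨a • y, M.commutant.toStarSubalgebra.smul_mem hy a, by ext i; rfl⟩ }
  let U := U₀.topologicalClosure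
  have hinv : ∀ y ∈ M.commutant, ∀ v ∈ U, adDg h y v ∈ U := fun y hy v hv =>
    map_mem_closure (adDg h y).continuous hv (by
      rintro _ ⟨z, hz, rfl⟩
      exact ⟨y * z, mul_mem hy hz, by ext i; rfl⟩)
  have hadj : ∀ (y : Op H) (u w : PiLp 2 fun _ : Fin h => H),
      ⟪u, adDg h y w⟫_ℂ = ⟪adDg h (star y) u, w⟫_ℂ := fun y u w => by
    simp only [PiLp.inner_apply, adDg_apply, ContinuousLinearMap.star_eq_adjoint,
      ContinuousLinearMap.adjoint_inner_left]
  have hcomm : ∀ y ∈ M.commutant, ∀ v, U.starProjection (adDg h y v) =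
      adDg h y (U.starProjection v) := fun y hy v => by
    refine Submodule.eq_starProjection_of_mem_orthogonal (hinv y hy _ (U.starProjection_apply_mem v)) ?_
    rw [← map_sub, Submodule.mem_orthogonal]
    intro u hu
    rw [hadj]
    exact (Submodule.mem_orthogonal _ _).1 (U.sub_starProjection_mem_orthogonal v) _
      (hinv _ (star_mem hy) u hu)
  have hξ : U.starProjection ξ = ξ :=
    Submodule.starProjection_eq_self_iff.2 (subset_closure ⟨1, one_mem _, by ext i; rfl⟩)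
  have hη : ∀ u ∈ U, ⟪η, u⟫_ℂ = 0 := fun u hu =>
    (isClosed_eq (by fun_prop) continuous_const :
      IsClosed {u : PiLp 2 fun _ : Fin h => H | ⟪η, u⟫_ℂ = 0}).closure_subset_iff.2
      (by rintro _ ⟨y, hy, rfl⟩; exact h0 y hy) hu
  have h1 := hcb U.starProjection
    (fun i j => PiLp.proj 2 (fun _ : Fin h => H) i ∘L U.starProjection ∘L adSg j) (fun i j => by
      rw [← M.commutant_commutant, VonNeumannAlgebra.mem_commutant_iff]
      intro y hy
      ext ζ
      change y (U.starProjection (adSg j ζ) i) = U.starProjection (adSg j (y ζ)) i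
      have e : adDg h y (adSg j ζ) = adSg j (y ζ) := by
        ext l
        rw [adDg_apply, adSg_apply, adSg_apply]
        split_ifs <;> simp
      rw [← adDg_apply, ← hcomm y hy, e]) (fun v i => by
      have : v = ∑ j, adSg j (v j) := by
        ext l
        simp [adSg_apply]
      conv_lhs => rw [this, map_sum]
      simp) U.starProjection_norm_le
  have h2 : ⟪η, adDg h T ξ⟫_ℂ =
      ⟪η, (adDg h T * U.starProjection - U.starProjection * adDg h T) ξ⟫_ℂ := by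
    rw [sub_apply, mul_apply_eq_comp, mul_apply_eq_comp, hξ, inner_sub_right,
      hη _ (U.starProjection_apply_mem _), sub_zero]
  rw [h2]
  calc _ ≤ ‖η‖ * ‖(adDg h T * U.starProjection - U.starProjection * adDg h T) ξ‖ :=
        norm_inner_le_norm _ _
    _ ≤ ‖η‖ * (c * ‖ξ‖) :=
        mul_le_mul_of_nonneg_left (ContinuousLinearMap.le_of_opNorm_le _ h1 _) (norm_nonneg _)
    _ = c * ‖η‖ * ‖ξ‖ := by ring

omit [CompleteSpace H] in
theorem ad_scale (a : ℂ) (ξ η : H) : ∃ ξ' η' : H, ‖ξ'‖ ^ 2 = ‖a‖ * (‖ξ‖ * ‖η‖) ∧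
    ‖η'‖ ^ 2 = ‖a‖ * (‖ξ‖ * ‖η‖) ∧ ∀ y : Op H, ⟪η', y ξ'⟫_ℂ = a * ⟪η, y ξ⟫_ℂ := by
  rcases eq_or_ne a 0 with rfl | ha
  · exact ⟨0, 0, by simp, by simp, by simp⟩
  rcases eq_or_ne ξ 0 with rfl | hξ
  · exact ⟨0, 0, by simp, by simp, by simp⟩
  rcases eq_or_ne η 0 with rfl | hη
  · exact ⟨0, 0, by simp, by simp, by simp⟩
  have h1 := norm_pos_iff.2 ha
  have h2 := norm_pos_iff.2 hξ
  have h3 := norm_pos_iff.2 hη
  obtain ⟨r, hr, hr2⟩ : ∃ r : ℝ, 0 < r ∧ r ^ 2 = ‖a‖ * ‖ξ‖ / ‖η‖ :=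
    ⟨√(‖a‖ * ‖ξ‖ / ‖η‖), by positivity, Real.sq_sqrt (by positivity)⟩
  have hrc : (r : ℂ) ≠ 0 := by exact_mod_cast hr.ne'
  refine ⟨(a / r) • ξ, (r : ℂ) • η, ?_, ?_, fun y => ?_⟩
  · rw [norm_smul, norm_div, Complex.norm_real, Real.norm_of_nonneg hr.le, mul_pow, div_pow, hr2]
    field_simp
  · rw [norm_smul, Complex.norm_real, Real.norm_of_nonneg hr.le, mul_pow, hr2]
    field_simp
  · rw [map_smul, inner_smul_left, inner_smul_right, Complex.conj_ofReal]
    field_simp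

/-- Hahn–Banach on finite rank tensors. -/
theorem ad_hb {M : VN H} {T : Op H} {c : ℝ} (hc : 0 ≤ c)
    (hfin : ∀ (h : ℕ), 1 ≤ h → ∀ ξ η : PiLp 2 fun _ : Fin h => H,
      (∀ y ∈ M.commutant, ⟪η, adDg h y ξ⟫_ℂ = 0) → ‖⟪η, adDg h T ξ⟫_ℂ‖ ≤ c * ‖η‖ * ‖ξ‖) :
    ∃ y ∈ M.commutant, ‖T - y‖ ≤ c := by
  classical
  let φ : Op H → ((H × H →₀ ℂ) →ₗ[ℂ] ℂ) := fun y =>
    Finsupp.linearCombination ℂ fun p => ⟪p.2, y p.1⟫_ℂ
  have hφ : ∀ y ξ η, φ y (Finsupp.single (ξ, η) 1) = ⟪η, y ξ⟫_ℂ := fun y ξ η => by simp [φ]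
  let n : (H × H →₀ ℂ) → ℝ := fun t => ∑ p ∈ t.support, ‖t p‖ * (‖p.1‖ * ‖p.2‖)
  have hn : ∀ (t : H × H →₀ ℂ) (u : Finset (H × H)), t.support ⊆ u →
      n t = ∑ p ∈ u, ‖t p‖ * (‖p.1‖ * ‖p.2‖) := fun t u hu =>
    Finset.sum_subset hu fun p _ hp => by rw [Finsupp.notMem_support_iff.1 hp]; simp
  let N : Seminorm ℂ (H × H →₀ ℂ) := Seminorm.of (fun t => c * n t) (fun s t => by
      rw [← mul_add, hn (s + t) _ Finsupp.support_add, hn s _ Finset.subset_union_left,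
        hn t _ Finset.subset_union_right, ← Finset.sum_add_distrib]
      refine mul_le_mul_of_nonneg_left (Finset.sum_le_sum fun p _ => ?_) hc
      rw [← add_mul]
      exact mul_le_mul_of_nonneg_right (norm_add_le _ _) (by positivity))
    (fun a t => by
      rw [hn (a • t) _ Finsupp.support_smul, mul_left_comm]
      simp only [n, Finsupp.smul_apply, norm_smul, Finset.mul_sum, mul_assoc])
  let F : Submodule ℂ (H × H →₀ ℂ) := ⨅ y ∈ M.commutant, LinearMap.ker (φ y)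
  have hF : ∀ t, t ∈ F ↔ ∀ y ∈ M.commutant, φ y t = 0 := fun t => by
    simp only [F, Submodule.mem_iInf, LinearMap.mem_ker]
  have hb : ∀ t : F, ‖((φ T).comp F.subtype) t‖ ≤ N t := by
    rintro ⟨t, ht⟩
    change ‖φ T t‖ ≤ c * n t
    rcases eq_or_ne t 0 with rfl | ht0
    · simp [n]
    have hcard : 1 ≤ t.support.card := Finset.card_pos.2 (Finsupp.support_nonempty_iff.2 ht0)
    choose ξ' η' h1 h2 h3 using fun p : H × H => ad_scale (t p) p.1 p.2
    let e := t.support.equivFin.symm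
    have hs : ∀ {A : Type} [AddCommMonoid A] (f : H × H → A),
        ∑ i, f (e i) = ∑ p ∈ t.support, f p := fun f => by
      rw [← Finset.sum_coe_sort t.support f]
      exact Equiv.sum_comp e fun p => f p
    have h4 : ∀ y : Op H, ⟪(WithLp.toLp 2 fun i => η' (e i) : PiLp 2 fun _ => H),
        adDg _ y (WithLp.toLp 2 fun i => ξ' (e i))⟫_ℂ = φ y t := fun y => by
      simp only [PiLp.inner_apply, adDg_apply, h3]
      rw [hs fun p => t p * ⟪p.2, y p.1⟫_ℂ]
      simp only [φ, Finsupp.linearCombination_apply, Finsupp.sum, smul_eq_mul]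
    have h5 := hfin _ hcard _ _ fun y hy => (h4 y).trans ((hF t).1 ht y hy)
    have h6 : ‖(WithLp.toLp 2 fun i => η' (e i) : PiLp 2 fun _ => H)‖ ^ 2 = n t := by
      rw [PiLp.norm_sq_eq_of_L2]
      simp only [h2]
      exact hs fun p => ‖t p‖ * (‖p.1‖ * ‖p.2‖)
    have h7 : ‖(WithLp.toLp 2 fun i => ξ' (e i) : PiLp 2 fun _ => H)‖ ^ 2 = n t := by
      rw [PiLp.norm_sq_eq_of_L2]
      simp only [h1]
      exact hs fun p => ‖t p‖ * (‖p.1‖ * ‖p.2‖)
    have h8 := (pow_left_inj₀ (norm_nonneg _) (norm_nonneg _) two_ne_zero).1 (h7.trans h6.symm)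
    rw [h4, h8, mul_assoc, ← sq, h6] at h5
    exact h5
  obtain ⟨ψ, hψ, hψN⟩ := Module.Dual.exists_extension_of_le_seminorm F ((φ T).comp F.subtype) hb
  have hψF : ∀ t, (∀ y ∈ M.commutant, φ y t = 0) → ψ t = φ T t := fun t ht =>
    hψ ⟨t, (hF t).2 ht⟩
  have hz : ∀ s t, (∀ y, φ y s = φ y t) → ψ s = ψ t := fun s t hst => by
    have := hψF (s - t) fun y _ => by rw [map_sub, hst, sub_self]
    rwa [map_sub, map_sub, hst, sub_self, sub_eq_zero] at this
  let B : H →ₗ⋆[ℂ] H →ₗ[ℂ] ℂ := LinearMap.mk₂'ₛₗ (starRingEnd ℂ) (RingHom.id ℂ)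
    (fun η ξ => ψ (Finsupp.single (ξ, η) 1))
    (fun η η' ξ => by
      rw [← map_add]
      exact hz _ _ fun y => by rw [map_add, hφ, hφ, hφ, inner_add_left])
    (fun a η ξ => by
      rw [← map_smul]
      exact hz _ _ fun y => by rw [map_smul, hφ, hφ, inner_smul_left, smul_eq_mul])
    (fun η ξ ξ' => by
      rw [← map_add]
      exact hz _ _ fun y => by rw [map_add, hφ, hφ, hφ, map_add, inner_add_right])
    (fun a η ξ => by
      rw [← map_smul]
      exact hz _ _ fun y => by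
        rw [map_smul, hφ, hφ, map_smul, inner_smul_right, smul_eq_mul, RingHom.id_apply])
  have hB : ∀ η ξ, ‖B η ξ‖ ≤ c * ‖η‖ * ‖ξ‖ := fun η ξ => by
    refine (hψN (Finsupp.single (ξ, η) 1)).trans (le_of_eq ?_)
    change c * n _ = _
    rw [hn _ _ Finsupp.support_single_subset]
    simp only [Finset.sum_singleton, Finsupp.single_eq_same, norm_one]
    ring
  obtain ⟨S, hS⟩ : ∃ S : Op H, ∀ η ξ, ⟪η, S ξ⟫_ℂ = B η ξ :=
    ⟨ContinuousLinearMap.adjoint
      (InnerProductSpace.continuousLinearMapOfBilin (B.mkContinuous₂ c hB)), fun η ξ => by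
        rw [ContinuousLinearMap.adjoint_inner_right,
          InnerProductSpace.continuousLinearMapOfBilin_apply, LinearMap.mkContinuous₂_apply]⟩
  refine ⟨T - S, ?_, ?_⟩
  · rw [VonNeumannAlgebra.mem_commutant_iff]
    intro a ha
    ext ξ
    refine ext_inner_left ℂ fun η => ?_
    have h1 := hψF (Finsupp.single (a ξ, η) 1 - Finsupp.single (ξ, star a η) 1) fun y hy => by
      rw [map_sub, hφ, hφ, ContinuousLinearMap.star_eq_adjoint,
        ContinuousLinearMap.adjoint_inner_left, ← mul_apply_eq_comp a,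
        VonNeumannAlgebra.mem_commutant_iff.1 hy a ha, mul_apply_eq_comp, sub_self]
    rw [map_sub, map_sub, hφ, hφ] at h1
    have h2 : ⟪η, S (a ξ)⟫_ℂ - ⟪star a η, S ξ⟫_ℂ = ⟪η, T (a ξ)⟫_ℂ - ⟪star a η, T ξ⟫_ℂ := by
      rw [hS, hS]; exact h1
    rw [ContinuousLinearMap.star_eq_adjoint, ContinuousLinearMap.adjoint_inner_left,
      ContinuousLinearMap.adjoint_inner_left] at h2
    simp only [mul_apply_eq_comp, sub_apply, map_sub, inner_sub_right]
    linear_combination h2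
  · rw [sub_sub_cancel]
    refine ContinuousLinearMap.opNorm_le_bound _ hc fun ξ => ?_
    have h1 := hB (S ξ) ξ
    rw [← hS, inner_self_eq_norm_sq_to_K, norm_pow, RCLike.norm_ofReal, abs_norm, sq] at h1
    rcases (norm_nonneg (S ξ)).eq_or_lt with h0 | h0
    · rw [← h0]; positivity
    · exact le_of_mul_le_mul_left (by linarith) h0

universe u

/-- An operator that almost commutes with `M` is close to `M'`. -/
theorem ad_dist : ∃ D : ℝ, 0 ≤ D ∧ ∀ (H : Type u) [NormedAddCommGroup H] [InnerProductSpace ℂ H]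
    [CompleteSpace H] (M : VN H) (T : Op H) (g : ℝ), 0 ≤ g →
      (∀ a ∈ M, ‖T * a - a * T‖ ≤ g * ‖a‖) → ∃ y ∈ M.commutant, ‖T - y‖ ≤ D * g := by
  obtain ⟨C, hC⟩ := S0165.result.{u}
  refine ⟨|C|, abs_nonneg C, fun H _ _ _ M T g hg hT => ?_⟩
  refine ad_hb (by positivity) fun h hh ξ η h0 => ad_fin (fun X x hx hX h1 => ?_) ξ η h0
  calc _ ≤ C * g * ‖X‖ := hC H M T g hT h hh (adDg h T) X x (fun _ _ => rfl) hx hX
    _ ≤ |C| * g * ‖X‖ := by gcongr; exact le_abs_self C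
    _ ≤ |C| * g * 1 := by gcongr
    _ = |C| * g := mul_one _

/-- Near inclusions pass to the commutants. -/
theorem ad_near_commutant : ∃ D : ℝ, 0 ≤ D ∧ ∀ (H : Type u) [NormedAddCommGroup H]
    [InnerProductSpace ℂ H] [CompleteSpace H] (M N : VN H) (δ : ℝ), 0 ≤ δ → Near M N δ →
      Near N.commutant M.commutant (D * δ) := by
  obtain ⟨D, hD, h⟩ := ad_dist.{u}
  refine ⟨2 * D, by positivity, fun H _ _ _ M N δ hδ hn T hT => ?_⟩
  obtain ⟨y, hy, h1⟩ := h H M T (2 * δ * ‖T‖) (by positivity) fun a ha => by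
    obtain ⟨b, hb, h2⟩ := hn a ha
    have : T * a - a * T = T * (a - b) - (a - b) * T := by
      rw [mul_sub, sub_mul, VonNeumannAlgebra.mem_commutant_iff.1 hT b hb]
      abel
    rw [this]
    calc _ ≤ ‖T‖ * ‖a - b‖ + ‖a - b‖ * ‖T‖ :=
          (norm_sub_le _ _).trans (add_le_add (norm_mul_le _ _) (norm_mul_le _ _))
      _ ≤ ‖T‖ * (δ * ‖a‖) + δ * ‖a‖ * ‖T‖ := by gcongr
      _ = 2 * δ * ‖T‖ * ‖a‖ := by ring
  exact ⟨y, hy, h1.trans_eq (by ring)⟩

end Crest.Agent.R078
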