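import Crest.Agent.R078.ABase2
import Crest.Agent.R078.ADist

/-! Row 78, S0103: the distance formula in the form `ADist`. -/

set_option autoImplicit false

namespace Crest.Agent.R078

universe u

theorem al_dist : ∃ D : ℝ, ADist.{u} D := by
  obtain ⟨D, -, h⟩ := ad_dist.{u}
  refine ⟨D, fun H _ _ _ N T g hg hT => ?_⟩
  have := h H N.commutant T g hg hT
  rwa [VonNeumannAlgebra.commutant_commutant] at this

end Crest.Agent.R078
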