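import Crest.Agent.R078.AAlign2
import Crest.Agent.R078.ABase3

/-! Row 78, S0103: aligning the centre and the frames. -/

set_option autoImplicit false

namespace Crest.Agent.R078

universe u

theorem good_frame (tr : Prop) (h : GoodOn (Cls.sit.{u} tr)) : GoodOn (Cls.frame.{u} tr) := by
  obtain ⟨D, hD⟩ := al_dist.{u}
  exact good_frame_of_dist hD tr h

end Crest.Agent.R078
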