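import Crest.Agent.R078.ABase

/-! Row 78: a projective representation of an abelian group close to `N` is moved into `N`. -/

set_option autoImplicit false

namespace Crest.Agent.R078

open Crest.Agent.R121 (Mn Bd)

theorem align_pt {A : Type*} [CStarAlgebra A] {w₁ w₂ w₃ r₁ r₂ r₃ : A} {χ : ℂ} {d : ℝ}
    (h₁ : w₁ ∈ unitary A) (h₂ : w₂ ∈ unitary A) (h₃ : w₃ ∈ unitary A) (hχ : ‖χ‖ = 1)
    (h : w₁ * w₂ = χ • w₃) (hd : d ≤ 1) (b₁ : ‖r₁‖ ≤ d) (b₂ : ‖r₂‖ ≤ d) (b₃ : ‖r₃‖ ≤ d) :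
    ‖(χ • ((w₃ + r₃) * star (w₂ + r₂)) -
        (1 / 2 : ℂ) • (((w₂ + r₂) * star (w₂ + r₂) - 1) * (w₁ + r₁) +
          (w₁ + r₁) * ((w₂ + r₂) * star (w₂ + r₂) - 1))) -
      (w₁ + (r₃ * star w₃ - (1 / 2 : ℂ) • (r₂ * star w₂ + star (r₂ * star w₂))) * w₁ -
        w₁ * ((1 / 2 : ℂ) • (r₂ * star w₂ - star (r₂ * star w₂))))‖ ≤ 5 * d ^ 2 := by
  have u₂ : w₂ * star w₂ = 1 := h₂.2
  have u₃ : star w₃ * w₃ = 1 := h₃.1
  have e₁ : χ • star w₂ = star w₃ * w₁ := by
    rw [← mul_one w₁, ← u₂, ← mul_assoc w₁, h, smul_mul_assoc, mul_smul_comm, ← mul_assoc, u₃,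
      one_mul]
  have e₂ : χ • ((w₃ + r₃) * star (w₂ + r₂)) =
      w₁ + r₃ * star w₃ * w₁ + w₁ * (w₂ * star r₂) + χ • (r₃ * star r₂) := by
    rw [star_add, add_mul, mul_add, mul_add, smul_add, smul_add, smul_add, ← smul_mul_assoc χ w₃,
      ← smul_mul_assoc χ w₃, ← h, mul_assoc w₁, u₂, mul_one, ← mul_smul_comm χ r₃ (star w₂), e₁]
    noncomm_ring
  have e₃ : (w₂ + r₂) * star (w₂ + r₂) - 1 = r₂ * star w₂ + w₂ * star r₂ + r₂ * star r₂ := by
    rw [star_add, add_mul, mul_add, mul_add, u₂]; abel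
  rw [e₂, e₃, star_mul, star_star]
  have d0 : 0 ≤ d := (norm_nonneg _).trans b₁
  have n₁ := aiter_norm_unitary_le h₁
  have n₂ := aiter_norm_unitary_le h₂
  have c₁ : ‖r₂ * star w₂ + w₂ * star r₂‖ ≤ d * 1 + 1 * d :=
    (norm_add_le _ _).trans (add_le_add ((norm_mul_le _ _).trans (by rw [norm_star]; gcongr))
      ((norm_mul_le _ _).trans (by rw [norm_star]; gcongr)))
  have c₂ : ‖r₂ * star r₂‖ ≤ d * d := (norm_mul_le _ _).trans (by rw [norm_star]; gcongr)
  have c₃ : ‖χ • (r₃ * star r₂)‖ ≤ d * d := by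
    rw [norm_smul, hχ, one_mul]
    exact (norm_mul_le _ _).trans (by rw [norm_star]; gcongr)
  have c₄ : ‖w₁ + r₁‖ ≤ 2 := (norm_add_le _ _).trans (by linarith)
  generalize r₂ * star w₂ = ρ at *
  generalize w₂ * star r₂ = ρ' at *
  generalize r₂ * star r₂ = σ at *
  generalize χ • (r₃ * star r₂) = τ at *
  have e₄ : w₁ + r₃ * star w₃ * w₁ + w₁ * ρ' + τ -
      (1 / 2 : ℂ) • ((ρ + ρ' + σ) * (w₁ + r₁) + (w₁ + r₁) * (ρ + ρ' + σ)) -
      (w₁ + (r₃ * star w₃ - (1 / 2 : ℂ) • (ρ + ρ')) * w₁ - w₁ * ((1 / 2 : ℂ) • (ρ - ρ'))) =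
      τ - (1 / 2 : ℂ) • (((ρ + ρ') * r₁ + σ * (w₁ + r₁)) + (r₁ * (ρ + ρ') + (w₁ + r₁) * σ)) := by
    simp only [add_mul, mul_add, sub_mul, mul_sub, smul_mul_assoc, mul_smul_comm]
    module
  rw [e₄]
  have c₅ : ‖((ρ + ρ') * r₁ + σ * (w₁ + r₁)) + (r₁ * (ρ + ρ') + (w₁ + r₁) * σ)‖ ≤
      ((d * 1 + 1 * d) * d + d * d * 2) + (d * (d * 1 + 1 * d) + 2 * (d * d)) :=
    (norm_add_le _ _).trans (add_le_add
      ((norm_add_le _ _).trans (add_le_add ((norm_mul_le _ _).trans (by gcongr))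
        ((norm_mul_le _ _).trans (by gcongr))))
      ((norm_add_le _ _).trans (add_le_add ((norm_mul_le _ _).trans (by gcongr))
        ((norm_mul_le _ _).trans (by gcongr)))))
  refine (norm_sub_le _ _).trans ?_
  rw [norm_smul, show ‖(1 / 2 : ℂ)‖ = 1 / 2 by simp]
  nlinarith

variable {H : Type*} [NormedAddCommGroup H] [InnerProductSpace ℂ H] [CompleteSpace H]

theorem al_commute_star {u S : Op H} (hu : u ∈ unitary (Op H)) (h : Commute S u) :
    Commute S (star u) := by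
  change S * star u = star u * S
  calc S * star u = star u * (u * S) * star u := by rw [← mul_assoc, hu.1, one_mul]
    _ = star u * S := by rw [← h.eq, mul_assoc, mul_assoc, hu.2, mul_one]

theorem align_step {Γ : Type*} [AddCommGroup Γ] {m : Mn Γ} (hm : InvM m) (N : VN H)
    {w : Γ → Op H} {χ : Γ → Γ → ℂ} (hw : ∀ a, w a ∈ unitary (Op H)) (hχ : ∀ a b, ‖χ a b‖ = 1)
    (hmul : ∀ a b, w a * w b = χ a b • w (a + b)) {d : ℝ} (hd : d ≤ 1)
    (h : ∀ a, ∃ n ∈ N, ‖w a - n‖ ≤ d) :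
    ∃ v ∈ unitary (Op H), ‖v - 1‖ ≤ 2 * d ∧ (∀ a, ∃ n ∈ N, ‖v * w a * star v - n‖ ≤ 11 * d ^ 2) ∧
      ∀ S, S ∈ N.commutant → (∀ a, Commute S (w a)) → Commute S v := by
  choose n hn hn' using h
  obtain ⟨r, hr⟩ : ∃ r : Γ → Op H, r = fun a => n a - w a := ⟨_, rfl⟩
  have hnr : ∀ a, w a + r a ∈ N := fun a => by rw [hr]; simpa using hn a
  have br : ∀ a, ‖r a‖ ≤ d := fun a => by rw [hr, norm_sub_rev]; exact hn' a
  have d0 : 0 ≤ d := (norm_nonneg _).trans (br 0)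
  have bρ : ∀ a, ‖r a * star (w a)‖ ≤ d := fun a => by
    rw [CStarRing.norm_mul_mem_unitary _ (Unitary.star_mem (hw a))]; exact br a
  have Bρ : Bd fun a => r a * star (w a) := ⟨d, bρ⟩
  have Bn : Bd fun a => w a + r a :=
    ⟨1 + d, fun a => (norm_add_le _ _).trans (add_le_add (aiter_norm_unitary_le (hw a)) (br a))⟩
  obtain ⟨t, ht⟩ : ∃ t, t = wm m fun a => r a * star (w a) := ⟨_, rfl⟩
  have bt : ‖t‖ ≤ d := ht ▸ al_wm_norm_le m bρ
  obtain ⟨k, hk⟩ : ∃ k, k = (1 / 2 : ℂ) • (t - star t) := ⟨_, rfl⟩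
  have ks : star k = -k := by
    rw [hk, star_smul, star_sub, star_star, ← smul_neg, neg_sub]; simp
  have bk : ‖k‖ ≤ d := by
    have := norm_sub_le t (star t)
    rw [norm_star] at this
    rw [hk, norm_smul, show ‖(1 / 2 : ℂ)‖ = 1 / 2 by simp]
    linarith
  obtain ⟨v, hv, h1, h2⟩ := aiter_cayley ks (bk.trans hd)
  have bk2 : ‖k‖ ^ 2 ≤ d ^ 2 := pow_le_pow_left₀ (norm_nonneg _) bk 2
  refine ⟨v, hv, ?_, fun b => ?_, fun S hS hS' => h2 S ?_⟩
  · have := norm_add_le (v - 1 - k) k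
    rw [sub_add_cancel] at this
    nlinarith
  · let G : Γ → Op H := fun c => χ b c • ((w (c + b) + r (c + b)) * star (w c + r c)) -
      (1 / 2 : ℂ) • (((w c + r c) * star (w c + r c) - 1) * (w b + r b) +
        (w b + r b) * ((w c + r c) * star (w c + r c) - 1))
    let G' : Γ → Op H := fun c => w b + (r (c + b) * star (w (c + b)) -
      (1 / 2 : ℂ) • (r c * star (w c) + star (r c * star (w c)))) * w b -
      w b * ((1 / 2 : ℂ) • (r c * star (w c) - star (r c * star (w c))))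
    have hGG : ∀ c, ‖G c - G' c‖ ≤ 5 * d ^ 2 := fun c =>
      align_pt (hw b) (hw c) (hw (c + b)) (hχ b c) (by rw [hmul, add_comm]) hd (br b) (br c) (br _)
    have Bρ' : Bd fun c => r (c + b) * star (w (c + b)) := ⟨d, fun c => bρ _⟩
    have B1 := al_bd_sub Bρ' (al_bd_smul (1 / 2 : ℂ) (al_bd_add Bρ (al_bd_star Bρ)))
    have B2 := al_bd_smul (1 / 2 : ℂ) (al_bd_sub Bρ (al_bd_star Bρ))
    have B3 := al_bd_add (al_bd_const (w b)) (al_bd_mul B1 (al_bd_const (w b)))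
    have B4 := al_bd_mul (al_bd_const (w b)) B2
    have BG' : Bd G' := al_bd_sub B3 B4
    have BG : Bd G := by
      simpa using al_bd_add (⟨_, hGG⟩ : Bd fun c => G c - G' c) BG'
    have e : wm m G' = w b + (k * w b - w b * k) := by
      rw [al_wm_sub m B3 B4, al_wm_add m (al_bd_const _) (al_bd_mul B1 (al_bd_const _)),
        al_wm_const, al_wm_mul_right m _ B1, al_wm_mul_left m _ B2,
        al_wm_sub m Bρ' (al_bd_smul _ (al_bd_add Bρ (al_bd_star Bρ))),
        al_wm_smul m _ (al_bd_add Bρ (al_bd_star Bρ)), al_wm_smul m _ (al_bd_sub Bρ (al_bd_star Bρ)),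
        al_wm_add m Bρ (al_bd_star Bρ), al_wm_sub m Bρ (al_bd_star Bρ), al_wm_star m Bρ,
        al_wm_shift hm Bρ b, ← ht, ← hk,
        show t - (1 / 2 : ℂ) • (t + star t) = k by rw [hk]; module, add_sub_assoc]
    refine ⟨wm m G, al_wm_mem m BG fun c => ?_, ?_⟩
    · have g1 := sub_mem (mul_mem (hnr c) (star_mem (hnr c))) (one_mem N)
      exact sub_mem (al_smul_mem _ (mul_mem (hnr _) (star_mem (hnr c))))
        (al_smul_mem _ (add_mem (mul_mem g1 (hnr b)) (mul_mem (hnr b) g1)))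
    · have g1 := al_wm_norm_le m hGG
      rw [al_wm_sub m BG BG', e, norm_sub_rev] at g1
      have g2 := (aiter_conj ks (bk.trans hd) h1 (w b)).trans
        (show _ ≤ 6 * d ^ 2 * 1 by have := aiter_norm_unitary_le (hw b); gcongr)
      linarith [norm_sub_le_norm_sub_add_norm_sub (v * w b * star v) (w b + (k * w b - w b * k))
        (wm m G)]
  · have c1 : ∀ a, Commute S (r a) := fun a => by
      rw [hr]; exact (al_mem_comm.1 hS _ (hn a)).symm.sub_right (hS' a)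
    have c2 : ∀ a, Commute S (star (r a)) := fun a => by
      rw [hr, star_sub]
      exact (al_mem_comm.1 hS _ (star_mem (hn a))).symm.sub_right (al_commute_star (hw a) (hS' a))
    rw [hk, ht, ← al_wm_star m Bρ]
    refine ((al_wm_commute m Bρ fun a => (c1 a).mul_right (al_commute_star (hw a) (hS' a))).sub_right
      (al_wm_commute m (al_bd_star Bρ) fun a => ?_)).smul_right _
    rw [star_mul, star_star]
    exact (hS' a).mul_right (c2 a)

/-- The alignment lemma. -/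
theorem align {Γ : Type*} [AddCommGroup Γ] {m : Mn Γ} (hm : InvM m) (N : VN H)
    {w : Γ → Op H} {χ : Γ → Γ → ℂ} (hw : ∀ a, w a ∈ unitary (Op H)) (hχ : ∀ a b, ‖χ a b‖ = 1)
    (hmul : ∀ a b, w a * w b = χ a b • w (a + b)) {d : ℝ} (hd0 : 0 ≤ d) (hd : d ≤ 1 / 22)
    (h : ∀ a, ∃ n ∈ N, ‖w a - n‖ ≤ d) :
    ∃ u ∈ unitary (Op H), ‖u - 1‖ ≤ 4 * d ∧ (∀ a, w a ∈ conjVN u N) ∧
      ∀ S, S ∈ N.commutant → (∀ a, Commute S (w a)) → Commute S u := by
  obtain ⟨U, hU, h1, h2⟩ := aiter_newton (C := 2) (d₀ := 1 / 22)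
    (fun (u : Op H) e => (∀ a, ∃ n ∈ N, ‖u * w a * star u - n‖ ≤ e) ∧
      ∀ S, S ∈ N.commutant → (∀ a, Commute S (w a)) → Commute S u)
    (fun u hu e he0 he hP => by
      obtain ⟨v, hv, g1, g2, g3⟩ := align_step hm N (w := fun a => u * w a * star u) (χ := χ)
        (fun a => mul_mem (mul_mem hu (hw a)) (Unitary.star_mem hu)) hχ
        (fun a b => by
          rw [← smul_mul_assoc, ← mul_smul_comm, ← hmul]
          calc u * w a * star u * (u * w b * star u) = u * w a * (star u * u) * w b * star u := by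
                noncomm_ring
            _ = _ := by rw [hu.1]; noncomm_ring)
        (he.trans (by norm_num)) hP.1
      refine ⟨v, hv, g1, fun a => ?_, fun S hS hS' => ?_⟩
      · obtain ⟨n, hn, g4⟩ := g2 a
        refine ⟨n, hn, ?_⟩
        rw [star_mul, show v * u * w a * (star u * star v) = v * (u * w a * star u) * star v by
          noncomm_ring]
        nlinarith
      · have c := hP.2 S hS hS'
        exact (g3 S hS fun a => (c.mul_right (hS' a)).mul_right (al_commute_star hu c)).mul_right c)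
    hd0 hd ⟨by simpa using h, fun S _ _ => Commute.one_right S⟩
  refine ⟨star U, Unitary.star_mem hU, by rw [al_norm_star_sub_one]; linarith, fun a => ?_,
    fun S hS hS' => al_commute_star hU ?_⟩
  · rw [al_mem_conj (Unitary.star_mem hU), star_star]
    refine al_mem_of_approx fun ε hε => ?_
    obtain ⟨V, hV, e, -, he, g1, g2, -⟩ := h2 (ε / 3) (by positivity)
    obtain ⟨n, hn, g3⟩ := g2 a
    refine ⟨n, hn, ?_⟩
    have g4 := (al_conj_sub hV hU (w a)).trans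
      (show _ ≤ 2 * (ε / 3) * 1 by have := aiter_norm_unitary_le (hw a); gcongr)
    rw [norm_sub_rev] at g4
    linarith [norm_sub_le_norm_sub_add_norm_sub (U * w a * star U) (V * w a * star V) n]
  · refine (Set.isClosed_centralizer ({S} : Set (Op H))).closure_subset
      (Metric.mem_closure_iff.2 fun ε hε => ?_) S rfl
    obtain ⟨V, -, e, -, -, g1, -, g2⟩ := h2 (ε / 2) (by positivity)
    refine ⟨V, fun _ hT => ?_, by rw [dist_comm, dist_eq_norm]; linarith⟩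
    rw [Set.mem_singleton_iff.1 hT]
    exact g2 S hS hS'

end Crest.Agent.R078
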