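import Crest.Agent.R078.ABase2

/-! Row 78: the Newton iteration, given the distance formula. -/

set_option autoImplicit false

namespace Crest.Agent.R078

universe u

section

variable {H : Type*} [NormedAddCommGroup H] [InnerProductSpace ℂ H] [CompleteSpace H]

theorem al_star_cm (x y : Op H) : star (cm x y) = -cm (star x) (star y) := by
  simp only [cm, star_sub, star_mul, neg_sub]

theorem al_ns_skew {M N : VN H} {κ ε : ℝ} (h : NS M N κ ε) :
    ∃ k : Op H, star k = -k ∧ ‖k‖ ≤ κ ∧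
      ∀ x ∈ M, ∀ y ∈ N.commutant, ‖cm (x + cm k x) y‖ ≤ ε * ‖x‖ * ‖y‖ := by
  obtain ⟨k, hk, h1⟩ := h
  have hn : ‖(1 / 2 : ℂ)‖ = 1 / 2 := by simp
  refine ⟨(1 / 2 : ℂ) • (k - star k), ?_, ?_, fun x hx y hy => ?_⟩
  · rw [star_smul, star_sub, star_star, ← smul_neg, neg_sub]; simp
  · have := norm_sub_le k (star k)
    rw [norm_star] at this
    rw [norm_smul, hn]
    linarith
  · have h2 := h1 x hx y hy
    have h3 := h1 _ (star_mem hx) _ (star_mem hy)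
    rw [← norm_star, norm_star x, norm_star y, star_add, al_star_cm, al_star_cm, al_star_cm,
      star_star, star_star] at h3
    have e : cm (x + cm ((1 / 2 : ℂ) • (k - star k)) x) y =
        (1 / 2 : ℂ) • ((cm x y + cm (cm k x) y) - (-cm x y + -cm (-cm (star k) x) y)) := by
      simp only [cm, add_mul, mul_add, sub_mul, mul_sub, smul_mul_assoc, mul_smul_comm, neg_mul,
        mul_neg, mul_assoc]
      module
    rw [e, norm_smul, hn]
    linarith [norm_sub_le (cm x y + cm (cm k x) y) (-cm x y + -cm (-cm (star k) x) y)]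

theorem al_le_of_near {A B : VN H} (h : ∀ ε > (0 : ℝ), Near A B ε) {x : Op H} (hx : x ∈ A) :
    x ∈ B :=
  al_mem_of_approx fun ε hε => by
    obtain ⟨y, hy, h1⟩ := h (ε / (‖x‖ + 1)) (by positivity) x hx
    refine ⟨y, hy, h1.trans ?_⟩
    rw [div_mul_eq_mul_div, div_le_iff₀ (by positivity)]
    nlinarith

theorem al_near_of_ball {M N : VN H} {δ : ℝ}
    (h : ∀ x ∈ M, ‖x‖ ≤ 1 → ∃ y ∈ N, ‖y‖ ≤ 1 ∧ ‖x - y‖ < δ) : Near M N δ := by
  intro x hx
  rcases eq_or_ne x 0 with rfl | h0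
  · exact ⟨0, zero_mem _, by simp⟩
  have hn : (0 : ℝ) < ‖x‖ := norm_pos_iff.2 h0
  have hc : ((‖x‖ : ℝ) : ℂ) ≠ 0 := Complex.ofReal_ne_zero.2 hn.ne'
  obtain ⟨y, hy, -, h1⟩ := h (((‖x‖ : ℝ) : ℂ)⁻¹ • x) (al_smul_mem _ hx) (by
    rw [norm_smul, norm_inv, Complex.norm_real, norm_norm, inv_mul_cancel₀ hn.ne'])
  refine ⟨((‖x‖ : ℝ) : ℂ) • y, al_smul_mem _ hy, ?_⟩
  rw [show x - ((‖x‖ : ℝ) : ℂ) • y = ((‖x‖ : ℝ) : ℂ) • (((‖x‖ : ℝ) : ℂ)⁻¹ • x - y) by
    rw [smul_sub, smul_inv_smul₀ hc], norm_smul, Complex.norm_real, norm_norm, mul_comm]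
  exact mul_le_mul_of_nonneg_right h1.le hn.le

end

theorem ADist.pos {D : ℝ} (hD : ADist.{u} D) : ADist.{u} (|D| + 1) := fun H _ _ _ N T g hg h =>
  (hD H N T g hg h).imp fun _ hn => ⟨hn.1, hn.2.trans (by gcongr; linarith [le_abs_self D])⟩

theorem GoodOn.pos {P : Cls.{u}} (h : GoodOn P) :
    ∃ C δ₀ : ℝ, 1 ≤ C ∧ 0 < δ₀ ∧ ∀ (H : Type u) [NormedAddCommGroup H] [InnerProductSpace ℂ H]
      [CompleteSpace H] (M N : VN H) (δ : ℝ), P H M N → 0 ≤ δ → δ ≤ δ₀ → Cl M N δ →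
        NS M N (C * δ) (C * δ ^ 2) := by
  obtain ⟨C, δ₀, h0, h1⟩ := h
  have : C ≤ |C| + 1 := by linarith [le_abs_self C]
  exact ⟨|C| + 1, δ₀, by linarith [abs_nonneg C], h0, fun H _ _ _ M N δ hP hδ hδ' hc =>
    (h1 H M N δ hP hδ hδ' hc).al_mono (by gcongr) (by gcongr)⟩

theorem result_of_good_of_dist {D₀ : ℝ} (hD₀ : ADist.{u} D₀) (h : GoodOn Cls.all.{u}) (ε : ℝ)
    (hε : 0 < ε) :
    ∃ δ : ℝ, 0 < δ ∧
      ∀ (H : Type u) [NormedAddCommGroup H] [InnerProductSpace ℂ H] [CompleteSpace H]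
        (M N : VonNeumannAlgebra H),
        (∀ x ∈ M, ‖x‖ ≤ 1 → ∃ y ∈ N, ‖y‖ ≤ 1 ∧ ‖x - y‖ < δ) →
        (∀ y ∈ N, ‖y‖ ≤ 1 → ∃ x ∈ M, ‖x‖ ≤ 1 ∧ ‖y - x‖ < δ) →
        ∃ u : H →L[ℂ] H, u ∈ unitary (H →L[ℂ] H) ∧ ‖u - 1‖ < ε ∧
          ∀ y : H →L[ℂ] H, y ∈ N ↔ ∃ x ∈ M, y = u * x * star u := by
  obtain ⟨C, δ₀, hC, hδ₀, h⟩ := h.pos
  have hD := hD₀.pos
  have hD1 : 1 ≤ |D₀| + 1 := by linarith [abs_nonneg D₀]
  generalize |D₀| + 1 = D at hD hD1
  obtain ⟨K, hK⟩ : ∃ K, K = D * (C + 12 * C ^ 2) := ⟨_, rfl⟩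
  have hK1 : 1 + 8 * C ≤ K := by rw [hK]; nlinarith [sq_nonneg C]
  have hK0 : 0 < K := by linarith
  obtain ⟨d₀, hd₀, hd₁, hd₂⟩ : ∃ d₀ : ℝ, 0 < d₀ ∧ d₀ ≤ δ₀ ∧ K * d₀ ≤ 1 / 8 :=
    ⟨min δ₀ (1 / 8 / K), lt_min hδ₀ (by positivity), min_le_left _ _,
      (le_div_iff₀' hK0).1 (min_le_right _ _)⟩
  refine ⟨min d₀ (ε / (8 * C)), lt_min hd₀ (by positivity), fun H _ _ _ M N h1 h2 => ?_⟩
  obtain ⟨U, hU, g1, g2⟩ := aiter_newton (C := 2 * C) (d₀ := d₀) (d := min d₀ (ε / (8 * C)))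
    (fun (u : Op H) e => Cl (conjVN u M) N e)
    (fun u hu e he0 he hP => by
      have hKe : K * e ≤ 1 / 8 := le_trans (by gcongr) hd₂
      have hCe : (1 + 8 * C) * e ≤ 1 / 8 := le_trans (by gcongr) hKe
      have hCe0 : 0 ≤ C * e := by positivity
      obtain ⟨k, ks, bk, hk⟩ := al_ns_skew (h H _ N e trivial he0 (he.trans hd₁) hP)
      have bk1 : ‖k‖ ≤ 1 := by linarith
      obtain ⟨v, hv, b1, -⟩ := aiter_cayley ks bk1
      have bv : ‖v - 1‖ ≤ 2 * C * e := by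
        have := norm_add_le (v - 1 - k) k
        rw [sub_add_cancel] at this
        nlinarith [norm_nonneg k]
      refine ⟨v, hv, bv, ?_⟩
      rw [← al_conj_conj hu hv]
      generalize conjVN u M = A at hP hk
      have n1 : Near (conjVN v A) N (K * e ^ 2) := by
        intro z hz
        have hx := (al_mem_conj hv).1 hz
        have e1 := al_norm_conj (Unitary.star_mem hv) z
        rw [star_star] at e1
        obtain ⟨n, hn, b2⟩ := hD H N z ((C + 12 * C ^ 2) * e ^ 2 * ‖z‖) (by positivity)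
          fun y hy => by
            have b3 := aiter_conj ks bk1 b1 (star v * z * v)
            rw [al_cancel' hv, e1] at b3
            have b4 : 6 * ‖k‖ ^ 2 * ‖z‖ ≤ 6 * (C * e) ^ 2 * ‖z‖ := by gcongr
            have b5 := hk _ hx y hy
            rw [e1] at b5
            refine (al_cm_le y (b3.trans b4)).trans ?_
            change ‖cm (_ + cm k _) y‖ + _ ≤ _
            linarith
        exact ⟨n, hn, b2.trans_eq (by rw [hK]; ring)⟩
      have e1 : e ≤ 1 := by nlinarith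
      have n2 := (Cl.al_conj ⟨hP.2, hP.1⟩ e1 hv bv).1
      have hK2 : K * e ^ 2 ≤ e / 8 := by nlinarith
      exact ⟨n1.al_mono (by linarith), (al_near_rev (by positivity) (by linarith) (by linarith)
        n1 n2).al_mono (by linarith)⟩)
    (lt_min hd₀ (by positivity)).le (min_le_left _ _)
    (by rw [al_conj_one]; exact ⟨al_near_of_ball h1, al_near_of_ball h2⟩)
  have hcl : ∀ η > (0 : ℝ), Cl N (conjVN U M) η := fun η hη => by
    obtain ⟨V, hV, e, -, he, g3, g4⟩ := g2 (min (η / 5) 1) (lt_min (by positivity) one_pos)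
    have hW := mul_mem hU (Unitary.star_mem hV)
    have g5 : ‖U * star V - 1‖ ≤ η / 5 := by
      rw [← hV.2, ← sub_mul, CStarRing.norm_mul_mem_unitary _ (Unitary.star_mem hV), norm_sub_rev]
      exact g3.trans (min_le_left _ _)
    have g6 := Cl.al_conj ⟨g4.2, g4.1⟩ (he.trans (min_le_right _ _)) hW g5
    rw [al_conj_conj hV hW, mul_assoc, hV.1, mul_one] at g6
    exact g6.al_mono (by linarith [he.trans (min_le_left _ _)])
  refine ⟨U, hU, g1.trans_lt ?_, fun y => ⟨fun hy => ⟨star U * y * U, ?_, (al_cancel' hU y).symm⟩, ?_⟩⟩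
  · have := (le_div_iff₀ (by positivity : 0 < 8 * C)).1 (min_le_right d₀ (ε / (8 * C)))
    linarith
  · exact (al_mem_conj hU).1 (al_le_of_near (fun η hη => (hcl η hη).1) hy)
  · rintro ⟨x, hx, rfl⟩
    exact al_le_of_near (fun η hη => (hcl η hη).2) (al_conj_mem hU hx)

end Crest.Agent.R078
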