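import Crest.Agent.R078.AAlign1
import Crest.Agent.R078.ANewton1

/-! Row 78, stage 4: alignment of the centre and of the two copies of the frame. -/

set_option autoImplicit false

namespace Crest.Agent.R078

open Crest.Agent.R121 (Mn Bd)

universe u

section

variable {H : Type*} [NormedAddCommGroup H] [InnerProductSpace ℂ H] [CompleteSpace H]

theorem al_avg_near {Γ : Type*} [AddCommGroup Γ] {A : VN H} {w : Γ → Op H} {χ : Γ → Γ → ℂ}
    (hw : ∀ a, w a ∈ unitary (Op H)) (hχ : ∀ a b, ‖χ a b‖ = 1)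
    (hmul : ∀ a b, w a * w b = χ a b • w (a + b)) (hA : ∀ a, w a ∈ A) {x y : Op H}
    (hx : ∀ a, Commute x (w a)) (hy : y ∈ A) :
    ∃ z ∈ A, (∀ a, Commute z (w a)) ∧ ‖x - z‖ ≤ ‖x - y‖ := by
  obtain ⟨m, hm⟩ := al_exists_invM Γ
  have B : ∀ t : Op H, Bd fun a => w a * t * star (w a) := fun t =>
    ⟨‖t‖, fun a => (al_norm_conj (hw a) t).le⟩
  refine ⟨wm m fun a => w a * y * star (w a),
    al_wm_mem m (B y) fun a => mul_mem (mul_mem (hA a) hy) (star_mem (hA a)), fun b => ?_, ?_⟩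
  · have e : w b * (wm m fun a => w a * y * star (w a)) * star (w b) =
        wm m fun a => w a * y * star (w a) := by
      rw [← al_wm_mul_left m _ (B y), ← al_wm_mul_right m _ (al_bd_mul (al_bd_const _) (B y)),
        ← al_wm_shift hm (B y) b]
      refine congrArg _ (funext fun a => ?_)
      have h1 : χ b a * star (χ b a) = 1 := by
        rw [Complex.star_def, Complex.mul_conj, Complex.normSq_eq_norm_sq, hχ]; simp
      calc w b * (w a * y * star (w a)) * star (w b) = w b * w a * y * star (w b * w a) := by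
            rw [star_mul]; noncomm_ring
        _ = _ := by
            rw [hmul, star_smul, smul_mul_assoc, smul_mul_assoc, mul_smul_comm, smul_smul, h1,
              one_smul, add_comm]
    change _ * w b = w b * _
    rw [← e, mul_assoc _ (star (w b)), (hw b).1, mul_one, e]
  · have e : x = wm m fun a => w a * x * star (w a) := by
      rw [show (fun a => w a * x * star (w a)) = fun _ => x from funext fun a => by
        rw [← (hx a).eq, mul_assoc, (hw a).2, mul_one], al_wm_const]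
    nth_rewrite 1 [e]
    rw [← al_wm_sub m (B x) (B y)]
    refine al_wm_norm_le m fun a => ?_
    rw [← sub_mul, ← mul_sub, al_norm_conj (hw a)]

theorem al_mem_centre {M : VN H} {c : Op H} :
    c ∈ cent ((M : Set (Op H)) ∪ M.commutant) ↔ Cen M c := by
  change c ∈ StarSubalgebra.centralizer ℂ _ ↔ _
  rw [StarSubalgebra.mem_centralizer_iff]
  constructor
  · exact fun h => ⟨al_mem.2 fun y hy => (h y (Or.inr hy)).1,
      al_mem_comm.2 fun y hy => (h y (Or.inl hy)).1⟩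
  · rintro h g (hg | hg)
    · exact ⟨al_mem_comm.1 h.2 g hg, al_mem_comm.1 h.2 _ (star_mem hg)⟩
    · exact ⟨al_mem.1 h.1 g hg, al_mem.1 h.1 _ (star_mem hg)⟩

theorem al_cen_commutant {M : VN H} {c : Op H} : Cen M.commutant c ↔ Cen M c := by
  simp only [Cen, VonNeumannAlgebra.commutant_commutant, and_comm]

/-- The unitary group of the centre. -/
def alCenU (M : VN H) : Subgroup (unitary (Op H)) where
  carrier := {u | Cen M u}
  mul_mem' := fun ha hb => ⟨mul_mem ha.1 hb.1, mul_mem ha.2 hb.2⟩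
  one_mem' := ⟨one_mem _, one_mem _⟩
  inv_mem' := fun ha => ⟨star_mem ha.1, star_mem ha.2⟩

noncomputable instance (M : VN H) : CommGroup (alCenU M) :=
  { (inferInstance : Group (alCenU M)) with
    mul_comm := fun a b => Subtype.ext (Subtype.ext (al_mem_comm.1 b.2.2 _ a.2.1).eq) }

theorem al_fix_mem {u c : Op H} (hu : u ∈ unitary (Op H)) (h : Commute c u) {N : VN H}
    (hc : c ∈ N) : c ∈ conjVN u N := by
  rwa [al_mem_conj hu, mul_assoc, h.eq, ← mul_assoc, hu.1, one_mul]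

theorem al_fix_cen {u c : Op H} (hu : u ∈ unitary (Op H)) (h : Commute c u) {N : VN H}
    (hc : Cen N c) : Cen (conjVN u N) c :=
  ⟨al_fix_mem hu h hc.1, by rw [al_conj_commutant hu]; exact al_fix_mem hu h hc.2⟩

theorem al_near_unitary {M N : VN H} {d : ℝ} (hd : 0 ≤ d) (h : Near M N d) {w : Op H}
    (hw : w ∈ unitary (Op H)) (hM : w ∈ M) : ∃ n ∈ N, ‖w - n‖ ≤ d :=
  (h w hM).imp fun _ hn => ⟨hn.1, hn.2.trans (mul_le_of_le_one_right hd (aiter_norm_unitary_le hw))⟩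

/-- Alignment of the centre. -/
theorem align_cen {M N : VN H} {d : ℝ} (hd0 : 0 ≤ d) (hd : d ≤ 1 / 100) (h : Cl M N d) :
    ∃ u ∈ unitary (Op H), ‖u - 1‖ ≤ 4 * d ∧ ∀ c, Cen M c → Cen (conjVN u N) c := by
  obtain ⟨m, hm⟩ := al_exists_invM (Additive (alCenU M))
  let w : Additive (alCenU M) → Op H := fun a => (a.toMul.1 : Op H)
  have hw : ∀ a, w a ∈ unitary (Op H) := fun a => a.toMul.1.2
  have hc : ∀ a, Cen M (w a) := fun a => a.toMul.2
  have hmul : ∀ a b, w a * w b = (fun _ _ => (1 : ℂ)) a b • w (a + b) := fun a b =>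
    (one_smul ℂ _).symm
  obtain ⟨u, hu, h1, h2, -⟩ := align hm N hw (fun _ _ => norm_one) hmul hd0 (by linarith)
    fun a => al_near_unitary hd0 h.1 (hw a) (hc a).1
  have h3 := (h.al_conj (by linarith) hu h1).2
  refine ⟨u, hu, h1, fun c hc' => ?_⟩
  generalize conjVN u N = N₁ at h2 h3
  have h4 : (N₁ : Set (Op H)) ⊆ (N₁ : Set (Op H)) ∩ Set.centralizer (Set.range w) := by
    refine al_sub_of_near ((al_isClosed N₁).inter (Set.isClosed_centralizer _))
      ⟨zero_mem N₁, Set.zero_mem_centralizer⟩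
      (fun a ha a' ha' => ⟨add_mem ha.1 ha'.1, Set.add_mem_centralizer ha.2 ha'.2⟩)
      (fun x hx a ha => sub_mem hx ha.1) fun x hx => ?_
    obtain ⟨y, hy, g1⟩ := h3 x hx
    obtain ⟨z, hz, g2, g3⟩ := al_avg_near hw (fun _ _ => norm_one) hmul h2
      (fun a => al_mem_comm.1 (hc a).2 y hy) hx
    refine ⟨z, ⟨hz, ?_⟩, ?_⟩
    · rintro _ ⟨a, rfl⟩
      exact (g2 a).symm
    · rw [norm_sub_rev y x] at g3
      have := norm_sub_le_norm_sub_add_norm_sub x y z
      nlinarith [norm_nonneg x]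
  refine al_unitary_span (cent ((M : Set (Op H)) ∪ M.commutant)) (p := Cen N₁)
    ⟨zero_mem _, zero_mem _⟩ (fun a b ha hb => ⟨add_mem ha.1 hb.1, add_mem ha.2 hb.2⟩)
    (fun t a ha => ⟨al_smul_mem t ha.1, al_smul_mem t ha.2⟩) (fun v hv hv' => ?_)
    (al_mem_centre.2 hc')
  let a : Additive (alCenU M) := Additive.ofMul ⟨⟨v, hv'⟩, al_mem_centre.1 hv⟩
  exact ⟨h2 a, al_mem_comm.2 fun x hx => ((h4 hx).2 _ ⟨a, rfl⟩).symm⟩

theorem al_irr {Γ : Type*} [AddCommGroup Γ] {A B : VN H} {w : Γ → Op H} {χ : Γ → Γ → ℂ}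
    (hw : ∀ a, w a ∈ unitary (Op H)) (hχ : ∀ a b, ‖χ a b‖ = 1)
    (hmul : ∀ a b, w a * w b = χ a b • w (a + b)) (hA : ∀ a, w a ∈ A)
    (irr : ∀ x ∈ A, (∀ a, Commute x (w a)) → x ∈ A.commutant) (hc : ∀ c, Cen A c → c ∈ B)
    (h : Near B A (1 / 2)) {x : Op H} (hx : x ∈ B) (hx' : ∀ a, Commute x (w a)) : Cen A x := by
  refine al_sub_of_near (A := (A : Set (Op H)) ∩ A.commutant)
    (B := {x | x ∈ B ∧ ∀ a, Commute x (w a)}) ((al_isClosed _).inter (al_isClosed _))
    ⟨zero_mem A, zero_mem A.commutant⟩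
    (fun a ha a' ha' => ⟨add_mem ha.1 ha'.1, add_mem ha.2 ha'.2⟩)
    (fun x hx c hc' => ⟨sub_mem hx.1 (hc c hc'), fun a =>
      (hx.2 a).sub_left (al_mem_comm.1 hc'.2 _ (hA a)).symm⟩) (fun x hx => ?_) ⟨hx, hx'⟩
  obtain ⟨y, hy, g1⟩ := h x hx.1
  obtain ⟨z, hz, g2, g3⟩ := al_avg_near hw hχ hmul hA hx.2 hy
  exact ⟨z, ⟨hz, irr z hz g2⟩, g3.trans g1⟩

theorem al_cyc {Γ : Type*} {A B : VN H} {ξ : H} {w w' : Γ → Op H}
    (hw : ∀ a, w a ∈ unitary (Op H)) (hw' : ∀ a, w' a ∈ unitary (Op H)) (hB : ∀ a, w a ∈ B)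
    (hB' : ∀ a, w' a ∈ B.commutant) (vac : ∀ a, w a ξ = w' a ξ)
    (irr : ∀ p ∈ B.commutant, (∀ a, Commute p (w' a)) → p ∈ A.commutant) (hA : Cyc A ξ) :
    Cyc B ξ := by
  let K₀ : Submodule ℂ H :=
    { carrier := Set.range fun b : B => (b : Op H) ξ
      add_mem' := by
        rintro _ _ ⟨a, rfl⟩ ⟨b, rfl⟩
        exact ⟨⟨a.1 + b.1, add_mem a.2 b.2⟩, rfl⟩
      zero_mem' := ⟨⟨0, zero_mem _⟩, rfl⟩
      smul_mem' := by
        rintro c _ ⟨a, rfl⟩
        exact ⟨⟨c • a.1, al_smul_mem c a.2⟩, rfl⟩ }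
  let K := K₀.topologicalClosure
  have inv : ∀ T : Op H, (∀ b ∈ B, ∃ b' ∈ B, T (b ξ) = b' ξ) →
      K.starProjection * T * K.starProjection = T * K.starProjection := by
    intro T hT
    ext η
    refine Submodule.starProjection_eq_self_iff.2 ?_
    refine map_mem_closure (s := (K₀ : Set H)) (t := (K₀ : Set H)) T.continuous
      (K.starProjection_apply_mem η) ?_
    rintro _ ⟨b, rfl⟩
    obtain ⟨b', hb', e⟩ := hT b.1 b.2
    exact ⟨⟨b', hb'⟩, e.symm⟩
  have hp : star K.starProjection = K.starProjection :=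
    (isSelfAdjoint_starProjection K).star_eq
  have com : ∀ T : Op H, (∀ b ∈ B, ∃ b' ∈ B, T (b ξ) = b' ξ) →
      (∀ b ∈ B, ∃ b' ∈ B, star T (b ξ) = b' ξ) → Commute T K.starProjection := by
    intro T h1 h2
    have e := congrArg star (inv _ h2)
    rw [star_mul, star_mul, star_mul, star_star, hp, ← mul_assoc, inv T h1] at e
    exact e
  have app : ∀ {S T : Op H}, Commute S T → ∀ η, S (T η) = T (S η) := fun h η =>
    congrArg (fun R : Op H => R η) h.eq
  have hmem : K.starProjection ∈ A.commutant := by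
    refine irr _ (al_mem_comm.2 fun T hT => com T (fun b hb => ⟨T * b, mul_mem hT hb, rfl⟩)
      fun b hb => ⟨star T * b, mul_mem (star_mem hT) hb, rfl⟩) fun a => (com _ ?_ ?_).symm
    · intro b hb
      exact ⟨b * w a, mul_mem hb (hB a), by
        rw [← app (al_mem_comm.1 (hB' a) b hb), ← vac]; rfl⟩
    · intro b hb
      refine ⟨b * star (w a), mul_mem hb (star_mem (hB a)), ?_⟩
      rw [← app (al_mem_comm.1 (star_mem (hB' a)) b hb)]
      refine congrArg b ?_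
      have e1 : star (w' a) (w' a ξ) = ξ := congrArg (fun R : Op H => R ξ) (hw' a).1
      have e2 : ∀ η, star (w a) (w a η) = η := fun η => congrArg (fun R : Op H => R η) (hw a).1
      rw [← vac, ← app (al_mem_comm.1 (star_mem (hB' a)) _ (hB a))] at e1
      rw [← e2 (star (w' a) ξ), e1]
      rfl
  have hξ : K.starProjection ξ = ξ :=
    Submodule.starProjection_eq_self_iff.2 (K₀.le_topologicalClosure ⟨⟨1, one_mem _⟩, rfl⟩)
  have hid : (fun η => K.starProjection η) = id := by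
    refine Continuous.ext_on hA K.starProjection.continuous continuous_id ?_
    rintro _ ⟨a, rfl⟩
    change K.starProjection ((a : Op H) ξ) = (a : Op H) ξ
    rw [← app (al_mem_comm.1 hmem _ a.2), hξ]
  intro η
  exact Submodule.starProjection_eq_self_iff.1 (congrFun hid η)

theorem al_norm_sg (a b : Gam) : ‖sg a b‖ = 1 := by
  unfold sg; split_ifs <;> simp

theorem al_w'_mul (F : Frame H) (a b : Gam) :
    F.w' a * F.w' b = (fun a b => sg b a) a b • F.w' (a + b) := by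
  rw [F.w'_mul, add_comm]

theorem al_sit {M N : VN H} {ξ : H} {F : Frame H} (hM : Framed M ξ F) (h : Near N M (1 / 2))
    (h' : Near N.commutant M.commutant (1 / 2)) (hw : ∀ a, F.w a ∈ N)
    (hw' : ∀ a, F.w' a ∈ N.commutant) (hc : ∀ c, Cen M c → Cen N c) : Sit M N ξ F := by
  have i1 : ∀ x ∈ N, (∀ a, Commute x (F.w a)) → Cen M x := fun x hx hx' =>
    al_irr F.w_mem al_norm_sg F.w_mul hM.w_mem hM.irr (fun c hc' => (hc c hc').1) h hx hx'
  have i2 : ∀ x ∈ N.commutant, (∀ a, Commute x (F.w' a)) → Cen M x := fun x hx hx' =>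
    al_cen_commutant.1 (al_irr F.w'_mem (fun a b => al_norm_sg b a) (al_w'_mul F) hM.w'_mem
      (fun y hy hy' => by rw [VonNeumannAlgebra.commutant_commutant]; exact hM.irr' y hy hy')
      (fun c hc' => (hc c (al_cen_commutant.1 hc')).2) h' hx hx')
  refine ⟨hM, ⟨⟨hM.cs.1, ?_, ?_⟩, hw, hw', hM.vac, fun x hx hx' => (hc x (i1 x hx hx')).2,
    fun x hx hx' => (hc x (i2 x hx hx')).1⟩, fun c => ⟨hc c, fun hc' => ?_⟩⟩
  · exact al_cyc F.w_mem F.w'_mem hw hw' hM.vac (fun p hp hp' => (i2 p hp hp').2) hM.cs.2.1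
  · refine al_cyc F.w'_mem F.w_mem hw' (by rwa [VonNeumannAlgebra.commutant_commutant])
      (fun a => (hM.vac a).symm) (fun p hp hp' => ?_) hM.cs.2.2
    rw [VonNeumannAlgebra.commutant_commutant] at hp ⊢
    exact (i1 p hp hp').1
  · exact i1 c hc'.1 fun a => (al_mem_comm.1 hc'.2 _ (hw a)).symm

end

/-- After a small conjugation the two algebras have a common frame and centre. -/
theorem align_sit {D : ℝ} (hD : ADist.{u} D) (hD1 : 1 ≤ D) {H : Type u} [NormedAddCommGroup H]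
    [InnerProductSpace ℂ H] [CompleteSpace H] {M N : VN H} {ξ : H} {F : Frame H}
    (hM : Framed M ξ F) {d : ℝ} (hd0 : 0 ≤ d) (hd : 100000 * D ^ 2 * d ≤ 1) (h : Cl M N d) :
    ∃ u ∈ unitary (Op H), ‖u - 1‖ ≤ 3000 * D * d ∧ Cl M (conjVN u N) (10000 * D * d) ∧
      Sit M (conjVN u N) ξ F := by
  obtain ⟨m, hm⟩ := al_exists_invM Gam
  have b1 : d ≤ D * d := le_mul_of_one_le_left hd0 hD1
  have b2 : D * d ≤ D * (D * d) := le_mul_of_one_le_left (hd0.trans b1) hD1
  have b3 : 100000 * (D * (D * d)) ≤ 1 := by linarith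
  obtain ⟨u₁, hu₁, n₁, c₁⟩ := align_cen hd0 (by linarith) h
  have h₁ := h.al_conj (by linarith) hu₁ n₁
  obtain ⟨u₂, hu₂, n₂, w₂, k₂⟩ := align hm (conjVN u₁ N) F.w_mem al_norm_sg F.w_mul
    (d := d + 4 * (4 * d)) (by linarith) (by linarith)
    fun a => al_near_unitary (by linarith) h₁.1 (F.w_mem a) (hM.w_mem a)
  have h₂ := h₁.al_conj (by linarith) hu₂ n₂
  have c₂ : ∀ c, Cen M c → Cen (conjVN u₂ (conjVN u₁ N)) c := fun c hc =>
    al_fix_cen hu₂ (k₂ c (c₁ c hc).2 fun a => (al_mem_comm.1 hc.2 _ (hM.w_mem a)).symm) (c₁ c hc)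
  have h₂' := hD.near_commutant (by linarith) h₂.2
  obtain ⟨u₃, hu₃, n₃, w₃, k₃⟩ := align hm (conjVN u₂ (conjVN u₁ N)).commutant F.w'_mem
    (fun a b => al_norm_sg b a) (al_w'_mul F) (d := 578 * (D * d)) (by linarith) (by linarith)
    fun a => al_near_unitary (by linarith) (h₂'.al_mono (by linarith)) (F.w'_mem a) (hM.w'_mem a)
  rw [VonNeumannAlgebra.commutant_commutant] at k₃
  rw [← al_conj_commutant hu₃] at w₃
  have h₃ := h₂.al_conj (by linarith) hu₃ n₃
  have hs : Sit M (conjVN u₃ (conjVN u₂ (conjVN u₁ N))) ξ F :=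
    al_sit hM (h₃.2.al_mono (by linarith))
      ((hD.near_commutant (by linarith) h₃.1).al_mono (by nlinarith))
      (fun a => al_fix_mem hu₃ (k₃ _ (w₂ a) (F.comm a)) (w₂ a)) w₃
      fun c hc => al_fix_cen hu₃ (k₃ c (c₂ c hc).1 fun a => al_mem_comm.1 (hM.w'_mem a) _ hc.1)
        (c₂ c hc)
  rw [al_conj_conj hu₁ hu₂, al_conj_conj (mul_mem hu₂ hu₁) hu₃] at hs h₃
  refine ⟨_, mul_mem hu₃ (mul_mem hu₂ hu₁), ?_, h₃.al_mono (by linarith), hs⟩
  linarith [al_norm_mul_sub_one (v := u₂ * u₁) hu₃, al_norm_mul_sub_one (v := u₁) hu₂]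

theorem good_frame_of_dist {D₀ : ℝ} (hD₀ : ADist.{u} D₀) (tr : Prop) (h : GoodOn (Cls.sit.{u} tr)) :
    GoodOn (Cls.frame.{u} tr) := by
  obtain ⟨C, δ₀, hC, hδ₀, h⟩ := h.pos
  have hD := hD₀.pos
  have hD1 : 1 ≤ |D₀| + 1 := by linarith [abs_nonneg D₀]
  generalize |D₀| + 1 = D at hD hD1
  obtain ⟨L, hL⟩ : ∃ L, L = 10000 * D := ⟨_, rfl⟩
  have hL1 : 1 ≤ L := by linarith
  refine ⟨21 * C * L ^ 2, min (δ₀ / L) (1 / (100000 * D ^ 2)),
    lt_min (by positivity) (by positivity), fun H _ _ _ M N δ hP hδ hδ' hcl => ?_⟩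
  obtain ⟨hsep, ξ, F, hM, htr⟩ := hP
  obtain ⟨u, hu, h1, h2, h3⟩ := align_sit hD hD1 hM hδ
    ((le_div_iff₀' (by positivity)).1 (hδ'.trans (min_le_right _ _))) hcl
  rw [← hL] at h2
  have h4 := h H M _ (L * δ) ⟨hsep, ξ, F, h3, htr⟩ (by positivity)
    ((le_div_iff₀' (by positivity)).1 (hδ'.trans (min_le_left _ _))) h2
  have h5 : ‖u - 1‖ ≤ L * δ := h1.trans (by gcongr; linarith)
  have g0 : 0 ≤ L * δ := by positivity
  have g1 : L * δ ≤ C * (L * δ) := le_mul_of_one_le_left g0 hC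
  have g2 : C * (L * δ) ≤ L * (C * (L * δ)) := le_mul_of_one_le_left (g0.trans g1) hL1
  have g3 : (L * δ) ^ 2 ≤ C * (L * δ) ^ 2 := le_mul_of_one_le_left (sq_nonneg _) hC
  refine (al_ns_conj hu h5 h4).al_mono (by nlinarith) (by nlinarith [sq_nonneg (L * δ)])

end Crest.Agent.R078
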