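import Crest.Agent.R078.Defs

/-! Row 78, S0103: the amplification `K = ℓ²(Γ, H)`. -/

set_option autoImplicit false

open scoped InnerProductSpace

namespace Crest.Agent.R078

open Crest.Agent.R078X (Leg Res)
open ContinuousLinearMap (adjoint)
open Filter Topology

/-- `K = ℓ²(Γ) ⊗ H`: the leg `B(ℓ²Γ) ⊗ 1`, the embedding `ι x = 1 ⊗ x` and `V η = δ₁ ⊗ η`. -/
structure Amp (Γ : Type*) [Group Γ] (H : Type*) [NormedAddCommGroup H] [InnerProductSpace ℂ H]
    [CompleteSpace H] (K : Type*) [NormedAddCommGroup K] [InnerProductSpace ℂ K]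
    [CompleteSpace K] where
  L : Leg Γ K
  ι : Op H →⋆ₐ[ℂ] Op K
  V : H →L[ℂ] K
  adj_V : ∀ η, adjoint V (V η) = η
  V_adj : ∀ ξ, V (adjoint V ξ) = L.f 1 ξ
  ι_V : ∀ x η, ι x (V η) = V (x η)
  com : ∀ x, L.Com (ι x)

/-- `ℓ²(Γ, H)`. -/
abbrev LL (Γ : Type*) (H : Type*) [NormedAddCommGroup H] := lp (fun _ : Γ => H) 2

variable {H : Type*} [NormedAddCommGroup H] [InnerProductSpace ℂ H] [CompleteSpace H]
variable {K : Type*} [NormedAddCommGroup K] [InnerProductSpace ℂ K] [CompleteSpace K]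

section concrete

variable {Γ : Type*}

/-- Reindexing of `ℓ²(Γ, H)`. -/
noncomputable def amp_reI (e : Equiv.Perm Γ) : LL Γ H ≃ₗᵢ[ℂ] LL Γ H where
  toFun ξ := ⟨fun h => ξ (e h),
    memℓp_gen <| (Equiv.summable_iff e).2 ((lp.memℓp ξ).summable (by norm_num))⟩
  invFun ξ := ⟨fun h => ξ (e.symm h),
    memℓp_gen <| (Equiv.summable_iff e.symm).2 ((lp.memℓp ξ).summable (by norm_num))⟩
  left_inv ξ := by ext h; simp
  right_inv ξ := by ext h; simp
  map_add' ξ η := by ext h; rfl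
  map_smul' c ξ := by ext h; rfl
  norm_map' ξ := by
    rw [lp.norm_eq_tsum_rpow (by norm_num), lp.norm_eq_tsum_rpow (by norm_num)]
    congr 1
    exact Equiv.tsum_eq e (fun h => ‖ξ h‖ ^ (2 : ENNReal).toReal)

/-- Reindexing as a bounded operator. -/
noncomputable def amp_re (e : Equiv.Perm Γ) : Op (LL Γ H) :=
  ((amp_reI e : LL Γ H ≃ₗᵢ[ℂ] LL Γ H) : LL Γ H →L[ℂ] LL Γ H)

omit [CompleteSpace H] in
theorem amp_re_apply (e : Equiv.Perm Γ) (ξ : LL Γ H) (h : Γ) : amp_re e ξ h = ξ (e h) := rfl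

theorem amp_star_re (e : Equiv.Perm Γ) : star (amp_re (H := H) e) = amp_re e.symm := by
  rw [amp_re, LinearIsometryEquiv.star_eq_symm]
  ext ξ h; rfl

/-- The diagonal operator `1 ⊗ x`. -/
noncomputable def amp_dg (Γ : Type*) (x : Op H) : Op (LL Γ H) :=
  lp.mapCLM 2 (fun _ : Γ => x) (norm_nonneg x) fun _ => le_rfl

omit [CompleteSpace H] in
theorem amp_dg_apply (x : Op H) (ξ : LL Γ H) (h : Γ) : amp_dg Γ x ξ h = x (ξ h) := rfl

/-- `x ↦ 1 ⊗ x`. -/
noncomputable def amp_iota (Γ : Type*) : Op H →⋆ₐ[ℂ] Op (LL Γ H) where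
  toFun := amp_dg Γ
  map_one' := by ext ξ h; rfl
  map_mul' x y := by ext ξ h; rfl
  map_zero' := by ext ξ h; rfl
  map_add' x y := by ext ξ h; rfl
  commutes' c := by ext ξ h; rfl
  map_star' x := by
    rw [ContinuousLinearMap.star_eq_adjoint (amp_dg Γ x), ContinuousLinearMap.eq_adjoint_iff]
    intro ξ η
    simp only [lp.inner_eq_tsum, amp_dg_apply, ContinuousLinearMap.star_eq_adjoint,
      ContinuousLinearMap.adjoint_inner_left]

open Classical in
/-- `η ↦ δ_g ⊗ η`. -/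
noncomputable def amp_sg (g : Γ) : H →L[ℂ] LL Γ H :=
  lp.singleContinuousLinearMap ℂ (fun _ : Γ => H) 2 g

open Classical in
omit [CompleteSpace H] in
theorem amp_sg_apply (g : Γ) (η : H) (h : Γ) : amp_sg g η h = if h = g then η else 0 := by
  rw [amp_sg, lp.singleContinuousLinearMap_apply, lp.single_apply, Pi.single_apply]

theorem amp_adj_sg (g : Γ) (ξ : LL Γ H) : adjoint (amp_sg g : H →L[ℂ] LL Γ H) ξ = ξ g := by
  classical
  refine ext_inner_left ℂ fun η => ?_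
  rw [ContinuousLinearMap.adjoint_inner_right, amp_sg, lp.singleContinuousLinearMap_apply,
    lp.inner_single_left]

/-- The position projections. -/
noncomputable def amp_f (g : Γ) : Op (LL Γ H) :=
  (amp_sg g : H →L[ℂ] LL Γ H).comp (adjoint (amp_sg g : H →L[ℂ] LL Γ H))

open Classical in
theorem amp_f_apply (g : Γ) (ξ : LL Γ H) (h : Γ) : amp_f g ξ h = if h = g then ξ h else 0 := by
  rw [amp_f, ContinuousLinearMap.comp_apply, amp_adj_sg, amp_sg_apply]
  split_ifs with e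
  · rw [e]
  · rfl

theorem amp_res : Res (amp_f : Γ → Op (LL Γ H)) := by
  classical
  refine ⟨fun g => ⟨?_, ?_⟩, fun g h hgh => ?_, fun ξ => ?_⟩
  · ext ξ x
    simp only [ContinuousLinearMap.mul_apply, amp_f_apply]
    split_ifs <;> rfl
  · rw [IsSelfAdjoint, ContinuousLinearMap.star_eq_adjoint, amp_f,
      ContinuousLinearMap.adjoint_comp, ContinuousLinearMap.adjoint_adjoint]
  · ext ξ x
    simp only [ContinuousLinearMap.mul_apply, amp_f_apply]
    split_ifs with h1 h2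
    · exact absurd (h1.symm.trans h2) hgh
    · rfl
    · rfl
  · have h1 := lp.hasSum_single (p := 2) (by norm_num) ξ
    convert h1 using 2 with g
    rw [amp_f, ContinuousLinearMap.comp_apply, amp_adj_sg, amp_sg,
      lp.singleContinuousLinearMap_apply]

/-- The leg of `ℓ²(Γ, H)`. -/
noncomputable def amp_leg (Γ : Type*) [Group Γ] (H : Type*) [NormedAddCommGroup H]
    [InnerProductSpace ℂ H] [CompleteSpace H] : Leg Γ (LL Γ H) where
  f := amp_f
  lam :=
    { toFun := fun g => amp_re (Equiv.mulLeft g⁻¹)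
      map_one' := by ext ξ x; simp [amp_re_apply]
      map_mul' := fun g h => by ext ξ x; simp [amp_re_apply] }
  rho :=
    { toFun := fun g => amp_re (Equiv.mulRight g)
      map_one' := by ext ξ x; simp [amp_re_apply]
      map_mul' := fun g h => by ext ξ x; simp [amp_re_apply, mul_assoc] }
  res := amp_res
  star_lam g := by
    simp only [MonoidHom.coe_mk, OneHom.coe_mk, amp_star_re, Equiv.mulLeft_symm]
  star_rho g := by
    simp only [MonoidHom.coe_mk, OneHom.coe_mk, amp_star_re, Equiv.mulRight_symm]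
  lam_f g y := by
    ext ξ x
    simp only [MonoidHom.coe_mk, OneHom.coe_mk, ContinuousLinearMap.mul_apply, amp_re_apply,
      amp_f_apply, Equiv.coe_mulLeft]
    open Classical in exact if_congr inv_mul_eq_iff_eq_mul rfl rfl
  rho_f g y := by
    ext ξ x
    simp only [MonoidHom.coe_mk, OneHom.coe_mk, ContinuousLinearMap.mul_apply, amp_re_apply,
      amp_f_apply, Equiv.coe_mulRight]
    open Classical in exact if_congr eq_mul_inv_iff_mul_eq.symm rfl rfl
  lam_rho g h := by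
    ext ξ x
    simp [amp_re_apply, mul_assoc]
  fix g := by
    ext ξ x
    simp only [MonoidHom.coe_mk, OneHom.coe_mk, ContinuousLinearMap.mul_apply, amp_re_apply,
      amp_f_apply, Equiv.coe_mulLeft, Equiv.coe_mulRight]
    by_cases h : x = 1
    · simp [h]
    · rw [if_neg h, if_neg]
      intro e
      apply h
      rw [mul_assoc, inv_mul_eq_one] at e
      exact (right_eq_mul.1 e)

end concrete

theorem exists_amp (Γ : Type*) [Group Γ] (H : Type*) [NormedAddCommGroup H]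
    [InnerProductSpace ℂ H] [CompleteSpace H] : Nonempty (Amp Γ H (LL Γ H)) := by
  classical
  have hd : ∀ (x : Op H) (ξ : LL Γ H) (h : Γ), amp_iota Γ x ξ h = x (ξ h) := fun _ _ _ => rfl
  refine ⟨⟨amp_leg Γ H, amp_iota Γ, amp_sg 1, fun η => ?_, fun ξ => rfl, fun x η => ?_,
    fun x => ⟨fun g => ?_, fun g => ?_, fun g => ?_⟩⟩⟩
  · rw [amp_adj_sg, amp_sg_apply, if_pos rfl]
  · ext h
    rw [hd, amp_sg_apply, amp_sg_apply]
    split_ifs <;> simp
  · ext ξ h
    change x (amp_f g ξ h) = amp_f g (amp_iota Γ x ξ) h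
    rw [amp_f_apply, amp_f_apply, hd]
    split_ifs <;> simp
  · ext ξ h; rfl
  · ext ξ h; rfl

theorem amp_mem_cent {S : Set (Op H)} (hS : ∀ s ∈ S, star s ∈ S) {T : Op H} :
    T ∈ cent S ↔ ∀ s ∈ S, Commute T s := by
  change T ∈ StarSubalgebra.centralizer ℂ S ↔ _
  rw [StarSubalgebra.mem_centralizer_iff]
  exact ⟨fun h s hs => (h s hs).1.symm, fun h s hs => ⟨(h s hs).symm.eq, (h _ (hS s hs)).symm.eq⟩⟩

theorem amp_norm_sum_le {I : Type*} {f : I → Op H} (hf : Res f) (s : Finset I) :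
    ‖∑ i ∈ s, f i‖ ≤ 1 := by
  refine ContinuousLinearMap.opNorm_le_bound _ zero_le_one fun ξ => ?_
  have h1 := hf.res_pyth (v := fun i => f i ξ)
    (fun i => by rw [← ContinuousLinearMap.mul_apply, hf.mul_self]) s
  rw [one_mul, ContinuousLinearMap.sum_apply]
  exact (pow_le_pow_iff_left₀ (norm_nonneg _) (norm_nonneg _) two_ne_zero).1
    (h1.trans_le (hf.sum_sq_le s ξ))

theorem amp_tendsto_of_dense {α X Y : Type*} [PseudoMetricSpace X] [PseudoMetricSpace Y]
    {l : Filter α} {F : α → X → Y} {G : X → Y} {C : ℝ} (hG : Continuous G)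
    (hF : ∀ᶠ a in l, ∀ ξ ζ, dist (F a ξ) (F a ζ) ≤ C * dist ξ ζ) {P Q R : Prop}
    (ind : IsClosed {ξ | Tendsto (fun a => F a ξ) l (𝓝 (G ξ))} → P → Q → R →
      ∀ ξ, Tendsto (fun a => F a ξ) l (𝓝 (G ξ))) (hP : P) (hQ : Q) (hR : R) (ξ : X) :
    Tendsto (fun a => F a ξ) l (𝓝 (G ξ)) := by
  refine ind ?_ hP hQ hR ξ
  refine isClosed_of_closure_subset fun ξ hξ => ?_
  rw [Set.mem_setOf_eq, Metric.tendsto_nhds]
  intro ε hε
  obtain ⟨δ, hδ, h1⟩ := Metric.continuous_iff.1 hG ξ (ε / 3) (by positivity)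
  obtain ⟨ζ, hζ, h2⟩ := Metric.mem_closure_iff.1 hξ (min δ (ε / (3 * (|C| + 1))))
    (lt_min hδ (by positivity))
  have h3 := h1 ζ (by rw [dist_comm]; exact h2.trans_le (min_le_left _ _))
  have h4 : C * dist ξ ζ < ε / 3 := by
    have h5 : dist ξ ζ < ε / (3 * (|C| + 1)) := h2.trans_le (min_le_right _ _)
    rw [lt_div_iff₀ (by positivity)] at h5
    nlinarith [le_abs_self C, dist_nonneg (x := ξ) (y := ζ)]
  filter_upwards [hF, Metric.tendsto_nhds.1 hζ (ε / 3) (by positivity)] with a ha hb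
  linarith [dist_triangle4 (F a ξ) (F a ζ) (G ζ) (G ξ), ha ξ ζ]

namespace Amp

variable {Γ : Type*} [Group Γ] (A : Amp Γ H K)

/-- `e g η = δ_g ⊗ η`. -/
noncomputable def e (g : Γ) : H →L[ℂ] K := (A.L.lam g).comp A.V

/-- The coordinate `ξ ↦ ξ(g)`. -/
noncomputable def co (g : Γ) : K →L[ℂ] H := adjoint (A.e g)

theorem e_apply (g : Γ) (η : H) : A.e g η = A.L.lam g (A.V η) := rfl
theorem co_apply (g : Γ) (ξ : K) : A.co g ξ = adjoint A.V (A.L.lam g⁻¹ ξ) := by
  rw [co, e, ContinuousLinearMap.adjoint_comp, ← ContinuousLinearMap.star_eq_adjoint (A.L.lam g),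
    A.L.star_lam]
  rfl
theorem e_one : A.e 1 = A.V := by
  ext η
  rw [e_apply, map_one, ContinuousLinearMap.one_apply]
theorem co_one : A.co 1 = adjoint A.V := by rw [co, e_one]
theorem adjoint_co (g : Γ) : adjoint (A.co g) = A.e g :=
  ContinuousLinearMap.adjoint_adjoint _
theorem inner_e (g : Γ) (η : H) (ξ : K) : ⟪A.e g η, ξ⟫_ℂ = ⟪η, A.co g ξ⟫_ℂ :=
  (ContinuousLinearMap.adjoint_inner_right _ _ _).symm
theorem inner_e' (g : Γ) (η : H) (ξ : K) : ⟪ξ, A.e g η⟫_ℂ = ⟪A.co g ξ, η⟫_ℂ :=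
  (ContinuousLinearMap.adjoint_inner_left _ _ _).symm
theorem co_e (g : Γ) (η : H) : A.co g (A.e g η) = η := by
  rw [co_apply, e_apply, ← ContinuousLinearMap.mul_apply, ← map_mul, inv_mul_cancel, map_one,
    ContinuousLinearMap.one_apply, A.adj_V]
theorem co_e_ne {g h : Γ} (hgh : g ≠ h) (η : H) : A.co g (A.e h η) = 0 := by
  have h1 : A.L.f 1 (A.V η) = A.V η := by rw [← A.V_adj, A.adj_V]
  have h2 : ∀ ξ, adjoint A.V (A.L.f 1 ξ) = adjoint A.V ξ := fun ξ => by rw [← A.V_adj, A.adj_V]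
  have h3 := congrArg (fun T : Op K => adjoint A.V (T (A.V η)))
    (A.L.f_lam_f (g := g⁻¹ * h) fun e => hgh (inv_mul_eq_one.1 e))
  simp only [ContinuousLinearMap.mul_apply, h1, h2, map_mul, ContinuousLinearMap.zero_apply,
    map_zero] at h3
  rw [co_apply, e_apply, h3]
theorem e_co (g : Γ) (ξ : K) : A.e g (A.co g ξ) = A.L.f g ξ := by
  rw [co_apply, e_apply, A.V_adj, A.L.f_eq g]
  rfl
theorem norm_e (g : Γ) (η : H) : ‖A.e g η‖ = ‖η‖ := by
  have h := A.inner_e g η (A.e g η)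
  rw [co_e, inner_self_eq_norm_sq_to_K, inner_self_eq_norm_sq_to_K] at h
  have h2 : ‖A.e g η‖ ^ 2 = ‖η‖ ^ 2 := by exact_mod_cast h
  exact (pow_left_inj₀ (norm_nonneg _) (norm_nonneg _) two_ne_zero).1 h2
theorem norm_V (η : H) : ‖A.V η‖ = ‖η‖ := by rw [← e_one, norm_e]
theorem norm_co (g : Γ) (ξ : K) : ‖A.co g ξ‖ = ‖A.L.f g ξ‖ := by rw [← e_co, norm_e]
theorem norm_co_le (g : Γ) (ξ : K) : ‖A.co g ξ‖ ≤ ‖ξ‖ := by
  rw [norm_co]
  exact ((A.L.f g).le_of_opNorm_le (A.L.res.norm_le_one g) ξ).trans_eq (one_mul _)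
theorem f_e (g : Γ) (η : H) : A.L.f g (A.e g η) = A.e g η := by rw [← e_co, co_e]
theorem f_e_ne {g h : Γ} (hgh : g ≠ h) (η : H) : A.L.f g (A.e h η) = 0 := by rw [← e_co, co_e_ne A hgh, map_zero]
theorem lam_e (g h : Γ) (η : H) : A.L.lam g (A.e h η) = A.e (g * h) η := by
  rw [e_apply, e_apply, map_mul, ContinuousLinearMap.mul_apply]
theorem rho_e (g h : Γ) (η : H) : A.L.rho g (A.e h η) = A.e (h * g⁻¹) η := by
  have h1 : A.L.f 1 (A.V η) = A.V η := by rw [← A.V_adj, A.adj_V]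
  have h2 := congrArg (fun T : Op K => A.L.lam (h * g⁻¹) (T (A.V η))) (A.L.fix g)
  simp only [ContinuousLinearMap.mul_apply, h1] at h2
  rw [e_apply, e_apply, ← h2, ← ContinuousLinearMap.mul_apply (A.L.lam (h * g⁻¹)), ← map_mul,
    inv_mul_cancel_right, ← ContinuousLinearMap.mul_apply, ← (A.L.lam_rho h g).eq,
    ContinuousLinearMap.mul_apply]
theorem co_f (g : Γ) (ξ : K) : A.co g (A.L.f g ξ) = A.co g ξ := by rw [← e_co, co_e]
theorem co_lam (g h : Γ) (ξ : K) : A.co h (A.L.lam g ξ) = A.co (g⁻¹ * h) ξ := by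
  refine ext_inner_left ℂ fun η => ?_
  rw [← inner_e, ← inner_e, ← lam_e, ← A.L.star_lam, ContinuousLinearMap.star_eq_adjoint,
    ContinuousLinearMap.adjoint_inner_left]
theorem co_rho (g h : Γ) (ξ : K) : A.co h (A.L.rho g ξ) = A.co (h * g) ξ := by
  refine ext_inner_left ℂ fun η => ?_
  have h1 := A.rho_e g⁻¹ h η
  rw [inv_inv] at h1
  rw [← inner_e, ← inner_e, ← h1, ← A.L.star_rho, ContinuousLinearMap.star_eq_adjoint,
    ContinuousLinearMap.adjoint_inner_left]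
theorem ι_e (x : Op H) (g : Γ) (η : H) : A.ι x (A.e g η) = A.e g (x η) := by
  rw [e_apply, e_apply, ← ContinuousLinearMap.mul_apply, ((A.com x).lam g).eq,
    ContinuousLinearMap.mul_apply, A.ι_V]
theorem co_ι (x : Op H) (g : Γ) (ξ : K) : A.co g (A.ι x ξ) = x (A.co g ξ) := by
  refine ext_inner_left ℂ fun η => ?_
  rw [← inner_e, ← ContinuousLinearMap.adjoint_inner_left x, ← inner_e,
    ← ContinuousLinearMap.star_eq_adjoint, ← ι_e, map_star, ContinuousLinearMap.star_eq_adjoint,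
    ContinuousLinearMap.adjoint_inner_left]
theorem hasSum_e (ξ : K) : HasSum (fun g => A.e g (A.co g ξ)) ξ := by
  simpa only [e_co] using A.L.res.sum ξ
theorem hasSum_sq (ξ : K) : HasSum (fun g => ‖A.co g ξ‖ ^ 2) (‖ξ‖ ^ 2) := by
  simpa only [norm_co] using A.L.res.hasSum_sq ξ
theorem hasSum_inner (ξ ζ : K) : HasSum (fun g => ⟪A.co g ξ, A.co g ζ⟫_ℂ) ⟪ξ, ζ⟫_ℂ := by
  have h := (A.hasSum_e ζ).mapL (innerSL ℂ ξ)
  simpa only [innerSL_apply_apply, inner_e'] using h
theorem exists_vec {v : Γ → H} (hv : Summable fun g => ‖v g‖ ^ 2) :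
    ∃ ξ : K, ∀ g, A.co g ξ = v g := by
  have hs : Summable fun g => A.e g (v g) :=
    A.L.res.res_summable (fun g => A.f_e g (v g)) (by simpa only [norm_e] using hv)
  refine ⟨∑' g, A.e g (v g), fun h => ?_⟩
  have h1 := hs.hasSum.mapL (A.co h)
  have h2 : HasSum (fun g => A.co h (A.e g (v g))) (A.co h (A.e h (v h))) :=
    hasSum_single h fun g hg => A.co_e_ne hg.symm _
  rw [h1.unique h2, co_e]
theorem vec_ext {ξ ζ : K} (h : ∀ g, A.co g ξ = A.co g ζ) : ξ = ζ :=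
  A.L.res.vec_ext fun g => by rw [← e_co, ← e_co, h]
theorem op_ext {K' : Type*} [NormedAddCommGroup K'] [NormedSpace ℂ K'] {S T : K →L[ℂ] K'}
    (h : ∀ g η, S (A.e g η) = T (A.e g η)) : S = T := by
  ext ξ
  have h1 := (A.hasSum_e ξ).mapL S
  have h2 := (A.hasSum_e ξ).mapL T
  simp only [h] at h1
  exact h1.unique h2
/-- A closed set containing all finite sums of vectors `e g η` is everything. -/
theorem induction_on {p : K → Prop} (hc : IsClosed {ξ | p ξ}) (h0 : p 0)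
    (hadd : ∀ ξ ζ, p ξ → p ζ → p (ξ + ζ)) (he : ∀ g η, p (A.e g η)) (ξ : K) : p ξ := by
  refine hc.mem_of_tendsto (A.hasSum_e ξ) (Eventually.of_forall fun s => ?_)
  exact Finset.sum_induction _ p hadd h0 fun g _ => he g _
theorem norm_ι (x : Op H) : ‖A.ι x‖ = ‖x‖ := by
  refine le_antisymm (NonUnitalStarAlgHom.norm_apply_le A.ι x) ?_
  refine x.opNorm_le_bound (norm_nonneg _) fun η => ?_
  rw [← A.norm_V (x η), ← A.ι_V, ← A.norm_V η]
  exact (A.ι x).le_opNorm _
theorem ι_injective : Function.Injective A.ι := fun x y h => by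
  ext η
  rw [← A.adj_V (x η), ← A.adj_V (y η), ← A.ι_V, ← A.ι_V, h]

/-- The compression `V⋆ T V`. -/
noncomputable def cp (T : Op K) : Op H := (adjoint A.V).comp (T.comp A.V)

theorem cp_apply (T : Op K) (η : H) : A.cp T η = adjoint A.V (T (A.V η)) := rfl
theorem cp_ι (x : Op H) : A.cp (A.ι x) = x := by
  ext η
  rw [cp_apply, A.ι_V, A.adj_V]
theorem cp_ι_mul (x : Op H) (T : Op K) : A.cp (A.ι x * T) = x * A.cp T := by
  ext η
  rw [cp_apply, ContinuousLinearMap.mul_apply, ContinuousLinearMap.mul_apply, cp_apply, ← co_one,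
    co_ι]
theorem cp_mul_ι (x : Op H) (T : Op K) : A.cp (T * A.ι x) = A.cp T * x := by
  ext η
  rw [cp_apply, ContinuousLinearMap.mul_apply, ContinuousLinearMap.mul_apply, cp_apply, A.ι_V]
theorem norm_cp_le (T : Op K) : ‖A.cp T‖ ≤ ‖T‖ := by
  refine ContinuousLinearMap.opNorm_le_bound _ (norm_nonneg _) fun η => ?_
  rw [cp_apply, ← co_one, ← A.norm_V η]
  exact (A.norm_co_le _ _).trans (T.le_opNorm _)
/-- Every operator commuting with the leg is of the form `ι x`. -/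
theorem eq_ι {T : Op K} (h1 : Commute T (A.L.f 1)) (h2 : ∀ g, Commute T (A.L.lam g)) :
    T = A.ι (A.cp T) := by
  refine A.op_ext fun g η => ?_
  have h3 : A.L.f 1 (A.V η) = A.V η := by rw [← A.V_adj, A.adj_V]
  rw [ι_e, e_apply, e_apply, cp_apply, A.V_adj, ← ContinuousLinearMap.mul_apply (A.L.f 1), ← h1.eq,
    ContinuousLinearMap.mul_apply, h3, ← ContinuousLinearMap.mul_apply, (h2 g).eq,
    ContinuousLinearMap.mul_apply]
theorem eq_ι' {T : Op K} (h1 : Commute T (A.L.f 1)) (h2 : ∀ g, Commute T (A.L.rho g)) :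
    T = A.ι (A.cp T) := by
  refine A.op_ext fun g η => ?_
  have h3 : A.L.f 1 (A.V η) = A.V η := by rw [← A.V_adj, A.adj_V]
  have h4 : ∀ ζ, A.e g ζ = A.L.rho g⁻¹ (A.V ζ) := fun ζ => by
    rw [← e_one, rho_e, inv_inv, one_mul]
  rw [ι_e, h4, h4, cp_apply, A.V_adj, ← ContinuousLinearMap.mul_apply (A.L.f 1), ← h1.eq,
    ContinuousLinearMap.mul_apply, h3, ← ContinuousLinearMap.mul_apply, (h2 g⁻¹).eq,
    ContinuousLinearMap.mul_apply]
/-- `ι` is strongly continuous on bounded sets. -/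
theorem tendsto_ι {α : Type*} {l : Filter α} {x : α → Op H} {y : Op H} {C : ℝ}
    (hb : ∀ᶠ a in l, ‖x a‖ ≤ C) (h : ∀ η, Tendsto (fun a => x a η) l (𝓝 (y η))) (ξ : K) :
    Tendsto (fun a => A.ι (x a) ξ) l (𝓝 (A.ι y ξ)) := by
  refine amp_tendsto_of_dense (F := fun a ξ => A.ι (x a) ξ) (G := fun ξ => A.ι y ξ) (C := C)
    (A.ι y).continuous ?_ A.induction_on (by simpa using tendsto_const_nhds) (fun ξ ζ h1 h2 => ?_)
    (fun g η => ?_) ξ
  · filter_upwards [hb] with a ha ξ ζ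
    rw [dist_eq_norm, dist_eq_norm, ← map_sub]
    exact (A.ι (x a)).le_of_opNorm_le ((A.norm_ι _).trans_le ha) _
  · simpa only [map_add] using h1.add h2
  · simp only [ι_e]
    exact ((A.e g).continuous.tendsto _).comp (h η)
/-- `ι` is weakly continuous on bounded sets. -/
theorem tendsto_inner_ι {α : Type*} {l : Filter α} {x : α → Op H} {y : Op H} {C : ℝ}
    (hb : ∀ᶠ a in l, ‖x a‖ ≤ C)
    (h : ∀ η η', Tendsto (fun a => ⟪η', x a η⟫_ℂ) l (𝓝 ⟪η', y η⟫_ℂ)) (ξ ξ' : K) :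
    Tendsto (fun a => ⟪ξ', A.ι (x a) ξ⟫_ℂ) l (𝓝 ⟪ξ', A.ι y ξ⟫_ℂ) := by
  have key : ∀ g η', Tendsto (fun a => ⟪A.e g η', A.ι (x a) ξ⟫_ℂ) l (𝓝 ⟪A.e g η', A.ι y ξ⟫_ℂ) :=
    fun g η' => by simpa only [inner_e, co_ι] using h _ η'
  refine amp_tendsto_of_dense (F := fun a ξ' => ⟪ξ', A.ι (x a) ξ⟫_ℂ) (G := fun ξ' => ⟪ξ', A.ι y ξ⟫_ℂ)
    (C := C * ‖ξ‖) (by fun_prop) ?_ A.induction_on (by simpa using tendsto_const_nhds)
    (fun ξ ζ h1 h2 => ?_) key ξ'
  · filter_upwards [hb] with a ha ξ₁ ξ₂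
    rw [dist_eq_norm, dist_eq_norm, ← inner_sub_left, mul_comm]
    exact (norm_inner_le_norm _ _).trans (mul_le_mul_of_nonneg_left
      ((A.ι (x a)).le_of_opNorm_le ((A.norm_ι _).trans_le ha) _) (norm_nonneg _))
  · simpa only [inner_add_left] using h1.add h2
include A in
theorem separable [Countable Γ] [TopologicalSpace.SeparableSpace H] :
    TopologicalSpace.SeparableSpace K := by
  obtain ⟨s, hs, hd⟩ := TopologicalSpace.exists_countable_dense H
  have : Countable s := hs.to_subtype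
  let t : Set K := Set.range fun p : Γ × s => A.e p.1 p.2
  have ht : t.Countable := Set.countable_range _
  have h1 : TopologicalSpace.IsSeparable (closure (Submodule.span ℂ t : Set K)) :=
    (ht.isSeparable.span (R := ℂ)).closure
  rw [← TopologicalSpace.isSeparable_univ_iff]
  refine h1.mono fun ξ _ => ?_
  refine A.induction_on (p := fun ξ => ξ ∈ closure (Submodule.span ℂ t : Set K)) isClosed_closure
    (subset_closure (zero_mem _))
    (fun ξ ζ h1 h2 => (Submodule.span ℂ t).topologicalClosure.add_mem h1 h2) (fun g η => ?_) ξ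
  refine map_mem_closure (A.e g).continuous (hd η) fun ζ hζ => ?_
  exact Submodule.subset_span ⟨(g, ⟨ζ, hζ⟩), rfl⟩
theorem res_ι {I : Type*} {f : I → Op H} (hf : Res f) : Res fun i => A.ι (f i) := by
  refine ⟨fun i => (hf.proj i).map A.ι, fun i j hij => ?_, fun ξ => ?_⟩
  · rw [← map_mul, hf.orth i j hij, map_zero]
  · have h := A.tendsto_ι (l := atTop) (x := fun s : Finset I => ∑ i ∈ s, f i) (y := 1) (C := 1)
      (Eventually.of_forall fun s => amp_norm_sum_le hf s) (fun η => by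
        simp only [ContinuousLinearMap.sum_apply, ContinuousLinearMap.one_apply]
        exact hf.sum η) ξ
    simp only [map_sum, map_one, ContinuousLinearMap.sum_apply, ContinuousLinearMap.one_apply] at h
    exact h

/-- The image of a leg of `H`. -/
noncomputable def mapLeg {Γ' : Type*} [Group Γ'] (L' : Leg Γ' H) : Leg Γ' K where
  f g := A.ι (L'.f g)
  lam := (A.ι : Op H →* Op K).comp L'.lam
  rho := (A.ι : Op H →* Op K).comp L'.rho
  res := A.res_ι L'.res
  star_lam g := by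
    change star (A.ι _) = A.ι _
    rw [← map_star, L'.star_lam]
  star_rho g := by
    change star (A.ι _) = A.ι _
    rw [← map_star, L'.star_rho]
  lam_f g x := by
    change A.ι _ * A.ι _ = A.ι _ * A.ι _
    rw [← map_mul, ← map_mul, L'.lam_f]
  rho_f g x := by
    change A.ι _ * A.ι _ = A.ι _ * A.ι _
    rw [← map_mul, ← map_mul, L'.rho_f]
  lam_rho g h := (L'.lam_rho g h).map A.ι
  fix g := by
    change A.ι _ * A.ι _ * A.ι _ = A.ι _
    rw [← map_mul, ← map_mul, L'.fix]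

/-- The algebra `1 ⊗ M`. -/
noncomputable def img (M : VN H) : VN K :=
  cent (A.ι '' M.commutant ∪ (Set.range A.L.lam ∪ {A.L.f 1}))

/-- The algebra `B(ℓ²Γ) ⊗ M`. -/
noncomputable def tens (M : VN H) : VN K := (A.img M.commutant).commutant

theorem mem_img {M : VN H} {T : Op K} : T ∈ A.img M ↔ ∃ x ∈ M, T = A.ι x := by
  rw [img, amp_mem_cent]
  · constructor
    · intro h
      have h1 := A.eq_ι (h _ (Or.inr (Or.inr rfl))) fun g => h _ (Or.inr (Or.inl ⟨g, rfl⟩))
      refine ⟨_, ?_, h1⟩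
      rw [← M.commutant_commutant, VonNeumannAlgebra.mem_commutant_iff]
      intro y hy
      rw [← cp_ι_mul, ← cp_mul_ι, (h _ (Or.inl ⟨y, hy, rfl⟩)).eq]
    · rintro ⟨x, hx, rfl⟩ _ (⟨y, hy, rfl⟩ | ⟨g, rfl⟩ | rfl)
      · exact (show Commute x y from VonNeumannAlgebra.mem_commutant_iff.1 hy x hx).map A.ι
      · exact (A.com x).lam g
      · exact (A.com x).f 1
  · rintro _ (⟨y, hy, rfl⟩ | ⟨g, rfl⟩ | rfl)
    · exact Or.inl ⟨star y, star_mem hy, map_star _ _⟩
    · exact Or.inr (Or.inl ⟨g⁻¹, (A.L.star_lam g).symm⟩)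
    · exact Or.inr (Or.inr (A.L.res.star_eq 1))
theorem ι_mem_img {M : VN H} {x : Op H} : A.ι x ∈ A.img M ↔ x ∈ M :=
  A.mem_img.trans
  ⟨fun ⟨_, hy, e⟩ => A.ι_injective e ▸ hy, fun h => ⟨x, h, rfl⟩⟩
theorem mem_img_commutant {M : VN H} {T : Op K} :
    T ∈ (A.img M).commutant ↔ ∀ x ∈ M, Commute T (A.ι x) := by
  rw [VonNeumannAlgebra.mem_commutant_iff]
  constructor
  · intro h x hx
    exact (h _ (A.ι_mem_img.2 hx)).symm
  · intro h S hS
    obtain ⟨x, hx, rfl⟩ := A.mem_img.1 hS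
    exact (h x hx).symm.eq
theorem mem_tens {M : VN H} {T : Op K} :
    T ∈ A.tens M ↔ ∀ y ∈ M.commutant, Commute T (A.ι y) :=
  A.mem_img_commutant
theorem mem_tens' {M : VN H} {T : Op K} :
    T ∈ A.tens M ↔ ∀ g h, (A.co g).comp (T.comp (A.e h)) ∈ M := by
  rw [mem_tens]
  constructor
  · intro hT g h
    rw [← M.commutant_commutant, VonNeumannAlgebra.mem_commutant_iff]
    intro y hy
    ext η
    simp only [ContinuousLinearMap.mul_apply, ContinuousLinearMap.comp_apply]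
    rw [← co_ι, ← ι_e, ← ContinuousLinearMap.mul_apply, ← (hT y hy).eq,
      ContinuousLinearMap.mul_apply]
  · intro hT y hy
    refine A.op_ext fun h η => A.vec_ext fun g => ?_
    have h1 := congrArg (fun S : Op H => S η)
      (VonNeumannAlgebra.mem_commutant_iff.1 hy _ (hT g h))
    simp only [ContinuousLinearMap.mul_apply, ContinuousLinearMap.comp_apply] at h1
    simp only [ContinuousLinearMap.mul_apply]
    rw [ι_e, co_ι, h1]
theorem tens_commutant (M : VN H) : (A.tens M).commutant = A.img M.commutant :=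
  VonNeumannAlgebra.commutant_commutant _
theorem img_commutant (M : VN H) : (A.img M).commutant = A.tens M.commutant := by
  rw [tens, VonNeumannAlgebra.commutant_commutant]
theorem ι_mem_tens {M : VN H} {x : Op H} : A.ι x ∈ A.tens M ↔ x ∈ M := by
  rw [mem_tens]
  constructor
  · intro h
    rw [← M.commutant_commutant, VonNeumannAlgebra.mem_commutant_iff]
    intro y hy
    refine A.ι_injective ?_
    rw [map_mul, map_mul, (h y hy).eq]
  · intro hx y hy
    exact (show Commute x y from VonNeumannAlgebra.mem_commutant_iff.1 hy x hx).map A.ι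
theorem f_mem_tens (M : VN H) (g : Γ) : A.L.f g ∈ A.tens M :=
  A.mem_tens.2 fun y _ => ((A.com y).f g).symm
theorem lam_mem_tens (M : VN H) (g : Γ) : A.L.lam g ∈ A.tens M :=
  A.mem_tens.2 fun y _ => ((A.com y).lam g).symm
theorem rho_mem_tens (M : VN H) (g : Γ) : A.L.rho g ∈ A.tens M :=
  A.mem_tens.2 fun y _ => ((A.com y).rho g).symm
theorem cp_mem {M : VN H} {T : Op K} (h : T ∈ A.tens M) : A.cp T ∈ M := by
  have h1 := A.mem_tens'.1 h 1 1
  rwa [co_one, e_one] at h1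
theorem near_img {M N : VN H} {δ : ℝ} (h : Near M N δ) : Near (A.img M) (A.img N) δ := by
  intro T hT
  obtain ⟨x, hx, rfl⟩ := A.mem_img.1 hT
  obtain ⟨y, hy, h1⟩ := h x hx
  exact ⟨A.ι y, A.ι_mem_img.2 hy, by rwa [← map_sub, norm_ι, norm_ι]⟩
theorem cl_img {M N : VN H} {δ : ℝ} (h : Cl M N δ) : Cl (A.img M) (A.img N) δ :=
  ⟨A.near_img h.1, A.near_img h.2⟩
/-- Exact descent of a Newton step. -/
theorem ns_desc {M N : VN H} {M₁ N₁ : VN K} (hM : ∀ x ∈ M, A.ι x ∈ M₁)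
    (hN : ∀ y ∈ N.commutant, A.ι y ∈ N₁.commutant) {κ ε : ℝ} (h : NS M₁ N₁ κ ε) :
    NS M N κ ε := by
  obtain ⟨k, hk, h⟩ := h
  refine ⟨A.cp k, (A.norm_cp_le k).trans hk, fun x hx y hy => ?_⟩
  have h1 := h _ (hM x hx) _ (hN y hy)
  rw [norm_ι, norm_ι] at h1
  refine le_trans (le_of_eq ?_) ((A.norm_cp_le _).trans h1)
  congr 1
  have hadd : ∀ S T : Op K, A.cp (S + T) = A.cp S + A.cp T := fun S T => by
    ext η; simp [cp_apply]
  have hsub : ∀ S T : Op K, A.cp (S - T) = A.cp S - A.cp T := fun S T => by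
    ext η; simp [cp_apply]
  simp only [cm, hadd, hsub, cp_mul_ι, cp_ι_mul, cp_ι]

end Amp

end Crest.Agent.R078
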