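import Mathlib

/-! Row 78: the abstract Newton iteration, and unitaries with prescribed first order term. -/

set_option autoImplicit false

open Filter Topology

namespace Crest.Agent.R078

variable {A : Type*} [CStarAlgebra A]

theorem aiter_norm_one_le : ‖(1 : A)‖ ≤ 1 := IsStarProjection.norm_le _ (IsStarProjection.one A)

theorem aiter_norm_unitary_le {u : A} (hu : u ∈ unitary A) : ‖u‖ ≤ 1 := by
  rw [← mul_one u, CStarRing.norm_mem_unitary_mul _ hu]
  exact aiter_norm_one_le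

/-- The Cayley transform. -/
theorem aiter_cayley {k : A} (hk : star k = -k) (h : ‖k‖ ≤ 1) :
    ∃ u ∈ unitary A, ‖u - 1 - k‖ ≤ ‖k‖ ^ 2 ∧ ∀ S, Commute S k → Commute S u := by
  obtain ⟨a, ha⟩ : ∃ a : A, a = (1 / 2 : ℂ) • k := ⟨_, rfl⟩
  have hn : ‖a‖ = ‖k‖ / 2 := by rw [ha, norm_smul]; simp [div_eq_inv_mul]
  have hs : star a = -a := by rw [ha, star_smul, hk]; simp
  have hka : k = a + a := by rw [ha, ← add_smul]; norm_num
  let U := Units.oneSub a (by linarith)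
  obtain ⟨v, hv⟩ : ∃ v : A, v = (U⁻¹ : Aˣ) := ⟨_, rfl⟩
  have h1 : (1 - a) * v = 1 := hv ▸ U.mul_inv
  have h2 : v * (1 - a) = 1 := hv ▸ U.inv_mul
  have h3 : star v * (1 + a) = 1 := by
    have := congrArg star h1
    rwa [star_mul, star_sub, star_one, hs, sub_neg_eq_add] at this
  have h4 : (1 + a) * star v = 1 := by
    have := congrArg star h2
    rwa [star_mul, star_sub, star_one, hs, sub_neg_eq_add] at this
  have hc : ∀ S, Commute S a → Commute S v := fun S hS =>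
    hv ▸ Commute.units_inv_right (u := U) ((Commute.one_right S).sub_right hS)
  have hva : Commute (1 + a) v := hc _ ((Commute.one_left a).add_left (Commute.refl a))
  have hnv : ‖v‖ ≤ 2 := by
    have e : v = 1 + a * v := by rw [← h1]; noncomm_ring
    have := (congrArg norm e).trans_le ((norm_add_le _ _).trans
      (add_le_add aiter_norm_one_le (norm_mul_le a v)))
    nlinarith [norm_nonneg v]
  have hst : star ((1 + a) * v) = star v * (1 - a) := by
    rw [star_mul, star_add, star_one, hs, ← sub_eq_add_neg]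
  refine ⟨(1 + a) * v, ⟨?_, ?_⟩, ?_, fun S hS => ?_⟩
  · rw [hst]
    calc star v * (1 - a) * ((1 + a) * v) = star v * (1 + a) * ((1 - a) * v) := by noncomm_ring
      _ = 1 := by rw [h3, h1, mul_one]
  · rw [hst, hva.eq]
    calc v * (1 + a) * (star v * (1 - a)) = v * ((1 + a) * star v) * (1 - a) := by noncomm_ring
      _ = 1 := by rw [h4, mul_one, h2]
  · have e : (1 + a) * v - 1 - k = (a * a + a * a) * v := by
      calc (1 + a) * v - 1 - k = (1 + a) * v - (1 + a + a) * ((1 - a) * v) := by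
            rw [h1, hka]; noncomm_ring
        _ = _ := by noncomm_ring
    rw [e]
    have h5 := (norm_add_le (a * a) (a * a)).trans (add_le_add (norm_mul_le a a) (norm_mul_le a a))
    refine (norm_mul_le _ _).trans ((mul_le_mul h5 hnv (norm_nonneg _) (by positivity)).trans_eq ?_)
    rw [hn]; ring
  · have hS' : Commute S a := ha ▸ hS.smul_right _
    exact ((Commute.one_right S).add_right hS').mul_right (hc S hS')

/-- Conjugation by a unitary close to `1 + k`. -/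
theorem aiter_conj {k u : A} (hk : star k = -k) (h : ‖k‖ ≤ 1) (hu : ‖u - 1 - k‖ ≤ ‖k‖ ^ 2) (x : A) :
    ‖u * x * star u - (x + (k * x - x * k))‖ ≤ 6 * ‖k‖ ^ 2 * ‖x‖ := by
  obtain ⟨r, hr⟩ : ∃ r, r = u - 1 - k := ⟨_, rfl⟩
  rw [← hr] at hu
  have e1 : u = 1 + k + r := by rw [hr]; abel
  have e : u * x * star u - (x + (k * x - x * k)) =
      r * x + x * star r + (k + r) * x * star (k + r) := by
    rw [e1, star_add, star_add, star_add, star_one, hk]; noncomm_ring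
  have h0 := norm_nonneg k
  have hx := norm_nonneg x
  have h1 : ‖k + r‖ ≤ 2 * ‖k‖ := (norm_add_le _ _).trans (by nlinarith)
  have h2 : ‖(k + r) * x * star (k + r)‖ ≤ 2 * ‖k‖ * ‖x‖ * (2 * ‖k‖) :=
    (norm_mul₃_le).trans (by rw [norm_star]; gcongr)
  have h3 : ‖r * x‖ ≤ ‖k‖ ^ 2 * ‖x‖ := (norm_mul_le _ _).trans (by gcongr)
  have h4 : ‖x * star r‖ ≤ ‖x‖ * ‖k‖ ^ 2 := (norm_mul_le _ _).trans (by rw [norm_star]; gcongr)
  rw [e]
  refine (norm_add₃_le).trans ?_
  nlinarith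

/-- The abstract Newton iteration. -/
theorem aiter_newton (P : A → ℝ → Prop) {C d₀ : ℝ}
    (step : ∀ u ∈ unitary A, ∀ d, 0 ≤ d → d ≤ d₀ → P u d →
      ∃ v ∈ unitary A, ‖v - 1‖ ≤ C * d ∧ P (v * u) (d / 2))
    {d : ℝ} (hd0 : 0 ≤ d) (hd : d ≤ d₀) (h1 : P 1 d) :
    ∃ U ∈ unitary A, ‖U - 1‖ ≤ 2 * C * d ∧
      ∀ ε > (0 : ℝ), ∃ V ∈ unitary A, ∃ e, 0 ≤ e ∧ e ≤ ε ∧ ‖V - U‖ ≤ ε ∧ P V e := by
  have hp : ∀ n : ℕ, 0 ≤ d / 2 ^ n := fun n => by positivity
  have hle : ∀ n : ℕ, d / 2 ^ n ≤ d₀ := fun n =>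
    (div_le_self hd0 (one_le_pow₀ one_le_two)).trans hd
  have key : ∀ (n : ℕ) (x : {u : A // u ∈ unitary A ∧ P u (d / 2 ^ n)}),
      ∃ y : {u : A // u ∈ unitary A ∧ P u (d / 2 ^ (n + 1))},
        dist x.1 y.1 ≤ 2 * C * d / 2 / 2 ^ n := by
    intro n x
    obtain ⟨v, hv, h2, h3⟩ := step x.1 x.2.1 _ (hp n) (hle n) x.2.2
    refine ⟨⟨v * x.1, mul_mem hv x.2.1, by rwa [pow_succ, ← div_div]⟩, ?_⟩
    rw [dist_comm, dist_eq_norm, ← sub_one_mul, CStarRing.norm_mul_mem_unitary _ x.2.1]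
    exact h2.trans_eq (by ring)
  choose f hf using key
  let s : (n : ℕ) → {u : A // u ∈ unitary A ∧ P u (d / 2 ^ n)} := fun n =>
    Nat.rec (motive := fun n => {u : A // u ∈ unitary A ∧ P u (d / 2 ^ n)})
      ⟨1, one_mem _, by simpa using h1⟩ f n
  have hs : ∀ n, dist (s n).1 (s (n + 1)).1 ≤ 2 * C * d / 2 / 2 ^ n := fun n => hf n (s n)
  obtain ⟨U, hU⟩ := cauchySeq_tendsto_of_complete (cauchySeq_of_le_geometric_two hs)
  refine ⟨U, isClosed_unitary.mem_of_tendsto hU (.of_forall fun n => (s n).2.1), ?_, fun ε hε => ?_⟩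
  · rw [← dist_eq_norm, dist_comm]
    exact dist_le_of_le_geometric_two_of_tendsto₀ hs hU
  · have t1 : Tendsto (fun n : ℕ => d / 2 ^ n) atTop (𝓝 0) :=
      tendsto_const_nhds.div_atTop (tendsto_pow_atTop_atTop_of_one_lt one_lt_two)
    obtain ⟨n, hn1, hn2⟩ := ((t1.eventually (ge_mem_nhds hε)).and
      ((tendsto_iff_norm_sub_tendsto_zero.1 hU).eventually (ge_mem_nhds hε))).exists
    exact ⟨(s n).1, (s n).2.1, _, hp n, hn1, hn2, (s n).2.2⟩

end Crest.Agent.R078
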