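import Crest.Agent.R078.Defs
import Crest.Agent.R078.AIter

/-! Row 78: elementary facts used by the Newton iteration and the alignment. -/

set_option autoImplicit false

open scoped InnerProductSpace

namespace Crest.Agent.R078

open Crest.Agent.R121 (Mn Bd)

variable {H : Type*} [NormedAddCommGroup H] [InnerProductSpace ℂ H] [CompleteSpace H]

/-! ### Von Neumann algebras -/

theorem al_mem_comm {M : VN H} {y : Op H} : y ∈ M.commutant ↔ ∀ x ∈ M, Commute x y :=
  VonNeumannAlgebra.mem_commutant_iff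

theorem al_mem {M : VN H} {x : Op H} : x ∈ M ↔ ∀ y ∈ M.commutant, Commute y x := by
  rw [← al_mem_comm, VonNeumannAlgebra.commutant_commutant]

theorem al_smul_mem {M : VN H} (c : ℂ) {x : Op H} (hx : x ∈ M) : c • x ∈ M :=
  M.toStarSubalgebra.smul_mem hx c

theorem al_isClosed (M : VN H) : IsClosed (M : Set (Op H)) := by
  rw [← M.centralizer_centralizer]
  exact Set.isClosed_centralizer _

theorem al_mem_of_approx {M : VN H} {x : Op H} (h : ∀ ε > (0 : ℝ), ∃ y ∈ M, ‖x - y‖ ≤ ε) :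
    x ∈ M := by
  refine (al_isClosed M).closure_subset (Metric.mem_closure_iff.2 fun ε hε => ?_)
  obtain ⟨y, hy, h'⟩ := h (ε / 2) (half_pos hε)
  exact ⟨y, hy, by rw [dist_eq_norm]; linarith⟩

theorem al_conj_commute {u : Op H} (hu : u ∈ unitary (Op H)) {x y : Op H} :
    Commute (u * x * star u) y ↔ Commute x (star u * y * u) := by
  have h1 : ∀ z : Op H, star u * (u * z) = z := fun z => by rw [← mul_assoc, hu.1, one_mul]
  have h2 : ∀ z : Op H, u * (star u * z) = z := fun z => by rw [← mul_assoc, hu.2, one_mul]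
  constructor
  · intro h
    have := congrArg (fun z => star u * z * u) h.eq
    simpa only [Commute, SemiconjBy, mul_assoc, h1, hu.1, mul_one] using this
  · intro h
    have := congrArg (fun z => u * z * star u) h.eq
    simpa only [Commute, SemiconjBy, mul_assoc, h2, hu.2, mul_one] using this

theorem al_mem_conj {u : Op H} (hu : u ∈ unitary (Op H)) {M : VN H} {y : Op H} :
    y ∈ conjVN u M ↔ star u * y * u ∈ M := by
  change y ∈ StarSubalgebra.centralizer ℂ _ ↔ _
  rw [StarSubalgebra.mem_centralizer_iff, al_mem]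
  constructor
  · intro h z hz
    exact (al_conj_commute hu).1 (h _ ⟨z, hz, rfl⟩).1
  · rintro h _ ⟨z, hz, rfl⟩
    refine ⟨(al_conj_commute hu).2 (h z hz), ?_⟩
    have := (al_conj_commute hu).2 (h _ (star_mem hz))
    simpa only [star_mul, star_star, mul_assoc] using this.eq

theorem al_cancel {u : Op H} (hu : u ∈ unitary (Op H)) (x : Op H) :
    star u * (u * x * star u) * u = x := by
  rw [← mul_assoc, ← mul_assoc, hu.1, one_mul, mul_assoc, hu.1, mul_one]

theorem al_cancel' {u : Op H} (hu : u ∈ unitary (Op H)) (x : Op H) :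
    u * (star u * x * u) * star u = x := by
  rw [← mul_assoc, ← mul_assoc, hu.2, one_mul, mul_assoc, hu.2, mul_one]

theorem al_conj_mem {u : Op H} (hu : u ∈ unitary (Op H)) {M : VN H} {x : Op H} (hx : x ∈ M) :
    u * x * star u ∈ conjVN u M := by
  rwa [al_mem_conj hu, al_cancel hu]

theorem al_conj_commutant {u : Op H} (hu : u ∈ unitary (Op H)) (M : VN H) :
    (conjVN u M).commutant = conjVN u M.commutant := by
  ext y
  rw [al_mem_conj hu, al_mem_comm, al_mem_comm]
  constructor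
  · intro h x hx
    exact (al_conj_commute hu).1 (h _ (al_conj_mem hu hx))
  · intro h x hx
    rw [← al_cancel' hu x]
    exact (al_conj_commute hu).2 (h _ ((al_mem_conj hu).1 hx))

theorem al_conj_conj {u v : Op H} (hu : u ∈ unitary (Op H)) (hv : v ∈ unitary (Op H)) (M : VN H) :
    conjVN v (conjVN u M) = conjVN (v * u) M := by
  ext y
  rw [al_mem_conj hv, al_mem_conj hu, al_mem_conj (mul_mem hv hu), star_mul]
  simp only [mul_assoc]

theorem al_conj_one (M : VN H) : conjVN 1 M = M := by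
  ext y
  rw [al_mem_conj (one_mem _), star_one, one_mul, mul_one]

theorem al_norm_conj {u : Op H} (hu : u ∈ unitary (Op H)) (x : Op H) :
    ‖u * x * star u‖ = ‖x‖ := by
  rw [CStarRing.norm_mul_mem_unitary _ (Unitary.star_mem hu), CStarRing.norm_mem_unitary_mul _ hu]

theorem al_conj_sub {u v : Op H} (hu : u ∈ unitary (Op H)) (hv : v ∈ unitary (Op H)) (x : Op H) :
    ‖u * x * star u - v * x * star v‖ ≤ 2 * ‖u - v‖ * ‖x‖ := by
  have e : u * x * star u - v * x * star v = (u - v) * x * star u + v * (x * star (u - v)) := by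
    rw [star_sub]; noncomm_ring
  rw [e]
  refine (norm_add_le _ _).trans ?_
  rw [CStarRing.norm_mul_mem_unitary _ (Unitary.star_mem hu), CStarRing.norm_mem_unitary_mul _ hv]
  have h1 := norm_mul_le (u - v) x
  have h2 := norm_mul_le x (star (u - v))
  rw [norm_star] at h2
  linarith

theorem al_conj_sub_self {u : Op H} (hu : u ∈ unitary (Op H)) (x : Op H) :
    ‖u * x * star u - x‖ ≤ 2 * ‖u - 1‖ * ‖x‖ := by
  simpa using al_conj_sub hu (one_mem _) x

theorem al_norm_star_sub_one (u : Op H) : ‖star u - 1‖ = ‖u - 1‖ := by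
  rw [← norm_star, star_sub, star_star, star_one]

theorem al_norm_mul_sub_one {u v : Op H} (hu : u ∈ unitary (Op H)) :
    ‖u * v - 1‖ ≤ ‖u - 1‖ + ‖v - 1‖ := by
  rw [show u * v - 1 = (u - 1) + u * (v - 1) by noncomm_ring]
  refine (norm_add_le _ _).trans ?_
  rw [CStarRing.norm_mem_unitary_mul _ hu]

theorem Near.al_mono {M N : VN H} {δ δ' : ℝ} (h : Near M N δ) (hδ : δ ≤ δ') : Near M N δ' :=
  fun x hx => (h x hx).imp fun _ hy => ⟨hy.1, hy.2.trans (by gcongr)⟩

theorem Cl.al_mono {M N : VN H} {δ δ' : ℝ} (h : Cl M N δ) (hδ : δ ≤ δ') : Cl M N δ' :=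
  ⟨h.1.al_mono hδ, h.2.al_mono hδ⟩

theorem Cl.al_conj {M N : VN H} {δ η : ℝ} (h : Cl M N δ) (hδ : δ ≤ 1) {u : Op H}
    (hu : u ∈ unitary (Op H)) (hη : ‖u - 1‖ ≤ η) : Cl M (conjVN u N) (δ + 4 * η) := by
  have h0 := (norm_nonneg _).trans hη
  constructor
  · intro x hx
    obtain ⟨y, hy, h1⟩ := h.1 x hx
    refine ⟨_, al_conj_mem hu hy, ?_⟩
    have hx0 := norm_nonneg x
    have h2 : ‖y‖ ≤ 2 * ‖x‖ := by
      have := norm_sub_norm_le y x
      rw [norm_sub_rev] at this
      nlinarith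
    have h3 := (al_conj_sub_self hu y).trans (show _ ≤ 2 * η * (2 * ‖x‖) by gcongr)
    have h4 := norm_sub_le_norm_sub_add_norm_sub x y (u * y * star u)
    rw [norm_sub_rev y] at h4
    linarith
  · intro y hy
    obtain ⟨x, hx, h1⟩ := h.2 _ ((al_mem_conj hu).1 hy)
    refine ⟨x, hx, ?_⟩
    have h2 := al_norm_conj (Unitary.star_mem hu) y
    have h3 := al_conj_sub_self (Unitary.star_mem hu) y
    rw [star_star] at h2 h3
    rw [al_norm_star_sub_one] at h3
    rw [h2] at h1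
    have hy0 := norm_nonneg y
    have h4 := norm_sub_le_norm_sub_add_norm_sub y (star u * y * u) x
    rw [norm_sub_rev y (star u * y * u)] at h4
    have h5 : 2 * ‖u - 1‖ * ‖y‖ ≤ 2 * η * ‖y‖ := by gcongr
    nlinarith [mul_nonneg h0 hy0]

/-- A near inclusion of a set in a closed subgroup is an inclusion. -/
theorem al_sub_of_near {E : Type*} [NormedAddCommGroup E] {A B : Set E} (hA : IsClosed A)
    (h0 : (0 : E) ∈ A) (hadd : ∀ a ∈ A, ∀ a' ∈ A, a + a' ∈ A) (hsub : ∀ x ∈ B, ∀ a ∈ A, x - a ∈ B)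
    (h : ∀ x ∈ B, ∃ a ∈ A, ‖x - a‖ ≤ 1 / 2 * ‖x‖) : B ⊆ A := by
  intro x hx
  have key : ∀ n : ℕ, ∃ a ∈ A, ‖x - a‖ ≤ (1 / 2) ^ n * ‖x‖ := by
    intro n
    induction n with
    | zero => exact ⟨0, h0, by simp⟩
    | succ n ih =>
      obtain ⟨a, ha, h1⟩ := ih
      obtain ⟨a', ha', h2⟩ := h _ (hsub x hx a ha)
      refine ⟨a + a', hadd a ha a' ha', ?_⟩
      rw [← sub_sub, pow_succ]
      linarith
  refine hA.closure_subset (Metric.mem_closure_iff.2 fun ε hε => ?_)
  obtain ⟨n, hn⟩ := exists_pow_lt_of_lt_one (div_pos hε (by positivity : 0 < ‖x‖ + 1))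
    (by norm_num : (1 / 2 : ℝ) < 1)
  obtain ⟨a, ha, h1⟩ := key n
  refine ⟨a, ha, ?_⟩
  rw [lt_div_iff₀ (by positivity)] at hn
  have : (0 : ℝ) < (1 / 2) ^ n := by positivity
  rw [dist_eq_norm]
  nlinarith

/-- Elements of a von Neumann algebra are combinations of its unitaries. -/
theorem al_unitary_span (M : VN H) {p : Op H → Prop} (h0 : p 0)
    (hadd : ∀ a b, p a → p b → p (a + b)) (hsmul : ∀ (c : ℂ) a, p a → p (c • a))
    (hu : ∀ u ∈ M, u ∈ unitary (Op H) → p u) {x : Op H} (hx : x ∈ M) : p x := by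
  have : IsClosed (M.toStarSubalgebra : Set (Op H)) := al_isClosed M
  obtain ⟨u, c, e, -⟩ := CStarAlgebra.exists_sum_four_unitary (⟨x, hx⟩ : M.toStarSubalgebra)
  have e' : x = ∑ i, c i • ((u i : M.toStarSubalgebra) : Op H) := by
    simpa using congrArg (fun z : M.toStarSubalgebra => (z : Op H)) e
  rw [e']
  refine Finset.sum_induction _ p hadd h0 fun i _ => hsmul _ _ (hu _ (u i).1.2 ⟨?_, ?_⟩)
  · exact congrArg (fun z : M.toStarSubalgebra => (z : Op H)) (u i).2.1
  · exact congrArg (fun z : M.toStarSubalgebra => (z : Op H)) (u i).2.2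

/-! ### Weak means -/

variable {X : Type*} (m : Mn X)

omit [CompleteSpace H] in
theorem al_inner_le {T : Op H} {C : ℝ} (h : ‖T‖ ≤ C) (η ξ : H) : ‖⟪η, T ξ⟫_ℂ‖ ≤ C * ‖η‖ * ‖ξ‖ := by
  refine (norm_inner_le_norm _ _).trans ?_
  have h1 : ‖T ξ‖ ≤ C * ‖ξ‖ := (T.le_opNorm ξ).trans (by gcongr)
  calc ‖η‖ * ‖T ξ‖ ≤ ‖η‖ * (C * ‖ξ‖) := by gcongr
    _ = _ := by ring

theorem al_wm_inner {T : X → Op H} (hT : Bd T) (η ξ : H) :
    ⟪η, wm m T ξ⟫_ℂ = m fun x => ⟪η, T x ξ⟫_ℂ := by
  have hex : ∃ S : Op H, ∀ η ξ, ⟪η, S ξ⟫_ℂ = m fun x => ⟪η, T x ξ⟫_ℂ := by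
    obtain ⟨C, hC⟩ := hT
    let B : H →ₗ⋆[ℂ] H →ₗ[ℂ] ℂ := LinearMap.mk₂'ₛₗ (starRingEnd ℂ) (RingHom.id ℂ)
      (fun η ξ => m fun x => ⟪η, T x ξ⟫_ℂ)
      (fun η η' ξ => by simp only [inner_add_left, m.map_add])
      (fun c η ξ => by simp only [inner_smul_left, m.map_mul_left, smul_eq_mul])
      (fun η ξ ξ' => by simp only [map_add, inner_add_right, m.map_add])
      (fun c η ξ => by
        simp only [map_smul, inner_smul_right, m.map_mul_left, smul_eq_mul, RingHom.id_apply])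
    have hB : ∀ η ξ, ‖B η ξ‖ ≤ C * ‖η‖ * ‖ξ‖ := fun η ξ =>
      m.norm_le fun x => al_inner_le (hC x) η ξ
    exact ⟨ContinuousLinearMap.adjoint
      (InnerProductSpace.continuousLinearMapOfBilin (B.mkContinuous₂ C hB)), fun η ξ => by
        rw [ContinuousLinearMap.adjoint_inner_right,
          InnerProductSpace.continuousLinearMapOfBilin_apply, LinearMap.mkContinuous₂_apply]
        rfl⟩
  rw [wm, dif_pos hex]
  exact hex.choose_spec η ξ

theorem al_wm_eq {T : X → Op H} (hT : Bd T) {S : Op H}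
    (h : ∀ η ξ, ⟪η, S ξ⟫_ℂ = m fun x => ⟪η, T x ξ⟫_ℂ) : wm m T = S :=
  ContinuousLinearMap.ext fun ξ => ext_inner_left ℂ fun η => by rw [al_wm_inner m hT, h]

theorem al_wm_norm_le {T : X → Op H} {C : ℝ} (h : ∀ x, ‖T x‖ ≤ C) : ‖wm m T‖ ≤ C := by
  have h0 : 0 ≤ C := (norm_nonneg _).trans
    (m.norm_le (f := fun _ => 0) fun x => by simpa using (norm_nonneg _).trans (h x))
  refine ContinuousLinearMap.opNorm_le_bound _ h0 fun ξ => ?_
  have h1 : ‖⟪wm m T ξ, wm m T ξ⟫_ℂ‖ ≤ C * ‖wm m T ξ‖ * ‖ξ‖ := by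
    rw [al_wm_inner m ⟨C, h⟩]
    exact m.norm_le fun x => al_inner_le (h x) _ _
  rw [inner_self_eq_norm_sq_to_K, norm_pow, RCLike.norm_ofReal, abs_norm, sq] at h1
  rcases (norm_nonneg (wm m T ξ)).eq_or_lt with h2 | h2
  · rw [← h2]; positivity
  · exact le_of_mul_le_mul_left (by linarith) h2

section Bd

variable {A : Type*} [CStarAlgebra A] {S T : X → A}

theorem al_bd_const (a : A) : Bd fun _ : X => a := ⟨‖a‖, fun _ => le_rfl⟩

theorem al_bd_add (hS : Bd S) (hT : Bd T) : Bd fun x => S x + T x :=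
  hS.elim fun C hC => hT.elim fun D hD =>
    ⟨C + D, fun x => (norm_add_le _ _).trans (add_le_add (hC x) (hD x))⟩

theorem al_bd_sub (hS : Bd S) (hT : Bd T) : Bd fun x => S x - T x :=
  hS.elim fun C hC => hT.elim fun D hD =>
    ⟨C + D, fun x => (norm_sub_le _ _).trans (add_le_add (hC x) (hD x))⟩

theorem al_bd_mul (hS : Bd S) (hT : Bd T) : Bd fun x => S x * T x :=
  hS.elim fun C hC => hT.elim fun D hD => ⟨C * D, fun x => (norm_mul_le _ _).trans
    (mul_le_mul (hC x) (hD x) (norm_nonneg _) ((norm_nonneg _).trans (hC x)))⟩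

theorem al_bd_smul (c : ℂ) (hT : Bd T) : Bd fun x => c • T x :=
  hT.elim fun D hD => ⟨‖c‖ * D, fun x => by rw [norm_smul]; gcongr; exact hD x⟩

theorem al_bd_star (hT : Bd T) : Bd fun x => star (T x) :=
  hT.elim fun D hD => ⟨D, fun x => by rw [norm_star]; exact hD x⟩

end Bd

variable {S T : X → Op H}

theorem al_wm_const (a : Op H) : wm m (fun _ => a) = a :=
  al_wm_eq m (al_bd_const a) fun η ξ => by rw [m.map_const]

theorem al_wm_add (hS : Bd S) (hT : Bd T) : wm m (fun x => S x + T x) = wm m S + wm m T :=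
  al_wm_eq m (al_bd_add hS hT) fun η ξ => by
    simp only [add_apply, inner_add_right, m.map_add, al_wm_inner m hS,
      al_wm_inner m hT]

theorem al_wm_sub (hS : Bd S) (hT : Bd T) : wm m (fun x => S x - T x) = wm m S - wm m T :=
  al_wm_eq m (al_bd_sub hS hT) fun η ξ => by
    simp only [sub_apply, inner_sub_right, m.map_sub, al_wm_inner m hS,
      al_wm_inner m hT]

theorem al_wm_smul (c : ℂ) (hT : Bd T) : wm m (fun x => c • T x) = c • wm m T :=
  al_wm_eq m (al_bd_smul c hT) fun η ξ => by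
    simp only [smul_apply, inner_smul_right, m.map_mul_left, al_wm_inner m hT]

theorem al_wm_mul_left (a : Op H) (hT : Bd T) : wm m (fun x => a * T x) = a * wm m T :=
  al_wm_eq m (al_bd_mul (al_bd_const a) hT) fun η ξ => by
    simp only [mul_apply_eq_comp, ← ContinuousLinearMap.adjoint_inner_left a, al_wm_inner m hT]

theorem al_wm_mul_right (a : Op H) (hT : Bd T) : wm m (fun x => T x * a) = wm m T * a :=
  al_wm_eq m (al_bd_mul hT (al_bd_const a)) fun η ξ => by
    simp only [mul_apply_eq_comp, al_wm_inner m hT]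

theorem al_mn_conj {f : X → ℂ} (hf : Bd f) :
    m (fun x => (starRingEnd ℂ) (f x)) = (starRingEnd ℂ) (m f) := by
  obtain ⟨C, hC⟩ := hf
  have hb : ∀ c : ℂ, Bd fun x => c * f x := fun c =>
    ⟨‖c‖ * C, fun x => by rw [norm_mul]; gcongr; exact hC x⟩
  have hb' : ∀ c : ℂ, Bd fun x => c * (starRingEnd ℂ) (f x) := fun c =>
    ⟨‖c‖ * C, fun x => by rw [norm_mul, Complex.norm_conj]; gcongr; exact hC x⟩
  refine Complex.ext ?_ ?_
  · have h1 := m.re_eq (hb 1)
    have h2 := m.re_eq (hb' 1)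
    simp only [one_mul, Complex.conj_re] at h1 h2 ⊢
    rw [h1, h2]
  · have h1 := m.re_eq (hb Complex.I)
    have h2 := m.re_eq (hb' (-Complex.I))
    rw [m.map_mul_left] at h1 h2
    simp only [Complex.mul_re, Complex.I_re, Complex.I_im, Complex.neg_re,
      Complex.conj_re, Complex.conj_im, zero_mul, one_mul, zero_sub, neg_mul, neg_neg,
      sub_neg_eq_add, zero_add] at h1 h2 ⊢
    rw [h1, h2]

theorem al_wm_star (hT : Bd T) : wm m (fun x => star (T x)) = star (wm m T) :=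
  al_wm_eq m (al_bd_star hT) fun η ξ => by
    obtain ⟨C, hC⟩ := id hT
    simp only [ContinuousLinearMap.star_eq_adjoint, ContinuousLinearMap.adjoint_inner_right]
    rw [← inner_conj_symm, al_wm_inner m hT, ← al_mn_conj m ⟨_, fun x => al_inner_le (hC x) ξ η⟩]
    simp only [inner_conj_symm]

theorem al_wm_commute (hT : Bd T) {a : Op H} (h : ∀ x, Commute a (T x)) : Commute a (wm m T) := by
  change a * wm m T = wm m T * a
  rw [← al_wm_mul_left m a hT, ← al_wm_mul_right m a hT]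
  exact congrArg _ (funext fun x => (h x).eq)

theorem al_wm_mem (hT : Bd T) {N : VN H} (h : ∀ x, T x ∈ N) : wm m T ∈ N :=
  al_mem.2 fun _ hy => al_wm_commute m hT fun x => al_mem.1 (h x) _ hy

theorem al_wm_shift {G : Type*} [Add G] {m : Mn G} (hm : InvM m) {T : G → Op H} (hT : Bd T)
    (a : G) : wm m (fun x => T (x + a)) = wm m T :=
  al_wm_eq m (hT.elim fun C hC => ⟨C, fun x => hC _⟩) fun η ξ => by
    obtain ⟨C, hC⟩ := id hT
    rw [al_wm_inner m hT, ← hm _ ⟨_, fun x => al_inner_le (hC x) η ξ⟩ a]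

end Crest.Agent.R078
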