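import Crest.Agent.R078.ABase

/-! Row 78: invariant means, reversal of near inclusions, Newton steps and small conjugations. -/

set_option autoImplicit false

open scoped InnerProductSpace

namespace Crest.Agent.R078

open Crest.Agent.R121 (Mn Bd)

universe u

/-- Abelian groups are amenable. -/
theorem al_exists_invM (G : Type*) [AddCommGroup G] : ∃ m : Mn G, InvM m := by
  classical
  have key : ∀ (ε : ℝ), 0 < ε → ∀ s : Finset G, ∃ m : Mn G, ∀ a ∈ s, ∀ (f : G → ℂ) (C : ℝ),
      (∀ x, ‖f x‖ ≤ C) → ‖m (fun x => f (x + a)) - m f‖ ≤ ε * C := by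
    intro ε hε s
    induction s using Finset.induction_on with
    | empty => exact ⟨Mn.pt 0, by simp⟩
    | insert a s _ ih =>
      obtain ⟨m, hm⟩ := ih
      obtain ⟨n, hn⟩ := exists_nat_ge (2 / ε)
      refine ⟨m.bind fun x => Mn.ofEx fun j : Fin (n + 1) => x + (j : ℕ) • a, fun b hb f C hf => ?_⟩
      have C0 : 0 ≤ C := (norm_nonneg _).trans (hf 0)
      rcases Finset.mem_insert.1 hb with rfl | hb
      · rw [Mn.bind_apply, Mn.bind_apply, ← m.map_sub]
        refine m.norm_le fun x => ?_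
        rw [Mn.ofEx_apply, Mn.ofEx_apply, ← R124.ex_sub, R124.ex_def,
          Fin.sum_univ_eq_sum_range (fun j => f (x + j • b + b) - f (x + j • b)) (n + 1)]
        simp only [add_assoc, ← succ_nsmul]
        rw [Finset.sum_range_sub (fun j => f (x + j • b)), norm_smul, Fintype.card_fin, norm_inv,
          Real.norm_natCast, inv_mul_le_iff₀ (by positivity)]
        refine (norm_sub_le _ _).trans ((add_le_add (hf _) (hf _)).trans ?_)
        rw [div_le_iff₀ hε] at hn
        push_cast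
        nlinarith [mul_nonneg hε.le C0]
      · have := hm b hb (fun x => (Mn.ofEx fun j : Fin (n + 1) => x + (j : ℕ) • a) f) C
          fun x => Mn.norm_le _ hf
        simpa only [Mn.bind_apply, Mn.ofEx_apply, add_right_comm _ b] using this
  obtain ⟨m, hm⟩ := Mn.exists_of_approx_norm (I := {f : G → ℂ // ∀ x, ‖f x‖ ≤ 1} × G)
    (fun i x => i.1.1 (x + i.2) - i.1.1 x)
    (fun i => ⟨2, fun x => (norm_sub_le _ _).trans (by linarith [i.1.2 (x + i.2), i.1.2 x])⟩)
    (fun _ => 0) fun s ε hε => by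
      obtain ⟨m, hm⟩ := key ε hε (s.image Prod.snd)
      refine ⟨m, fun i hi => ?_⟩
      rw [m.map_sub, zero_add, ← mul_one ε]
      exact hm _ (Finset.mem_image_of_mem _ hi) _ 1 i.1.2
  refine ⟨m, fun f hf a => ?_⟩
  obtain ⟨C, hC⟩ := hf
  have C0 : 0 < C + 1 := by linarith [(norm_nonneg _).trans (hC 0)]
  have h1 := hm (⟨fun x => ((C + 1 : ℝ) : ℂ)⁻¹ * f x, fun x => by
    rw [norm_mul, norm_inv, Complex.norm_real, Real.norm_of_nonneg C0.le, inv_mul_le_iff₀ C0]
    linarith [hC x]⟩, a)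
  simp only [← mul_sub] at h1
  rw [m.map_mul_left, m.map_sub, norm_le_zero_iff, mul_eq_zero] at h1
  exact sub_eq_zero.1 (h1.resolve_left (inv_ne_zero (Complex.ofReal_ne_zero.2 C0.ne')))

variable {H : Type*} [NormedAddCommGroup H] [InnerProductSpace ℂ H] [CompleteSpace H]

theorem al_near_rev {A N : VN H} {ε δ : ℝ} (hε0 : 0 ≤ ε) (hε : ε ≤ 1 / 8) (hδ : δ ≤ 1 / 8)
    (h : Near A N ε) (h' : Near N A δ) : Near N A (4 * ε) := by
  have key : ∀ j : ℕ, ∀ y ∈ N, ∃ a ∈ A, ‖y - a‖ ≤ (3 * ε + (1 / 2) ^ j) * ‖y‖ := by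
    intro j
    induction j with
    | zero => exact fun y _ => ⟨0, zero_mem _, by
        rw [sub_zero, pow_zero]; nlinarith [norm_nonneg y]⟩
    | succ j ih =>
      intro y hy
      obtain ⟨a, ha, h1⟩ := h' y hy
      obtain ⟨n, hn, h2⟩ := h a ha
      obtain ⟨a', ha', h3⟩ := ih _ (sub_mem hy hn)
      refine ⟨a + a', add_mem ha ha', ?_⟩
      have y0 := norm_nonneg y
      have h4 : ‖a‖ ≤ 9 / 8 * ‖y‖ := by
        have := norm_sub_norm_le a y
        rw [norm_sub_rev] at this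
        nlinarith
      have h5 : ‖a - n‖ ≤ ε * (9 / 8 * ‖y‖) := h2.trans (by gcongr)
      have h6 : ‖y - n‖ ≤ 1 / 2 * ‖y‖ := by
        have := norm_sub_le_norm_sub_add_norm_sub y a n
        nlinarith
      have h7 : ‖y - n - a'‖ ≤ (3 * ε + (1 / 2) ^ j) * (1 / 2 * ‖y‖) := h3.trans (by gcongr)
      have h8 := norm_sub_le (y - n - a') (a - n)
      rw [show y - n - a' - (a - n) = y - (a + a') by abel] at h8
      rw [pow_succ]
      nlinarith [mul_nonneg hε0 y0]
  intro y hy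
  rcases hε0.eq_or_lt with rfl | hε1
  · refine ⟨y, al_mem_of_approx fun η hη => ?_, by simp⟩
    obtain ⟨j, hj⟩ := exists_pow_lt_of_lt_one (div_pos hη (by positivity : 0 < ‖y‖ + 1))
      (by norm_num : (1 / 2 : ℝ) < 1)
    obtain ⟨a, ha, h1⟩ := key j y hy
    refine ⟨a, ha, h1.trans ?_⟩
    rw [lt_div_iff₀ (by positivity)] at hj
    have : (0 : ℝ) < (1 / 2) ^ j := by positivity
    nlinarith
  · obtain ⟨j, hj⟩ := exists_pow_lt_of_lt_one hε1 (by norm_num : (1 / 2 : ℝ) < 1)
    obtain ⟨a, ha, h1⟩ := key j y hy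
    exact ⟨a, ha, h1.trans (mul_le_mul_of_nonneg_right (by linarith) (norm_nonneg _))⟩

omit [CompleteSpace H] in
theorem al_norm_cm (x y : Op H) : ‖cm x y‖ ≤ 2 * ‖x‖ * ‖y‖ := by
  refine (norm_sub_le _ _).trans ?_
  linarith [norm_mul_le x y, norm_mul_le y x]

omit [CompleteSpace H] in
theorem al_cm_add (x x' y : Op H) : cm (x + x') y = cm x y + cm x' y := by
  simp only [cm]; noncomm_ring

omit [CompleteSpace H] in
theorem al_cm_le {x x' : Op H} (y : Op H) {e : ℝ} (h : ‖x - x'‖ ≤ e) :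
    ‖cm x y‖ ≤ ‖cm x' y‖ + 2 * e * ‖y‖ := by
  rw [show x = x' + (x - x') by abel, al_cm_add]
  exact (norm_add_le _ _).trans (add_le_add le_rfl ((al_norm_cm _ _).trans (by gcongr)))

theorem NS.al_mono {M N : VN H} {κ κ' ε ε' : ℝ} (h : NS M N κ ε) (hκ : κ ≤ κ') (hε : ε ≤ ε') :
    NS M N κ' ε' :=
  h.imp fun _ hk => ⟨hk.1.trans hκ, fun x hx y hy => (hk.2 x hx y hy).trans (by gcongr)⟩

theorem al_ns_conj {M N : VN H} {κ ε η : ℝ} {u : Op H} (hu : u ∈ unitary (Op H))
    (hη : ‖u - 1‖ ≤ η) (h : NS M (conjVN u N) κ ε) :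
    NS M N (κ + η) (ε + 4 * η ^ 2 + 8 * η * κ) := by
  obtain ⟨k, hk, h1⟩ := h
  have η0 := (norm_nonneg _).trans hη
  have κ0 := (norm_nonneg _).trans hk
  obtain ⟨p, hp⟩ : ∃ p, p = star u - 1 := ⟨_, rfl⟩
  have bp : ‖p‖ ≤ η := by rw [hp, al_norm_star_sub_one]; exact hη
  refine ⟨k + p, (norm_add_le _ _).trans (add_le_add hk bp), fun x hx y hy => ?_⟩
  have h2 := h1 x hx (u * y * star u) (by rw [al_conj_commutant hu]; exact al_conj_mem hu hy)
  rw [al_norm_conj hu, ← al_cm_add] at h2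
  have h3 : cm (x + cm k x) (u * y * star u) = u * cm (star u * (x + cm k x) * u) y * star u := by
    have g : ∀ z : Op H, u * (star u * z) = z := fun z => by rw [← mul_assoc, hu.2, one_mul]
    generalize x + cm k x = z
    simp only [cm, mul_sub, sub_mul, mul_assoc, g, hu.2, mul_one]
  rw [h3, al_norm_conj hu] at h2
  have x0 := norm_nonneg x
  have h4 : ‖star u * cm k x * u - cm k x‖ ≤ 2 * η * (2 * κ * ‖x‖) := by
    have := al_conj_sub_self (Unitary.star_mem hu) (cm k x)
    rw [star_star, al_norm_star_sub_one] at this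
    exact this.trans (mul_le_mul (by linarith) ((al_norm_cm k x).trans (by gcongr)) (norm_nonneg _)
      (by positivity))
  have h5 : ‖star u * x * u - (x + cm p x)‖ ≤ 2 * η ^ 2 * ‖x‖ := by
    have e1 : star u = 1 + p := by rw [hp]; abel
    have e2 : u = 1 + star p := by rw [hp, star_sub, star_star, star_one]; abel
    have e3 : (1 + p) * (1 + star p) = 1 := by rw [← e1, ← e2]; exact hu.1
    have e4 : star u * x * u - (x + cm p x) = p * x * star p - x * (p * star p) := by
      rw [e1]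
      nth_rewrite 1 [e2]
      rw [cm, ← sub_eq_zero]
      calc _ = x * ((1 + p) * (1 + star p) - 1) := by noncomm_ring
        _ = 0 := by rw [e3, sub_self, mul_zero]
    have b1 : ‖p * x * star p‖ ≤ η * ‖x‖ * η := norm_mul₃_le.trans (by rw [norm_star]; gcongr)
    have b2 : ‖x * (p * star p)‖ ≤ ‖x‖ * (η * η) := (norm_mul_le _ _).trans
      (mul_le_mul_of_nonneg_left ((norm_mul_le _ _).trans (by rw [norm_star]; gcongr)) x0)
    rw [e4]
    linarith [norm_sub_le (p * x * star p) (x * (p * star p))]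
  have h6 : ‖(x + cm (k + p) x) - star u * (x + cm k x) * u‖ ≤
      2 * η ^ 2 * ‖x‖ + 2 * η * (2 * κ * ‖x‖) := by
    rw [norm_sub_rev, al_cm_add, show star u * (x + cm k x) * u - (x + (cm k x + cm p x)) =
      (star u * x * u - (x + cm p x)) + (star u * cm k x * u - cm k x) by noncomm_ring]
    exact (norm_add_le _ _).trans (add_le_add h5 h4)
  rw [← al_cm_add]
  refine (al_cm_le y h6).trans ?_
  linarith

/-- The distance formula with constant `C`. -/
def ADist (C : ℝ) : Prop :=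
  ∀ (H : Type u) [NormedAddCommGroup H] [InnerProductSpace ℂ H] [CompleteSpace H] (N : VN H)
    (T : Op H) (g : ℝ), 0 ≤ g → (∀ y ∈ N.commutant, ‖cm T y‖ ≤ g * ‖y‖) → ∃ n ∈ N, ‖T - n‖ ≤ C * g

theorem ADist.near_commutant {C : ℝ} (hC : ADist.{u} C) {H : Type u} [NormedAddCommGroup H]
    [InnerProductSpace ℂ H] [CompleteSpace H] {M N : VN H} {δ : ℝ} (hδ : 0 ≤ δ) (h : Near N M δ) :
    Near M.commutant N.commutant (2 * C * δ) := by
  intro y hy
  obtain ⟨n, hn, h1⟩ := hC H N.commutant y (2 * δ * ‖y‖) (by positivity) fun z hz => by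
    rw [VonNeumannAlgebra.commutant_commutant] at hz
    obtain ⟨x, hx, h2⟩ := h z hz
    have e : cm y z = cm y (z - x) := by
      simp only [cm, mul_sub, sub_mul, (al_mem_comm.1 hy x hx).eq]; abel
    rw [e]
    exact (al_norm_cm _ _).trans ((mul_le_mul_of_nonneg_left h2 (by positivity)).trans_eq (by ring))
  exact ⟨n, hn, h1.trans_eq (by ring)⟩

end Crest.Agent.R078
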