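import Crest.Agent.R078.ANewton1
import Crest.Agent.R078.ABase3

/-! Row 78, S0103: the Newton iteration. -/

set_option autoImplicit false

namespace Crest.Agent.R078

universe u

theorem result_of_good (h : GoodOn Cls.all.{u}) (ε : ℝ) (hε : 0 < ε) :
    ∃ δ : ℝ, 0 < δ ∧
      ∀ (H : Type u) [NormedAddCommGroup H] [InnerProductSpace ℂ H] [CompleteSpace H]
        (M N : VonNeumannAlgebra H),
        (∀ x ∈ M, ‖x‖ ≤ 1 → ∃ y ∈ N, ‖y‖ ≤ 1 ∧ ‖x - y‖ < δ) →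
        (∀ y ∈ N, ‖y‖ ≤ 1 → ∃ x ∈ M, ‖x‖ ≤ 1 ∧ ‖y - x‖ < δ) →
        ∃ u : H →L[ℂ] H, u ∈ unitary (H →L[ℂ] H) ∧ ‖u - 1‖ < ε ∧
          ∀ y : H →L[ℂ] H, y ∈ N ↔ ∃ x ∈ M, y = u * x * star u := by
  obtain ⟨D, hD⟩ := al_dist.{u}
  exact result_of_good_of_dist hD h ε hε

end Crest.Agent.R078
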