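import Crest.Agent.R078.Defs
import Crest.Agent.R124.Kap

/-! Row 78: reduction to separable Hilbert spaces. -/

set_option autoImplicit false

open scoped InnerProductSpace
open Filter Topology Set

namespace Crest.Agent.R078

variable {H : Type*} [NormedAddCommGroup H] [InnerProductSpace ℂ H] [CompleteSpace H]

omit [CompleteSpace H] in
theorem as_inner_le (T : Op H) (η ξ : H) : ‖⟪η, T ξ⟫_ℂ‖ ≤ ‖T‖ * ‖η‖ * ‖ξ‖ :=
  (norm_inner_le_norm _ _).trans ((mul_le_mul_of_nonneg_left (T.le_opNorm ξ) (norm_nonneg _)).trans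
    (le_of_eq (by ring)))

omit [CompleteSpace H] in
theorem as_norm_le {T : Op H} {C : ℝ} (hC : 0 ≤ C) (h : ∀ η ξ, ‖⟪η, T ξ⟫_ℂ‖ ≤ C * ‖η‖ * ‖ξ‖) :
    ‖T‖ ≤ C := by
  refine ContinuousLinearMap.opNorm_le_bound _ hC fun ξ => ?_
  have h1 := h (T ξ) ξ
  rw [inner_self_eq_norm_sq_to_K, norm_pow, RCLike.norm_ofReal, abs_norm, sq] at h1
  rcases (norm_nonneg (T ξ)).eq_or_lt with h0 | h0
  · rw [← h0]; positivity
  · exact le_of_mul_le_mul_left (by linarith) h0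

/-- Weak ultralimits. -/
theorem as_ultra {J : Type*} (U : Ultrafilter J) (T : J → Op H) {C : ℝ} (hT : ∀ j, ‖T j‖ ≤ C) :
    ∃ S : Op H, ‖S‖ ≤ C ∧ ∀ η ξ, Tendsto (fun j => ⟪η, T j ξ⟫_ℂ) U (𝓝 ⟪η, S ξ⟫_ℂ) := by
  have hb : ∀ η ξ j, ‖⟪η, T j ξ⟫_ℂ‖ ≤ C * ‖η‖ * ‖ξ‖ := fun η ξ j =>
    (as_inner_le _ _ _).trans (by gcongr; exact hT j)
  have hex : ∀ η ξ, ∃ c, Tendsto (fun j => ⟪η, T j ξ⟫_ℂ) U (𝓝 c) := fun η ξ => by
    obtain ⟨c, -, hc⟩ := (isCompact_closedBall (0 : ℂ) (C * ‖η‖ * ‖ξ‖)).ultrafilter_le_nhds'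
      (U.map fun j => ⟪η, T j ξ⟫_ℂ) (Ultrafilter.mem_map.2 (univ_mem' fun j => by simpa using hb η ξ j))
    exact ⟨c, hc⟩
  choose b hlim using hex
  let B : H →ₗ⋆[ℂ] H →ₗ[ℂ] ℂ := LinearMap.mk₂'ₛₗ (starRingEnd ℂ) (RingHom.id ℂ) b
    (fun η η' ξ => tendsto_nhds_unique (hlim _ _)
      (by simpa only [inner_add_left] using (hlim η ξ).add (hlim η' ξ)))
    (fun c η ξ => tendsto_nhds_unique (hlim _ _)
      (by simpa only [inner_smul_left, smul_eq_mul] using (hlim η ξ).const_mul _))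
    (fun η ξ ξ' => tendsto_nhds_unique (hlim _ _)
      (by simpa only [map_add, inner_add_right] using (hlim η ξ).add (hlim η ξ')))
    (fun c η ξ => tendsto_nhds_unique (hlim _ _)
      (by simpa only [map_smul, inner_smul_right, smul_eq_mul, RingHom.id_apply] using
        (hlim η ξ).const_mul c))
  have hB : ∀ η ξ, ‖B η ξ‖ ≤ C * ‖η‖ * ‖ξ‖ := fun η ξ =>
    le_of_tendsto' (hlim η ξ).norm (hb η ξ)
  obtain ⟨S, hS⟩ : ∃ S : Op H, ∀ η ξ, ⟪η, S ξ⟫_ℂ = B η ξ :=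
    ⟨ContinuousLinearMap.adjoint
      (InnerProductSpace.continuousLinearMapOfBilin (B.mkContinuous₂ C hB)), fun η ξ => by
        rw [ContinuousLinearMap.adjoint_inner_right,
          InnerProductSpace.continuousLinearMapOfBilin_apply, LinearMap.mkContinuous₂_apply]⟩
  obtain ⟨j⟩ := Filter.nonempty_of_neBot (U : Filter J)
  exact ⟨S, as_norm_le ((norm_nonneg _).trans (hT j)) fun η ξ => (hS η ξ).symm ▸ hB η ξ,
    fun η ξ => (hS η ξ).symm ▸ hlim η ξ⟩

theorem as_adj (x : Op H) (η ξ : H) : ⟪η, x ξ⟫_ℂ = ⟪star x η, ξ⟫_ℂ := by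
  rw [ContinuousLinearMap.star_eq_adjoint, ContinuousLinearMap.adjoint_inner_left]

theorem as_mem_cent {S : Set (Op H)} {x : Op H} :
    x ∈ cent S ↔ ∀ g ∈ S, g * x = x * g ∧ star g * x = x * star g :=
  StarSubalgebra.mem_centralizer_iff ℂ

theorem as_closed (N : VN H) : IsClosed (N : Set (Op H)) := by
  rw [← N.centralizer_centralizer]
  exact Set.isClosed_centralizer _

/-- Kaplansky density and a weak limit. -/
theorem as_near {A : Type*} [CStarAlgebra A] (ρ : A →⋆ₐ[ℂ] Op H) (N : VN H) {δ : ℝ} (hδ : 0 ≤ δ)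
    (h : ∀ a, ∀ ε > (0 : ℝ), ∃ y ∈ N, ‖ρ a - y‖ ≤ δ * ‖a‖ + ε) :
    Near (cent (range ρ)).commutant N (2 * δ) := by
  classical
  intro x hx
  have hx' : ∀ S : Op H, (∀ a, S * ρ a = ρ a * S) → S * x = x * S := fun S hS =>
    VonNeumannAlgebra.mem_commutant_iff.1 hx S (as_mem_cent.2 (by
      rintro _ ⟨a, rfl⟩
      exact ⟨(hS a).symm, by rw [← map_star]; exact (hS _).symm⟩))
  have hp : ∀ n : ℕ, (0 : ℝ) < 1 / (n + 1) := fun n => by positivity
  choose a ha1 ha2 using fun q : Finset H × ℕ => R124.kaplansky ρ hx' q.1 (hp q.2)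
  choose y hy1 hy2 using fun q : Finset H × ℕ => h (a q) _ (hp q.2)
  let U : Ultrafilter (Finset H × ℕ) := Ultrafilter.of atTop
  have hU : (U : Filter (Finset H × ℕ)) ≤ atTop := Ultrafilter.of_le _
  have hn : Tendsto (fun q : Finset H × ℕ => (1 : ℝ) / (q.2 + 1)) U (𝓝 0) :=
    (tendsto_one_div_add_atTop_nhds_zero_nat.comp (f := Prod.snd)
      (by rw [← prod_atTop_atTop_eq]; exact tendsto_snd)).mono_left hU
  have hy3 : ∀ q, ‖ρ (a q) - y q‖ ≤ 2 * δ * ‖x‖ + 1 / (q.2 + 1) := fun q =>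
    (hy2 q).trans (by nlinarith [mul_le_mul_of_nonneg_left (ha1 q) hδ])
  obtain ⟨z, -, hz⟩ := as_ultra U y (C := 2 * ‖x‖ + (2 * δ * ‖x‖ + 1)) fun q => by
    have h1 := (NonUnitalStarAlgHom.norm_apply_le ρ (a q)).trans (ha1 q)
    have h2 : (1 : ℝ) / (q.2 + 1) ≤ 1 := div_le_one_of_le₀ (by simp) (by positivity)
    linarith [norm_sub_norm_le (y q) (ρ (a q)), norm_sub_rev (y q) (ρ (a q)), hy3 q]
  refine ⟨z, ?_, as_norm_le (by positivity) fun η ξ => ?_⟩
  · rw [← N.commutant_commutant, VonNeumannAlgebra.mem_commutant_iff]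
    refine fun g hg => ContinuousLinearMap.ext fun ξ => ext_inner_left ℂ fun η => ?_
    rw [ContinuousLinearMap.mul_apply, ContinuousLinearMap.mul_apply, as_adj]
    refine tendsto_nhds_unique (hz _ _) ((hz _ _).congr fun q => ?_)
    rw [← as_adj, ← ContinuousLinearMap.mul_apply,
      VonNeumannAlgebra.mem_commutant_iff.1 hg _ (hy1 q), ContinuousLinearMap.mul_apply]
  · have h1 : Tendsto (fun q => ρ (a q) ξ) U (𝓝 (x ξ)) := by
      refine tendsto_iff_norm_sub_tendsto_zero.2 (squeeze_zero' (Eventually.of_forall fun _ => norm_nonneg _)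
        ?_ hn)
      filter_upwards [hU (eventually_ge_atTop ({ξ}, 0))] with q hq
      exact (ha2 q ξ (hq.1 (Finset.mem_singleton_self ξ))).1.le
    have h2 := (((tendsto_const_nhds (x := η)).inner (𝕜 := ℂ) h1).sub (hz η ξ)).norm
    have h3 := ((hn.const_add (2 * δ * ‖x‖)).mul_const ‖η‖).mul_const ‖ξ‖
    rw [add_zero] at h3
    rw [ContinuousLinearMap.sub_apply, inner_sub_right]
    refine le_of_tendsto_of_tendsto' h2 h3 fun q => ?_
    rw [← inner_sub_right, ← ContinuousLinearMap.sub_apply]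
    exact (as_inner_le _ _ _).trans (by gcongr; exact hy3 q)

/-- Countable closure. -/
theorem as_closure {T : Type*} (f : T → T → Set T) (hf : ∀ a b, (f a b).Countable) {s : Set T}
    (hs : s.Countable) : ∃ t : Set T, t.Countable ∧ s ⊆ t ∧ ∀ a ∈ t, ∀ b ∈ t, f a b ⊆ t := by
  let u : ℕ → Set T := fun n => Nat.rec s (fun _ v => v ∪ ⋃ a ∈ v, ⋃ b ∈ v, f a b) n
  have hu : ∀ n, (u n).Countable := fun n => by
    induction n with
    | zero => exact hs
    | succ n ih => exact ih.union (ih.biUnion fun a _ => ih.biUnion fun b _ => hf a b)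
  have hm : Monotone u := monotone_nat_of_le_succ fun n => subset_union_left
  refine ⟨⋃ n, u n, countable_iUnion hu, subset_iUnion u 0, fun a ha b hb => ?_⟩
  obtain ⟨m, hm'⟩ := mem_iUnion.1 ha
  obtain ⟨n, hn'⟩ := mem_iUnion.1 hb
  refine subset_iUnion_of_subset (max m n + 1) (subset_union_of_subset_right ?_ _)
  exact subset_iUnion₂_of_subset a (hm (le_max_left _ _) hm')
    (subset_iUnion₂_of_subset b (hm (le_max_right _ _) hn') subset_rfl)

section compress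

variable (K : Submodule ℂ H) [CompleteSpace K]

/-- Compression to a closed subspace. -/
noncomputable def asC (x : Op H) : Op K := K.orthogonalProjection ∘L x ∘L K.subtypeL

variable {K}

omit [CompleteSpace H] in
theorem asC_inner (x : Op H) (η ξ : K) : ⟪η, asC K x ξ⟫_ℂ = ⟪(η : H), x ξ⟫_ℂ :=
  K.inner_orthogonalProjection_eq_of_mem_left η _

omit [CompleteSpace H] in
theorem asC_coe {x : Op H} (h : ∀ ξ ∈ K, x ξ ∈ K) (ξ : K) : (asC K x ξ : H) = x ξ :=
  congrArg Subtype.val (K.orthogonalProjection_mem_subspace_eq_self ⟨x ξ, h ξ ξ.2⟩)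

omit [CompleteSpace H] in
theorem asC_norm (x : Op H) : ‖asC K x‖ ≤ ‖x‖ :=
  as_norm_le (norm_nonneg x) fun η ξ => by rw [asC_inner]; exact as_inner_le x η ξ

omit [CompleteSpace H] in
theorem asC_add (x y : Op H) : asC K (x + y) = asC K x + asC K y := by
  simp only [asC, ContinuousLinearMap.add_comp, ContinuousLinearMap.comp_add]

omit [CompleteSpace H] in
theorem asC_sub (x y : Op H) : asC K (x - y) = asC K x - asC K y := by
  simp only [asC, ContinuousLinearMap.sub_comp, ContinuousLinearMap.comp_sub]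

omit [CompleteSpace H] in
theorem asC_mul (x : Op H) {y : Op H} (h : ∀ ξ ∈ K, y ξ ∈ K) : asC K (x * y) = asC K x * asC K y :=
  ContinuousLinearMap.ext fun ξ => ext_inner_left ℂ fun η => by
    rw [ContinuousLinearMap.mul_apply, asC_inner, asC_inner, asC_coe h, ContinuousLinearMap.mul_apply]

theorem asC_star (x : Op H) : asC K (star x) = star (asC K x) :=
  ContinuousLinearMap.ext fun ξ => ext_inner_left ℂ fun η => by
    rw [asC_inner, as_adj, as_adj (star (asC K x)), star_star, star_star, ← inner_conj_symm,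
      ← asC_inner, inner_conj_symm]

/-- Restriction of a star subalgebra to an invariant subspace. -/
noncomputable def asRho (A : StarSubalgebra ℂ (Op H)) (h : ∀ a ∈ A, ∀ ξ ∈ K, a ξ ∈ K) :
    A →⋆ₐ[ℂ] Op K where
  toFun a := asC K a
  map_one' := ContinuousLinearMap.ext fun ξ => Subtype.ext (asC_coe (h _ A.one_mem) ξ)
  map_mul' a b := asC_mul _ (h _ b.2)
  map_zero' := ContinuousLinearMap.ext fun ξ => Subtype.ext (asC_coe (h _ A.zero_mem) ξ)
  map_add' a b := asC_add _ _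
  commutes' c := ContinuousLinearMap.ext fun ξ => Subtype.ext (asC_coe (h _ (A.algebraMap_mem c)) ξ)
  map_star' a := asC_star _

end compress

theorem as_alg {D : Set (Op H)} (hD : ∀ a ∈ D, ∀ b ∈ D, a + b ∈ D ∧ a * b ∈ D ∧ star a ∈ D)
    {Q : Set ℂ} (hQ : Dense Q) (hQD : ∀ q ∈ Q, algebraMap ℂ (Op H) q ∈ D) (M : VN H) :
    ∃ A : StarSubalgebra ℂ (Op H), (A : Set (Op H)) = closure (D ∩ M) := by
  have h0 : ∀ c : ℂ, algebraMap ℂ (Op H) c ∈ closure (D ∩ M) := fun c =>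
    map_mem_closure (continuous_algebraMap ℂ (Op H)) (hQ c) fun q hq =>
      ⟨hQD q hq, M.toStarSubalgebra.algebraMap_mem q⟩
  exact ⟨{ carrier := closure (D ∩ M)
           mul_mem' := fun ha hb => map_mem_closure₂ continuous_mul ha hb fun a ha b hb =>
             ⟨(hD a ha.1 b hb.1).2.1, mul_mem ha.2 hb.2⟩
           add_mem' := fun ha hb => map_mem_closure₂ continuous_add ha hb fun a ha b hb =>
             ⟨(hD a ha.1 b hb.1).1, add_mem ha.2 hb.2⟩
           algebraMap_mem' := h0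
           star_mem' := fun ha => map_mem_closure continuous_star ha fun a ha =>
             ⟨(hD a ha.1 a ha.1).2.2, star_mem ha.2⟩ }, rfl⟩

theorem as_lift {M N : VN H} {δ : ℝ} (hδ : 0 ≤ δ) {D : Set (Op H)}
    (h : ∀ a ∈ D ∩ M, ∃ b ∈ D ∩ N, ‖a - b‖ ≤ δ * ‖a‖) {a : Op H} (ha : a ∈ closure (D ∩ M))
    {ε : ℝ} (hε : 0 < ε) : ∃ b ∈ D ∩ N, ‖a - b‖ ≤ δ * ‖a‖ + ε := by
  obtain ⟨a', h1, h2⟩ := Metric.mem_closure_iff.1 ha (ε / (1 + δ)) (by positivity)
  obtain ⟨b, h3, h4⟩ := h a' h1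
  refine ⟨b, h3, ?_⟩
  rw [dist_eq_norm, lt_div_iff₀ (by positivity)] at h2
  have h5 := norm_sub_le_norm_sub_add_norm_sub a a' b
  have h6 := mul_le_mul_of_nonneg_left (norm_sub_norm_le a' a) hδ
  rw [norm_sub_rev a' a] at h6
  linarith

/-- Separable pieces of a close pair. -/
theorem as_piece {M N : VN H} {δ : ℝ} (hδ : 0 ≤ δ) (h : Cl M N δ) {S : Set (Op H)} (hS : S.Countable)
    {F : Set H} (hF : F.Countable) : ∃ (K : Submodule ℂ H) (_ : CompleteSpace K) (M₀ N₀ : VN K),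
      TopologicalSpace.SeparableSpace K ∧ F ⊆ K ∧ Cl M₀ N₀ (2 * δ) ∧ ∀ x ∈ S,
        (∀ ξ ∈ K, x ξ ∈ K) ∧ (x ∈ M → asC K x ∈ M₀) ∧ (x ∈ N.commutant → asC K x ∈ N₀.commutant) := by
  obtain ⟨Q, hQc, hQ⟩ := TopologicalSpace.exists_countable_dense ℂ
  choose! l₁ hl₁ hl₁' using h.1
  choose! l₂ hl₂ hl₂' using h.2
  obtain ⟨D, hDc, hSD, hD⟩ := as_closure (fun a b : Op H => {a + b, a * b, star a, l₁ a, l₂ a})
    (fun a b => (Set.toFinite _).countable)
    ((hS.union (hQc.image (algebraMap ℂ (Op H)))).insert 1)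
  have hD' : ∀ a ∈ D, ∀ b ∈ D, a + b ∈ D ∧ a * b ∈ D ∧ star a ∈ D := fun a ha b hb =>
    ⟨hD a ha b hb (by simp), hD a ha b hb (by simp), hD a ha b hb (by simp)⟩
  have hQD : ∀ q ∈ Q, algebraMap ℂ (Op H) q ∈ D := fun q hq =>
    hSD (Or.inr (Or.inr ⟨q, hq, rfl⟩))
  obtain ⟨A, hA⟩ := as_alg hD' hQ hQD M
  obtain ⟨B, hB⟩ := as_alg hD' hQ hQD N
  let K := (Submodule.span ℂ (image2 (fun (d : Op H) ξ => d ξ) D F)).topologicalClosure
  have hK : ∀ d ∈ D, ∀ ξ ∈ K, d ξ ∈ K := fun d hd ξ hξ =>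
    map_mem_closure d.continuous hξ fun ζ hζ => Submodule.span_induction
      (p := fun ζ _ => d ζ ∈ Submodule.span ℂ (image2 (fun (d : Op H) ξ => d ξ) D F))
      (by
        rintro _ ⟨e, he, ζ, hζ, rfl⟩
        exact Submodule.subset_span ⟨d * e, (hD' d hd e he).2.1, ζ, hζ, rfl⟩)
      (by simp) (fun _ _ _ _ h1 h2 => by rw [map_add]; exact add_mem h1 h2)
      (fun c _ _ h1 => by rw [map_smul]; exact Submodule.smul_mem _ c h1) hζ
  have hK' : ∀ P : VN H, ∀ a ∈ closure (D ∩ P), ∀ ξ ∈ K, a ξ ∈ K := fun P a ha ξ hξ =>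
    (Submodule.isClosed_topologicalClosure _).closure_subset
      (map_mem_closure (f := fun a : Op H => a ξ) (by fun_prop) ha fun d hd => hK d hd.1 ξ hξ)
  have hAK : ∀ a ∈ A, ∀ ξ ∈ K, a ξ ∈ K := fun a ha => hK' M a (hA ▸ ha)
  have hBK : ∀ a ∈ B, ∀ ξ ∈ K, a ξ ∈ K := fun a ha => hK' N a (hB ▸ ha)
  haveI : IsClosed (A : Set (Op H)) := hA ▸ isClosed_closure
  haveI : IsClosed (B : Set (Op H)) := hB ▸ isClosed_closure
  have mem : ∀ (A : StarSubalgebra ℂ (Op H)) (hAK : ∀ a ∈ A, ∀ ξ ∈ K, a ξ ∈ K), ∀ a ∈ A,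
      asC K a ∈ (cent (range (asRho A hAK))).commutant := fun A hAK a ha =>
    VonNeumannAlgebra.mem_commutant_iff.2 fun g hg => ((as_mem_cent.1 hg) _ ⟨⟨a, ha⟩, rfl⟩).1.symm
  refine ⟨K, inferInstance, (cent (range (asRho A hAK))).commutant,
    (cent (range (asRho B hBK))).commutant, ?_, fun ξ hξ => ?_, ⟨?_, ?_⟩, fun x hx => ⟨?_, ?_, ?_⟩⟩
  · exact ((hDc.image2 hF _).isSeparable.span (R := ℂ)).closure.separableSpace
  · exact Submodule.le_topologicalClosure _ (Submodule.subset_span ⟨1, hSD (Or.inl rfl), ξ, hξ, rfl⟩)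
  · refine as_near _ _ hδ fun a ε hε => ?_
    obtain ⟨b, hb, hab⟩ := as_lift (N := N) hδ (fun a ha => ⟨l₁ a, ⟨hD a ha.1 a ha.1 (by simp),
      hl₁ a ha.2⟩, hl₁' a ha.2⟩) (hA ▸ a.2 : (a : Op H) ∈ closure (D ∩ M)) hε
    refine ⟨asC K b, mem B hBK b (by rw [← SetLike.mem_coe, hB]; exact subset_closure hb), ?_⟩
    exact (congrArg norm (asC_sub (K := K) (a : Op H) b).symm).trans_le ((asC_norm _).trans hab)
  · refine as_near _ _ hδ fun a ε hε => ?_
    obtain ⟨b, hb, hab⟩ := as_lift (N := M) hδ (fun a ha => ⟨l₂ a, ⟨hD a ha.1 a ha.1 (by simp),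
      hl₂ a ha.2⟩, hl₂' a ha.2⟩) (hB ▸ a.2 : (a : Op H) ∈ closure (D ∩ N)) hε
    refine ⟨asC K b, mem A hAK b (by rw [← SetLike.mem_coe, hA]; exact subset_closure hb), ?_⟩
    exact (congrArg norm (asC_sub (K := K) (a : Op H) b).symm).trans_le ((asC_norm _).trans hab)
  · exact hK x (hSD (Or.inr (Or.inl hx)))
  · exact fun hM => mem A hAK x (by
      rw [← SetLike.mem_coe, hA]; exact subset_closure ⟨hSD (Or.inr (Or.inl hx)), hM⟩)
  · intro hN
    have key : ∀ b : B, asRho B hBK b * asC K x = asC K x * asRho B hBK b := fun b => by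
      have hb : (b : Op H) ∈ N :=
        closure_minimal inter_subset_right (as_closed N) (hB ▸ b.2 : (b : Op H) ∈ closure (D ∩ N))
      change asC K b * asC K x = asC K x * asC K b
      rw [← asC_mul _ (hK x (hSD (Or.inr (Or.inl hx)))), ← asC_mul _ (hBK _ b.2),
        VonNeumannAlgebra.mem_commutant_iff.1 hN _ hb]
    rw [VonNeumannAlgebra.commutant_commutant, as_mem_cent]
    rintro _ ⟨b, rfl⟩
    exact ⟨key b, by rw [← map_star]; exact key _⟩

theorem as_expr (k x y : Op H) (η ξ : H) : ⟪η, (cm x y + cm (cm k x) y) ξ⟫_ℂ = ⟪η, cm x y ξ⟫_ℂ +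
    (⟪η, k (x (y ξ))⟫_ℂ - ⟪star x η, k (y ξ)⟫_ℂ -
      (⟪star y η, k (x ξ)⟫_ℂ - ⟪star x (star y η), k ξ⟫_ℂ)) := by
  simp only [← as_adj, cm, ContinuousLinearMap.add_apply, ContinuousLinearMap.sub_apply,
    ContinuousLinearMap.mul_apply, inner_add_right, inner_sub_right, map_sub]

universe u

theorem good_all (h : GoodOn Cls.sep.{u}) : GoodOn Cls.all.{u} := by
  classical
  obtain ⟨C, δ₀, h0, h⟩ := h
  refine ⟨4 * |C|, δ₀ / 2, half_pos h0, fun H _ _ _ M N δ _ hδ hδ' hc => ?_⟩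
  have loc : ∀ q : Finset (Op H) × Finset H, ∃ k : Op H, ‖k‖ ≤ 4 * |C| * δ ∧ ∀ x ∈ q.1, ∀ y ∈ q.1,
      ∀ η ∈ q.2, ∀ ξ ∈ q.2, x ∈ M → y ∈ N.commutant →
      ‖⟪η, (cm x y + cm (cm k x) y) ξ⟫_ℂ‖ ≤ 4 * |C| * δ ^ 2 * ‖x‖ * ‖y‖ * ‖η‖ * ‖ξ‖ := by
    intro q
    obtain ⟨K, _, M₀, N₀, hsep, hF, hcl, hS⟩ := as_piece hδ hc q.1.countable_toSet q.2.countable_toSet
    obtain ⟨k, hk, hns⟩ := h K M₀ N₀ _ hsep (by positivity) (by linarith) hcl
    have hC := le_abs_self C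
    have hC0 := abs_nonneg C
    let k' : Op H := K.subtypeL ∘L k ∘L K.orthogonalProjection
    have i1 : ∀ ξ ∈ K, k' ξ ∈ K := fun ξ _ => (k (K.orthogonalProjection ξ)).2
    have e1 : asC K k' = k := ContinuousLinearMap.ext fun ξ => Subtype.ext (by
      rw [asC_coe i1]
      exact congrArg (fun ζ => ((k ζ : K) : H)) (K.orthogonalProjection_mem_subspace_eq_self ξ))
    refine ⟨k', ContinuousLinearMap.opNorm_le_bound _ (by positivity) fun ξ => ?_,
      fun x hx y hy η hη ξ hξ hM hN => ?_⟩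
    · refine (k.le_opNorm (K.orthogonalProjection ξ)).trans (mul_le_mul (hk.trans ?_)
        (K.norm_orthogonalProjection_apply_le ξ) (norm_nonneg _) (by positivity))
      nlinarith [mul_le_mul_of_nonneg_right hC hδ, mul_nonneg hC0 hδ]
    obtain ⟨i2, m2, -⟩ := hS x hx
    obtain ⟨i3, -, m3⟩ := hS y hy
    have i4 : ∀ ξ ∈ K, cm k' x ξ ∈ K := fun ξ hξ => sub_mem (i1 _ (i2 _ hξ)) (i2 _ (i1 _ hξ))
    have e2 : asC K (cm x y + cm (cm k' x) y) =
        cm (asC K x) (asC K y) + cm (cm k (asC K x)) (asC K y) := by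
      rw [asC_add, cm, cm, asC_sub, asC_sub, asC_mul _ i2, asC_mul _ i3, asC_mul _ i3, asC_mul _ i4,
        cm, asC_sub, asC_mul _ i1, asC_mul _ i2, e1]
      rfl
    have a1 := as_inner_le (asC K (cm x y + cm (cm k' x) y)) ⟨η, hF hη⟩ ⟨ξ, hF hξ⟩
    rw [asC_inner, e2] at a1
    refine a1.trans (mul_le_mul_of_nonneg_right (mul_le_mul_of_nonneg_right
      ((hns _ (m2 hM) _ (m3 hN)).trans ?_) (norm_nonneg η)) (norm_nonneg ξ))
    refine mul_le_mul (mul_le_mul ?_ (asC_norm x) (norm_nonneg _) (by positivity)) (asC_norm y)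
      (norm_nonneg _) (by positivity)
    nlinarith [mul_le_mul_of_nonneg_right hC (sq_nonneg δ)]
  choose k hk1 hk2 using loc
  let U : Ultrafilter (Finset (Op H) × Finset H) := Ultrafilter.of atTop
  have hU : (U : Filter (Finset (Op H) × Finset H)) ≤ atTop := Ultrafilter.of_le _
  obtain ⟨z, hz1, hz⟩ := as_ultra U k hk1
  refine ⟨z, hz1, fun x hx y hy => as_norm_le (by positivity) fun η ξ => ?_⟩
  have h1 : Tendsto (fun q => ⟪η, (cm x y + cm (cm (k q) x) y) ξ⟫_ℂ) U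
      (𝓝 ⟪η, (cm x y + cm (cm z x) y) ξ⟫_ℂ) := by
    simp only [as_expr]
    exact (((hz _ _).sub (hz _ _)).sub ((hz _ _).sub (hz _ _))).const_add _
  refine le_of_tendsto h1.norm ?_
  filter_upwards [hU (eventually_ge_atTop ({x, y}, {η, ξ}))] with q hq
  exact hk2 q x (hq.1 (by simp)) y (hq.1 (by simp)) η (hq.2 (by simp)) ξ (hq.2 (by simp)) hx hy

end Crest.Agent.R078
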