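import Crest.Agent.R078.AStdAux
import Crest.Agent.R078.ADist

/-! Row 78, S0103: reduction to standard form. -/

set_option autoImplicit false

namespace Crest.Agent.R078

universe u

theorem good_sep (h : GoodOn (Cls.std.{u} False)) : GoodOn Cls.sep.{u} := by
  obtain ⟨D, hD, hn⟩ := ad_near_commutant.{u}
  exact astd_good ⟨D, 1, one_pos, hD, fun H _ _ _ M N δ h0 _ hc =>
    ⟨hn H N M δ h0 hc.2, hn H M N δ h0 hc.1⟩⟩ h

end Crest.Agent.R078
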