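import Crest.Agent.R078.AAmp

/-! Row 78, S0103: cyclic and separating vectors after amplification. -/

set_option autoImplicit false

open scoped InnerProductSpace

namespace Crest.Agent.R078

open Crest.Agent.R078X (Leg Res)
open Filter Topology

variable {H : Type*} [NormedAddCommGroup H] [InnerProductSpace ℂ H] [CompleteSpace H]

theorem astd_dense {Γ : Type*} [Group Γ] [Infinite Γ] (L : Leg Γ H) {A : VN H}
    (hf : ∀ g, L.f g ∈ A) (hl : ∀ g, L.lam g ∈ A) (η : H) {r : ℝ} (hr : 0 < r) :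
    Dense {ξ : H | ∃ a ∈ A, ‖a ξ - η‖ < r} := by
  rw [Metric.dense_iff]
  intro ξ ε hε
  obtain ⟨F, hF⟩ := (Metric.tendsto_nhds.1 (L.res.sum η) (r / 2) (by positivity)).exists
  rw [dist_eq_norm] at hF
  set t : ℝ := ε / (‖η‖ + 1) with ht
  have ht0 : 0 < t := by positivity
  have htc : (t : ℂ) ≠ 0 := by exact_mod_cast ht0.ne'
  have h1 : ∀ g, Tendsto (fun s => L.f g (L.lam s⁻¹ ξ)) cofinite (𝓝 0) := fun g => by
    have h2 : Tendsto (fun s => L.f (s * g) ξ) cofinite (𝓝 0) :=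
      (L.res.sum ξ).summable.tendsto_cofinite_zero.comp (mul_left_injective g).tendsto_cofinite
    rw [tendsto_zero_iff_norm_tendsto_zero] at h2 ⊢
    refine h2.congr fun s => ?_
    rw [← ContinuousLinearMap.mul_apply, L.f_lam, inv_inv, ContinuousLinearMap.mul_apply,
      R078X.rep_norm_apply L.star_lam]
  have h2 : Tendsto (fun s => (t : ℂ)⁻¹ • ∑ g ∈ F, L.f g (L.lam s⁻¹ ξ)) cofinite (𝓝 0) := by
    simpa using (tendsto_finset_sum F fun g _ => h1 g).const_smul (t : ℂ)⁻¹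
  obtain ⟨s, hs⟩ := (Metric.tendsto_nhds.1 h2 (r / 2) (by positivity)).exists
  rw [dist_zero_right] at hs
  refine ⟨ξ + (t : ℂ) • L.lam s η, ?_, (t : ℂ)⁻¹ • ((∑ g ∈ F, L.f g) * L.lam s⁻¹), ?_, ?_⟩
  · rw [Metric.mem_ball, dist_eq_norm, add_sub_cancel_left, norm_smul,
      R078X.rep_norm_apply L.star_lam, Complex.norm_real, Real.norm_of_nonneg ht0.le, ht,
      div_mul_eq_mul_div, div_lt_iff₀ (by positivity)]
    nlinarith
  · exact A.toStarSubalgebra.smul_mem (mul_mem (sum_mem fun g _ => hf g) (hl _)) _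
  · have e : ((t : ℂ)⁻¹ • ((∑ g ∈ F, L.f g) * L.lam s⁻¹)) (ξ + (t : ℂ) • L.lam s η) - η =
        (t : ℂ)⁻¹ • ∑ g ∈ F, L.f g (L.lam s⁻¹ ξ) + (∑ g ∈ F, L.f g η - η) := by
      have h3 : L.lam s⁻¹ (L.lam s η) = η := by
        rw [← ContinuousLinearMap.mul_apply, ← map_mul, inv_mul_cancel, map_one,
          ContinuousLinearMap.one_apply]
      rw [ContinuousLinearMap.smul_apply, ContinuousLinearMap.mul_apply, map_add, map_smul, h3,
        map_add, map_smul, smul_add, inv_smul_smul₀ htc, ContinuousLinearMap.sum_apply,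
        ContinuousLinearMap.sum_apply, add_sub_assoc]
    rw [e]
    exact (norm_add_le _ _).trans_lt (by linarith)

/-- An algebra containing a leg over an infinite group has a residual set of cyclic vectors. -/
theorem astd_residual [TopologicalSpace.SeparableSpace H] {Γ : Type*} [Group Γ] [Infinite Γ]
    (L : Leg Γ H) {A : VN H} (hf : ∀ g, L.f g ∈ A) (hl : ∀ g, L.lam g ∈ A) :
    ∀ᶠ ξ in residual H, Cyc A ξ := by
  obtain ⟨s, hs, hd⟩ := TopologicalSpace.exists_countable_dense H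
  have h1 : ∀ᶠ ξ in residual H, ∀ η ∈ s, ∀ n : ℕ, ∃ a ∈ A, ‖a ξ - η‖ < 1 / ((n : ℝ) + 1) := by
    refine (eventually_countable_ball hs).2 fun η _ => eventually_countable_forall.2 fun n => ?_
    refine residual_of_dense_open ?_ (astd_dense L hf hl η (by positivity))
    have : {ξ : H | ∃ a ∈ A, ‖a ξ - η‖ < 1 / ((n : ℝ) + 1)} =
        ⋃ a ∈ A, {ξ : H | ‖a ξ - η‖ < 1 / ((n : ℝ) + 1)} := by
      ext ξ; simp
    rw [this]
    exact isOpen_biUnion fun a _ => isOpen_lt (by fun_prop) continuous_const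
  filter_upwards [h1] with ξ hξ
  rw [Cyc, Metric.dense_iff]
  intro ζ ε hε
  obtain ⟨η, hη, hηs⟩ := Metric.dense_iff.1 hd ζ (ε / 2) (by positivity)
  obtain ⟨n, hn⟩ := exists_nat_one_div_lt (show 0 < ε / 2 by positivity)
  obtain ⟨a, ha, h⟩ := hξ η hηs n
  refine ⟨a ξ, ?_, ⟨a, ha⟩, rfl⟩
  rw [Metric.mem_ball] at hη ⊢
  rw [← dist_eq_norm] at h
  linarith [dist_triangle (a ξ) η ζ]

theorem astd_cyc_smul {A : VN H} {ξ : H} (h : Cyc A ξ) {c : ℂ} (hc : c ≠ 0) : Cyc A (c • ξ) := by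
  refine Dense.mono ?_ h
  rintro _ ⟨⟨a, ha⟩, rfl⟩
  exact ⟨⟨c⁻¹ • a, A.toStarSubalgebra.smul_mem ha _⟩, by simp [smul_smul, hc]⟩

theorem astd_cycSep [TopologicalSpace.SeparableSpace H] [Nontrivial H] {Γ Γ' : Type*} [Group Γ]
    [Infinite Γ] [Group Γ'] [Infinite Γ'] (L : Leg Γ H) (L' : Leg Γ' H) {A : VN H}
    (hf : ∀ g, L.f g ∈ A) (hl : ∀ g, L.lam g ∈ A) (hf' : ∀ g, L'.f g ∈ A.commutant)
    (hl' : ∀ g, L'.lam g ∈ A.commutant) : ∃ ξ, CycSep A ξ := by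
  obtain ⟨ξ, h1, h2⟩ :=
    (dense_of_mem_residual ((astd_residual L hf hl).and (astd_residual L' hf' hl'))).nonempty
  have h0 : ξ ≠ 0 := by
    rintro rfl
    obtain ⟨ζ, hζ⟩ := exists_ne (0 : H)
    obtain ⟨_, h3, a, rfl⟩ := Metric.dense_iff.1 h1 ζ ‖ζ‖ (norm_pos_iff.2 hζ)
    simp at h3
  have hc : ((‖ξ‖ : ℂ))⁻¹ ≠ 0 := inv_ne_zero (by exact_mod_cast norm_ne_zero_iff.2 h0)
  exact ⟨_, norm_smul_inv_norm h0, astd_cyc_smul h1 hc, astd_cyc_smul h2 hc⟩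

theorem astd_mono {M N : VN H} {κ ε κ' ε' : ℝ} (h : NS M N κ ε) (h1 : κ ≤ κ') (h2 : ε ≤ ε') :
    NS M N κ' ε' := by
  obtain ⟨k, hk, h⟩ := h
  exact ⟨k, hk.trans h1, fun x hx y hy => (h x hx y hy).trans (by gcongr)⟩

universe u

theorem astd_good
    (hnc : ∃ D δ₁ : ℝ, 0 < δ₁ ∧ 0 ≤ D ∧ ∀ (H : Type u) [NormedAddCommGroup H] [InnerProductSpace ℂ H]
      [CompleteSpace H] (M N : VN H) (δ : ℝ), 0 ≤ δ → δ ≤ δ₁ → Cl M N δ →
        Cl M.commutant N.commutant (D * δ))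
    (h : GoodOn (Cls.std.{u} False)) : GoodOn Cls.sep.{u} := by
  obtain ⟨D, δ₁, hδ₁, hD, hnc⟩ := hnc
  obtain ⟨C, δ₀, hδ₀, h⟩ := h
  refine ⟨|C| * (D ^ 2 + D ^ 4), min (δ₁ / (D + 1)) (δ₀ / (D ^ 2 + 1)),
    lt_min (by positivity) (by positivity), fun H _ _ _ M N δ hsep h0 hδ hcl => ?_⟩
  have hs : TopologicalSpace.SeparableSpace H := hsep
  have ha : δ * (D + 1) ≤ δ₁ := (le_div_iff₀ (by positivity)).1 (hδ.trans (min_le_left _ _))
  have hb : δ * (D ^ 2 + 1) ≤ δ₀ := (le_div_iff₀ (by positivity)).1 (hδ.trans (min_le_right _ _))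
  rcases subsingleton_or_nontrivial H with hH | hH
  · refine ⟨0, by rw [norm_zero]; positivity, fun x _ y _ => ?_⟩
    rw [Subsingleton.elim (cm x y + cm (cm 0 x) y) 0, norm_zero]
    positivity
  obtain ⟨A₁⟩ := exists_amp (Multiplicative ℤ) H
  obtain ⟨A₂⟩ := exists_amp (Multiplicative ℤ) (LL (Multiplicative ℤ) H)
  have hs₁ := A₁.separable
  have hs₂ := A₂.separable
  have hnt : Nontrivial (LL (Multiplicative ℤ) (LL (Multiplicative ℤ) H)) := by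
    obtain ⟨η, hη⟩ := exists_ne (0 : H)
    refine ⟨A₂.V (A₁.V η), 0, norm_ne_zero_iff.1 ?_⟩
    rw [A₂.norm_V, A₁.norm_V]
    exact norm_ne_zero_iff.2 hη
  have c1 := A₁.cl_img (hnc H M N δ h0 (by nlinarith) hcl)
  have c2 : Cl (A₁.tens M) (A₁.tens N) (D * (D * δ)) :=
    hnc _ _ _ _ (mul_nonneg hD h0) (by nlinarith) c1
  obtain ⟨ξ, hξ⟩ := astd_cycSep (A := A₂.img (A₁.tens M)) (A₂.mapLeg A₁.L) A₂.L
    (fun g => A₂.ι_mem_img.2 (A₁.f_mem_tens M g)) (fun g => A₂.ι_mem_img.2 (A₁.lam_mem_tens M g))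
    (fun g => A₂.img_commutant _ ▸ A₂.f_mem_tens _ g)
    (fun g => A₂.img_commutant _ ▸ A₂.lam_mem_tens _ g)
  have n2 := h _ _ _ _ ⟨hs₂, ξ, hξ, False.elim⟩ (by positivity) (by nlinarith) (A₂.cl_img c2)
  have n1 := A₂.ns_desc (M := A₁.tens M) (N := A₁.tens N) (fun x hx => A₂.ι_mem_img.2 hx)
    (fun y hy => A₂.img_commutant _ ▸ A₂.ι_mem_tens.2 hy) n2
  have n0 := A₁.ns_desc (M := M) (N := N) (fun x hx => A₁.ι_mem_tens.2 hx)
    (fun y hy => A₁.tens_commutant _ ▸ A₁.ι_mem_img.2 hy) n1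
  have hC := le_abs_self C
  refine astd_mono n0 ?_ ?_
  · calc C * (D * (D * δ)) ≤ |C| * (D * (D * δ)) := by gcongr
      _ = |C| * D ^ 2 * δ := by ring
      _ ≤ |C| * (D ^ 2 + D ^ 4) * δ := by gcongr; exact le_add_of_nonneg_right (by positivity)
  · calc C * (D * (D * δ)) ^ 2 ≤ |C| * (D * (D * δ)) ^ 2 := by gcongr
      _ = |C| * D ^ 4 * δ ^ 2 := by ring
      _ ≤ |C| * (D ^ 2 + D ^ 4) * δ ^ 2 := by gcongr; exact le_add_of_nonneg_left (by positivity)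

end Crest.Agent.R078
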