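import Crest.Agent.R078.BBasic2

/-! Row 78: elementary facts on von Neumann algebras, near inclusions and conjugations. -/

set_option autoImplicit false

open scoped InnerProductSpace ComplexConjugate
open Filter Topology

namespace Crest.Agent.R078

open Crest.Agent.R121 (Mn Bd)
open Crest.Agent.R124 (ex)
open Crest.OpAlg

universe u

variable {H : Type*} [NormedAddCommGroup H] [InnerProductSpace ℂ H] [CompleteSpace H]

variable {A B C M N : VN H} {x y u v : Op H} {ξ : H}
/-! ### Conjugate linear involutions -/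

section jc

variable {J : H ≃ₗᵢ⋆[ℂ] H}

omit [CompleteSpace H] in
theorem inner_J (J : H ≃ₗᵢ⋆[ℂ] H) (η ζ : H) : ⟪J η, J ζ⟫_ℂ = ⟪ζ, η⟫_ℂ := by
  have hre : ∀ a b : H, (⟪J a, J b⟫_ℂ).re = (⟪a, b⟫_ℂ).re := by
    intro a b
    have h1 := re_inner_eq_norm_add_mul_self_sub_norm_sub_mul_self_div_four (𝕜 := ℂ) (J a) (J b)
    have h2 := re_inner_eq_norm_add_mul_self_sub_norm_sub_mul_self_div_four (𝕜 := ℂ) a b
    rw [← map_add, ← map_sub, J.norm_map, J.norm_map, ← h2] at h1
    exact h1
  rw [← inner_conj_symm ζ η]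
  refine Complex.ext (by rw [hre, Complex.conj_re]) ?_
  have h := hre η (Complex.I • ζ)
  rw [map_smulₛₗ, inner_smul_right, inner_smul_right] at h
  simp only [Complex.conj_I, Complex.mul_re, Complex.neg_re, Complex.I_re, Complex.neg_im,
    Complex.I_im] at h
  rw [Complex.conj_im]
  linarith

omit [CompleteSpace H] in
theorem inner_J_left (hJ : ∀ η, J (J η) = η) (η ζ : H) : ⟪J η, ζ⟫_ℂ = ⟪J ζ, η⟫_ℂ := by
  conv_lhs => rw [← hJ ζ, inner_J]

omit [CompleteSpace H] in
theorem jc_mul (hJ : ∀ η, J (J η) = η) (x y : Op H) : jc J (x * y) = jc J x * jc J y := by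
  ext η; simp [hJ]

omit [CompleteSpace H] in
theorem jc_one (hJ : ∀ η, J (J η) = η) : jc J (1 : Op H) = 1 := by
  ext η; simp [hJ]

omit [CompleteSpace H] in
theorem jc_jc (hJ : ∀ η, J (J η) = η) (x : Op H) : jc J (jc J x) = x := by
  ext η; simp [hJ]

omit [CompleteSpace H] in
theorem jc_add (x y : Op H) : jc J (x + y) = jc J x + jc J y := by
  ext η; simp

omit [CompleteSpace H] in
theorem jc_sub (x y : Op H) : jc J (x - y) = jc J x - jc J y := by
  ext η; simp

omit [CompleteSpace H] in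
theorem jc_zero : jc J (0 : Op H) = 0 := by
  ext η; simp

omit [CompleteSpace H] in
theorem jc_smul (c : ℂ) (x : Op H) : jc J (c • x) = conj c • jc J x := by
  ext η; simp [map_smulₛₗ]

omit [CompleteSpace H] in
theorem jc_real_smul (c : ℝ) (x : Op H) : jc J (c • x) = c • jc J x := by
  rw [← Complex.coe_smul, jc_smul, Complex.conj_ofReal, Complex.coe_smul]

omit [CompleteSpace H] in
theorem jc_sum {ι : Type*} (s : Finset ι) (f : ι → Op H) :
    jc J (∑ i ∈ s, f i) = ∑ i ∈ s, jc J (f i) := by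
  ext η; simp [map_sum]

omit [CompleteSpace H] in
theorem norm_jc (x : Op H) : ‖jc J x‖ = ‖x‖ := by
  refine le_antisymm (ContinuousLinearMap.opNorm_le_bound _ (norm_nonneg _) fun η => ?_)
    (ContinuousLinearMap.opNorm_le_bound _ (norm_nonneg _) fun η => ?_)
  · rw [jc_apply, J.norm_map, ← J.norm_map η]
    exact x.le_opNorm _
  · have := (jc J x).le_opNorm (J.symm η)
    rwa [jc_apply, J.norm_map, J.apply_symm_apply, J.symm.norm_map] at this

theorem jc_star (hJ : ∀ η, J (J η) = η) (x : Op H) : jc J (star x) = star (jc J x) := by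
  rw [ContinuousLinearMap.star_eq_adjoint (jc J x), ContinuousLinearMap.eq_adjoint_iff]
  intro η ζ
  rw [jc_apply, jc_apply, inner_J_left hJ, ContinuousLinearMap.star_eq_adjoint,
    ContinuousLinearMap.adjoint_inner_right]
  conv_rhs => rw [← hJ η, inner_J]

theorem jc_unitary (hJ : ∀ η, J (J η) = η) (hu : u ∈ unitary (Op H)) :
    jc J u ∈ unitary (Op H) := by
  obtain ⟨h1, h2⟩ := Unitary.mem_iff.1 hu
  refine Unitary.mem_iff.2 ⟨?_, ?_⟩
  · rw [← jc_star hJ, ← jc_mul hJ, h1, jc_one hJ]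
  · rw [← jc_star hJ, ← jc_mul hJ, h2, jc_one hJ]

/-- `jc J` as a real star algebra automorphism. -/
noncomputable def BBasic_eqv (hJ : ∀ η, J (J η) = η) : Op H ≃⋆ₐ[ℝ] Op H where
  toFun := jc J
  invFun := jc J
  left_inv := jc_jc hJ
  right_inv := jc_jc hJ
  map_mul' := jc_mul hJ
  map_add' := jc_add
  map_star' := jc_star hJ
  map_smul' := jc_real_smul

theorem jc_inverse (hJ : ∀ η, J (J η) = η) (x : Op H) :
    jc J (Ring.inverse x) = Ring.inverse (jc J x) := by
  by_cases hx : IsUnit x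
  · symm
    have h1 : jc J x * jc J (Ring.inverse x) = 1 := by
      rw [← jc_mul hJ, Ring.mul_inverse_cancel _ hx, jc_one hJ]
    have h2 : jc J (Ring.inverse x) * jc J x = 1 := by
      rw [← jc_mul hJ, Ring.inverse_mul_cancel _ hx, jc_one hJ]
    exact Ring.inverse_unit ⟨_, _, h1, h2⟩
  · have h : ¬ IsUnit (jc J x) := fun h => hx (by
      have := h.map (BBasic_eqv hJ)
      rwa [show BBasic_eqv hJ (jc J x) = x from jc_jc hJ x] at this)
    rw [Ring.inverse_non_unit _ hx, Ring.inverse_non_unit _ h, jc_zero]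

/-- Polynomial approximation, or uniqueness of the real functional calculus. -/
theorem jc_cfc (hJ : ∀ η, J (J η) = η) (f : ℝ → ℝ) (x : Op H) :
    jc J (cfc f x) = cfc f (jc J x) := by
  have hsa : ∀ y : Op H, IsSelfAdjoint y → IsSelfAdjoint (jc J y) := fun y hy => by
    rw [IsSelfAdjoint, ← jc_star hJ, hy.star_eq]
  have hsp : spectrum ℝ (jc J x) = spectrum ℝ x := AlgEquiv.spectrum_eq (BBasic_eqv hJ) x
  have hc : Continuous (BBasic_eqv hJ) :=
    (AddMonoidHomClass.isometry_of_norm (BBasic_eqv hJ) fun y => norm_jc y).continuous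
  by_cases hx : IsSelfAdjoint x
  · by_cases hf : ContinuousOn f (spectrum ℝ x)
    · exact StarAlgHomClass.map_cfc (S := ℝ) (BBasic_eqv hJ) f x hf hc hx (hsa x hx)
    · rw [cfc_apply_of_not_continuousOn x hf, cfc_apply_of_not_continuousOn _ (hsp ▸ hf), jc_zero]
  · have h : ¬ IsSelfAdjoint (jc J x) := fun h => hx (by simpa only [jc_jc hJ] using hsa _ h)
    rw [cfc_apply_of_not_predicate x hx, cfc_apply_of_not_predicate _ h, jc_zero]

end jc

end Crest.Agent.R078
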