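import Crest.Agent.R078.Defs

/-! Row 78: elementary facts on von Neumann algebras, near inclusions and conjugations. -/

set_option autoImplicit false

open scoped InnerProductSpace ComplexConjugate
open Filter Topology

namespace Crest.Agent.R078

open Crest.Agent.R121 (Mn Bd)
open Crest.Agent.R124 (ex)
open Crest.OpAlg

universe u

variable {H : Type*} [NormedAddCommGroup H] [InnerProductSpace ℂ H] [CompleteSpace H]

variable {A B C M N : VN H} {x y u v : Op H} {ξ : H}

/-! ### Commutants -/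

theorem mem_cent {S : Set (Op H)} : x ∈ cent S ↔ ∀ s ∈ S, Commute x s ∧ Commute x (star s) := by
  refine (StarSubalgebra.mem_centralizer_iff ℂ (s := S) (z := x)).trans ?_
  exact forall₂_congr fun s _ => ⟨fun h => ⟨h.1.symm, h.2.symm⟩, fun h => ⟨h.1.eq.symm, h.2.eq.symm⟩⟩

theorem mem_comm : y ∈ M.commutant ↔ ∀ x ∈ M, Commute x y := by
  exact VonNeumannAlgebra.mem_commutant_iff

theorem commute_of_mem (hx : x ∈ M) (hy : y ∈ M.commutant) : Commute x y := by
  exact mem_comm.1 hy x hx

theorem mem_of_commute (h : ∀ y ∈ M.commutant, Commute x y) : x ∈ M := by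
  rw [← M.commutant_commutant, mem_comm]
  exact fun y hy => (h y hy).symm

theorem mem_cent_commutant {S : Set (Op H)} (hx : x ∈ S) : x ∈ (cent S).commutant := by
  exact mem_comm.2 fun y hy => (mem_cent.1 hy x hx).1

theorem cent_coe (M : VN H) : cent (M : Set (Op H)) = M.commutant := by
  ext y
  rw [mem_cent, mem_comm]
  exact ⟨fun h x hx => (h x hx).1.symm,
    fun h x hx => ⟨(h x hx).symm, (h _ (star_mem (show x ∈ M from hx))).symm⟩⟩

theorem commutant_anti (h : ∀ x ∈ A, x ∈ B) : ∀ y ∈ B.commutant, y ∈ A.commutant := by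
  exact fun y hy => mem_comm.2 fun x hx => commute_of_mem (h x hx) hy

theorem isClosed_vn (M : VN H) : IsClosed (M : Set (Op H)) := by
  have h : (M : Set (Op H)) = ⋂ y ∈ M.commutant, {x | x * y = y * x} := by
    ext x
    simp only [Set.mem_iInter, Set.mem_setOf_eq]
    exact ⟨fun hx y hy => commute_of_mem hx hy, fun h => mem_of_commute h⟩
  rw [h]
  exact isClosed_biInter fun y _ => isClosed_eq (by fun_prop) (by fun_prop)

/-- Weak limits. -/
theorem mem_of_weak_tendsto {ι : Type*} {l : Filter ι} [l.NeBot] {T : ι → Op H} {S : Op H}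
    (hT : ∀ᶠ i in l, T i ∈ M)
    (h : ∀ η ζ, Tendsto (fun i => ⟪η, T i ζ⟫_ℂ) l (𝓝 ⟪η, S ζ⟫_ℂ)) : S ∈ M := by
  refine mem_of_commute fun y hy => ?_
  refine ContinuousLinearMap.ext fun ζ => ext_inner_left ℂ fun η => ?_
  have h1 := h η (y ζ)
  have h2 := h (star y η) ζ
  have e : ∀ v : H, ⟪star y η, v⟫_ℂ = ⟪η, y v⟫_ℂ := fun v =>
    ContinuousLinearMap.adjoint_inner_left y v η
  simp only [e] at h2
  refine tendsto_nhds_unique_of_eventuallyEq h1 h2 (hT.mono fun i hi => ?_)
  exact congrArg (fun R : Op H => ⟪η, R ζ⟫_ℂ) (commute_of_mem hi hy).eq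

/-- `Commute.cfc_real`, `mem_of_commute`. -/
theorem cfc_real_mem (f : ℝ → ℝ) (hx : x ∈ M) : cfc f x ∈ M := by
  exact mem_of_commute fun y hy => Commute.cfc_real (commute_of_mem hx hy) f

theorem cfc_complex_mem (f : ℂ → ℂ) (hx : x ∈ M) : cfc f x ∈ M := by
  exact mem_of_commute fun y hy =>
    Commute.cfc (commute_of_mem hx hy) (commute_of_mem (star_mem hx) hy) f

theorem commute_inverse (h : Commute x y) : Commute x (Ring.inverse y) := by
  by_cases hy : IsUnit y
  · obtain ⟨w, rfl⟩ := hy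
    rw [Ring.inverse_unit]
    exact h.units_inv_right
  · rw [Ring.inverse_non_unit y hy]
    exact Commute.zero_right x

theorem inverse_mem (hx : x ∈ M) : Ring.inverse x ∈ M := by
  exact mem_of_commute fun y hy => (commute_inverse (commute_of_mem hx hy).symm).symm

theorem ex_mem {Ω : Type*} [Fintype Ω] {f : Ω → Op H} (h : ∀ ω, f ω ∈ M) : ex f ∈ M := by
  refine mem_of_commute fun y hy => ?_
  exact (Commute.sum_left _ _ _ fun ω _ => commute_of_mem (h ω) hy).smul_left _

theorem ex_apply {Ω : Type*} [Fintype Ω] (f : Ω → Op H) (η : H) :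
    ex f η = ex fun ω => f ω η := by
  simp [ex, ContinuousLinearMap.sum_apply]

/-- `CStarAlgebra.exists_sum_four_unitary` in the closed subalgebra, or directly
`a ± i (1 - a²)^{1/2}`. -/
theorem exists_four_unitary (hx : x ∈ M) : ∃ (u : Fin 4 → Op H) (c : Fin 4 → ℂ),
    (∀ i, u i ∈ M ∧ u i ∈ unitary (Op H)) ∧ (∀ i, ‖c i‖ ≤ ‖x‖ / 2) ∧ x = ∑ i, c i • u i := by
  haveI : IsClosed (M.toStarSubalgebra : Set (Op H)) := isClosed_vn M
  obtain ⟨u, c, h1, h2⟩ := CStarAlgebra.exists_sum_four_unitary (⟨x, hx⟩ : M.toStarSubalgebra)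
  refine ⟨fun i => (u i).1.1, c, fun i => ⟨(u i).1.2, ?_⟩, h2, ?_⟩
  · exact ⟨congrArg Subtype.val (u i).2.1, congrArg Subtype.val (u i).2.2⟩
  · simpa using congrArg Subtype.val h1

theorem mem_of_commute_unitary (h : ∀ y ∈ M.commutant, y ∈ unitary (Op H) → Commute x y) :
    x ∈ M := by
  refine mem_of_commute fun y hy => ?_
  obtain ⟨u, c, h1, -, rfl⟩ := exists_four_unitary hy
  exact Commute.sum_right _ _ _ fun i _ => (h _ (h1 i).1 (h1 i).2).smul_right _

theorem Cen.commutant {c : Op H} : Cen M.commutant c ↔ Cen M c := by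
  rw [Cen, Cen, M.commutant_commutant, and_comm]

theorem Cen.commute {c : Op H} (hc : Cen M c) (hx : x ∈ M) : Commute x c := by
  exact commute_of_mem hx hc.2

theorem Cen.commute' {c : Op H} (hc : Cen M c) (hy : y ∈ M.commutant) : Commute y c := by
  exact (commute_of_mem hc.1 hy).symm

theorem Cen.star_mem {c : Op H} (hc : Cen M c) : Cen M (star c) := by
  exact ⟨StarMemClass.star_mem hc.1, StarMemClass.star_mem hc.2⟩

theorem Cen.mul {c d : Op H} (hc : Cen M c) (hd : Cen M d) : Cen M (c * d) := by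
  exact ⟨mul_mem hc.1 hd.1, mul_mem hc.2 hd.2⟩

theorem Cen.add {c d : Op H} (hc : Cen M c) (hd : Cen M d) : Cen M (c + d) := by
  exact ⟨add_mem hc.1 hd.1, add_mem hc.2 hd.2⟩

theorem Cen.sub {c d : Op H} (hc : Cen M c) (hd : Cen M d) : Cen M (c - d) := by
  exact ⟨sub_mem hc.1 hd.1, sub_mem hc.2 hd.2⟩

theorem Cen.smul {c : Op H} (hc : Cen M c) (t : ℂ) : Cen M (t • c) := by
  exact ⟨M.toStarSubalgebra.smul_mem hc.1 t, M.commutant.toStarSubalgebra.smul_mem hc.2 t⟩

theorem cen_one : Cen M 1 := by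
  exact ⟨one_mem _, one_mem _⟩

/-! ### Commutators -/

theorem cm_eq_zero : cm x y = 0 ↔ Commute x y := by
  exact sub_eq_zero

theorem norm_cm_le (x y : Op H) : ‖cm x y‖ ≤ 2 * ‖x‖ * ‖y‖ := by
  have h1 := norm_sub_le (x * y) (y * x)
  have h2 := norm_mul_le x y
  have h3 := norm_mul_le y x
  rw [cm]
  linarith

theorem star_cm (x y : Op H) : star (cm x y) = -cm (star x) (star y) := by
  simp only [cm, star_sub, star_mul, neg_sub]

/-- `[x, y] = [x - x', y]`. -/
theorem Near.norm_cm_le {δ : ℝ} (h : Near M N δ) (hx : x ∈ M) (hy : y ∈ N.commutant) :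
    ‖cm x y‖ ≤ 2 * δ * ‖x‖ * ‖y‖ := by
  obtain ⟨x', hx', h1⟩ := h x hx
  have h2 : cm x y = cm (x - x') y := by
    simp only [cm, sub_mul, mul_sub, (commute_of_mem hx' hy).eq]
    abel
  rw [h2]
  refine (R078.norm_cm_le _ _).trans ?_
  have := mul_le_mul_of_nonneg_right h1 (norm_nonneg y)
  linarith

/-! ### Conjugation -/

theorem mem_conjVN' (hu : u ∈ unitary (Op H)) : y ∈ conjVN u M ↔ star u * y * u ∈ M := by
  have h1 := Unitary.mul_star_self_of_mem hu
  have h2 := Unitary.star_mul_self_of_mem hu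
  have key : ∀ t : Op H, Commute y (u * t * star u) ↔ Commute (star u * y * u) t := fun t => by
    constructor
    · intro h
      calc star u * y * u * t = star u * (y * (u * t * star u)) * u := by
            simp only [mul_assoc, h2, mul_one]
        _ = t * (star u * y * u) := by
            rw [h.eq]
            simp only [← mul_assoc, h2, one_mul]
    · intro h
      calc y * (u * t * star u) = u * (star u * y * u * t) * star u := by
            simp only [← mul_assoc, h1, one_mul]
        _ = u * t * star u * y := by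
            rw [h.eq]
            simp only [mul_assoc, h1, mul_one]
  rw [conjVN, mem_cent]
  constructor
  · exact fun h => mem_of_commute fun t ht => (key t).1 (h _ ⟨t, ht, rfl⟩).1
  · rintro h _ ⟨t, ht, rfl⟩
    refine ⟨(key t).2 (commute_of_mem h ht), ?_⟩
    rw [star_mul, star_mul, star_star, ← mul_assoc]
    exact (key _).2 (commute_of_mem h (star_mem (show t ∈ M.commutant from ht)))

theorem mem_conjVN (hu : u ∈ unitary (Op H)) :
    y ∈ conjVN u M ↔ ∃ x ∈ M, y = u * x * star u := by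
  have h1 := Unitary.mul_star_self_of_mem hu
  have h2 := Unitary.star_mul_self_of_mem hu
  rw [mem_conjVN' hu]
  constructor
  · refine fun h => ⟨_, h, ?_⟩
    simp only [← mul_assoc, h1, one_mul]
    simp only [mul_assoc, h1, mul_one]
  · rintro ⟨x, hx, rfl⟩
    simp only [← mul_assoc, h2, one_mul]
    simpa only [mul_assoc, h2, mul_one] using hx

theorem conj_mem_conjVN (hu : u ∈ unitary (Op H)) (hx : x ∈ M) :
    u * x * star u ∈ conjVN u M := by
  exact (mem_conjVN hu).2 ⟨x, hx, rfl⟩

theorem commutant_conjVN (hu : u ∈ unitary (Op H)) :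
    (conjVN u M).commutant = conjVN u M.commutant := by
  have h : (fun y => u * y * star u) '' (M : Set (Op H)) = (conjVN u M : Set (Op H)) := by
    ext y
    exact ⟨fun ⟨x, hx, h⟩ => (mem_conjVN hu).2 ⟨x, hx, h.symm⟩,
      fun h => let ⟨x, hx, h⟩ := (mem_conjVN hu).1 h; ⟨x, hx, h.symm⟩⟩
  rw [← cent_coe, ← h, conjVN, M.commutant_commutant]

theorem conjVN_one : conjVN 1 M = M := by
  ext y
  rw [mem_conjVN' (one_mem _), star_one, one_mul, mul_one]

theorem conjVN_conjVN (hu : u ∈ unitary (Op H)) (hv : v ∈ unitary (Op H)) :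
    conjVN u (conjVN v M) = conjVN (u * v) M := by
  ext y
  rw [mem_conjVN' hu, mem_conjVN' hv, mem_conjVN' (mul_mem hu hv), star_mul]
  simp only [mul_assoc]

theorem mem_conjVN_of_commute (hu : u ∈ unitary (Op H)) (h : Commute u x) :
    x ∈ conjVN u M ↔ x ∈ M := by
  rw [mem_conjVN' hu, mul_assoc, ← h.eq, ← mul_assoc, Unitary.star_mul_self_of_mem hu, one_mul]

theorem norm_conj_sub_le (hu : u ∈ unitary (Op H)) (x : Op H) :
    ‖u * x * star u - x‖ ≤ 2 * ‖u - 1‖ * ‖x‖ := by
  have h1 : u * x * star u - x = (u - 1) * x * star u + x * star (u - 1) := by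
    rw [star_sub, star_one]
    noncomm_ring
  have h2 : ‖(u - 1) * x * star u‖ = ‖(u - 1) * x‖ :=
    CStarRing.norm_mul_mem_unitary _ (Unitary.star_mem hu)
  have h3 := norm_mul_le (u - 1) x
  have h4 := norm_mul_le x (star (u - 1))
  rw [norm_star] at h4
  have h5 := norm_add_le ((u - 1) * x * star u) (x * star (u - 1))
  rw [h1]
  linarith

end Crest.Agent.R078
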