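import Crest.Agent.R078.BBasic0

/-! Row 78: elementary facts on von Neumann algebras, near inclusions and conjugations. -/

set_option autoImplicit false

open scoped InnerProductSpace ComplexConjugate
open Filter Topology

namespace Crest.Agent.R078

open Crest.Agent.R121 (Mn Bd)
open Crest.Agent.R124 (ex)
open Crest.OpAlg

universe u

variable {H : Type*} [NormedAddCommGroup H] [InnerProductSpace ℂ H] [CompleteSpace H]

variable {A B C M N : VN H} {x y u v : Op H} {ξ : H}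
/-! ### Near inclusions -/

theorem Near.refl (M : VN H) : Near M M 0 := by
  intro x hx
  exact ⟨x, hx, by simp⟩

theorem Near.mono {a b : ℝ} (h : Near M N a) (hab : a ≤ b) : Near M N b := by
  intro x hx
  obtain ⟨y, hy, hxy⟩ := h x hx
  exact ⟨y, hy, hxy.trans (mul_le_mul_of_nonneg_right hab (norm_nonneg _))⟩

theorem Near.trans {a b : ℝ} (h : Near A B a) (h' : Near B C b) (hb : 0 ≤ b) :
    Near A C (a + b * (1 + a)) := by
  intro x hx
  obtain ⟨y, hy, hxy⟩ := h x hx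
  obtain ⟨z, hz, hyz⟩ := h' y hy
  refine ⟨z, hz, ?_⟩
  have h1 : ‖y‖ ≤ (1 + a) * ‖x‖ := by
    have : ‖y‖ ≤ ‖x‖ + ‖x - y‖ := by
      calc ‖y‖ = ‖x - (x - y)‖ := by congr 1; abel
        _ ≤ ‖x‖ + ‖x - y‖ := norm_sub_le _ _
    linarith
  have h2 : ‖x - z‖ ≤ ‖x - y‖ + ‖y - z‖ := norm_sub_le_norm_sub_add_norm_sub _ _ _
  have h3 := mul_le_mul_of_nonneg_left h1 hb
  nlinarith

theorem Cl.symm {a : ℝ} (h : Cl M N a) : Cl N M a := ⟨h.2, h.1⟩

theorem Cl.mono {a b : ℝ} (h : Cl M N a) (hab : a ≤ b) : Cl M N b := ⟨h.1.mono hab, h.2.mono hab⟩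

theorem BBasic1_norm_conj (hu : u ∈ unitary (Op H)) (x : Op H) :
    ‖u * x * star u‖ = ‖x‖ := by
  rw [CStarRing.norm_mul_mem_unitary _ (Unitary.star_mem hu), CStarRing.norm_mem_unitary_mul _ hu]

theorem cl_conjVN (hu : u ∈ unitary (Op H)) : Cl M (conjVN u M) (2 * ‖u - 1‖) := by
  constructor
  · intro x hx
    refine ⟨u * x * star u, conj_mem_conjVN hu hx, ?_⟩
    rw [norm_sub_rev]
    exact norm_conj_sub_le hu x
  · intro y hy
    obtain ⟨x, hx, rfl⟩ := (mem_conjVN hu).1 hy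
    refine ⟨x, hx, ?_⟩
    rw [BBasic1_norm_conj hu]
    exact norm_conj_sub_le hu x

theorem Near.conj_unitary {a : ℝ} (hu : u ∈ unitary (Op H)) (h : Near M N a) :
    Near (conjVN u M) (conjVN u N) a := by
  intro y hy
  obtain ⟨x, hx, rfl⟩ := (mem_conjVN hu).1 hy
  obtain ⟨z, hz, hxz⟩ := h x hx
  refine ⟨u * z * star u, conj_mem_conjVN hu hz, ?_⟩
  have : u * x * star u - u * z * star u = u * (x - z) * star u := by noncomm_ring
  rw [this, BBasic1_norm_conj hu, BBasic1_norm_conj hu]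
  exact hxz

/-- `δ ≤ 1`, `‖u - 1‖ ≤ η`. -/
theorem Cl.conj_right {δ η : ℝ} (h : Cl M N δ) (hδ : 0 ≤ δ) (hδ1 : δ ≤ 1)
    (hu : u ∈ unitary (Op H)) (hη : ‖u - 1‖ ≤ η) (hη1 : η ≤ 1) :
    Cl M (conjVN u N) (3 * δ + 4 * η) := by
  have hη0 : 0 ≤ η := (norm_nonneg _).trans hη
  have hc : Cl N (conjVN u N) (2 * η) := (cl_conjVN hu).mono (by linarith)
  constructor
  · exact (h.1.trans hc.1 (by linarith)).mono (by nlinarith)
  · exact (hc.2.trans h.2 hδ).mono (by nlinarith)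

theorem Near.exists_sa {a : ℝ} (h : Near M N a) (hx : x ∈ M) (hs : star x = x) :
    ∃ y ∈ N, star y = y ∧ ‖x - y‖ ≤ a * ‖x‖ := by
  obtain ⟨y, hy, hxy⟩ := h x hx
  refine ⟨(1 / 2 : ℂ) • (y + star y), ?_, ?_, ?_⟩
  · exact N.toStarSubalgebra.smul_mem
      (N.toStarSubalgebra.add_mem hy (star_mem (s := N.toStarSubalgebra) hy)) _
  · rw [star_smul, star_add, star_star, add_comm]
    congr 1
    simp
  · have e : x - (1 / 2 : ℂ) • (y + star y) = (1 / 2 : ℂ) • ((x - y) + star (x - y)) := by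
      rw [star_sub, hs]
      module
    rw [e, norm_smul]
    have h1 : ‖(x - y) + star (x - y)‖ ≤ 2 * ‖x - y‖ := by
      have := norm_add_le (x - y) (star (x - y))
      rw [norm_star] at this
      linarith
    have h2 : ‖(1 / 2 : ℂ)‖ = 1 / 2 := by simp
    rw [h2]
    linarith

theorem BBasic1_mem_of_near {P Q : Set (Op H)} (hP : IsClosed P) (hP0 : (0 : Op H) ∈ P)
    (hPa : ∀ a ∈ P, ∀ b ∈ P, a + b ∈ P) (hQ : ∀ a ∈ Q, ∀ b ∈ P, a - b ∈ Q) {δ : ℝ} (hδ : δ < 1)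
    (h : ∀ y ∈ Q, ∃ x ∈ P, ‖y - x‖ ≤ δ * ‖y‖) : ∀ y ∈ Q, y ∈ P := by
  intro y hy
  set d : ℝ := max δ 0 with hd
  have hd0 : 0 ≤ d := le_max_right _ _
  have hd1 : d < 1 := max_lt hδ one_pos
  have key : ∀ n : ℕ, ∃ x ∈ P, ‖y - x‖ ≤ d ^ n * ‖y‖ := by
    intro n
    induction n with
    | zero => exact ⟨0, hP0, by simp⟩
    | succ n ih =>
      obtain ⟨x, hx, h1⟩ := ih
      obtain ⟨x', hx', h2⟩ := h (y - x) (hQ y hy x hx)
      refine ⟨x + x', hPa x hx x' hx', ?_⟩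
      have e : y - (x + x') = y - x - x' := by abel
      rw [e]
      calc ‖y - x - x'‖ ≤ δ * ‖y - x‖ := h2
        _ ≤ d * ‖y - x‖ := mul_le_mul_of_nonneg_right (le_max_left _ _) (norm_nonneg _)
        _ ≤ d * (d ^ n * ‖y‖) := mul_le_mul_of_nonneg_left h1 hd0
        _ = d ^ (n + 1) * ‖y‖ := by ring
  rw [← hP.closure_eq, Metric.mem_closure_iff]
  intro e he
  have ht : Tendsto (fun n : ℕ => d ^ n * ‖y‖) atTop (𝓝 0) := by
    simpa using (tendsto_pow_atTop_nhds_zero_of_lt_one hd0 hd1).mul_const ‖y‖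
  obtain ⟨n, hn⟩ := (ht.eventually (gt_mem_nhds he)).exists
  obtain ⟨x, hx, h1⟩ := key n
  exact ⟨x, hx, by rw [dist_eq_norm]; exact h1.trans_lt hn⟩

/-- Two-sided improvement.  For `y ∈ B` take `x₀ ∈ A` with `‖y - x₀‖ ≤ η ‖y‖` and `y₀ ∈ B` with
`‖x₀ - y₀‖ ≤ ε ‖x₀‖`; then `y - y₀ ∈ B` has norm `≤ (9/16) ‖y‖`; iterate and sum the geometric
series (or: let `c` be the supremum of `dist(y, A) / ‖y‖`; `c ≤ (5/4) ε + (9/16) c`). -/
theorem near_rev {ε η : ℝ} (h : Near A B ε) (h' : Near B A η) (hε : 0 ≤ ε) (hε' : ε ≤ 1 / 4)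
    (hη : η ≤ 1 / 4) : Near B A (4 * ε) := by
  have h4 : Near B A (1 / 4) := h'.mono hη
  rcases hε.eq_or_lt with h0 | hpos
  · subst h0
    intro y hy
    have hAB : ∀ x ∈ A, x ∈ B := by
      intro x hx
      obtain ⟨z, hz, hxz⟩ := h x hx
      have : x = z := by
        rw [zero_mul] at hxz
        exact sub_eq_zero.1 (norm_le_zero_iff.1 hxz)
      exact this ▸ hz
    have hyA : y ∈ (A : Set (Op H)) :=
      BBasic1_mem_of_near (P := (A : Set (Op H))) (Q := (B : Set (Op H))) (isClosed_vn A)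
        A.toStarSubalgebra.zero_mem (fun a ha b hb => A.toStarSubalgebra.add_mem ha hb)
        (fun a ha b hb => B.toStarSubalgebra.sub_mem ha (hAB b hb)) (δ := 1 / 4) (by norm_num)
        h4 y hy
    exact ⟨y, hyA, by simp⟩
  · have key : ∀ n : ℕ, Near B A (20 / 7 * ε + (9 / 16) ^ n) := by
      intro n
      induction n with
      | zero => exact h4.mono (by rw [pow_zero]; linarith)
      | succ n ih =>
        intro y hy
        obtain ⟨x₀, hx₀, h1⟩ := h4 y hy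
        obtain ⟨y₀, hy₀, h2⟩ := h x₀ hx₀
        obtain ⟨x₁, hx₁, h3⟩ := ih (y - y₀) (B.toStarSubalgebra.sub_mem hy hy₀)
        refine ⟨x₀ + x₁, A.toStarSubalgebra.add_mem hx₀ hx₁, ?_⟩
        have hy0 := norm_nonneg y
        have a1 : ‖x₀‖ ≤ 5 / 4 * ‖y‖ := by
          have : ‖x₀‖ ≤ ‖y‖ + ‖y - x₀‖ := by
            calc ‖x₀‖ = ‖y - (y - x₀)‖ := by congr 1; abel
              _ ≤ ‖y‖ + ‖y - x₀‖ := norm_sub_le _ _
          linarith
        have a2 : ‖x₀ - y₀‖ ≤ 5 / 4 * ε * ‖y‖ := by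
          have := mul_le_mul_of_nonneg_left a1 hε
          linarith
        have a3 : ‖y - y₀‖ ≤ 9 / 16 * ‖y‖ := by
          have := norm_sub_le_norm_sub_add_norm_sub y x₀ y₀
          have := mul_le_mul_of_nonneg_right hε' hy0
          linarith
        have a4 : ‖y - (x₀ + x₁)‖ ≤ ‖y - y₀ - x₁‖ + ‖x₀ - y₀‖ := by
          calc ‖y - (x₀ + x₁)‖ = ‖(y - y₀ - x₁) - (x₀ - y₀)‖ := by congr 1; abel
            _ ≤ _ := norm_sub_le _ _
        have hc : (0 : ℝ) ≤ 20 / 7 * ε + (9 / 16) ^ n := by positivity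
        have a5 := mul_le_mul_of_nonneg_left a3 hc
        have e : (20 / 7 * ε + (9 / 16) ^ (n + 1)) * ‖y‖ =
            (20 / 7 * ε + (9 / 16) ^ n) * (9 / 16 * ‖y‖) + 5 / 4 * ε * ‖y‖ := by ring
        rw [e]
        linarith
    obtain ⟨n, hn⟩ := exists_pow_lt_of_lt_one hpos (show (9 / 16 : ℝ) < 1 by norm_num)
    exact (key n).mono (by linarith)

/-- If `A ⊆ B` and `B` is nearly contained in `A` then they are equal (iterate; `A` is closed). -/
theorem mem_of_near {P Q : Set (Op H)} (hP : IsClosed P) (hP0 : (0 : Op H) ∈ P)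
    (hPa : ∀ a ∈ P, ∀ b ∈ P, a + b ∈ P) (hQ : ∀ a ∈ Q, ∀ b ∈ P, a - b ∈ Q) {δ : ℝ} (hδ : δ < 1)
    (h : ∀ y ∈ Q, ∃ x ∈ P, ‖y - x‖ ≤ δ * ‖y‖) : ∀ y ∈ Q, y ∈ P := by
  exact BBasic1_mem_of_near hP hP0 hPa hQ hδ h

theorem eq_of_near {δ : ℝ} (hAB : ∀ x ∈ A, x ∈ B) (h : Near B A δ) (hδ : δ < 1) : A = B := by
  refine SetLike.ext fun x => ⟨hAB x, fun hx => ?_⟩
  exact mem_of_near (P := (A : Set (Op H))) (Q := (B : Set (Op H))) (isClosed_vn A)
    A.toStarSubalgebra.zero_mem (fun a ha b hb => A.toStarSubalgebra.add_mem ha hb)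
    (fun a ha b hb => B.toStarSubalgebra.sub_mem ha (hAB b hb)) hδ h x hx

theorem eq_of_cl_zero (h : Cl M N 0) : M = N := by
  refine eq_of_near (δ := 0) (fun x hx => ?_) h.2 one_pos
  obtain ⟨z, hz, hxz⟩ := h.1 x hx
  have : x = z := by
    rw [zero_mul] at hxz
    exact sub_eq_zero.1 (norm_le_zero_iff.1 hxz)
  exact this ▸ hz

end Crest.Agent.R078
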