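import Crest.Agent.R078.BBasic1

/-! Row 78: elementary facts on von Neumann algebras, near inclusions and conjugations. -/

set_option autoImplicit false

open scoped InnerProductSpace ComplexConjugate
open Filter Topology

namespace Crest.Agent.R078

open Crest.Agent.R121 (Mn Bd)
open Crest.Agent.R124 (ex)
open Crest.OpAlg

universe u

variable {H : Type*} [NormedAddCommGroup H] [InnerProductSpace ℂ H] [CompleteSpace H]

variable {A B C M N : VN H} {x y u v : Op H} {ξ : H}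
/-! ### Cyclic vectors -/

theorem Cyc.induction (h : Cyc A ξ) {p : H → Prop} (hp : IsClosed {η | p η})
    (ih : ∀ a ∈ A, p (a ξ)) (η : H) : p η := by
  have h' : DenseRange fun a : A => (a : Op H) ξ := h
  exact h'.induction_on η hp fun a => ih a a.2

theorem Cyc.ext (h : Cyc A ξ) {S T : Op H} (hST : ∀ a ∈ A, S (a ξ) = T (a ξ)) : S = T := by
  exact ContinuousLinearMap.ext fun η =>
    h.induction (p := fun η => S η = T η) (isClosed_eq S.continuous T.continuous) hST η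

theorem Cyc.exists_approx (h : Cyc A ξ) (η : H) {ε : ℝ} (hε : 0 < ε) :
    ∃ a ∈ A, ‖a ξ - η‖ < ε := by
  obtain ⟨a, ha⟩ := DenseRange.exists_dist_lt (f := fun a : A => (a : Op H) ξ) h η hε
  exact ⟨a, a.2, by rwa [dist_comm, dist_eq_norm] at ha⟩

theorem Cyc.eq_of_inner (h : Cyc A ξ) {η ζ : H} (hη : ∀ a ∈ A, ⟪a ξ, η⟫_ℂ = ⟪a ξ, ζ⟫_ℂ) :
    η = ζ := by
  exact ext_inner_left ℂ fun v =>
    h.induction (p := fun v => ⟪v, η⟫_ℂ = ⟪v, ζ⟫_ℂ) (isClosed_eq (by fun_prop) (by fun_prop)) hη v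

theorem Cyc.mono (h : Cyc A ξ) (hAB : ∀ x ∈ A, x ∈ B) : Cyc B ξ := by
  refine Dense.mono ?_ h
  rintro _ ⟨a, rfl⟩
  exact ⟨⟨a, hAB a a.2⟩, rfl⟩

theorem Cyc.norm_le (h : Cyc A ξ) {T : Op H} {c : ℝ} (hc : 0 ≤ c)
    (hT : ∀ a ∈ A, ‖T (a ξ)‖ ≤ c * ‖a ξ‖) : ‖T‖ ≤ c := by
  exact T.opNorm_le_bound hc fun η =>
    h.induction (p := fun η => ‖T η‖ ≤ c * ‖η‖) (isClosed_le (by fun_prop) (by fun_prop)) hT η

theorem Cyc.norm_le_of_inner {ξ' : H} (h : Cyc A ξ) (h' : Cyc B ξ') {T : Op H} {c : ℝ}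
    (hc : 0 ≤ c) (hT : ∀ a ∈ A, ∀ b ∈ B, ‖⟪b ξ', T (a ξ)⟫_ℂ‖ ≤ c * ‖b ξ'‖ * ‖a ξ‖) :
    ‖T‖ ≤ c := by
  refine h.norm_le hc fun a ha => ?_
  have h1 := h'.induction (p := fun η => ‖⟪η, T (a ξ)⟫_ℂ‖ ≤ c * ‖η‖ * ‖a ξ‖)
    (isClosed_le (by fun_prop) (by fun_prop)) (hT a ha) (T (a ξ))
  rw [inner_self_eq_norm_sq_to_K, norm_pow, RCLike.norm_ofReal, abs_norm, sq] at h1
  rcases (norm_nonneg (T (a ξ))).eq_or_lt with h0 | h0
  · rw [← h0]
    positivity
  · exact le_of_mul_le_mul_left (by linarith) h0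

/-- Evaluation at a vector. -/
def BBasic2_ev (A : VN H) (ξ : H) : A.toStarSubalgebra →ₗ[ℂ] H where
  toFun a := (a : Op H) ξ
  map_add' _ _ := rfl
  map_smul' _ _ := rfl

/-- A bounded operator defined on `A ξ` (`LinearMap.extendOfNorm`). -/
theorem Cyc.exists_op (h : Cyc A ξ) (η : H) {c : ℝ} (hc : 0 ≤ c)
    (hη : ∀ a ∈ A, ‖a η‖ ≤ c * ‖a ξ‖) :
    ∃ y ∈ A.commutant, ‖y‖ ≤ c ∧ y ξ = η := by
  have hd : DenseRange (BBasic2_ev A ξ) := h
  have hb : ∀ a, ‖BBasic2_ev A η a‖ ≤ c * ‖BBasic2_ev A ξ a‖ := fun a => hη a a.2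
  have he : ∀ a ∈ A, (BBasic2_ev A η).extendOfNorm (BBasic2_ev A ξ) (a ξ) = a η := fun a ha =>
    LinearMap.extendOfNorm_eq hd ⟨c, hb⟩ ⟨a, ha⟩
  refine ⟨(BBasic2_ev A η).extendOfNorm (BBasic2_ev A ξ), mem_comm.2 fun x hx => ?_,
    LinearMap.opNorm_extendOfNorm_le hd hc hb, he 1 (one_mem A)⟩
  refine h.ext fun a ha => ?_
  rw [mul_apply_eq_comp, mul_apply_eq_comp, he a ha]
  exact (he (x * a) (mul_mem hx ha)).symm

theorem Cyc.sep (h : Cyc A.commutant ξ) (hx : x ∈ A) (h0 : x ξ = 0) : x = 0 := by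
  refine h.ext fun y hy => ?_
  rw [← mul_apply_eq_comp, (commute_of_mem hx hy).eq, mul_apply_eq_comp, h0, map_zero]
  rfl

theorem Cyc.sep' (h : Cyc A ξ) (hy : y ∈ A.commutant) (h0 : y ξ = 0) : y = 0 := by
  refine h.ext fun x hx => ?_
  rw [← mul_apply_eq_comp, ← (commute_of_mem hx hy).eq, mul_apply_eq_comp, h0, map_zero]
  rfl

/-- The projection onto the closure of `A ξ`. -/
theorem exists_cycProj (A : VN H) (ξ : H) : ∃ p ∈ A.commutant, IsStarProjection p ∧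
    ∀ η, p η = η ↔ η ∈ closure (Set.range fun a : A => (a : Op H) ξ) := by
  let K : Submodule ℂ H := (LinearMap.range (BBasic2_ev A ξ)).topologicalClosure
  have hK : ∀ η, η ∈ K ↔ η ∈ closure (Set.range fun a : A => (a : Op H) ξ) := fun η => Iff.rfl
  have hp : IsStarProjection K.starProjection := isStarProjection_starProjection
  have key : ∀ a ∈ A, K.starProjection * a * K.starProjection = a * K.starProjection := by
    intro a ha
    refine ContinuousLinearMap.ext fun η => ?_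
    rw [mul_apply_eq_comp, mul_apply_eq_comp, mul_apply_eq_comp,
      Submodule.starProjection_eq_self_iff, hK]
    refine map_mem_closure a.continuous ((hK _).1 (K.starProjection_apply_mem η)) ?_
    rintro _ ⟨b, rfl⟩
    exact ⟨⟨a * b, mul_mem ha b.2⟩, rfl⟩
  refine ⟨K.starProjection, mem_comm.2 fun a ha => ?_, hp,
    fun η => Submodule.starProjection_eq_self_iff.trans (hK η)⟩
  have h1 := congrArg star (key _ (star_mem ha))
  rw [star_mul, star_mul, star_mul, star_star, hp.isSelfAdjoint.star_eq, ← mul_assoc,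
    key a ha] at h1
  exact h1

theorem cyc_of_sep (h : ∀ y ∈ A.commutant, y ξ = 0 → y = 0) : Cyc A ξ := by
  obtain ⟨p, hp, -, hp2⟩ := exists_cycProj A ξ
  have h1 : p ξ = ξ := (hp2 ξ).2 (subset_closure ⟨⟨1, one_mem A⟩, rfl⟩)
  have h2 : 1 - p = 0 := h _ (sub_mem (one_mem _) hp) (by
    change ξ - p ξ = 0
    rw [h1, sub_self])
  intro η
  rw [← hp2, ← sub_eq_zero.1 h2]
  rfl

theorem CycSep.commutant (h : CycSep A ξ) : CycSep A.commutant ξ := by
  exact ⟨h.1, h.2.2, by rw [VonNeumannAlgebra.commutant_commutant]; exact h.2.1⟩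

theorem BBasic2_conj (h : Cyc A ξ) (hu : u ∈ unitary (Op H)) : Cyc (conjVN u A) (u ξ) := by
  intro η
  have h1 : u (star u η) = η := by
    rw [← mul_apply_eq_comp, Unitary.mul_star_self_of_mem hu, one_apply_eq_self]
  rw [← h1]
  refine map_mem_closure u.continuous (h (star u η)) ?_
  rintro _ ⟨a, rfl⟩
  refine ⟨⟨u * a * star u, conj_mem_conjVN hu a.2⟩, ?_⟩
  change (u * a * star u * u) ξ = _
  rw [mul_assoc, Unitary.star_mul_self_of_mem hu, mul_one]
  rfl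

theorem CycSep.conj_unitary (h : CycSep A ξ) (hu : u ∈ unitary (Op H)) :
    CycSep (conjVN u A) (u ξ) := by
  refine ⟨?_, BBasic2_conj h.2.1 hu, by rw [commutant_conjVN hu]; exact BBasic2_conj h.2.2 hu⟩
  rw [← h.1, @norm_eq_sqrt_re_inner ℂ, @norm_eq_sqrt_re_inner ℂ,
    ← ContinuousLinearMap.adjoint_inner_right, ← ContinuousLinearMap.star_eq_adjoint,
    ← mul_apply_eq_comp, Unitary.star_mul_self_of_mem hu, one_apply_eq_self]

/-- Bounded nets in `A` converging on a separating vector converge strongly. -/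
theorem tendsto_strong_of_vac {ι : Type*} {l : Filter ι} (h : Cyc A.commutant ξ) {T : ι → Op H}
    {S : Op H} {c : ℝ} (hT : ∀ i, T i ∈ A ∧ ‖T i‖ ≤ c) (hS : S ∈ A)
    (hl : Tendsto (fun i => T i ξ) l (𝓝 (S ξ))) (η : H) :
    Tendsto (fun i => T i η) l (𝓝 (S η)) := by
  rw [Metric.tendsto_nhds]
  intro ε hε
  have hC : 0 < |c| + ‖S‖ + 1 := by positivity
  obtain ⟨y, hy, hyη⟩ := h.exists_approx η (div_pos (half_pos hε) hC)
  have h1 : Tendsto (fun i => T i (y ξ)) l (𝓝 (S (y ξ))) := by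
    have e : ∀ {R : Op H}, R ∈ A → R (y ξ) = y (R ξ) := fun hR => by
      rw [← mul_apply_eq_comp, (commute_of_mem hR hy).eq, mul_apply_eq_comp]
    simp only [e (hT _).1, e hS]
    exact (y.continuous.tendsto _).comp hl
  filter_upwards [Metric.tendsto_nhds.1 h1 _ (half_pos hε)] with i hi
  rw [dist_eq_norm] at hi ⊢
  have e1 : T i η - S η = T i (y ξ) - S (y ξ) - (T i - S) (y ξ - η) := by
    change _ = _ - (T i (y ξ - η) - S (y ξ - η))
    rw [map_sub, map_sub]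
    abel
  have e2 : ‖T i - S‖ ≤ |c| + ‖S‖ + 1 := by
    have := norm_sub_le (T i) S
    linarith [(hT i).2, le_abs_self c]
  have e3 : ‖(T i - S) (y ξ - η)‖ ≤ ε / 2 := by
    rw [lt_div_iff₀ hC] at hyη
    have := (ContinuousLinearMap.le_opNorm _ (y ξ - η)).trans
      (mul_le_mul_of_nonneg_right e2 (norm_nonneg _))
    linarith
  have e4 := norm_sub_le (T i (y ξ) - S (y ξ)) ((T i - S) (y ξ - η))
  rw [e1]
  linarith

end Crest.Agent.R078
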