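import Crest.Agent.R078.BDesc1

/-! Row 78: descent of Newton steps. -/

set_option autoImplicit false

open scoped InnerProductSpace ComplexConjugate
open Filter Topology

namespace Crest.Agent.R078

open Crest.Agent.R121 (Mn Bd)
open Crest.Agent.R124 (ex)
open Crest.OpAlg

universe u

variable {H : Type*} [NormedAddCommGroup H] [InnerProductSpace ℂ H] [CompleteSpace H]

variable {M N : VN H} {κ ε η : ℝ} {v : Op H}
/-- Reduction by a small conjugation of `N`. -/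
theorem good_of_conj {P Q : Cls.{u}} {C δ₀ : ℝ} (hδ₀ : 0 < δ₀)
    (h : ∀ (H : Type u) [NormedAddCommGroup H] [InnerProductSpace ℂ H] [CompleteSpace H]
      (M N : VN H) (δ : ℝ), P H M N → 0 ≤ δ → δ ≤ δ₀ → Cl M N δ →
      ∃ v ∈ unitary (Op H), ‖v - 1‖ ≤ C * δ ∧ Q H M (conjVN v N))
    (hQ : GoodOn Q) : GoodOn P := by
  obtain ⟨C', δ', hδ', hQ⟩ := hQ
  have hD : 0 < 3 + 4 * |C| := by positivity
  refine ⟨|C'| * (3 + 4 * |C|) + |C| + |C'| * (3 + 4 * |C|) ^ 2 + 4 * |C| ^ 2 +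
    8 * (|C'| * (3 + 4 * |C|)) * |C|, min δ₀ (min (1 / (1 + |C|)) (δ' / (3 + 4 * |C|))),
    lt_min hδ₀ (lt_min (by positivity) (by positivity)), fun H _ _ _ M N δ hP h0 h1 hc => ?_⟩
  have a1 : δ ≤ δ₀ := h1.trans (min_le_left _ _)
  have a2 : δ * (1 + |C|) ≤ 1 :=
    (le_div_iff₀ (by positivity)).1 (h1.trans ((min_le_right _ _).trans (min_le_left _ _)))
  have a3 : δ * (3 + 4 * |C|) ≤ δ' :=
    (le_div_iff₀ hD).1 (h1.trans ((min_le_right _ _).trans (min_le_right _ _)))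
  have hC := abs_nonneg C
  have hC' := abs_nonneg C'
  have hCδ := mul_nonneg hC h0
  obtain ⟨v, hv, hη, hq⟩ := h H M N δ hP h0 a1 hc
  have hη' : ‖v - 1‖ ≤ |C| * δ := hη.trans (mul_le_mul_of_nonneg_right (le_abs_self C) h0)
  have hcl := hc.conj_right h0 (by nlinarith) hv hη' (by nlinarith)
  have e : 3 * δ + 4 * (|C| * δ) = (3 + 4 * |C|) * δ := by ring
  rw [e] at hcl
  have hn := (hQ H M _ _ hq (by positivity) (by linarith) hcl).mono
    (mul_le_mul_of_nonneg_right (le_abs_self C') (by positivity))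
    (mul_le_mul_of_nonneg_right (le_abs_self C') (by positivity))
  refine (ns_conj hv hη' hn).mono ?_ ?_
  · have : 0 ≤ (|C'| * (3 + 4 * |C|) ^ 2 + 4 * |C| ^ 2 + 8 * (|C'| * (3 + 4 * |C|)) * |C|) * δ := by
      positivity
    linarith
  · have : 0 ≤ (|C'| * (3 + 4 * |C|) + |C|) * δ ^ 2 := by positivity
    linarith

/-- Reduction by descent from pairs of class `Q`. -/
theorem good_of_desc {P Q : Cls.{u}} {C δ₀ : ℝ} (hδ₀ : 0 < δ₀)
    (h : ∀ (H : Type u) [NormedAddCommGroup H] [InnerProductSpace ℂ H] [CompleteSpace H]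
      (M N : VN H) (δ κ ε : ℝ), P H M N → 0 ≤ δ → δ ≤ δ₀ → Cl M N δ → 0 ≤ κ → 0 ≤ ε →
      (∀ (K : Type u) [NormedAddCommGroup K] [InnerProductSpace ℂ K] [CompleteSpace K]
        (M₁ N₁ : VN K), Q K M₁ N₁ → Cl M₁ N₁ (C * δ) → NS M₁ N₁ κ ε) → NS M N κ ε)
    (hQ : GoodOn Q) : GoodOn P := by
  obtain ⟨C', δ', hδ', hQ⟩ := hQ
  refine ⟨|C'| * |C| + |C'| * |C| ^ 2, min δ₀ (δ' / (1 + |C|)), lt_min hδ₀ (by positivity),
    fun H _ _ _ M N δ hP h0 h1 hc => ?_⟩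
  have a1 : δ ≤ δ₀ := h1.trans (min_le_left _ _)
  have a3 : δ * (1 + |C|) ≤ δ' := (le_div_iff₀ (by positivity)).1 (h1.trans (min_le_right _ _))
  refine h H M N δ _ _ hP h0 a1 hc (by positivity) (by positivity) fun K _ _ _ M₁ N₁ hq hcl => ?_
  have hcl' := hcl.mono (mul_le_mul_of_nonneg_right (le_abs_self C) h0)
  have hn := (hQ K M₁ N₁ _ hq (by positivity) (by linarith) hcl').mono
    (mul_le_mul_of_nonneg_right (le_abs_self C') (by positivity))
    (mul_le_mul_of_nonneg_right (le_abs_self C') (by positivity))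
  refine hn.mono ?_ ?_
  · have : 0 ≤ |C'| * |C| ^ 2 * δ := by positivity
    linarith
  · have : 0 ≤ |C'| * |C| * δ ^ 2 := by positivity
    linarith

/-- Exact conjugacy. -/
theorem good_of_conj_eq {P : Cls.{u}} {C δ₀ : ℝ} (hδ₀ : 0 < δ₀)
    (h : ∀ (H : Type u) [NormedAddCommGroup H] [InnerProductSpace ℂ H] [CompleteSpace H]
      (M N : VN H) (δ : ℝ), P H M N → 0 ≤ δ → δ ≤ δ₀ → Cl M N δ →
      ∃ v ∈ unitary (Op H), ‖v - 1‖ ≤ C * δ ∧ conjVN v M = N) : GoodOn P := by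
  refine ⟨|C| + 4 * |C| ^ 2, δ₀, hδ₀, fun H _ _ _ M N δ hP h0 h1 hc => ?_⟩
  obtain ⟨v, hv, hη, he⟩ := h H M N δ hP h0 h1 hc
  have hη' : ‖v - 1‖ ≤ |C| * δ := hη.trans (mul_le_mul_of_nonneg_right (le_abs_self C) h0)
  refine (ns_of_conj_eq hv hη' he).mono ?_ ?_
  · have : 0 ≤ 4 * |C| ^ 2 * δ := by positivity
    linarith
  · have : 0 ≤ |C| * δ ^ 2 := by positivity
    linarith

end Crest.Agent.R078
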