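import Crest.Agent.R078.BMean

/-! Row 78: descent of Newton steps. -/

set_option autoImplicit false

open scoped InnerProductSpace ComplexConjugate
open Filter Topology

namespace Crest.Agent.R078

open Crest.Agent.R121 (Mn Bd)
open Crest.Agent.R124 (ex)
open Crest.OpAlg

universe u

variable {H : Type*} [NormedAddCommGroup H] [InnerProductSpace ℂ H] [CompleteSpace H]

variable {M N : VN H} {κ ε η : ℝ} {v : Op H}

theorem NS.mono {κ' ε' : ℝ} (h : NS M N κ ε) (hκ : κ ≤ κ') (hε : ε ≤ ε') : NS M N κ' ε' := by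
  obtain ⟨k, hk, h⟩ := h
  exact ⟨k, hk.trans hκ, fun x hx y hy => (h x hx y hy).trans (by gcongr)⟩

theorem ns_self (M : VN H) : NS M M 0 0 := by
  refine ⟨0, norm_zero.le, fun x hx y hy => ?_⟩
  rw [cm_eq_zero.2 (commute_of_mem hx hy)]
  simp [cm]

theorem BDesc0_cm_add (x z y : Op H) : cm x y + cm z y = cm (x + z) y := by
  simp only [cm]
  noncomm_ring

theorem BDesc0_key {z z' y : Op H} {a b : ℝ} (h : ‖cm z y‖ ≤ a) (h' : ‖z' - z‖ ≤ b) :
    ‖cm z' y‖ ≤ a + 2 * b * ‖y‖ := by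
  have e : cm z' y = cm z y + cm (z' - z) y := by
    rw [BDesc0_cm_add, add_sub_cancel]
  rw [e]
  refine (norm_add_le _ _).trans (add_le_add h ((norm_cm_le _ _).trans ?_))
  gcongr

theorem BDesc0_norm_conj (hv : v ∈ unitary (Op H)) (x : Op H) : ‖v * x * star v‖ = ‖x‖ := by
  rw [CStarRing.norm_mul_mem_unitary _ (Unitary.star_mem hv), CStarRing.norm_mem_unitary_mul _ hv]

theorem BDesc0_star (v : Op H) : ‖star v - 1‖ = ‖v - 1‖ := by
  rw [← norm_star, star_sub, star_star, star_one]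

/-- `k = k₁ - (v - 1)`: conjugate the estimate by `v`;
`v⋆ x v = x - [v - 1, x] + O(2 η²)`, `v⋆ [k₁, x] v = [k₁, x] + O(4 κ η)`. -/
theorem ns_conj (hv : v ∈ unitary (Op H)) (hη : ‖v - 1‖ ≤ η) (h : NS M (conjVN v N) κ ε) :
    NS M N (κ + η) (ε + 4 * η ^ 2 + 8 * κ * η) := by
  obtain ⟨k, hk, h⟩ := h
  have h1 := Unitary.star_mul_self_of_mem hv
  have hη0 : 0 ≤ η := (norm_nonneg _).trans hη
  have hκ0 : 0 ≤ κ := (norm_nonneg _).trans hk
  refine ⟨k - (v - 1), (norm_sub_le _ _).trans (add_le_add hk hη), fun x hx y hy => ?_⟩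
  have hy1 : v * y * star v ∈ (conjVN v N).commutant := by
    rw [commutant_conjVN hv]
    exact conj_mem_conjVN hv hy
  have h2 := h x hx _ hy1
  rw [BDesc0_cm_add, BDesc0_norm_conj hv] at h2
  have e1 : cm (star v * (x + cm k x) * v) y =
      star v * cm (x + cm k x) (v * y * star v) * star (star v) := by
    generalize x + cm k x = z
    simp only [cm, star_star, mul_sub, sub_mul, mul_assoc, h1, mul_one]
    rw [← mul_assoc (star v) v, h1, one_mul]
  have h3 : ‖cm (star v * (x + cm k x) * v) y‖ ≤ ε * ‖x‖ * ‖y‖ := by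
    rwa [e1, BDesc0_norm_conj (Unitary.star_mem hv)]
  have e2 : x + cm (k - (v - 1)) x - star v * (x + cm k x) * v =
      (star v - 1) * cm (v - 1) x - (star v * cm k x * star (star v) - cm k x) := by
    have h4 : star v * (v * x) = x := by rw [← mul_assoc, h1, one_mul]
    simp only [cm, star_star, mul_sub, sub_mul, mul_add, add_mul, mul_assoc, h4, mul_one, one_mul]
    abel
  have h5 : ‖x + cm (k - (v - 1)) x - star v * (x + cm k x) * v‖ ≤
      (2 * η ^ 2 + 4 * κ * η) * ‖x‖ := by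
    rw [e2]
    have a1 : ‖(star v - 1) * cm (v - 1) x‖ ≤ η * (2 * η * ‖x‖) := by
      refine (norm_mul_le _ _).trans ?_
      rw [BDesc0_star]
      exact mul_le_mul hη ((norm_cm_le _ _).trans (by gcongr)) (norm_nonneg _) hη0
    have a2 : ‖star v * cm k x * star (star v) - cm k x‖ ≤ 2 * η * (2 * κ * ‖x‖) := by
      refine (norm_conj_sub_le (Unitary.star_mem hv) _).trans ?_
      rw [BDesc0_star]
      exact mul_le_mul (by gcongr) ((norm_cm_le _ _).trans (by gcongr)) (norm_nonneg _)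
        (by positivity)
    refine (norm_sub_le _ _).trans ((add_le_add a1 a2).trans_eq (by ring))
  rw [BDesc0_cm_add]
  exact (BDesc0_key h3 h5).trans_eq (by ring)

/-- `k = k₁ + (v - 1)`. -/
theorem ns_conj_left (hv : v ∈ unitary (Op H)) (hη : ‖v - 1‖ ≤ η) (h : NS (conjVN v M) N κ ε) :
    NS M N (κ + η) (ε + 4 * η ^ 2 + 8 * κ * η) := by
  obtain ⟨k, hk, h⟩ := h
  have h1 := Unitary.mul_star_self_of_mem hv
  have hη0 : 0 ≤ η := (norm_nonneg _).trans hη
  have hκ0 : 0 ≤ κ := (norm_nonneg _).trans hk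
  refine ⟨k + (v - 1), (norm_add_le _ _).trans (add_le_add hk hη), fun x hx y hy => ?_⟩
  have h2 := h _ (conj_mem_conjVN hv hx) y hy
  rw [BDesc0_cm_add, BDesc0_norm_conj hv] at h2
  have e2 : x + cm (k + (v - 1)) x - (v * x * star v + cm k (v * x * star v)) =
      -(cm (v - 1) x * (star v - 1)) - cm k (v * x * star v - x) := by
    simp only [cm, mul_sub, sub_mul, mul_add, add_mul, mul_assoc, h1, mul_one, one_mul]
    abel
  have h5 : ‖x + cm (k + (v - 1)) x - (v * x * star v + cm k (v * x * star v))‖ ≤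
      (2 * η ^ 2 + 4 * κ * η) * ‖x‖ := by
    rw [e2]
    have a1 : ‖-(cm (v - 1) x * (star v - 1))‖ ≤ (2 * η * ‖x‖) * η := by
      rw [norm_neg]
      refine (norm_mul_le _ _).trans ?_
      rw [BDesc0_star]
      exact mul_le_mul ((norm_cm_le _ _).trans (by gcongr)) hη (norm_nonneg _) (by positivity)
    have a2 : ‖cm k (v * x * star v - x)‖ ≤ 2 * κ * (2 * η * ‖x‖) := by
      refine (norm_cm_le _ _).trans ?_
      exact mul_le_mul (by gcongr) ((norm_conj_sub_le hv _).trans (by gcongr)) (norm_nonneg _)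
        (by positivity)
    refine (norm_sub_le _ _).trans ((add_le_add a1 a2).trans_eq (by ring))
  rw [BDesc0_cm_add]
  exact (BDesc0_key h2 h5).trans_eq (by ring)

theorem ns_of_conj_eq (hv : v ∈ unitary (Op H)) (hη : ‖v - 1‖ ≤ η) (h : conjVN v M = N) :
    NS M N η (4 * η ^ 2) := by
  have h1 : NS (conjVN v M) N 0 0 := h ▸ ns_self _
  exact (ns_conj_left hv hη h1).mono (by simp) (by simp)

end Crest.Agent.R078
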