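import Crest.Agent.R078.BDesc0

/-! Row 78: descent of Newton steps. -/

set_option autoImplicit false

open scoped InnerProductSpace ComplexConjugate
open Filter Topology

namespace Crest.Agent.R078

open Crest.Agent.R121 (Mn Bd)
open Crest.Agent.R124 (ex)
open Crest.OpAlg

universe u

variable {H : Type*} [NormedAddCommGroup H] [InnerProductSpace ℂ H] [CompleteSpace H]

variable {M N : VN H} {κ ε η : ℝ} {v : Op H}
/-- `X i` approximately intertwines `x` along `V i`. -/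
def AppInt {ι : Type*} (l : Filter ι) {K : ι → Type*} [∀ i, NormedAddCommGroup (K i)]
    [∀ i, InnerProductSpace ℂ (K i)] [∀ i, CompleteSpace (K i)] (V : ∀ i, H →L[ℂ] K i)
    (A : ∀ i, VN (K i)) (x : Op H) : Prop :=
  ∃ X : ∀ i, Op (K i), (∀ᶠ i in l, X i ∈ A i ∧ ‖X i‖ ≤ ‖x‖) ∧
    (∀ ζ, Tendsto (fun i => ‖X i (V i ζ) - V i (x ζ)‖) l (𝓝 0)) ∧
    ∀ ζ, Tendsto (fun i => ‖star (X i) (V i ζ) - V i (star x ζ)‖) l (𝓝 0)

section aux
variable {ι : Type*} {l : Filter ι} {K : ι → Type*} [∀ i, NormedAddCommGroup (K i)]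
  [∀ i, InnerProductSpace ℂ (K i)] {V : ∀ i, H →L[ℂ] K i}

/-- `a i` is asymptotically `V i ζ`. -/
def BDesc1_App (l : Filter ι) (V : ∀ i, H →L[ℂ] K i) (a : ∀ i, K i) (ζ : H) : Prop :=
  Tendsto (fun i => ‖a i - V i ζ‖) l (𝓝 0)

omit [CompleteSpace H] in
lemma BDesc1_self (ζ : H) : BDesc1_App l V (fun i => V i ζ) ζ := by
  simp only [BDesc1_App, sub_self, norm_zero, tendsto_const_nhds]

omit [CompleteSpace H] in
lemma BDesc1_map {X : ∀ i, Op (K i)} {x : Op H} {c : ℝ} (hX : ∀ᶠ i in l, ‖X i‖ ≤ c)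
    (h : ∀ ζ, Tendsto (fun i => ‖X i (V i ζ) - V i (x ζ)‖) l (𝓝 0)) {a : ∀ i, K i} {ζ : H}
    (ha : BDesc1_App l V a ζ) : BDesc1_App l V (fun i => X i (a i)) (x ζ) := by
  have h1 := (ha.const_mul c).add (h ζ)
  rw [mul_zero, add_zero] at h1
  refine squeeze_zero' (.of_forall fun i => norm_nonneg _) (hX.mono fun i hi => ?_) h1
  have e : X i (a i) - V i (x ζ) = X i (a i - V i ζ) + (X i (V i ζ) - V i (x ζ)) := by
    rw [map_sub]
    abel
  rw [e]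
  refine (norm_add_le _ _).trans (add_le_add_left ?_ _)
  exact ((X i).le_opNorm _).trans (mul_le_mul_of_nonneg_right hi (norm_nonneg _))

omit [CompleteSpace H] in
lemma BDesc1_inner (hV : ∀ i, ‖V i‖ ≤ 1) {k : ∀ i, Op (K i)} {S : Op H} {c : ℝ}
    (hk : ∀ᶠ i in l, ‖k i‖ ≤ c)
    (h : ∀ η ζ, Tendsto (fun i => ⟪V i η, k i (V i ζ)⟫_ℂ) l (𝓝 ⟪η, S ζ⟫_ℂ)) {a b : ∀ i, K i}
    {η ζ : H} (ha : BDesc1_App l V a η) (hb : BDesc1_App l V b ζ) :
    Tendsto (fun i => ⟪a i, k i (b i)⟫_ℂ) l (𝓝 ⟪η, S ζ⟫_ℂ) := by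
  have h1 := (ha.mul ((hb.add_const ‖ζ‖).const_mul c)).add ((hb.const_mul c).const_mul ‖η‖)
  rw [zero_mul, mul_zero, mul_zero, add_zero] at h1
  have h2 : Tendsto (fun i => ⟪a i, k i (b i)⟫_ℂ - ⟪V i η, k i (V i ζ)⟫_ℂ) l (𝓝 0) := by
    refine squeeze_zero_norm' (hk.mono fun i hi => ?_) h1
    have hVi : ∀ v : H, ‖V i v‖ ≤ ‖v‖ := fun v =>
      ((V i).le_opNorm v).trans (mul_le_of_le_one_left (norm_nonneg _) (hV i))
    have hki : ∀ v : K i, ‖k i v‖ ≤ c * ‖v‖ := fun v =>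
      ((k i).le_opNorm v).trans (mul_le_mul_of_nonneg_right hi (norm_nonneg _))
    have hc : 0 ≤ c := (norm_nonneg _).trans hi
    have e : ⟪a i, k i (b i)⟫_ℂ - ⟪V i η, k i (V i ζ)⟫_ℂ =
        ⟪a i - V i η, k i (b i)⟫_ℂ + ⟪V i η, k i (b i - V i ζ)⟫_ℂ := by
      rw [map_sub, inner_sub_left, inner_sub_right]
      abel
    have hb' : ‖b i‖ ≤ ‖b i - V i ζ‖ + ‖ζ‖ := by
      have := norm_add_le (b i - V i ζ) (V i ζ)
      rw [sub_add_cancel] at this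
      linarith [hVi ζ]
    rw [e]
    refine (norm_add_le _ _).trans (add_le_add ((norm_inner_le_norm _ _).trans ?_)
      ((norm_inner_le_norm _ _).trans ?_))
    · exact mul_le_mul_of_nonneg_left ((hki _).trans (mul_le_mul_of_nonneg_left hb' hc))
        (norm_nonneg _)
    · exact mul_le_mul (hVi η) (hki _) (norm_nonneg _) (norm_nonneg _)
  simpa using h2.add (h η ζ)

omit [CompleteSpace H] in
lemma BDesc1_polar (hV' : ∀ ζ, Tendsto (fun i => ‖V i ζ‖) l (𝓝 ‖ζ‖)) (η ζ : H) :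
    Tendsto (fun i => ⟪V i η, V i ζ⟫_ℂ) l (𝓝 ⟪η, ζ⟫_ℂ) := by
  have h : ∀ v : H, Tendsto (fun i => ((‖V i v‖ : ℝ) : ℂ) ^ 2) l (𝓝 (((‖v‖ : ℝ) : ℂ) ^ 2)) :=
    fun v => ((Complex.continuous_ofReal.tendsto _).comp (hV' v)).pow 2
  simp only [inner_eq_sum_norm_sq_div_four, ← map_smul, ← map_add, ← map_sub]
  exact ((((h _).sub (h _)).add (((h _).sub (h _)).mul_const _))).div_const _

end aux

/-- The compression `V⋆ T V`. -/
noncomputable def BDesc1_cp {K : Type*} [NormedAddCommGroup K] [InnerProductSpace ℂ K]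
    [CompleteSpace K] (V : H →L[ℂ] K) (T : Op K) : Op H :=
  (ContinuousLinearMap.adjoint V).comp (T.comp V)

lemma BDesc1_cp_inner {K : Type*} [NormedAddCommGroup K] [InnerProductSpace ℂ K]
    [CompleteSpace K] (V : H →L[ℂ] K) (T : Op K) (a b : H) :
    ⟪a, BDesc1_cp V T b⟫_ℂ = ⟪V a, T (V b)⟫_ℂ := by
  rw [BDesc1_cp, ContinuousLinearMap.comp_apply, ContinuousLinearMap.adjoint_inner_right,
    ContinuousLinearMap.comp_apply]

lemma BDesc1_cp_norm {K : Type*} [NormedAddCommGroup K] [InnerProductSpace ℂ K]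
    [CompleteSpace K] {V : H →L[ℂ] K} (hV : ‖V‖ ≤ 1) {T : Op K} {c : ℝ} (hT : ‖T‖ ≤ c) :
    ‖BDesc1_cp V T‖ ≤ c := by
  have h1 := (ContinuousLinearMap.adjoint V).opNorm_comp_le (T.comp V)
  have h2 := T.opNorm_comp_le V
  have h3 : ‖ContinuousLinearMap.adjoint V‖ = ‖V‖ := LinearIsometryEquiv.norm_map _ V
  rw [h3] at h1
  exact h1.trans ((mul_le_of_le_one_left (norm_nonneg _) hV).trans
    (h2.trans ((mul_le_of_le_one_right (norm_nonneg _) hV).trans hT)))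

lemma BDesc1_expand (k x y : Op H) (a b : H) : ⟪a, (cm x y + cm (cm k x) y) b⟫_ℂ =
    ⟪a, (1 : Op H) (x (y b))⟫_ℂ - ⟪a, (1 : Op H) (y (x b))⟫_ℂ + ⟪a, k (x (y b))⟫_ℂ -
      ⟪star x a, k (y b)⟫_ℂ - ⟪star y a, k (x b)⟫_ℂ + ⟪star x (star y a), k b⟫_ℂ := by
  simp only [cm, ContinuousLinearMap.star_eq_adjoint, ContinuousLinearMap.adjoint_inner_left,
    add_apply, sub_apply, mul_apply_eq_comp, map_sub, inner_add_right, inner_sub_right,
    one_apply_eq_self]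
  ring

/-- Descent along approximate intertwiners.  `k` is a weak cluster point (`exists_wlim` along
`Ultrafilter.of l`) of `(V i)⋆ k i (V i)`; every term of `⟪η, ([x,y] + [[k,x],y]) ζ⟫` has the form
`⟪a⋆ η, k (b ζ)⟫` with `a, b` words in `x, y`, and `⟪V η, V ζ⟫ → ⟪η, ζ⟫` by polarisation. -/
theorem ns_desc {ι : Type*} (l : Filter ι) [l.NeBot] {K : ι → Type*}
    [∀ i, NormedAddCommGroup (K i)] [∀ i, InnerProductSpace ℂ (K i)] [∀ i, CompleteSpace (K i)]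
    (M₁ N₁ : ∀ i, VN (K i)) (V : ∀ i, H →L[ℂ] K i) (hV : ∀ i, ‖V i‖ ≤ 1)
    (hV' : ∀ ζ, Tendsto (fun i => ‖V i ζ‖) l (𝓝 ‖ζ‖))
    (hM : ∀ x ∈ M, AppInt l V M₁ x)
    (hN : ∀ y ∈ N.commutant, AppInt l V (fun i => (N₁ i).commutant) y)
    (hε : 0 ≤ ε) (h : ∀ᶠ i in l, NS (M₁ i) (N₁ i) κ ε) : NS M N κ ε := by
  have hU : (Ultrafilter.of l : Filter ι) ≤ l := Ultrafilter.of_le l
  choose! k hk using fun i (hi : NS (M₁ i) (N₁ i) κ ε) => hi
  have hk1 : ∀ᶠ i in (Ultrafilter.of l : Filter ι), ‖k i‖ ≤ κ :=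
    (h.filter_mono hU).mono fun i hi => (hk i hi).1
  obtain ⟨S, hS, hlim⟩ := exists_wlim (Ultrafilter.of l)
    (fun i => BDesc1_cp (V i) (k i)) (c := κ) (hk1.mono fun i hi => BDesc1_cp_norm (hV i) hi)
  simp only [BDesc1_cp_inner] at hlim
  refine ⟨S, hS, fun x hx y hy => ?_⟩
  obtain ⟨X, hX, hX1, hX2⟩ := hM x hx
  obtain ⟨Y, hY, hY1, hY2⟩ := hN y hy
  have bX : ∀ᶠ i in (Ultrafilter.of l : Filter ι), ‖X i‖ ≤ ‖x‖ :=
    (hX.filter_mono hU).mono fun i hi => hi.2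
  have bY : ∀ᶠ i in (Ultrafilter.of l : Filter ι), ‖Y i‖ ≤ ‖y‖ :=
    (hY.filter_mono hU).mono fun i hi => hi.2
  have mX : ∀ {a : ∀ i, K i} {ζ : H}, BDesc1_App (Ultrafilter.of l) V a ζ →
      BDesc1_App (Ultrafilter.of l) V (fun i => X i (a i)) (x ζ) :=
    fun ha => BDesc1_map bX (fun ζ => (hX1 ζ).mono_left hU) ha
  have mY : ∀ {a : ∀ i, K i} {ζ : H}, BDesc1_App (Ultrafilter.of l) V a ζ →
      BDesc1_App (Ultrafilter.of l) V (fun i => Y i (a i)) (y ζ) :=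
    fun ha => BDesc1_map bY (fun ζ => (hY1 ζ).mono_left hU) ha
  have sX : ∀ {a : ∀ i, K i} {ζ : H}, BDesc1_App (Ultrafilter.of l) V a ζ →
      BDesc1_App (Ultrafilter.of l) V (fun i => star (X i) (a i)) (star x ζ) :=
    fun ha => BDesc1_map (X := fun i => star (X i))
      (bX.mono fun i hi => (norm_star _).trans_le hi) (fun ζ => (hX2 ζ).mono_left hU) ha
  have sY : ∀ {a : ∀ i, K i} {ζ : H}, BDesc1_App (Ultrafilter.of l) V a ζ →
      BDesc1_App (Ultrafilter.of l) V (fun i => star (Y i) (a i)) (star y ζ) :=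
    fun ha => BDesc1_map (X := fun i => star (Y i))
      (bY.mono fun i hi => (norm_star _).trans_le hi) (fun ζ => (hY2 ζ).mono_left hU) ha
  have i1 : ∀ {a b : ∀ i, K i} {η ζ : H}, BDesc1_App (Ultrafilter.of l) V a η →
      BDesc1_App (Ultrafilter.of l) V b ζ → Tendsto (fun i => ⟪a i, (1 : Op (K i)) (b i)⟫_ℂ)
        (Ultrafilter.of l) (𝓝 ⟪η, (1 : Op H) ζ⟫_ℂ) :=
    fun ha hb => BDesc1_inner (k := fun i => (1 : Op (K i))) (S := 1) (c := 1) hV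
      (.of_forall fun i => ContinuousLinearMap.norm_id_le)
      (fun η ζ => (BDesc1_polar hV' η ζ).mono_left hU) ha hb
  have ik : ∀ {a b : ∀ i, K i} {η ζ : H}, BDesc1_App (Ultrafilter.of l) V a η →
      BDesc1_App (Ultrafilter.of l) V b ζ → Tendsto (fun i => ⟪a i, k i (b i)⟫_ℂ)
        (Ultrafilter.of l) (𝓝 ⟪η, S ζ⟫_ℂ) :=
    fun ha hb => BDesc1_inner hV hk1 hlim ha hb
  refine norm_le_of_weak_tendsto (l := (Ultrafilter.of l : Filter ι))
    (T := fun i => BDesc1_cp (V i) (cm (X i) (Y i) + cm (cm (k i) (X i)) (Y i))) ?_ fun η ζ => ?_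
  · filter_upwards [h.filter_mono hU, hX.filter_mono hU, hY.filter_mono hU] with i hi h1 h2
    refine BDesc1_cp_norm (hV i) (((hk i hi).2 _ h1.1 _ h2.1).trans ?_)
    exact mul_le_mul (mul_le_mul_of_nonneg_left h1.2 hε) h2.2 (norm_nonneg _) (by positivity)
  have v0 : ∀ ζ, BDesc1_App (Ultrafilter.of l) V (fun i => V i ζ) ζ := fun ζ => BDesc1_self ζ
  have fin := (((((i1 (v0 η) (mX (mY (v0 ζ)))).sub (i1 (v0 η) (mY (mX (v0 ζ))))).add
    (ik (v0 η) (mX (mY (v0 ζ))))).sub (ik (sX (v0 η)) (mY (v0 ζ)))).sub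
    (ik (sY (v0 η)) (mX (v0 ζ)))).add (ik (sX (sY (v0 η))) (v0 ζ))
  rw [BDesc1_expand]
  refine fin.congr fun i => ?_
  rw [BDesc1_cp_inner, BDesc1_expand]

/-- Exact descent. -/
theorem ns_desc_exact {K : Type*} [NormedAddCommGroup K] [InnerProductSpace ℂ K] [CompleteSpace K]
    {M₁ N₁ : VN K} (V : H →L[ℂ] K) (hV : ∀ ζ, ‖V ζ‖ = ‖ζ‖) (ι : Op H →⋆ₐ[ℂ] Op K)
    (hι : ∀ x ζ, ι x (V ζ) = V (x ζ)) (hM : ∀ x ∈ M, ι x ∈ M₁)
    (hN : ∀ y ∈ N.commutant, ι y ∈ N₁.commutant) (hε : 0 ≤ ε) (h : NS M₁ N₁ κ ε) :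
    NS M N κ ε := by
  refine ns_desc (⊤ : Filter Unit) (K := fun _ => K) (fun _ => M₁) (fun _ => N₁) (fun _ => V)
    (fun _ => V.opNorm_le_bound zero_le_one fun ζ => by rw [hV, one_mul])
    (fun ζ => by simp only [hV, tendsto_const_nhds]) (fun x hx => ?_) (fun y hy => ?_) hε
    (.of_forall fun _ => h)
  · refine ⟨fun _ => ι x, .of_forall fun _ => ⟨hM x hx, NonUnitalStarAlgHom.norm_apply_le ι x⟩,
      fun ζ => ?_, fun ζ => ?_⟩
    · simp only [hι, sub_self, norm_zero, tendsto_const_nhds]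
    · simp only [← map_star, hι, sub_self, norm_zero, tendsto_const_nhds]
  · refine ⟨fun _ => ι y, .of_forall fun _ => ⟨hN y hy, NonUnitalStarAlgHom.norm_apply_le ι y⟩,
      fun ζ => ?_, fun ζ => ?_⟩
    · simp only [hι, sub_self, norm_zero, tendsto_const_nhds]
    · simp only [← map_star, hι, sub_self, norm_zero, tendsto_const_nhds]

end Crest.Agent.R078
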