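import Crest.Agent.R078.BDist1

/-! Row 78: the distance formula (hyperreflexivity from S0165 and Arveson's argument), density
theorems, closeness of commutants. -/

set_option autoImplicit false

open scoped InnerProductSpace ComplexConjugate
open Filter Topology

namespace Crest.Agent.R078

open Crest.Agent.R121 (Mn Bd)
open Crest.Agent.R124 (ex)
open Crest.OpAlg

universe u

variable {H : Type*} [NormedAddCommGroup H] [InnerProductSpace ℂ H] [CompleteSpace H]

/-- The distance formula. -/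
theorem dist_le : ∃ K : ℝ, 0 ≤ K ∧ ∀ (H : Type u) [NormedAddCommGroup H]
    [InnerProductSpace ℂ H] [CompleteSpace H] (M : VN H) (T : Op H) (ε : ℝ), 0 ≤ ε →
    (∀ y ∈ M.commutant, ‖cm T y‖ ≤ ε * ‖y‖) → ∃ x ∈ M, ‖T - x‖ ≤ K * ε := by
  obtain ⟨K, hK, h⟩ := dist_functional.{u}
  exact ⟨K, hK, fun H _ _ _ M T ε hε hT =>
    exists_of_functional (mul_nonneg hK hε) (h H M T ε hε hT)⟩

theorem near_commutant : ∃ K : ℝ, 0 ≤ K ∧ ∀ (H : Type u) [NormedAddCommGroup H]
    [InnerProductSpace ℂ H] [CompleteSpace H] (M N : VN H) (δ : ℝ), 0 ≤ δ → Near M N δ →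
    Near N.commutant M.commutant (K * δ) := by
  exact ad_near_commutant.{u}

theorem cl_commutant : ∃ K : ℝ, 0 ≤ K ∧ ∀ (H : Type u) [NormedAddCommGroup H]
    [InnerProductSpace ℂ H] [CompleteSpace H] (M N : VN H) (δ : ℝ), 0 ≤ δ → Cl M N δ →
    Cl M.commutant N.commutant (K * δ) := by
  obtain ⟨K, hK, h⟩ := near_commutant.{u}
  exact ⟨K, hK, fun H _ _ _ M N δ hδ hc => ⟨h H N M δ hδ hc.2, h H M N δ hδ hc.1⟩⟩

/-- Kaplansky density for a `⋆`-subalgebra (`R124.kaplansky` for the norm closure, then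
approximate in norm). -/
theorem kap (A : StarSubalgebra ℂ (Op H)) {T : Op H} (hT : T ∈ (cent (A : Set (Op H))).commutant)
    (F : Finset H) {ε : ℝ} (hε : 0 < ε) : ∃ a ∈ A, ‖a‖ ≤ 3 * ‖T‖ ∧
      ∀ k ∈ F, ‖a k - T k‖ < ε ∧ ‖star a k - star T k‖ < ε := by
  rcases eq_or_ne T 0 with rfl | hT0
  · exact ⟨0, zero_mem _, by simp, fun k _ => by simpa using hε⟩
  have hcl : IsClosed (A.topologicalClosure : Set (Op H)) := A.isClosed_topologicalClosure
  obtain ⟨⟨a, ha⟩, h1, h2⟩ := R124.kaplansky A.topologicalClosure.subtype (T := T) (fun S hS => by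
    refine (commute_of_mem (M := cent (A : Set (Op H))) (mem_cent.2 fun s hs => ⟨?_, ?_⟩) hT).eq
    · exact hS ⟨s, A.le_topologicalClosure hs⟩
    · exact hS ⟨star s, A.le_topologicalClosure (star_mem hs)⟩) F (half_pos hε)
  obtain ⟨R, hR0, hR⟩ : ∃ R : ℝ, 0 < R ∧ ∀ k ∈ F, ‖k‖ ≤ R :=
    ⟨∑ k ∈ F, ‖k‖ + 1, by positivity, fun k hk =>
      (Finset.single_le_sum (f := fun k : H => ‖k‖) (fun _ _ => norm_nonneg _) hk).trans
        (le_add_of_nonneg_right zero_le_one)⟩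
  obtain ⟨b, hb, h3⟩ := Metric.mem_closure_iff.1 (show a ∈ closure (A : Set (Op H)) from ha)
    (min ‖T‖ (ε / 2 / R)) (lt_min (norm_pos_iff.2 hT0) (by positivity))
  rw [dist_comm, dist_eq_norm, lt_min_iff, lt_div_iff₀ hR0] at h3
  have h4 : ∀ (S : Op H), ‖S‖ = ‖b - a‖ → ∀ k ∈ F, ‖S k‖ ≤ ε / 2 := fun S hS k hk =>
    (S.le_opNorm k).trans ((mul_le_mul hS.le (hR k hk) (norm_nonneg _) (norm_nonneg _)).trans h3.2.le)
  refine ⟨b, hb, ?_, fun k hk => ⟨?_, ?_⟩⟩
  · have h5 : ‖a‖ ≤ 2 * ‖T‖ := h1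
    have h6 := norm_add_le (b - a) a
    rw [sub_add_cancel] at h6
    linarith [h3.1]
  · have h5 : ‖a k - T k‖ < ε / 2 := (h2 k hk).1
    have h6 := h4 (b - a) rfl k hk
    have h7 := norm_sub_le_norm_sub_add_norm_sub (b k) (a k) (T k)
    rw [sub_apply] at h6
    linarith
  · have h5 : ‖star a k - star T k‖ < ε / 2 := (h2 k hk).2
    have h6 := h4 (star b - star a) (by rw [← star_sub, norm_star]) k hk
    have h7 := norm_sub_le_norm_sub_add_norm_sub (star b k) (star a k) (star T k)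
    rw [sub_apply] at h6
    linarith

/-- Near inclusions pass to bicommutants: `kap`, lifts, and a weak cluster point
(`exists_wlim` along an ultrafilter on `Finset H × ℕ`). -/
theorem near_bicommutant (A B : StarSubalgebra ℂ (Op H)) {δ : ℝ} (hδ : 0 ≤ δ)
    (h : ∀ a ∈ A, ∃ b ∈ B, ‖a - b‖ ≤ δ * ‖a‖) :
    Near (cent (A : Set (Op H))).commutant (cent (B : Set (Op H))).commutant (3 * δ) := by
  classical
  intro x hx
  have hp : ∀ n : ℕ, (0 : ℝ) < 1 / ((n : ℝ) + 1) := fun n => by positivity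
  choose a ha h1 h2 using fun q : Finset H × ℕ => kap A hx q.1 (hp q.2)
  choose b hb h3 using fun q => h (a q) (ha q)
  let U : Ultrafilter (Finset H × ℕ) := Ultrafilter.of atTop
  have hU : (U : Filter (Finset H × ℕ)) ≤ atTop := Ultrafilter.of_le _
  obtain ⟨d, hd, h4⟩ := exists_wlim U (fun q => a q - b q) (c := 3 * δ * ‖x‖)
    (Eventually.of_forall fun q => (h3 q).trans
      ((mul_le_mul_of_nonneg_left (h1 q) hδ).trans_eq (by ring)))
  refine ⟨x - d, ?_, by rwa [sub_sub_cancel]⟩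
  refine mem_of_weak_tendsto (l := U) (T := b)
    (Eventually.of_forall fun q => mem_cent_commutant (hb q)) fun η ζ => ?_
  have h5 : Tendsto (fun q => a q ζ) atTop (𝓝 (x ζ)) := by
    rw [tendsto_iff_norm_sub_tendsto_zero]
    have h6 : Tendsto (fun q : Finset H × ℕ => 1 / ((q.2 : ℝ) + 1)) atTop (𝓝 0) := by
      refine tendsto_one_div_add_atTop_nhds_zero_nat.comp ?_
      rw [← prod_atTop_atTop_eq]
      exact tendsto_snd
    refine squeeze_zero' (Eventually.of_forall fun _ => norm_nonneg _) ?_ h6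
    filter_upwards [eventually_ge_atTop (({ζ}, 0) : Finset H × ℕ)] with q hq
    exact (h2 q ζ (hq.1 (Finset.mem_singleton_self ζ))).1.le
  have h6 := ((tendsto_const_nhds (x := η)).inner (𝕜 := ℂ) (h5.mono_left hU)).sub (h4 η ζ)
  simpa only [sub_apply, inner_sub_right, sub_sub_cancel] using h6

theorem near_cent : ∃ K : ℝ, 0 ≤ K ∧ ∀ (H : Type u) [NormedAddCommGroup H]
    [InnerProductSpace ℂ H] [CompleteSpace H] (A B : StarSubalgebra ℂ (Op H)) (δ : ℝ), 0 ≤ δ →
    (∀ b ∈ B, ∃ a ∈ A, ‖b - a‖ ≤ δ * ‖b‖) →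
    Near (cent (A : Set (Op H))) (cent (B : Set (Op H))) (K * δ) := by
  obtain ⟨K, hK, h⟩ := near_commutant.{u}
  refine ⟨3 * K, by positivity, fun H _ _ _ A B δ hδ hn => ?_⟩
  have h1 := h H _ _ _ (by positivity) (near_bicommutant B A hδ hn)
  rw [VonNeumannAlgebra.commutant_commutant, VonNeumannAlgebra.commutant_commutant] at h1
  convert h1 using 1
  ring

/-- Amplification: images under an injective `⋆`-homomorphism (isometric). -/
theorem near_cent_map : ∃ K : ℝ, 0 ≤ K ∧ ∀ (H H₁ : Type u) [NormedAddCommGroup H]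
    [InnerProductSpace ℂ H] [CompleteSpace H] [NormedAddCommGroup H₁] [InnerProductSpace ℂ H₁]
    [CompleteSpace H₁] (ι : Op H →⋆ₐ[ℂ] Op H₁) (M N : VN H) (δ : ℝ), Function.Injective ι →
    0 ≤ δ → Near M N δ →
    Near (cent (ι '' (M.commutant : Set (Op H)))) (cent (ι '' (N.commutant : Set (Op H))))
      (K * δ) := by
  obtain ⟨K, hK, h⟩ := near_commutant.{u}
  obtain ⟨K', hK', h'⟩ := near_cent.{u}
  refine ⟨K' * K, by positivity, fun H H₁ _ _ _ _ _ _ ι M N δ hι hδ hn => ?_⟩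
  rw [mul_assoc]
  refine h' H₁ (M.commutant.toStarSubalgebra.map ι) (N.commutant.toStarSubalgebra.map ι) _
    (by positivity) ?_
  rintro _ ⟨y, hy, rfl⟩
  obtain ⟨x, hx, h1⟩ := h H M N δ hδ hn y hy
  refine ⟨ι x, ⟨x, hx, rfl⟩, ?_⟩
  change ‖ι y - ι x‖ ≤ K * δ * ‖ι y‖
  rwa [← map_sub, NonUnitalStarAlgHom.norm_map ι hι, NonUnitalStarAlgHom.norm_map ι hι]

end Crest.Agent.R078
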