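import Crest.Agent.R078.BMean
import Crest.Agent.R124.Kap
import Crest.Agent.R121.Minimax
import Crest.Agent.R078.ADist

/-! Row 78: the distance formula (hyperreflexivity from S0165 and Arveson's argument), density
theorems, closeness of commutants. -/

set_option autoImplicit false

open scoped InnerProductSpace ComplexConjugate
open Filter Topology

namespace Crest.Agent.R078

open Crest.Agent.R121 (Mn Bd)
open Crest.Agent.R124 (ex)
open Crest.OpAlg

universe u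

variable {H : Type*} [NormedAddCommGroup H] [InnerProductSpace ℂ H] [CompleteSpace H]

/-- Step 1 (Arveson).  Let `η ζ : Fin h → H`.  On `PiLp 2 (fun _ : Fin h => H)` let `P` be the
projection onto the closure of `{(x (ζ i))_i | x ∈ M}`.  Its matrix entries lie in `M'`, so S0165
(applied to `M.commutant`, `Y = T`) bounds `‖[T_h, P]‖ ≤ C ε`.  If `∑ ⟪η i, x (ζ i)⟫ = 0` for all
`x ∈ M` then `P η = 0`, `P ζ = ζ`, so `∑ ⟪η i, T (ζ i)⟫ = ⟪η, [T_h, P] ζ⟫`. -/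
theorem dist_functional : ∃ K : ℝ, 0 ≤ K ∧ ∀ (H : Type u) [NormedAddCommGroup H]
    [InnerProductSpace ℂ H] [CompleteSpace H] (M : VN H) (T : Op H) (ε : ℝ), 0 ≤ ε →
    (∀ y ∈ M.commutant, ‖cm T y‖ ≤ ε * ‖y‖) → ∀ (h : ℕ) (η ζ : Fin h → H),
    (∀ x ∈ M, ∑ i, ⟪η i, x (ζ i)⟫_ℂ = 0) →
      ‖∑ i, ⟪η i, T (ζ i)⟫_ℂ‖ ≤ K * ε * √(∑ i, ‖η i‖ ^ 2) * √(∑ i, ‖ζ i‖ ^ 2) := by
  obtain ⟨C, hC⟩ := S0165.result.{u}
  refine ⟨|C|, abs_nonneg C, fun H _ _ _ M T g hg hT h η ζ h0 => ?_⟩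
  rcases Nat.eq_zero_or_pos h with rfl | hh
  · simp
  have h1 := ad_fin (M := M.commutant) (T := T) (c := |C| * g) (h := h) (fun X x hx hX h1 =>
    calc _ ≤ C * g * ‖X‖ := hC H M.commutant T g hT h hh (adDg h T) X x (fun _ _ => rfl) hx hX
      _ ≤ |C| * g * ‖X‖ := by gcongr; exact le_abs_self C
      _ ≤ |C| * g * 1 := by gcongr
      _ = |C| * g := mul_one _) (WithLp.toLp 2 ζ) (WithLp.toLp 2 η) (fun y hy => by
    rw [M.commutant_commutant] at hy
    exact h0 y hy)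
  rwa [PiLp.norm_eq_of_L2, PiLp.norm_eq_of_L2] at h1

end Crest.Agent.R078
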