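import Crest.Agent.R078.BDist0

/-! Row 78: the distance formula (hyperreflexivity from S0165 and Arveson's argument), density
theorems, closeness of commutants. -/

set_option autoImplicit false

open scoped InnerProductSpace ComplexConjugate
open Filter Topology

namespace Crest.Agent.R078

open Crest.Agent.R121 (Mn Bd)
open Crest.Agent.R124 (ex)
open Crest.OpAlg

universe u

variable {H : Type*} [NormedAddCommGroup H] [InnerProductSpace ℂ H] [CompleteSpace H]

/-- Step 2 (duality).  (a) For an orthonormal family `e : Fin n → H` let `Φ S = (⟪e i, S (e j)⟫)` in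
the finite-dimensional space of matrices.  `Φ(M)` is a (closed) subspace, `Φ(c • ball)` is compact
convex, so if `Φ T ∉ Φ(M) + Φ(c • ball)` then `geometric_hahn_banach_point_closed` gives a matrix
`A` with `φ S = ∑ A j i ⟪e i, S (e j)⟫` vanishing on `M` and `re φ T > c * sup_ball re φ`.  Write
`φ = ∑ s k ⟪f k, · (g k)⟫` with orthonormal `f`, `g`, `s ≥ 0` (diagonalise `A⋆A`, or polar
decomposition of the finite rank operator); testing on `∑ |f k⟩⟨g k|` gives `sup ≥ ∑ s k`;
`η k = √(s k) f k`, `ζ k = √(s k) g k` contradicts `h`.  (b) So for every finite set `F` of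
vectors there are `x F ∈ M`, `‖b F‖ ≤ c` with `⟪η, (T - x F - b F) ζ⟫ = 0` for `η ζ ∈ F`; take a weak
cluster point `b` of `b F` (`exists_wlim`), then `T - b ∈ M` by `mem_of_weak_tendsto`. -/
theorem exists_of_functional {M : VN H} {T : Op H} {c : ℝ} (hc : 0 ≤ c)
    (h : ∀ (n : ℕ) (η ζ : Fin n → H), (∀ x ∈ M, ∑ i, ⟪η i, x (ζ i)⟫_ℂ = 0) →
      ‖∑ i, ⟪η i, T (ζ i)⟫_ℂ‖ ≤ c * √(∑ i, ‖η i‖ ^ 2) * √(∑ i, ‖ζ i‖ ^ 2)) :
    ∃ x ∈ M, ‖T - x‖ ≤ c := by
  have h1 := ad_hb (M := M.commutant) (T := T) hc fun n _ ξ η h0 => by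
    rw [PiLp.norm_eq_of_L2, PiLp.norm_eq_of_L2]
    refine h n (fun i => η i) (fun i => ξ i) fun x hx => h0 x ?_
    rwa [M.commutant_commutant]
  rwa [M.commutant_commutant] at h1

end Crest.Agent.R078
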