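import Crest.Agent.R078.BFrame2

/-! Row 78: Pauli frames. -/

set_option autoImplicit false

open scoped InnerProductSpace ComplexConjugate
open Filter Topology

namespace Crest.Agent.R078

open Crest.Agent.R121 (Mn Bd)
open Crest.Agent.R124 (ex)
open Crest.OpAlg

universe u

variable {H : Type*} [NormedAddCommGroup H] [InnerProductSpace ℂ H] [CompleteSpace H]

namespace Framed

variable {A : VN H} {ξ : H} {F : Frame H} {x : Op H}

theorem swap (h : Framed A ξ F) : Framed A.commutant ξ F.swap where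
  cs := h.cs.commutant
  w_mem a := h.w'_mem _
  w'_mem a := by rw [VonNeumannAlgebra.commutant_commutant]; exact h.w_mem _
  vac a := (h.vac _).symm
  irr x hx hc := by
    rw [VonNeumannAlgebra.commutant_commutant]
    exact h.irr' x hx fun a => by rw [← gflip_gflip a]; exact hc _
  irr' y hy hc := by
    rw [VonNeumannAlgebra.commutant_commutant] at hy
    exact h.irr y hy fun a => by rw [← gflip_gflip a]; exact hc _

theorem P_vac (h : Framed A ξ F) : F.P ξ = ξ :=
  (F.P_apply_eq_iff ξ).2 h.vac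

theorem BFrame_P_bim (h : Framed A ξ F) {T : Op H} (hT : F.Bim A T) : F.P (T ξ) = T ξ := by
  refine (F.P_apply_eq_iff _).2 fun a => ?_
  have h1 := congrArg (fun S : Op H => S ξ) (hT.w a).eq
  have h2 := congrArg (fun S : Op H => S ξ) (hT.w' a).eq
  simp only [ContinuousLinearMap.mul_apply] at h1 h2
  rw [← h1, ← h2, h.vac]

theorem BFrame_bim_cen (h : Framed A ξ F) {c : Op H} (hc : Cen A c) : F.Bim A c :=
  ⟨fun a => (hc.commute (h.w_mem a)).symm, fun a => (hc.commute' (h.w'_mem a)).symm,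
    fun _ hd => hd.commute hc.1⟩

theorem P_cen_vac (h : Framed A ξ F) {c : Op H} (hc : Cen A c) : F.P (c ξ) = c ξ :=
  h.BFrame_P_bim (h.BFrame_bim_cen hc)

theorem star_vac (h : Framed A ξ F) (a : Gam) : star (F.w a) ξ = star (F.w' a) ξ := by
  rw [F.star_w, F.star_w', ContinuousLinearMap.smul_apply, ContinuousLinearMap.smul_apply, h.vac]

theorem q_mem (h : Framed A ξ F) (l : ℕ) : F.q l ∈ A :=
  ex_mem fun _ => h.w_mem _

theorem q'_mem (h : Framed A ξ F) (l : ℕ) : F.q' l ∈ A.commutant :=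
  ex_mem fun _ => h.w'_mem _

theorem q_vac (h : Framed A ξ F) (l : ℕ) : F.q l ξ = F.q' l ξ := by
  rw [Frame.q, Frame.q', ex_apply, ex_apply]
  simp only [h.vac]

theorem bim_cen (h : Framed A ξ F) {c : Op H} (hc : Cen A c) : F.Bim A c :=
  h.BFrame_bim_cen hc

theorem E_cen (h : Framed A ξ F) (hx : x ∈ A) : Cen A (F.E x) := by
  have h1 : F.E x ∈ A := F.prep_w.avg_mem fun a =>
    mul_mem (mul_mem (h.w_mem a) hx) (star_mem (h.w_mem a))
  exact ⟨h1, h.irr _ h1 fun a => F.prep_w.commute_avg x a⟩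

theorem EF_mem (h : Framed A ξ F) (hx : x ∈ A) (l : ℕ) : F.EF l x ∈ A :=
  ex_mem fun _ => mul_mem (mul_mem (h.w_mem _) hx) (star_mem (h.w_mem _))

theorem E_of_cen (h : Framed A ξ F) {c : Op H} (hc : Cen A c) : F.E c = c :=
  F.prep_w.avg_of_commute (h.bim_cen hc).w

theorem tendsto_EF (h : Framed A ξ F) (hx : x ∈ A) (η : H) :
    Tendsto (fun l => F.EF l x η) atTop (𝓝 (F.E x η)) :=
  tendsto_strong_of_vac h.cs.2.2 (fun l => ⟨h.EF_mem hx l, F.norm_EF_le l x⟩) (h.E_cen hx).1
    (F.tendsto_EF_apply (fun a => commute_of_mem hx (h.w'_mem a)) h.P_vac) η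

theorem inner_E (h : Framed A ξ F) (hx : x ∈ A) {c d : Op H} (hc : Cen A c) (hd : Cen A d) :
    ⟪c ξ, F.E x (d ξ)⟫_ℂ = ⟪c ξ, x (d ξ)⟫_ℂ :=
  F.inner_E (fun a => commute_of_mem hx (h.w'_mem a)) (h.P_cen_vac hd) (h.P_cen_vac hc)

theorem BFrame_norm_sq (x : Op H) (η : H) : ‖x η‖ ^ 2 = (⟪η, (star x * x) η⟫_ℂ).re := by
  rw [ContinuousLinearMap.mul_apply, ContinuousLinearMap.star_eq_adjoint,
    ContinuousLinearMap.adjoint_inner_right, inner_self_eq_norm_sq_to_K]
  norm_cast

theorem norm_q_vac_sq (h : Framed A ξ F) (l : ℕ) {c : Op H} (hc : Cen A c) :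
    ‖F.q l (c ξ)‖ ^ 2 = (1 / 2) ^ l * ‖c ξ‖ ^ 2 := by
  rw [BFrame_norm_sq, (F.q_proj l).isSelfAdjoint.star_eq, (F.q_proj l).isIdempotentElem.eq,
    ← h.inner_E (h.q_mem l) hc hc, F.E_q, ContinuousLinearMap.smul_apply, inner_smul_right,
    ContinuousLinearMap.one_apply, inner_self_eq_norm_sq_to_K]
  have : ((1 / 2 : ℂ) ^ l * (‖c ξ‖ : ℂ) ^ 2) = (((1 / 2 : ℝ) ^ l * ‖c ξ‖ ^ 2 : ℝ) : ℂ) := by
    push_cast; rfl
  exact (congrArg Complex.re this).trans (Complex.ofReal_re _)

/-- Invariant vectors are limits of `c ξ` with `c` central (`P (x ξ) = E x ξ`). -/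
theorem mem_closure_of_P (h : Framed A ξ F) {η : H} (hη : F.P η = η) :
    η ∈ closure {ζ | ∃ c, Cen A c ∧ c ξ = ζ} := by
  rw [← hη]
  refine h.cs.2.1.induction (p := fun η => F.P η ∈ closure {ζ | ∃ c, Cen A c ∧ c ξ = ζ})
    (isClosed_closure.preimage F.P.continuous) (fun a ha => subset_closure ?_) η
  exact ⟨F.E a, h.E_cen ha, F.E_apply (fun b => commute_of_mem ha (h.w'_mem b)) h.P_vac⟩

/-- The central symbol.  With `η = T ξ` (invariant): `‖a η‖² = ⟪η, E (a⋆a) η⟫ = ‖T (E (a⋆a))^{1/2} ξ‖²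
≤ ‖T‖² ‖a ξ‖²`, so `Cyc.exists_op` gives `c ∈ A'` with `c ξ = η`; `c` commutes with `w'` (test on
`ξ`), so `irr'` applies.  For the adjoint test against `closure (Z ξ)`. -/
theorem exists_symbol (h : Framed A ξ F) {T : Op H} (hT : F.Bim A T) :
    ∃ c, Cen A c ∧ ‖c‖ ≤ ‖T‖ ∧ c ξ = T ξ ∧ star c ξ = star T ξ := by
  have hP := h.BFrame_P_bim hT
  have key : ∀ a ∈ A, ‖a (T ξ)‖ ≤ ‖T‖ * ‖a ξ‖ := by
    intro a ha
    have haa : star a * a ∈ A := mul_mem (star_mem ha) ha
    have hw : ∀ b, Commute (star a * a) (F.w' b) := fun b => commute_of_mem haa (h.w'_mem b)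
    have hz := h.E_cen haa
    have hz0 : 0 ≤ F.E (star a * a) := by
      rw [ContinuousLinearMap.nonneg_iff_isPositive, ContinuousLinearMap.isPositive_def']
      refine ⟨?_, fun η => ?_⟩
      · show star (avg F.w (star a * a)) = avg F.w (star a * a)
        rw [← F.prep_w.avg_star, star_mul, star_star]
      · rw [ContinuousLinearMap.reApplyInnerSelf_apply, inner_re_symm]
        exact F.prep_w.avg_nonneg (fun η => by rw [← BFrame_norm_sq]; positivity) η
    set s := cfc Real.sqrt (F.E (star a * a)) with hs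
    have hsc : Cen A s := ⟨cfc_real_mem _ hz.1, cfc_real_mem _ hz.2⟩
    have hss : star s * s = F.E (star a * a) := by
      rw [(cfc_predicate Real.sqrt (F.E (star a * a)) : IsSelfAdjoint s).star_eq, hs,
        ← cfc_mul _ _ _ (by fun_prop) (by fun_prop)]
      conv_rhs => rw [← cfc_id' ℝ (F.E (star a * a)) hz0.isSelfAdjoint]
      exact cfc_congr fun t ht => Real.mul_self_sqrt (spectrum_nonneg_of_nonneg hz0 ht)
    have e1 : ‖a (T ξ)‖ = ‖s (T ξ)‖ := by
      rw [← sq_eq_sq₀ (norm_nonneg _) (norm_nonneg _), BFrame_norm_sq, BFrame_norm_sq, hss,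
        F.inner_E hw hP hP]
    have e2 : ‖a ξ‖ = ‖s ξ‖ := by
      rw [← sq_eq_sq₀ (norm_nonneg _) (norm_nonneg _), BFrame_norm_sq, BFrame_norm_sq, hss,
        F.inner_E hw h.P_vac h.P_vac]
    have e3 : s (T ξ) = T (s ξ) := (congrArg (fun S : Op H => S ξ) (hT.cen s hsc).eq).symm
    rw [e1, e2, e3]
    exact T.le_opNorm _
  obtain ⟨c, hc', hn, hcξ⟩ := h.cs.2.1.exists_op (T ξ) (norm_nonneg T) key
  have hc : Cen A c := by
    refine ⟨h.irr' c hc' fun a => ?_, hc'⟩
    rw [Commute, SemiconjBy, ← sub_eq_zero]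
    refine h.cs.2.1.sep' (sub_mem (mul_mem hc' (h.w'_mem a)) (mul_mem (h.w'_mem a) hc')) ?_
    have h1 := congrArg (fun S : Op H => S ξ) (commute_of_mem (h.w_mem a) hc').eq
    simp only [ContinuousLinearMap.mul_apply] at h1
    rw [ContinuousLinearMap.sub_apply, ContinuousLinearMap.mul_apply,
      ContinuousLinearMap.mul_apply, ← h.vac, ← h1, hcξ, (F.P_apply_eq_iff _).1 hP a, sub_self]
  refine ⟨c, hc, hn, hcξ, ?_⟩
  have hB := (h.bim_cen hc.star_mem).sub hT.star_mem
  have h1 := h.mem_closure_of_P (h.BFrame_P_bim hB)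
  have h2 : ∀ ζ ∈ closure {ζ | ∃ c, Cen A c ∧ c ξ = ζ}, ⟪ζ, (star c - star T) ξ⟫_ℂ = 0 := by
    intro ζ hζ
    refine closure_minimal (t := {ζ | ⟪ζ, (star c - star T) ξ⟫_ℂ = 0}) ?_
      (isClosed_eq (by fun_prop) continuous_const) hζ
    rintro _ ⟨d, hd, rfl⟩
    have e1 := congrArg (fun S : Op H => S ξ) (hd.commute hc.1).eq
    have e2 := congrArg (fun S : Op H => S ξ) (hT.cen d hd).eq
    simp only [ContinuousLinearMap.mul_apply] at e1 e2
    show ⟪d ξ, (star c - star T) ξ⟫_ℂ = 0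
    rw [ContinuousLinearMap.sub_apply, inner_sub_right, ContinuousLinearMap.star_eq_adjoint,
      ContinuousLinearMap.star_eq_adjoint, ContinuousLinearMap.adjoint_inner_right,
      ContinuousLinearMap.adjoint_inner_right, e1, e2, hcξ, sub_self]
  have h3 := inner_self_eq_zero.1 (h2 _ h1)
  rwa [ContinuousLinearMap.sub_apply, sub_eq_zero] at h3

theorem BFrame_commute_conj {v x y : Op H} (hv : v ∈ unitary (Op H)) (h1 : Commute v y)
    (h2 : Commute x y) : Commute (star v * x * v) y := by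
  have h3 : Commute (star v) y := by
    have e1 := Unitary.star_mul_self_of_mem hv
    have e2 := Unitary.mul_star_self_of_mem hv
    calc star v * y = star v * y * (v * star v) := by rw [e2, mul_one]
      _ = star v * (y * v) * star v := by simp only [mul_assoc]
      _ = star v * v * y * star v := by rw [← h1.eq]; simp only [mul_assoc]
      _ = y * star v := by rw [e1, one_mul]
  exact (h3.mul_left h2).mul_left h1

/-- Conjugation by a bimodule unitary fixing `ξ`. -/
theorem conj_unitary (h : Framed A ξ F) {v : Op H} (hv : v ∈ unitary (Op H)) (hb : F.Bim A v)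
    (hξ : v ξ = ξ) : Framed (conjVN v A) ξ F where
  cs := by have := h.cs.conj_unitary hv; rwa [hξ] at this
  w_mem a := (mem_conjVN_of_commute hv (hb.w a)).2 (h.w_mem a)
  w'_mem a := by
    rw [commutant_conjVN hv]; exact (mem_conjVN_of_commute hv (hb.w' a)).2 (h.w'_mem a)
  vac := h.vac
  irr x hx hc := by
    rw [commutant_conjVN hv, mem_conjVN' hv]
    exact h.irr _ ((mem_conjVN' hv).1 hx) fun a => BFrame_commute_conj hv (hb.w a) (hc a)
  irr' y hy hc := by
    rw [commutant_conjVN hv, mem_conjVN' hv] at hy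
    rw [mem_conjVN' hv]
    exact h.irr' _ hy fun a => BFrame_commute_conj hv (hb.w' a) (hc a)

end Framed

theorem cen_conjVN {A : VN H} {v : Op H} (hv : v ∈ unitary (Op H))
    (h : ∀ c, Cen A c → Commute v c) (c : Op H) : Cen (conjVN v A) c ↔ Cen A c := by
  constructor
  · rintro ⟨h1, h2⟩
    rw [commutant_conjVN hv] at h2
    have h3 : Cen A (star v * c * v) := ⟨(mem_conjVN' hv).1 h1, (mem_conjVN' hv).1 h2⟩
    have e2 := Unitary.mul_star_self_of_mem hv
    have : c = star v * c * v :=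
      calc c = v * star v * c * (v * star v) := by rw [e2, one_mul, mul_one]
        _ = v * (star v * c * v) * star v := by simp only [mul_assoc]
        _ = star v * c * v * (v * star v) := by rw [(h _ h3).eq]; simp only [mul_assoc]
        _ = star v * c * v := by rw [e2, mul_one]
    rwa [this]
  · intro hc
    refine ⟨(mem_conjVN_of_commute hv (h c hc)).2 hc.1, ?_⟩
    rw [commutant_conjVN hv]
    exact (mem_conjVN_of_commute hv (h c hc)).2 hc.2

namespace Sit

variable {M N : VN H} {ξ : H} {F : Frame H}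

theorem symm (h : Sit M N ξ F) : Sit N M ξ F := ⟨h.fN, h.fM, fun c => (h.cen c).symm⟩

theorem swap (h : Sit M N ξ F) : Sit M.commutant N.commutant ξ F.swap :=
  ⟨h.fM.swap, h.fN.swap, fun c => by rw [Cen.commutant, Cen.commutant, h.cen]⟩

theorem bim_iff (h : Sit M N ξ F) {T : Op H} : F.Bim M T ↔ F.Bim N T :=
  ⟨fun b => ⟨b.w, b.w', fun c hc => b.cen c ((h.cen c).2 hc)⟩,
    fun b => ⟨b.w, b.w', fun c hc => b.cen c ((h.cen c).1 hc)⟩⟩

theorem conj_right (h : Sit M N ξ F) {v : Op H} (hv : v ∈ unitary (Op H)) (hb : F.Bim M v)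
    (hξ : v ξ = ξ) : Sit M (conjVN v N) ξ F :=
  ⟨h.fM, h.fN.conj_unitary hv (h.bim_iff.1 hb) hξ, fun c =>
    (h.cen c).trans (cen_conjVN hv (h.bim_iff.1 hb).cen c).symm⟩

theorem conj_left (h : Sit M N ξ F) {v : Op H} (hv : v ∈ unitary (Op H)) (hb : F.Bim M v)
    (hξ : v ξ = ξ) : Sit (conjVN v M) N ξ F :=
  ⟨h.fM.conj_unitary hv hb hξ, h.fN, fun c => (cen_conjVN hv hb.cen c).trans (h.cen c)⟩

end Sit

/-- Averaging an operator over both copies of the frame and the central unitaries. -/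
noncomputable def Frame.bavg (F : Frame H) (M : VN H) (T : Op H) : Op H :=
  avg (uz M) (avg F.w' (avg F.w T))

theorem Framed.bim_bavg {A : VN H} {ξ : H} {F : Frame H} (h : Framed A ξ F) (T : Op H) :
    F.Bim A (F.bavg A T) := by
  refine ⟨fun b => Commute.symm ?_, fun b => Commute.symm ?_, fun c hc => ?_⟩
  · exact (prep_uz A).commute_avg' (F.prep_w'.commute_avg' (F.prep_w.commute_avg T b).symm
      fun a => F.comm b a) fun a => (cen_uz A a).commute (h.w_mem b)
  · exact (prep_uz A).commute_avg' (F.prep_w'.commute_avg _ b).symm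
      fun a => (cen_uz A a).commute' (h.w'_mem b)
  · exact commute_cen_of_uz (fun a => (prep_uz A).commute_avg _ a) hc

end Crest.Agent.R078
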