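import Crest.Agent.R078.BPolar0

/-! Row 78: unitary part of invertible operators, Cayley transform. -/

set_option autoImplicit false

open scoped InnerProductSpace ComplexConjugate
open Filter Topology

namespace Crest.Agent.R078

open Crest.Agent.R121 (Mn Bd)
open Crest.Agent.R124 (ex)
open Crest.OpAlg

universe u

variable {H : Type*} [NormedAddCommGroup H] [InnerProductSpace ℂ H] [CompleteSpace H]

variable {M : VN H} {T S k u : Op H}
/-! ### Cayley transform of skew-adjoint operators -/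

/-- `(1 + k/2) (1 - k/2)⁻¹`. -/
noncomputable def cay (k : Op H) : Op H :=
  (1 + (1 / 2 : ℂ) • k) * Ring.inverse (1 - (1 / 2 : ℂ) • k)

lemma BPolar_re_inner (hk : star k = -k) (η : H) : (⟪k η, η⟫_ℂ).re = 0 := by
  have h1 : ⟪k η, η⟫_ℂ = ⟪η, (star k) η⟫_ℂ := by
    rw [ContinuousLinearMap.star_eq_adjoint, ContinuousLinearMap.adjoint_inner_right]
  rw [hk, ContinuousLinearMap.neg_apply, inner_neg_right] at h1
  have h2 : (⟪η, k η⟫_ℂ).re = (⟪k η, η⟫_ℂ).re := by
    rw [← inner_conj_symm η (k η), Complex.conj_re]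
  have h3 := congrArg Complex.re h1
  rw [Complex.neg_re, h2] at h3
  linarith

lemma BPolar_re_inner_A (hk : star k = -k) (η : H) :
    (⟪(1 - (1 / 2 : ℂ) • k) η, η⟫_ℂ).re = ‖η‖ ^ 2 := by
  have h := BPolar_re_inner hk η
  rw [ContinuousLinearMap.sub_apply, ContinuousLinearMap.one_apply, ContinuousLinearMap.smul_apply,
    inner_sub_left, inner_smul_left, Complex.sub_re]
  have h2 : (⟪η, η⟫_ℂ).re = ‖η‖ ^ 2 := by
    have := inner_self_eq_norm_sq (𝕜 := ℂ) η
    simpa using this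
  have h3 : conj (1 / 2 : ℂ) = ((1 / 2 : ℝ) : ℂ) := by
    rw [map_div₀, map_one]
    have : conj (2 : ℂ) = 2 := by
      simpa using Complex.conj_ofNat 2
    rw [this]; push_cast; ring
  rw [h2, h3, Complex.re_ofReal_mul, h]
  ring

lemma BPolar_le_norm_A (hk : star k = -k) (η : H) : ‖η‖ ≤ ‖(1 - (1 / 2 : ℂ) • k) η‖ := by
  have h := BPolar_re_inner_A hk η
  have h2 : (⟪(1 - (1 / 2 : ℂ) • k) η, η⟫_ℂ).re ≤ ‖(1 - (1 / 2 : ℂ) • k) η‖ * ‖η‖ :=
    (Complex.re_le_norm _).trans (norm_inner_le_norm _ _)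
  rw [h] at h2
  by_cases h0 : ‖η‖ = 0
  · rw [h0]; exact norm_nonneg _
  · have hp : 0 < ‖η‖ := lt_of_le_of_ne (norm_nonneg _) (Ne.symm h0)
    nlinarith

lemma BPolar_star_neg (hk : star k = -k) : star (-k) = -(-k) := by
  rw [star_neg, hk]

lemma BPolar_star_A (hk : star k = -k) :
    star (1 - (1 / 2 : ℂ) • k) = 1 + (1 / 2 : ℂ) • k := by
  have h3 : star (1 / 2 : ℂ) = 1 / 2 := by
    rw [star_div₀, star_one, star_ofNat]
  rw [star_sub, star_one, star_smul, hk, h3, smul_neg, sub_neg_eq_add]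

lemma BPolar_star_B (hk : star k = -k) :
    star (1 + (1 / 2 : ℂ) • k) = 1 - (1 / 2 : ℂ) • k := by
  rw [← BPolar_star_A hk, star_star]

lemma BPolar_neg (k : Op H) : 1 - (1 / 2 : ℂ) • (-k) = 1 + (1 / 2 : ℂ) • k := by
  rw [smul_neg, sub_neg_eq_add]

lemma BPolar_neg' (k : Op H) : 1 + (1 / 2 : ℂ) • (-k) = 1 - (1 / 2 : ℂ) • k := by
  rw [smul_neg, ← sub_eq_add_neg]

lemma BPolar_commute_A (h : Commute S k) : Commute S (1 - (1 / 2 : ℂ) • k) :=
  (Commute.one_right S).sub_right (h.smul_right _)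

lemma BPolar_commute_B (h : Commute S k) : Commute S (1 + (1 / 2 : ℂ) • k) :=
  (Commute.one_right S).add_right (h.smul_right _)

lemma BPolar_commute_k_inv (k : Op H) : Commute k (Ring.inverse (1 - (1 / 2 : ℂ) • k)) :=
  commute_inverse (BPolar_commute_A (Commute.refl k))

lemma BPolar_commute_B_inv (k : Op H) :
    Commute (1 + (1 / 2 : ℂ) • k) (Ring.inverse (1 - (1 / 2 : ℂ) • k)) :=
  (BPolar_commute_B (BPolar_commute_k_inv k).symm).symm

/-- `‖(1 - k/2) η‖² = ‖η‖² + ‖k η‖²/4`, same for the adjoint. -/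
theorem isUnit_one_sub_skew (hk : star k = -k) : IsUnit (1 - (1 / 2 : ℂ) • k) := by
  refine ContinuousLinearMap.isUnit_of_forall_le_norm_inner_map _ (c := 1) one_pos fun x => ?_
  rw [NNReal.coe_one, mul_one, ← BPolar_re_inner_A hk x]
  exact Complex.re_le_norm _

theorem norm_inverse_one_sub_skew_apply (hk : star k = -k) (η : H) :
    ‖Ring.inverse (1 - (1 / 2 : ℂ) • k) η‖ ≤ ‖η‖ := by
  have h := BPolar_le_norm_A hk (Ring.inverse (1 - (1 / 2 : ℂ) • k) η)
  rw [← ContinuousLinearMap.mul_apply, Ring.mul_inverse_cancel _ (isUnit_one_sub_skew hk)] at h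
  exact h

lemma BPolar_isUnit_B (hk : star k = -k) : IsUnit (1 + (1 / 2 : ℂ) • k) := by
  rw [← BPolar_neg]; exact isUnit_one_sub_skew (BPolar_star_neg hk)

lemma BPolar_star_cay (hk : star k = -k) :
    star (cay k) = Ring.inverse (1 + (1 / 2 : ℂ) • k) * (1 - (1 / 2 : ℂ) • k) := by
  rw [cay, star_mul, ← Ring.inverse_star, BPolar_star_A hk, BPolar_star_B hk]

lemma BPolar_star_cay' (hk : star k = -k) : star (cay k) = cay (-k) := by
  rw [BPolar_star_cay hk, cay, BPolar_neg, BPolar_neg']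
  have := BPolar_commute_B_inv (-k)
  rw [BPolar_neg, BPolar_neg'] at this
  exact this.eq.symm

lemma BPolar_cay_neg_mul (hk : star k = -k) : cay (-k) * cay k = 1 := by
  rw [← BPolar_star_cay' hk, BPolar_star_cay hk, cay]
  have hc : Commute (1 - (1 / 2 : ℂ) • k) (1 + (1 / 2 : ℂ) • k) :=
    BPolar_commute_B (BPolar_commute_A (Commute.refl k)).symm
  calc Ring.inverse (1 + (1 / 2 : ℂ) • k) * (1 - (1 / 2 : ℂ) • k) *
        ((1 + (1 / 2 : ℂ) • k) * Ring.inverse (1 - (1 / 2 : ℂ) • k))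
      = Ring.inverse (1 + (1 / 2 : ℂ) • k) * ((1 - (1 / 2 : ℂ) • k) *
        (1 + (1 / 2 : ℂ) • k)) * Ring.inverse (1 - (1 / 2 : ℂ) • k) := by
        simp only [mul_assoc]
    _ = (Ring.inverse (1 + (1 / 2 : ℂ) • k) * (1 + (1 / 2 : ℂ) • k)) *
        ((1 - (1 / 2 : ℂ) • k) * Ring.inverse (1 - (1 / 2 : ℂ) • k)) := by
        rw [hc.eq]; simp only [mul_assoc]
    _ = 1 := by
        rw [Ring.inverse_mul_cancel _ (BPolar_isUnit_B hk),
          Ring.mul_inverse_cancel _ (isUnit_one_sub_skew hk), one_mul]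

theorem cay_unitary (hk : star k = -k) : cay k ∈ unitary (Op H) := by
  rw [Unitary.mem_iff, BPolar_star_cay' hk]
  refine ⟨BPolar_cay_neg_mul hk, ?_⟩
  have := BPolar_cay_neg_mul (BPolar_star_neg hk)
  rwa [neg_neg] at this

theorem star_cay (hk : star k = -k) : star (cay k) = cay (-k) := by
  exact BPolar_star_cay' hk

theorem cay_mem (hk : k ∈ M) : cay k ∈ M := by
  have h1 : (1 / 2 : ℂ) • k ∈ M := M.toStarSubalgebra.smul_mem hk _
  exact mul_mem (add_mem (one_mem M) h1) (inverse_mem (sub_mem (one_mem M) h1))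

theorem commute_cay (h : Commute S k) : Commute S (cay k) := by
  exact (BPolar_commute_B h).mul_right (commute_inverse (BPolar_commute_A h))

lemma BPolar_cay_sub_one (hk : star k = -k) :
    cay k - 1 = Ring.inverse (1 - (1 / 2 : ℂ) • k) * k := by
  have h := Ring.mul_inverse_cancel _ (isUnit_one_sub_skew hk)
  rw [← (BPolar_commute_k_inv k).eq, cay]
  calc (1 + (1 / 2 : ℂ) • k) * Ring.inverse (1 - (1 / 2 : ℂ) • k) - 1
      = (1 + (1 / 2 : ℂ) • k) * Ring.inverse (1 - (1 / 2 : ℂ) • k) -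
        (1 - (1 / 2 : ℂ) • k) * Ring.inverse (1 - (1 / 2 : ℂ) • k) := by rw [h]
    _ = ((1 + (1 / 2 : ℂ) • k) - (1 - (1 / 2 : ℂ) • k)) * Ring.inverse (1 - (1 / 2 : ℂ) • k) :=
        (sub_mul _ _ _).symm
    _ = k * Ring.inverse (1 - (1 / 2 : ℂ) • k) := by
        congr 1
        module

lemma BPolar_cay_sub (hk : star k = -k) :
    cay k - 1 - k = (1 / 2 : ℂ) • (Ring.inverse (1 - (1 / 2 : ℂ) • k) * (k * k)) := by
  have h := Ring.inverse_mul_cancel _ (isUnit_one_sub_skew hk)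
  rw [BPolar_cay_sub_one hk]
  calc Ring.inverse (1 - (1 / 2 : ℂ) • k) * k - k
      = Ring.inverse (1 - (1 / 2 : ℂ) • k) * k -
        Ring.inverse (1 - (1 / 2 : ℂ) • k) * (1 - (1 / 2 : ℂ) • k) * k := by rw [h, one_mul]
    _ = _ := by
        generalize Ring.inverse (1 - (1 / 2 : ℂ) • k) = R
        simp only [mul_sub, sub_mul, mul_one, mul_smul_comm, smul_mul_assoc, mul_assoc]
        abel

/-- `cay k - 1 = (1 - k/2)⁻¹ k`. -/
theorem norm_cay_sub_one_apply (hk : star k = -k) (η : H) : ‖(cay k - 1) η‖ ≤ ‖k η‖ := by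
  rw [BPolar_cay_sub_one hk, ContinuousLinearMap.mul_apply]
  exact norm_inverse_one_sub_skew_apply hk _

/-- `cay k - 1 - k = (1 - k/2)⁻¹ k² / 2`. -/
theorem norm_cay_sub_apply (hk : star k = -k) (η : H) :
    ‖(cay k - 1 - k) η‖ ≤ ‖k (k η)‖ / 2 := by
  rw [BPolar_cay_sub hk, ContinuousLinearMap.smul_apply, ContinuousLinearMap.mul_apply,
    ContinuousLinearMap.mul_apply, norm_smul]
  have := norm_inverse_one_sub_skew_apply hk (k (k η))
  have h2 : ‖(1 / 2 : ℂ)‖ = 1 / 2 := by simp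
  rw [h2]; linarith

theorem norm_cay_sub_one (hk : star k = -k) : ‖cay k - 1‖ ≤ ‖k‖ := by
  refine ContinuousLinearMap.opNorm_le_bound _ (norm_nonneg _) fun η => ?_
  exact (norm_cay_sub_one_apply hk η).trans (k.le_opNorm η)

theorem norm_cay_sub (hk : star k = -k) : ‖cay k - 1 - k‖ ≤ ‖k‖ ^ 2 / 2 := by
  refine ContinuousLinearMap.opNorm_le_bound _ (by positivity) fun η => ?_
  refine (norm_cay_sub_apply hk η).trans ?_
  have h1 := k.le_opNorm (k η)
  have h2 := mul_le_mul_of_nonneg_left (k.le_opNorm η) (norm_nonneg k)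
  nlinarith

/-- `cay k - cay k' = (1 - k/2)⁻¹ (k - k') (1 - k'/2)⁻¹`. -/
theorem cay_sub_cay {k' : Op H} (hk : star k = -k) (hk' : star k' = -k') :
    cay k - cay k' =
      Ring.inverse (1 - (1 / 2 : ℂ) • k) * (k - k') * Ring.inverse (1 - (1 / 2 : ℂ) • k') := by
  have h := Ring.inverse_mul_cancel _ (isUnit_one_sub_skew hk)
  have h' := Ring.mul_inverse_cancel _ (isUnit_one_sub_skew hk')
  have e1 := BPolar_cay_sub_one hk
  have e2 := BPolar_cay_sub_one hk'
  rw [← (BPolar_commute_k_inv k').eq] at e2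
  have e : cay k - cay k' = (cay k - 1) - (cay k' - 1) := by abel
  rw [e, e1, e2]
  generalize Ring.inverse (1 - (1 / 2 : ℂ) • k) = R at *
  generalize Ring.inverse (1 - (1 / 2 : ℂ) • k') = R' at *
  calc R * k - k' * R' = R * k * ((1 - (1 / 2 : ℂ) • k') * R') -
        (R * (1 - (1 / 2 : ℂ) • k)) * k' * R' := by rw [h, h', mul_one, one_mul]
    _ = _ := by
        simp only [mul_sub, sub_mul, mul_one, one_mul, mul_smul_comm, smul_mul_assoc, mul_assoc]
        abel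

theorem cay_apply_eq {ξ : H} (hk : star k = -k) (h : k ξ = 0) : cay k ξ = ξ := by
  have h1 := norm_cay_sub_one_apply hk ξ
  rw [h, norm_zero, norm_le_zero_iff, ContinuousLinearMap.sub_apply,
    ContinuousLinearMap.one_apply, sub_eq_zero] at h1
  exact h1

theorem jc_cay {J : H ≃ₗᵢ⋆[ℂ] H} (hJ : ∀ η, J (J η) = η) (k : Op H) :
    jc J (cay k) = cay (jc J k) := by
  have h3 : conj (1 / 2 : ℂ) = 1 / 2 := by
    rw [map_div₀, map_one]
    have : conj (2 : ℂ) = 2 := by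
      simpa using Complex.conj_ofNat 2
    rw [this]
  rw [cay, cay, jc_mul hJ, jc_inverse hJ, jc_add, jc_sub, jc_one hJ, jc_smul, h3]

/-- `u x u⋆ = x + [k, x] + O(k²)`. -/
theorem norm_cay_conj_sub (hk : star k = -k) (x : Op H) :
    ‖cay k * x * star (cay k) - x - cm k x‖ ≤ 2 * ‖k‖ ^ 2 * ‖x‖ := by
  have hu := cay_unitary hk
  have h1 : ‖cay k - 1 - k‖ ≤ ‖k‖ ^ 2 / 2 := norm_cay_sub hk
  have h2 : ‖star (cay k) - 1 + k‖ ≤ ‖k‖ ^ 2 / 2 := by
    have := norm_cay_sub (BPolar_star_neg hk)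
    rwa [norm_neg, ← star_cay hk, sub_neg_eq_add] at this
  have h3 : ‖star (cay k) - 1‖ ≤ ‖k‖ := by
    have := norm_cay_sub_one (BPolar_star_neg hk)
    rwa [norm_neg, ← star_cay hk] at this
  have e : cay k * x * star (cay k) - x - cm k x =
      (cay k - 1 - k) * x * star (cay k) + x * (star (cay k) - 1 + k) +
        k * x * (star (cay k) - 1) := by
    rw [cm]; noncomm_ring
  have h4 : ‖(cay k - 1 - k) * x * star (cay k)‖ ≤ ‖k‖ ^ 2 / 2 * ‖x‖ := by
    rw [CStarRing.norm_mul_mem_unitary _ (Unitary.star_mem hu)]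
    exact (norm_mul_le _ _).trans (mul_le_mul_of_nonneg_right h1 (norm_nonneg _))
  have h5 : ‖x * (star (cay k) - 1 + k)‖ ≤ ‖x‖ * (‖k‖ ^ 2 / 2) :=
    (norm_mul_le _ _).trans (mul_le_mul_of_nonneg_left h2 (norm_nonneg _))
  have h6 : ‖k * x * (star (cay k) - 1)‖ ≤ ‖k‖ * ‖x‖ * ‖k‖ :=
    (norm_mul_le _ _).trans (mul_le_mul (norm_mul_le _ _) h3 (norm_nonneg _) (by positivity))
  rw [e]
  refine (norm_add₃_le).trans ?_
  nlinarith

end Crest.Agent.R078
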