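import Crest.Agent.R078.BMean
import Crest.Agent.R078.BPolar

/-! Row 78: Pauli frames. -/

set_option autoImplicit false

open scoped InnerProductSpace ComplexConjugate
open Filter Topology

namespace Crest.Agent.R078

open Crest.Agent.R121 (Mn Bd)
open Crest.Agent.R124 (ex)
open Crest.OpAlg

universe u

variable {H : Type*} [NormedAddCommGroup H] [InnerProductSpace ℂ H] [CompleteSpace H]

/-! ### The cocycle -/

theorem BFrame0_beta_eq (a b : Gam) {s : Finset ℕ} (h : a.support ⊆ s) :
    beta a b = ∑ n ∈ s, (a n).2 * (b n).1 :=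
  Finsupp.sum_of_support_subset a h _ (by simp)

theorem BFrame0_gflip_apply (a : Gam) (n : ℕ) : gflip a n = (a n).swap := rfl

theorem BFrame0_chi (x y : ZMod 2) : (if x + y = 0 then (1 : ℂ) else -1) =
    (if x = 0 then 1 else -1) * (if y = 0 then 1 else -1) := by
  have h : ∀ z : ZMod 2, z = 0 ∨ z = 1 := by decide
  have h2 : (1 : ZMod 2) + 1 = 0 := by decide
  rcases h x with rfl | rfl <;> rcases h y with rfl | rfl <;> simp [h2]

theorem beta_add_left (a a' b : Gam) : beta (a + a') b = beta a b + beta a' b := by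
  exact Finsupp.sum_add_index' (by simp) (fun n x y => by simp [add_mul])

theorem beta_add_right (a b b' : Gam) : beta a (b + b') = beta a b + beta a b' := by
  simp [beta, Finsupp.sum, mul_add, Finset.sum_add_distrib]

theorem beta_single (n : ℕ) (x : ZMod 2 × ZMod 2) (b : Gam) :
    beta (Finsupp.single n x) b = x.2 * (b n).1 := by
  exact Finsupp.sum_single_index (by simp)

theorem beta_gflip (a b : Gam) : beta (gflip a) (gflip b) = beta b a := by
  rw [BFrame0_beta_eq (gflip a) _ (s := a.support ∪ b.support)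
      (Finsupp.support_mapRange.trans Finset.subset_union_left),
    BFrame0_beta_eq b a (s := a.support ∪ b.support) Finset.subset_union_right]
  exact Finset.sum_congr rfl fun n _ => mul_comm _ _

theorem gflip_add (a b : Gam) : gflip (a + b) = gflip a + gflip b := by
  ext n <;> rfl

theorem gflip_gflip (a : Gam) : gflip (gflip a) = a := by
  ext n <;> rfl

theorem gam_add_self (a : Gam) : a + a = 0 := by
  have h : ∀ z : ZMod 2, z + z = 0 := by decide
  ext n <;> simp [h]

theorem sg_add_left (a a' b : Gam) : sg (a + a') b = sg a b * sg a' b := by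
  simp only [sg, beta_add_left, BFrame0_chi]

theorem sg_add_right (a b b' : Gam) : sg a (b + b') = sg a b * sg a b' := by
  simp only [sg, beta_add_right, BFrame0_chi]

theorem sg_mul_self (a b : Gam) : sg a b * sg a b = 1 := by
  unfold sg
  split_ifs <;> simp

theorem conj_sg (a b : Gam) : conj (sg a b) = sg a b := by
  unfold sg
  split_ifs <;> simp

theorem norm_sg (a b : Gam) : ‖sg a b‖ = 1 := by
  unfold sg
  split_ifs <;> simp

theorem sg_zero_left (b : Gam) : sg 0 b = 1 := by
  simp [sg, beta]

theorem sg_zero_right (a : Gam) : sg a 0 = 1 := by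
  simp [sg, beta, Finsupp.sum]

theorem emb_add {l : ℕ} (a b : Gl l) : emb (a + b) = emb a + emb b := by
  simp [emb, Finsupp.single_add, Finset.sum_add_distrib]

theorem emb_zero {l : ℕ} : emb (0 : Gl l) = 0 := by
  simp [emb]

theorem emb_apply_lt {l : ℕ} (a : Gl l) (i : Fin l) : emb a i = a i := by
  simp [emb, Finsupp.finsetSum_apply, Finsupp.single_apply, Fin.val_inj]

theorem emb_apply_ge {l n : ℕ} (a : Gl l) (h : l ≤ n) : emb a n = 0 := by
  rw [emb, Finsupp.finsetSum_apply]
  refine Finset.sum_eq_zero fun i _ => Finsupp.single_eq_of_ne ?_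
  have := i.2
  omega

theorem eventually_exists_emb (a : Gam) : ∀ᶠ l in atTop, ∃ b : Gl l, emb b = a := by
  obtain ⟨L, hL⟩ := a.support.bddAbove
  filter_upwards [eventually_gt_atTop L] with l hl
  refine ⟨fun i => a i, Finsupp.ext fun n => ?_⟩
  rcases lt_or_ge n l with h | h
  · exact emb_apply_lt (fun i : Fin l => a i) ⟨n, h⟩
  · rw [emb_apply_ge _ h]
    by_contra hne
    have := hL (Finsupp.mem_support_iff.2 (Ne.symm hne))
    omega

theorem exists_emb_of_le {l L : ℕ} (h : l ≤ L) (a : Gl l) : ∃ b : Gl L, emb b = emb a := by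
  refine ⟨fun i => emb a i, Finsupp.ext fun n => ?_⟩
  rcases lt_or_ge n L with h' | h'
  · exact emb_apply_lt (fun i : Fin L => emb a i) ⟨n, h'⟩
  · rw [emb_apply_ge _ h', emb_apply_ge _ (h.trans h')]

namespace Frame

variable (F : Frame H)

theorem w_zero : F.w 0 = 1 := by
  have h := F.w_mul 0 0
  rw [sg_zero_left, one_smul, add_zero] at h
  have h1 := Unitary.star_mul_self_of_mem (F.w_mem 0)
  calc F.w 0 = star (F.w 0) * (F.w 0 * F.w 0) := by rw [← mul_assoc, h1, one_mul]
    _ = 1 := by rw [h, h1]

theorem w'_zero : F.w' 0 = 1 := by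
  have h := F.w'_mul 0 0
  rw [sg_zero_left, one_smul, add_zero] at h
  have h1 := Unitary.star_mul_self_of_mem (F.w'_mem 0)
  calc F.w' 0 = star (F.w' 0) * (F.w' 0 * F.w' 0) := by rw [← mul_assoc, h1, one_mul]
    _ = 1 := by rw [h, h1]

theorem star_w (a : Gam) : star (F.w a) = sg a a • F.w a := by
  have h := F.w_mul a a
  rw [gam_add_self, F.w_zero] at h
  have h1 := Unitary.star_mul_self_of_mem (F.w_mem a)
  have h2 : F.w a = sg a a • star (F.w a) := by
    calc F.w a = star (F.w a) * (F.w a * F.w a) := by rw [← mul_assoc, h1, one_mul]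
      _ = _ := by rw [h, mul_smul_comm, mul_one]
  conv_rhs => rw [h2]
  rw [smul_smul, sg_mul_self, one_smul]

theorem star_w' (a : Gam) : star (F.w' a) = sg a a • F.w' a := by
  have h := F.w'_mul a a
  rw [gam_add_self, F.w'_zero] at h
  have h1 := Unitary.star_mul_self_of_mem (F.w'_mem a)
  have h2 : F.w' a = sg a a • star (F.w' a) := by
    calc F.w' a = star (F.w' a) * (F.w' a * F.w' a) := by rw [← mul_assoc, h1, one_mul]
      _ = _ := by rw [h, mul_smul_comm, mul_one]
  conv_rhs => rw [h2]
  rw [smul_smul, sg_mul_self, one_smul]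

theorem w_comm (a b : Gam) : F.w a * F.w b = (sg a b * sg b a) • (F.w b * F.w a) := by
  rw [F.w_mul a b, F.w_mul b a, smul_smul, mul_assoc, sg_mul_self, mul_one, add_comm b a]

theorem w'_comm (a b : Gam) : F.w' a * F.w' b = (sg a b * sg b a) • (F.w' b * F.w' a) := by
  rw [F.w'_mul b a, F.w'_mul a b, smul_smul, mul_comm (sg a b), mul_assoc, sg_mul_self, mul_one,
    add_comm b a]

theorem w_conj (a b : Gam) : F.w a * F.w b * star (F.w a) = (sg a b * sg b a) • F.w b := by
  rw [F.w_comm a b, smul_mul_assoc, mul_assoc (F.w b), Unitary.mul_star_self_of_mem (F.w_mem a),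
    mul_one]

theorem commute_star_w {T : Op H} {a : Gam} (h : Commute T (F.w a)) :
    Commute T (star (F.w a)) := by
  rw [F.star_w]
  exact h.smul_right _

theorem commute_star_w' {T : Op H} {a : Gam} (h : Commute T (F.w' a)) :
    Commute T (star (F.w' a)) := by
  rw [F.star_w']
  exact h.smul_right _

theorem prep_w : PRep F.w := by
  exact ⟨F.w_mem, fun a b => ⟨sg a b, norm_sg a b, F.w_mul a b⟩⟩

theorem prep_w' : PRep F.w' := by
  exact ⟨F.w'_mem, fun a b => ⟨sg b a, norm_sg b a, by rw [F.w'_mul, add_comm]⟩⟩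

theorem E_eq (x : Op H) : F.E x = avg F.w x := rfl

/-- Exchange of the two copies. -/
noncomputable def swap : Frame H where
  w a := F.w' (gflip a)
  w' a := F.w (gflip a)
  w_mem a := F.w'_mem _
  w'_mem a := F.w_mem _
  w_mul a b := by rw [F.w'_mul, gflip_add, add_comm (gflip b), sg, sg, beta_gflip]
  w'_mul a b := by rw [F.w_mul, gflip_add, add_comm (gflip b), sg, sg, beta_gflip]
  comm a b := (F.comm _ _).symm

/-! ### Qubits -/

theorem star_X (n : ℕ) : star (F.w (gX n)) = F.w (gX n) := by
  rw [F.star_w]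
  simp [sg, gX, beta_single]

theorem star_Z (n : ℕ) : star (F.w (gZ n)) = F.w (gZ n) := by
  rw [F.star_w]
  simp [sg, gZ, beta_single]

theorem X_mul_X (n : ℕ) : F.w (gX n) * F.w (gX n) = 1 := by
  rw [F.w_mul, gam_add_self, F.w_zero]
  simp [sg, gX, beta_single]

theorem Z_mul_Z (n : ℕ) : F.w (gZ n) * F.w (gZ n) = 1 := by
  rw [F.w_mul, gam_add_self, F.w_zero]
  simp [sg, gZ, beta_single]

theorem Z_mul_X (n : ℕ) : F.w (gZ n) * F.w (gX n) = -(F.w (gX n) * F.w (gZ n)) := by
  rw [F.w_comm]
  simp [sg, gX, gZ, beta_single]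

theorem commute_w_of_disjoint {a b : Gam} (h : Disjoint a.support b.support) :
    Commute (F.w a) (F.w b) := by
  have key : ∀ {a b : Gam}, Disjoint a.support b.support → sg a b = 1 := by
    intro a b h
    have : beta a b = 0 := Finset.sum_eq_zero fun n hn => by
      simp [Finsupp.notMem_support_iff.1 (Finset.disjoint_left.1 h hn)]
    simp [sg, this]
  have h1 := F.w_comm a b
  rw [key h, key h.symm, one_mul, one_smul] at h1
  exact h1

/-- An operator commuting with the generators commutes with the frame (`Finsupp.induction`). -/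
theorem commute_w_of_gen {T : Op H} (hX : ∀ n, Commute T (F.w (gX n)))
    (hZ : ∀ n, Commute T (F.w (gZ n))) (a : Gam) : Commute T (F.w a) := by
  have hadd : ∀ a b : Gam, Commute T (F.w a) → Commute T (F.w b) → Commute T (F.w (a + b)) := by
    intro a b ha hb
    have e : F.w (a + b) = sg a b • (F.w a * F.w b) := by
      rw [F.w_mul, smul_smul, sg_mul_self, one_smul]
    rw [e]
    exact (ha.mul_right hb).smul_right _
  have h0 : Commute T (F.w 0) := by
    rw [F.w_zero]
    exact Commute.one_right T
  induction a using Finsupp.induction_linear with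
  | zero => exact h0
  | add a b ha hb => exact hadd a b ha hb
  | single n x =>
    have h : ∀ z : ZMod 2 × ZMod 2, z = 0 ∨ z = (1, 0) ∨ z = (0, 1) ∨ z = (1, 0) + (0, 1) := by
      decide
    rcases h x with rfl | rfl | rfl | rfl
    · rwa [Finsupp.single_zero]
    · exact hX n
    · exact hZ n
    · rw [Finsupp.single_add]
      exact hadd _ _ (hX n) (hZ n)

end Frame

end Crest.Agent.R078
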