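import Crest.Agent.R078.BFrame0

/-! Row 78: Pauli frames. -/

set_option autoImplicit false

open scoped InnerProductSpace ComplexConjugate
open Filter Topology

namespace Crest.Agent.R078

open Crest.Agent.R121 (Mn Bd)
open Crest.Agent.R124 (ex ex_congr ex_const ex_def mul_ex ex_mul star_ex norm_ex_le_const)
open Crest.OpAlg

universe u

variable {H : Type*} [NormedAddCommGroup H] [InnerProductSpace ℂ H] [CompleteSpace H]

/-! ### Auxiliary lemmas -/

section aux

open Crest.Agent.R124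

theorem BFrame1_ex_shift {G V : Type*} [Fintype G] [AddGroup G] [AddCommGroup V] [Module ℝ V]
    (f : G → V) (b : G) : ex (fun c => f (b + c)) = ex f := by
  simp only [ex_def]
  exact congrArg _ (Equiv.sum_comp (Equiv.addLeft b) f)

theorem BFrame1_ex_shift' {G V : Type*} [Fintype G] [AddGroup G] [AddCommGroup V] [Module ℝ V]
    (f : G → V) (b : G) : ex (fun c => f (c + b)) = ex f := by
  simp only [ex_def]
  exact congrArg _ (Equiv.sum_comp (Equiv.addRight b) f)

/-- The `Z`-words. -/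
noncomputable def BFrame1_z {l : ℕ} (b : Fin l → ZMod 2) : Gam := emb fun i => (0, b i)

theorem BFrame1_z_fst {l : ℕ} (b : Fin l → ZMod 2) (n : ℕ) : (BFrame1_z b n).1 = 0 := by
  unfold BFrame1_z
  by_cases h : n < l
  · have := emb_apply_lt (fun i => ((0 : ZMod 2), b i)) ⟨n, h⟩
    simp only at this
    rw [this]
  · rw [emb_apply_ge _ (not_lt.mp h)]; rfl

theorem BFrame1_sg_of_fst (a : Gam) {c : Gam} (h : ∀ n, (c n).1 = 0) : sg a c = 1 := by
  have : beta a c = 0 := by
    unfold beta Finsupp.sum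
    exact Finset.sum_eq_zero fun n _ => by simp only [h n, mul_zero]
  simp [sg, this]

theorem BFrame1_z_add {l : ℕ} (b c : Fin l → ZMod 2) :
    BFrame1_z (b + c) = BFrame1_z b + BFrame1_z c := by
  unfold BFrame1_z
  rw [← emb_add]
  congr 1

theorem BFrame1_z_zero {l : ℕ} : BFrame1_z (0 : Fin l → ZMod 2) = 0 := by
  unfold BFrame1_z
  exact emb_zero

theorem BFrame1_emb_ne {l : ℕ} {a : Gl l} (h : a ≠ 0) : emb a ≠ 0 := by
  intro h0
  apply h
  funext i
  rw [← emb_apply_lt a i, h0]; rfl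

theorem BFrame1_z_ne {l : ℕ} {b : Fin l → ZMod 2} (h : b ≠ 0) : BFrame1_z b ≠ 0 := by
  refine BFrame1_emb_ne fun h0 => h ?_
  funext i
  exact congrArg Prod.snd (congrFun h0 i)

theorem BFrame1_proj {G : Type*} [Fintype G] [AddGroup G] (v : G → Op H)
    (hm : ∀ b c, v b * v c = v (b + c)) (hs : ∀ b, star (v b) = v b) :
    IsStarProjection (ex v) := by
  constructor
  · show ex v * ex v = ex v
    rw [ex_mul]
    have : ∀ b, v b * ex v = ex v := fun b => by
      rw [mul_ex]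
      simp only [hm]
      exact BFrame1_ex_shift v b
    simp only [this]
    exact ex_const _
  · show star (ex v) = ex v
    rw [star_ex]
    simp only [hs]

theorem BFrame1_commute_ex {Ω : Type*} [Fintype Ω] {T : Op H} {v : Ω → Op H}
    (h : ∀ b, Commute T (v b)) : Commute T (ex v) := by
  show T * ex v = ex v * T
  rw [mul_ex, ex_mul]
  exact ex_congr fun b => (h b).eq

omit [CompleteSpace H] in
theorem BFrame1_map_q {l : ℕ} (Φ : Op H → Op H) (hadd : ∀ x y, Φ (x + y) = Φ x + Φ y)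
    (hsmul : ∀ (c : ℂ) x, Φ (c • x) = c • Φ x) (h1 : Φ 1 = 1) (v : (Fin l → ZMod 2) → Op H)
    (h0 : v 0 = 1) (hv : ∀ b, b ≠ 0 → Φ (v b) = 0) :
    Φ (ex v) = ((1 / 2 : ℂ) ^ l) • (1 : Op H) := by
  rw [map_ex' Φ hadd (fun c x => by rw [← Complex.coe_smul, hsmul, Complex.coe_smul]), ex_def,
    Finset.sum_eq_single 0 (fun b _ hb => hv b hb) (by simp), h0, h1, ← Complex.coe_smul]
  congr 1
  simp

theorem BFrame1_beta_single_right (b : Gam) (n : ℕ) (x : ZMod 2 × ZMod 2) :
    beta b (Finsupp.single n x) = (b n).2 * x.1 := by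
  unfold beta Finsupp.sum
  rw [Finset.sum_eq_single n]
  · simp
  · intro m _ hm
    simp [Finsupp.single_eq_of_ne hm]
  · intro hn
    rw [Finsupp.notMem_support_iff.mp hn]; simp

theorem BFrame1_exists_anti {b : Gam} {n : ℕ} (h : b n ≠ 0) :
    ∃ x : ZMod 2 × ZMod 2, sg (Finsupp.single n x) b * sg b (Finsupp.single n x) = -1 := by
  have key : ∀ y : ZMod 2 × ZMod 2, y ≠ 0 → ∃ x : ZMod 2 × ZMod 2,
      (x.2 * y.1 = 0 ∧ y.2 * x.1 ≠ 0) ∨ (x.2 * y.1 ≠ 0 ∧ y.2 * x.1 = 0) := by decide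
  obtain ⟨x, hx⟩ := key _ h
  refine ⟨x, ?_⟩
  unfold sg
  rw [beta_single, BFrame1_beta_single_right]
  rcases hx with ⟨h1, h2⟩ | ⟨h1, h2⟩ <;> simp only [h1, h2, if_true, if_false] <;> simp

theorem BFrame1_emb_single {l : ℕ} (i : Fin l) (x : ZMod 2 × ZMod 2) :
    emb (Pi.single i x : Gl l) = Finsupp.single (i : ℕ) x := by
  unfold emb
  rw [Finset.sum_eq_single i]
  · simp
  · intro j _ hj
    simp [Pi.single_eq_of_ne hj]
  · simp

theorem BFrame1_gflip_emb {l : ℕ} (a : Gl l) : gflip (emb a) = emb fun i => (a i).swap := by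
  ext1 n
  unfold gflip
  rw [Finsupp.mapRange_apply]
  by_cases h : n < l
  · have h1 := emb_apply_lt a ⟨n, h⟩
    have h2 := emb_apply_lt (fun i => (a i).swap) ⟨n, h⟩
    simp only at h1 h2
    rw [h1, h2]
  · rw [emb_apply_ge _ (not_lt.mp h), emb_apply_ge _ (not_lt.mp h)]; rfl

theorem BFrame1_gflip_ne {a : Gam} (h : a ≠ 0) : gflip a ≠ 0 := by
  intro h0
  apply h
  rw [← gflip_gflip a, h0]
  ext1 n
  simp [gflip]

omit [CompleteSpace H] in
theorem BFrame1_eq_zero {y : Op H} (h : y = -y) : y = 0 := by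
  have h2 : (2 : ℂ) • y = 0 := by rw [two_smul]; exact eq_neg_iff_add_eq_zero.mp h
  exact (smul_eq_zero.mp h2).resolve_left two_ne_zero

theorem BFrame1_conj_mul (F : Frame H) (a b : Gam) (x : Op H) :
    F.w a * (F.w b * x * star (F.w b)) * star (F.w a) = F.w (a + b) * x * star (F.w (a + b)) := by
  have h : F.w a * (F.w b * x * star (F.w b)) * star (F.w a) =
      (F.w a * F.w b) * x * star (F.w a * F.w b) := by
    rw [star_mul]; simp only [mul_assoc]
  rw [h, F.w_mul, star_smul, smul_mul_assoc, smul_mul_assoc, mul_smul_comm, smul_smul]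
  have : sg a b * star (sg a b) = 1 := by
    rw [Complex.star_def, conj_sg, sg_mul_self]
  rw [this, one_smul]

theorem BFrame1_EF_add (F : Frame H) (l : ℕ) (x y : Op H) :
    F.EF l (x + y) = F.EF l x + F.EF l y := by
  unfold Frame.EF
  rw [← ex_add]
  exact ex_congr fun a => by rw [mul_add, add_mul]

theorem BFrame1_EF_smul (F : Frame H) (l : ℕ) (c : ℂ) (x : Op H) :
    F.EF l (c • x) = c • F.EF l x := by
  unfold Frame.EF
  rw [← ex_complex_smul]
  exact ex_congr fun a => by rw [mul_smul_comm, smul_mul_assoc]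

theorem BFrame1_EF_one (F : Frame H) (l : ℕ) : F.EF l 1 = 1 := by
  unfold Frame.EF
  rw [ex_congr (g := fun _ => (1 : Op H)) fun a => by
    rw [mul_one, Unitary.mul_star_self_of_mem (F.w_mem _)]]
  exact ex_const _

theorem BFrame1_EF_conj (F : Frame H) (l : ℕ) (x : Op H) (b : Gl l) :
    F.EF l (F.w (emb b) * x * star (F.w (emb b))) = F.EF l x := by
  unfold Frame.EF
  simp only [BFrame1_conj_mul, ← emb_add]
  exact BFrame1_ex_shift' (fun a : Gl l => F.w (emb a) * x * star (F.w (emb a))) b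

end aux

namespace Frame

variable (F : Frame H)

/-! ### The dyadic projections -/

theorem q_proj (l : ℕ) : IsStarProjection (F.q l) := by
  refine BFrame1_proj (fun b : Fin l → ZMod 2 => F.w (BFrame1_z b)) (fun b c => ?_) fun b => ?_
  · rw [F.w_mul, BFrame1_sg_of_fst _ (BFrame1_z_fst c), one_smul, BFrame1_z_add]
  · rw [F.star_w, BFrame1_sg_of_fst _ (BFrame1_z_fst b), one_smul]

theorem q'_proj (l : ℕ) : IsStarProjection (F.q' l) := by
  refine BFrame1_proj (fun b : Fin l → ZMod 2 => F.w' (BFrame1_z b)) (fun b c => ?_) fun b => ?_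
  · rw [F.w'_mul, BFrame1_sg_of_fst _ (BFrame1_z_fst b), one_smul, BFrame1_z_add, add_comm]
  · rw [F.star_w', BFrame1_sg_of_fst _ (BFrame1_z_fst b), one_smul]

theorem q_zero : F.q 0 = 1 := by
  unfold q
  rw [ex_congr (g := fun _ => (1 : Op H)) fun b => by simp [emb, F.w_zero]]
  exact ex_const _

theorem q'_zero : F.q' 0 = 1 := by
  unfold q'
  rw [ex_congr (g := fun _ => (1 : Op H)) fun b => by simp [emb, F.w'_zero]]
  exact ex_const _

theorem commute_q {T : Op H} (h : ∀ a, Commute T (F.w a)) (l : ℕ) : Commute T (F.q l) :=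
  BFrame1_commute_ex fun _ => h _

theorem commute_q' {T : Op H} (h : ∀ a, Commute T (F.w' a)) (l : ℕ) : Commute T (F.q' l) :=
  BFrame1_commute_ex fun _ => h _

theorem q_succ (l : ℕ) : F.q (l + 1) = F.q l * ((1 / 2 : ℂ) • (1 + F.w (gZ l))) := by
  have hs : ∀ (x : ZMod 2) (b : Fin l → ZMod 2),
      F.w (emb fun i => (0, (Fin.snoc b x : Fin (l + 1) → ZMod 2) i)) =
        F.w (emb fun i => (0, b i)) * F.w (Finsupp.single l (0, x)) := by
    intro x b
    rw [F.w_mul, BFrame1_sg_of_fst _ (fun n => by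
      by_cases h : n = l
      · subst h; simp
      · rw [Finsupp.single_eq_of_ne h]; rfl), one_smul]
    congr 1
    unfold emb
    rw [Fin.sum_univ_castSucc]
    simp
  unfold q
  rw [ex_def, ex_def, ← Equiv.sum_comp (Fin.snocEquiv fun _ => ZMod 2), Fintype.sum_prod_type]
  have h2 : ∀ g : ZMod 2 → Op H, ∑ x : ZMod 2, g x = g 0 + g 1 := fun g => Fin.sum_univ_two g
  rw [h2]
  simp only [Fin.snocEquiv, Equiv.coe_fn_mk, hs, ← Finset.sum_mul]
  have h0 : F.w (Finsupp.single l ((0 : ZMod 2), (0 : ZMod 2))) = 1 := by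
    rw [show ((0 : ZMod 2), (0 : ZMod 2)) = 0 from rfl, Finsupp.single_zero, F.w_zero]
  rw [h0, ← mul_add, smul_mul_assoc, mul_smul_comm, ← Complex.coe_smul, ← Complex.coe_smul,
    smul_smul, gZ]
  congr 1
  simp [pow_succ, mul_comm]

/-- `E (w b) = 0` for `b ≠ 0` (some generator anticommutes with `w b`). -/
theorem E_w {b : Gam} (hb : b ≠ 0) : F.E (F.w b) = 0 := by
  obtain ⟨n, hn⟩ : ∃ n, b n ≠ 0 := by
    by_contra h
    push Not at h
    exact hb (Finsupp.ext h)
  obtain ⟨x, hx⟩ := BFrame1_exists_anti hn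
  have h := F.prep_w.avg_conj (F.w b) (Finsupp.single n x)
  rw [F.w_conj, hx, F.prep_w.avg_smul, neg_one_smul] at h
  exact BFrame1_eq_zero h.symm

theorem EF_w {l : ℕ} {b : Gl l} (hb : b ≠ 0) : F.EF l (F.w (emb b)) = 0 := by
  obtain ⟨i, hi⟩ : ∃ i, b i ≠ 0 := by
    by_contra h
    push Not at h
    exact hb (funext h)
  rw [← emb_apply_lt b i] at hi
  obtain ⟨x, hx⟩ := BFrame1_exists_anti hi
  have h := BFrame1_EF_conj F l (F.w (emb b)) (Pi.single i x)
  rw [BFrame1_emb_single, F.w_conj, hx, BFrame1_EF_smul, neg_one_smul] at h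
  exact BFrame1_eq_zero h.symm

theorem E_q (l : ℕ) : F.E (F.q l) = ((1 / 2 : ℂ) ^ l) • (1 : Op H) :=
  BFrame1_map_q F.E F.prep_w.avg_add F.prep_w.avg_smul F.prep_w.avg_one
    (fun b => F.w (BFrame1_z b)) (by rw [BFrame1_z_zero, F.w_zero])
    fun _ hb => F.E_w (BFrame1_z_ne hb)

theorem EF_q {l L : ℕ} (h : l ≤ L) : F.EF L (F.q l) = ((1 / 2 : ℂ) ^ l) • (1 : Op H) := by
  refine BFrame1_map_q (F.EF L) (BFrame1_EF_add F L) (BFrame1_EF_smul F L) (BFrame1_EF_one F L)
    (fun b => F.w (BFrame1_z b)) (by rw [BFrame1_z_zero, F.w_zero]) fun b hb => ?_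
  obtain ⟨c, hc⟩ := exists_emb_of_le h fun i => ((0 : ZMod 2), b i)
  have hc' : emb c = BFrame1_z b := hc
  rw [← hc']
  refine F.EF_w fun h0 => BFrame1_z_ne hb ?_
  rw [← hc', h0, emb_zero]

theorem swap_E_q' (l : ℕ) : F.swap.E (F.q' l) = ((1 / 2 : ℂ) ^ l) • (1 : Op H) := by
  refine BFrame1_map_q F.swap.E F.swap.prep_w.avg_add F.swap.prep_w.avg_smul
    F.swap.prep_w.avg_one (fun b => F.w' (BFrame1_z b)) (by rw [BFrame1_z_zero, F.w'_zero])
    fun b hb => ?_
  have : F.w' (BFrame1_z b) = F.swap.w (gflip (BFrame1_z b)) := by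
    show _ = F.w' (gflip (gflip _))
    rw [gflip_gflip]
  rw [this]
  exact F.swap.E_w (BFrame1_gflip_ne (BFrame1_z_ne hb))

theorem swap_EF_q' {l L : ℕ} (h : l ≤ L) :
    F.swap.EF L (F.q' l) = ((1 / 2 : ℂ) ^ l) • (1 : Op H) := by
  refine BFrame1_map_q (F.swap.EF L) (BFrame1_EF_add _ L) (BFrame1_EF_smul _ L)
    (BFrame1_EF_one _ L) (fun b => F.w' (BFrame1_z b)) (by rw [BFrame1_z_zero, F.w'_zero])
    fun b hb => ?_
  obtain ⟨c, hc⟩ := exists_emb_of_le h fun i => ((0 : ZMod 2), b i)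
  have hc' : emb c = BFrame1_z b := hc
  have h1 : gflip (BFrame1_z b) = emb fun i => (c i).swap := by rw [← hc', BFrame1_gflip_emb]
  have : F.w' (BFrame1_z b) = F.swap.w (emb fun i => (c i).swap) := by
    show _ = F.w' (gflip _)
    rw [← h1, gflip_gflip]
  rw [this]
  refine F.swap.EF_w fun h0 => BFrame1_gflip_ne (BFrame1_z_ne hb) ?_
  rw [h1, h0, emb_zero]

/-! ### Finite averages -/

theorem norm_EF_le (l : ℕ) (x : Op H) : ‖F.EF l x‖ ≤ ‖x‖ := by
  refine norm_ex_le_const fun a => ?_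
  rw [CStarRing.norm_mul_mem_unitary _ (Unitary.star_mem (F.w_mem _)),
    CStarRing.norm_mem_unitary_mul _ (F.w_mem _)]

theorem star_EF (l : ℕ) (x : Op H) : star (F.EF l x) = F.EF l (star x) := by
  unfold EF
  rw [star_ex]
  exact ex_congr fun a => by simp only [star_mul, star_star, mul_assoc]

/-- The average over `(w a)⋆ x (w a)` is the same. -/
theorem EF_eq (l : ℕ) (x : Op H) :
    F.EF l x = ex fun a : Gl l => star (F.w (emb a)) * x * F.w (emb a) :=
  ex_congr fun a => by rw [F.star_w, mul_smul_comm, smul_mul_assoc, smul_mul_assoc]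

theorem E_eq' (x : Op H) : F.E x = wm (invM Gam) fun a => star (F.w a) * x * F.w a := by
  unfold E
  congr 1
  funext a
  rw [F.star_w, mul_smul_comm, smul_mul_assoc, smul_mul_assoc]

theorem commute_EF (l : ℕ) (x : Op H) (b : Gl l) : Commute (F.EF l x) (F.w (emb b)) := by
  have h : F.w (emb b) * F.EF l x * star (F.w (emb b)) = F.EF l x := by
    unfold EF
    rw [mul_ex, ex_mul]
    simp only [BFrame1_conj_mul, ← emb_add]
    exact BFrame1_ex_shift (fun a : Gl l => F.w (emb a) * x * star (F.w (emb a))) b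
  show F.EF l x * F.w (emb b) = F.w (emb b) * F.EF l x
  conv_lhs => rw [← h]
  rw [mul_assoc, Unitary.star_mul_self_of_mem (F.w_mem _), mul_one]

theorem EF_mul_left {c : Op H} (h : ∀ a, Commute c (F.w a)) (l : ℕ) (x : Op H) :
    F.EF l (c * x) = c * F.EF l x := by
  unfold EF
  rw [mul_ex]
  exact ex_congr fun a => by rw [← mul_assoc, ← (h _).eq]; simp only [mul_assoc]

theorem EF_mul_right {c : Op H} (h : ∀ a, Commute c (F.w a)) (l : ℕ) (x : Op H) :
    F.EF l (x * c) = F.EF l x * c := by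
  unfold EF
  rw [ex_mul]
  exact ex_congr fun a => by
    simp only [mul_assoc]
    rw [(F.commute_star_w (h _)).eq]

end Frame

end Crest.Agent.R078
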