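import Crest.Agent.R078.BFrame1

/-! Row 78: Pauli frames. -/

set_option autoImplicit false

open scoped InnerProductSpace ComplexConjugate
open Filter Topology

namespace Crest.Agent.R078

open Crest.Agent.R121 (Mn Bd)
open Crest.Agent.R124 (ex)
open Crest.OpAlg

universe u

variable {H : Type*} [NormedAddCommGroup H] [InnerProductSpace ℂ H] [CompleteSpace H]

namespace Frame

variable (F : Frame H)

/-! ### Invariant vectors -/

/-- The genuine representation `a ↦ w a (w' a)⋆`. -/
noncomputable def rep (a : Gam) : Op H := F.w a * star (F.w' a)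

theorem rep_add (a b : Gam) : F.rep (a + b) = F.rep a * F.rep b := by
  have h1 : star (F.w' a) * star (F.w' b) = sg a b • star (F.w' (a + b)) := by
    rw [← star_mul, F.w'_mul, star_smul]
    congr 1
    exact conj_sg a b
  have h2 : Commute (F.w b) (star (F.w' a)) := F.commute_star_w' (F.comm b a)
  have h3 : F.rep a * F.rep b = (F.w a * F.w b) * (star (F.w' a) * star (F.w' b)) := by
    unfold rep
    calc F.w a * star (F.w' a) * (F.w b * star (F.w' b))
        = F.w a * (star (F.w' a) * F.w b) * star (F.w' b) := by simp only [mul_assoc]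
      _ = F.w a * (F.w b * star (F.w' a)) * star (F.w' b) := by rw [h2.eq]
      _ = _ := by simp only [mul_assoc]
  rw [h3, h1, F.w_mul, smul_mul_smul_comm, sg_mul_self, one_smul]
  rfl

theorem rep_unitary (a : Gam) : F.rep a ∈ unitary (Op H) := by
  exact mul_mem (F.w_mem a) (Unitary.star_mem (F.w'_mem a))

theorem star_rep (a : Gam) : star (F.rep a) = F.rep a := by
  unfold rep
  rw [star_mul, star_star, F.star_w, F.star_w', mul_smul_comm, mul_smul_comm, (F.comm a a).eq]

/-- The projection onto the invariant vectors. -/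
noncomputable def P : Op H := wm (invM Gam) F.rep

theorem BFrame2_norm_rep (a : Gam) : ‖F.rep a‖ ≤ 1 := by
  have := CStarRing.norm_mem_unitary_mul (1 : Op H) (F.rep_unitary a)
  rw [mul_one] at this
  rw [this]
  exact ContinuousLinearMap.norm_id_le

theorem BFrame2_bd : Bd F.rep := ⟨1, F.BFrame2_norm_rep⟩

theorem BFrame2_rep_P (a : Gam) : F.rep a * F.P = F.P := by
  have : F.rep a * F.P = wm (invM Gam) fun x => F.rep a * F.rep x := mul_wm F.BFrame2_bd _
  rw [this]
  have h2 : (fun x => F.rep a * F.rep x) = fun x => F.rep (x + a) := by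
    funext x
    rw [← F.rep_add, add_comm]
  rw [h2]
  exact wm_shift (invM_inv Gam) F.BFrame2_bd a

theorem BFrame2_P_rep (a : Gam) : F.P * F.rep a = F.P := by
  have : F.P * F.rep a = wm (invM Gam) fun x => F.rep x * F.rep a := wm_mul F.BFrame2_bd _
  rw [this]
  have h2 : (fun x => F.rep x * F.rep a) = fun x => F.rep (x + a) := by
    funext x
    rw [← F.rep_add]
  rw [h2]
  exact wm_shift (invM_inv Gam) F.BFrame2_bd a

theorem BFrame2_P_apply (η : H) : F.P η = vm (invM Gam) fun a => F.rep a η :=
  wm_apply F.BFrame2_bd η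

theorem P_proj : IsStarProjection F.P := by
  constructor
  · show F.P * F.P = F.P
    have : F.P * F.P = wm (invM Gam) fun a => F.P * F.rep a := mul_wm F.BFrame2_bd _
    rw [this]
    simp only [F.BFrame2_P_rep]
    exact wm_const _
  · show star F.P = F.P
    have : star F.P = wm (invM Gam) fun a => star (F.rep a) := star_wm F.BFrame2_bd
    rw [this]
    simp only [F.star_rep]
    rfl

theorem P_apply_eq_iff (η : H) : F.P η = η ↔ ∀ a, F.w a η = F.w' a η := by
  constructor
  · intro h a
    have h1 : F.rep a η = η := by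
      have := congrArg (fun T : Op H => T η) (F.BFrame2_rep_P a)
      simpa only [ContinuousLinearMap.mul_apply, h] using this
    have h2 : F.w' a * F.rep a = F.w a := by
      unfold rep
      rw [← mul_assoc, ← (F.comm a a).eq, mul_assoc,
        Unitary.mul_star_self_of_mem (F.w'_mem a), mul_one]
    have := congrArg (fun T : Op H => T η) h2
    simp only [ContinuousLinearMap.mul_apply, h1] at this
    exact this.symm
  · intro h
    have h1 : ∀ a, F.rep a η = η := by
      intro a
      have h2 : Commute (F.w a) (star (F.w' a)) := F.commute_star_w' (F.comm a a)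
      have h3 : F.rep a = star (F.w' a) * F.w a := h2.eq
      rw [h3, ContinuousLinearMap.mul_apply, h a, ← ContinuousLinearMap.mul_apply,
        Unitary.star_mul_self_of_mem (F.w'_mem a), ContinuousLinearMap.one_apply]
    rw [F.BFrame2_P_apply]
    simp only [h1]
    exact vm_const η

/-- Mean ergodic theorem: the finite averages are decreasing projections `P l`; `‖P l η‖` is
antitone, so `P l η` is Cauchy; its limit is invariant and `P (P l η) = P η`. -/
theorem tendsto_ex_rep (η : H) :
    Tendsto (fun l => ex fun a : Gl l => F.rep (emb a) η) atTop (𝓝 (F.P η)) := by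
  let Q : ℕ → Op H := fun l => ex fun a : Gl l => F.rep (emb a)
  have hQ : ∀ l ζ, Q l ζ = ex fun a : Gl l => F.rep (emb a) ζ := fun l ζ => ex_apply _ ζ
  have hQn : ∀ l, ‖Q l‖ ≤ 1 := fun l =>
    Crest.Agent.R124.norm_ex_le_const fun a => F.BFrame2_norm_rep _
  have hQr : ∀ l (b : Gl l), Q l * F.rep (emb b) = Q l := by
    intro l b
    show (ex fun a : Gl l => F.rep (emb a)) * F.rep (emb b) = ex fun a : Gl l => F.rep (emb a)
    rw [Crest.Agent.R124.ex_mul]
    simp only [← F.rep_add, ← emb_add]
    rw [Crest.Agent.R124.ex_def, Crest.Agent.R124.ex_def]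
    congr 1
    exact Equiv.sum_comp (Equiv.addRight b) fun a : Gl l => F.rep (emb a)
  have hQP : ∀ l, Q l * F.P = F.P := by
    intro l
    show (ex fun a : Gl l => F.rep (emb a)) * F.P = F.P
    rw [Crest.Agent.R124.ex_mul]
    simp only [F.BFrame2_rep_P]
    exact Crest.Agent.R124.ex_const _
  let K : Submodule ℂ H :=
    { carrier := {ζ | Tendsto (fun l => Q l ζ) atTop (𝓝 0)}
      add_mem' := fun {a b} ha hb => by
        have := Tendsto.add ha hb
        simpa only [Set.mem_setOf_eq, map_add, add_zero] using this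
      zero_mem' := by simp
      smul_mem' := fun c a ha => by
        have := Tendsto.const_smul ha c
        simpa only [Set.mem_setOf_eq, map_smul, smul_zero] using this }
  have hK : IsClosed (K : Set H) := by
    have he : Equicontinuous fun l (ζ : H) => Q l ζ := by
      refine (LipschitzWith.uniformEquicontinuous (fun l (ζ : H) => Q l ζ) 1
        fun l => ?_).equicontinuous
      exact (Q l).lipschitz.weaken (by exact_mod_cast hQn l)
    exact he.isClosed_setOf_tendsto (f := fun _ => 0) continuous_const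
  have hb : Bd fun a => F.rep a η := bd_apply F.BFrame2_bd η
  have hmem : η - F.P η ∈ K := by
    have e : η - F.P η = vm (invM Gam) fun a => η - F.rep a η := by
      rw [vm_sub ⟨‖η‖, fun _ => le_rfl⟩ hb, vm_const, F.BFrame2_P_apply]
    rw [e]
    refine vm_mem hK ?_ fun a => ?_
    · obtain ⟨C, hC⟩ := hb
      exact ⟨‖η‖ + C, fun a => (norm_sub_le _ _).trans (by linarith [hC a])⟩
    · show Tendsto (fun l => Q l (η - F.rep a η)) atTop (𝓝 0)
      refine tendsto_const_nhds.congr' ?_
      filter_upwards [eventually_exists_emb a] with l ⟨b, hb⟩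
      rw [map_sub, ← hb, ← ContinuousLinearMap.mul_apply, hQr, sub_self]
  have h1 : Tendsto (fun l => Q l (η - F.P η) + F.P η) atTop (𝓝 (0 + F.P η)) :=
    Tendsto.add_const _ hmem
  rw [zero_add] at h1
  refine h1.congr fun l => ?_
  rw [map_sub, ← ContinuousLinearMap.mul_apply (Q l) F.P, hQP, sub_add_cancel, hQ]

theorem BFrame2_conj_apply {x : Op H} (hx : ∀ a, Commute x (F.w' a)) {η : H} (hη : F.P η = η)
    (a : Gam) : (F.w a * x * star (F.w a)) η = F.rep a (x η) := by
  have h1 : star (F.w a) η = star (F.w' a) η := by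
    rw [F.star_w, F.star_w', ContinuousLinearMap.smul_apply, ContinuousLinearMap.smul_apply,
      (F.P_apply_eq_iff η).1 hη a]
  have h2 : Commute x (star (F.w' a)) := F.commute_star_w' (hx a)
  rw [ContinuousLinearMap.mul_apply, h1, ← ContinuousLinearMap.mul_apply, mul_assoc, h2.eq,
    ← mul_assoc]
  rfl

theorem E_apply {x : Op H} (hx : ∀ a, Commute x (F.w' a)) {η : H} (hη : F.P η = η) :
    F.E x η = F.P (x η) := by
  have : F.E x η = vm (invM Gam) fun a => (F.w a * x * star (F.w a)) η :=
    wm_apply (F.prep_w.bd x) η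
  rw [this, F.BFrame2_P_apply]
  simp only [F.BFrame2_conj_apply hx hη]

theorem tendsto_EF_apply {x : Op H} (hx : ∀ a, Commute x (F.w' a)) {η : H} (hη : F.P η = η) :
    Tendsto (fun l => F.EF l x η) atTop (𝓝 (F.E x η)) := by
  rw [F.E_apply hx hη]
  refine (F.tendsto_ex_rep (x η)).congr fun l => ?_
  unfold EF
  rw [ex_apply]
  simp only [F.BFrame2_conj_apply hx hη]

theorem inner_E {x : Op H} (hx : ∀ a, Commute x (F.w' a)) {η ζ : H} (hη : F.P η = η)
    (hζ : F.P ζ = ζ) : ⟪ζ, F.E x η⟫_ℂ = ⟪ζ, x η⟫_ℂ := by
  rw [F.E_apply hx hη]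
  have h : star F.P = F.P := F.P_proj.isSelfAdjoint
  rw [← ContinuousLinearMap.adjoint_inner_left, ← ContinuousLinearMap.star_eq_adjoint, h, hζ]

/-! ### Bimodule maps -/

variable {F} {M : VN H} {S T : Op H}

theorem Bim.one : F.Bim M 1 := by
  exact ⟨fun _ => Commute.one_left _, fun _ => Commute.one_left _,
    fun _ _ => Commute.one_left _⟩

theorem Bim.add (hS : F.Bim M S) (hT : F.Bim M T) : F.Bim M (S + T) := by
  exact ⟨fun a => (hS.w a).add_left (hT.w a), fun a => (hS.w' a).add_left (hT.w' a),
    fun c hc => (hS.cen c hc).add_left (hT.cen c hc)⟩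

theorem Bim.sub (hS : F.Bim M S) (hT : F.Bim M T) : F.Bim M (S - T) := by
  exact ⟨fun a => (hS.w a).sub_left (hT.w a), fun a => (hS.w' a).sub_left (hT.w' a),
    fun c hc => (hS.cen c hc).sub_left (hT.cen c hc)⟩

theorem Bim.mul (hS : F.Bim M S) (hT : F.Bim M T) : F.Bim M (S * T) := by
  exact ⟨fun a => (hS.w a).mul_left (hT.w a), fun a => (hS.w' a).mul_left (hT.w' a),
    fun c hc => (hS.cen c hc).mul_left (hT.cen c hc)⟩

theorem Bim.smul (hS : F.Bim M S) (c : ℂ) : F.Bim M (c • S) := by
  exact ⟨fun a => (hS.w a).smul_left c, fun a => (hS.w' a).smul_left c,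
    fun d hd => (hS.cen d hd).smul_left c⟩

theorem Bim.star_mem (hS : F.Bim M S) : F.Bim M (star S) := by
  have key : ∀ y : Op H, Commute S (star y) → Commute (star S) y := fun y h => by
    have := h.star_star
    rwa [star_star] at this
  exact ⟨fun a => key _ (F.commute_star_w (hS.w a)), fun a => key _ (F.commute_star_w' (hS.w' a)),
    fun c hc => key _ (hS.cen _ hc.star_mem)⟩

theorem Bim.inverse (hS : F.Bim M S) : F.Bim M (Ring.inverse S) := by
  exact ⟨fun a => (commute_inverse (hS.w a).symm).symm,
    fun a => (commute_inverse (hS.w' a).symm).symm,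
    fun c hc => (commute_inverse (hS.cen c hc).symm).symm⟩

theorem Bim.polar (hS : F.Bim M S) : F.Bim M (polar S) := by
  exact ⟨fun a => (commute_polar (hS.w a).symm (hS.star_mem.w a).symm).symm,
    fun a => (commute_polar (hS.w' a).symm (hS.star_mem.w' a).symm).symm,
    fun c hc => (commute_polar (hS.cen c hc).symm (hS.star_mem.cen c hc).symm).symm⟩

theorem Bim.cay (hS : F.Bim M S) : F.Bim M (cay S) := by
  exact ⟨fun a => (commute_cay (hS.w a).symm).symm, fun a => (commute_cay (hS.w' a).symm).symm,
    fun c hc => (commute_cay (hS.cen c hc).symm).symm⟩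

theorem Bim.swap (hS : F.Bim M S) : F.swap.Bim M.commutant S := by
  exact ⟨fun a => hS.w' _, fun a => hS.w _, fun c hc => hS.cen c (Cen.commutant.1 hc)⟩

theorem Bim.wm {X : Type*} {m : Mn X} {T : X → Op H} (hT : Bd T) (h : ∀ x, F.Bim M (T x)) :
    F.Bim M (wm m T) := by
  exact ⟨fun a => (commute_wm hT fun x => ((h x).w a).symm).symm,
    fun a => (commute_wm hT fun x => ((h x).w' a).symm).symm,
    fun c hc => (commute_wm hT fun x => ((h x).cen c hc).symm).symm⟩

end Frame

end Crest.Agent.R078
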