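import Crest.Agent.R078.BMean1

/-! Row 78: invariant means, weak means of vectors and operators, averaging over projective
representations of abelian groups. -/

set_option autoImplicit false

open scoped InnerProductSpace ComplexConjugate
open Filter Topology

namespace Crest.Agent.R078

open Crest.Agent.R121 (Mn Bd)
open Crest.Agent.R124 (ex)
open Crest.OpAlg

universe u

variable {H : Type*} [NormedAddCommGroup H] [InnerProductSpace ℂ H] [CompleteSpace H]

variable {X : Type*} {m : Mn X} {M N : VN H}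
/-! ### Averaging over projective representations -/

section avg

variable {G : Type*} [AddCommGroup G] {w : G → Op H}

/-- Projective unitary representations. -/
structure PRep (w : G → Op H) : Prop where
  mem : ∀ a, w a ∈ unitary (Op H)
  mul : ∀ a b, ∃ c : ℂ, ‖c‖ = 1 ∧ w a * w b = c • w (a + b)

/-- The average of `w a * x * (w a)⋆`. -/
noncomputable def avg (w : G → Op H) (x : Op H) : Op H :=
  wm (invM G) fun a => w a * x * star (w a)

theorem BMean_comm_star {S v : Op H} (hv : v ∈ unitary (Op H)) (h : Commute S v) :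
    Commute S (star v) := by
  have h1 : star v * (v * S) * star v = star v * (S * v) * star v := by rw [h.eq]
  rw [← mul_assoc, Unitary.star_mul_self_of_mem hv, one_mul, mul_assoc, mul_assoc,
    Unitary.mul_star_self_of_mem hv, mul_one] at h1
  exact h1

theorem BMean_norm {v : Op H} (hv : v ∈ unitary (Op H)) (x : Op H) : ‖v * x * star v‖ = ‖x‖ := by
  rw [CStarRing.norm_mul_mem_unitary _ (Unitary.star_mem hv), CStarRing.norm_mem_unitary_mul _ hv]

theorem BMean_inner (v x : Op H) (η : H) :
    ⟪η, (v * x * star v) η⟫_ℂ = ⟪star v η, x (star v η)⟫_ℂ :=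
  (ContinuousLinearMap.adjoint_inner_left v _ η).symm

theorem PRep.BMean_conj (hw : PRep w) (x : Op H) (a b : G) :
    w a * (w b * x * star (w b)) * star (w a) = w (a + b) * x * star (w (a + b)) := by
  obtain ⟨c, hc, h⟩ := hw.mul a b
  have e : w a * (w b * x * star (w b)) * star (w a) = w a * w b * x * star (w a * w b) := by
    simp only [star_mul, mul_assoc]
  rw [e, h, star_smul, smul_mul_assoc, smul_mul_assoc, mul_smul_comm, smul_smul,
    Complex.star_def, Complex.mul_conj', hc]
  simp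

theorem PRep.bd (hw : PRep w) (x : Op H) : Bd fun a => w a * x * star (w a) := by
  exact ⟨‖x‖, fun a => (BMean_norm (hw.mem a) x).le⟩

theorem PRep.commute_avg (hw : PRep w) (x : Op H) (b : G) : Commute (avg w x) (w b) := by
  have hb : Bd fun a => w b * (w a * x * star (w a)) :=
    ⟨‖x‖, fun a => by rw [CStarRing.norm_mem_unitary_mul _ (hw.mem b), BMean_norm (hw.mem a)]⟩
  have h : w b * avg w x * star (w b) = avg w x := by
    rw [avg, mul_wm (hw.bd x), wm_mul hb, ← wm_shift (invM_inv G) (hw.bd x) b]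
    simp only [hw.BMean_conj, add_comm b]
  change _ * _ = _ * _
  conv_lhs => rw [← h, mul_assoc, Unitary.star_mul_self_of_mem (hw.mem b), mul_one]

theorem PRep.avg_conj (hw : PRep w) (x : Op H) (b : G) :
    avg w (w b * x * star (w b)) = avg w x := by
  rw [avg, avg, ← wm_shift (invM_inv G) (hw.bd x) b]
  simp only [hw.BMean_conj]

theorem PRep.avg_of_commute (hw : PRep w) {x : Op H} (h : ∀ a, Commute x (w a)) :
    avg w x = x := by
  have e : ∀ a, w a * x * star (w a) = x := fun a => by
    rw [← (h a).eq, mul_assoc, Unitary.mul_star_self_of_mem (hw.mem a), mul_one]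
  simp only [avg, e, wm_const]

theorem PRep.avg_one (hw : PRep w) : avg w 1 = 1 := by
  exact hw.avg_of_commute fun _ => Commute.one_left _

theorem PRep.avg_add (hw : PRep w) (x y : Op H) : avg w (x + y) = avg w x + avg w y := by
  simp only [avg, mul_add, add_mul, wm_add (hw.bd x) (hw.bd y)]

theorem PRep.avg_sub (hw : PRep w) (x y : Op H) : avg w (x - y) = avg w x - avg w y := by
  simp only [avg, mul_sub, sub_mul, wm_sub (hw.bd x) (hw.bd y)]

theorem PRep.avg_smul (hw : PRep w) (c : ℂ) (x : Op H) : avg w (c • x) = c • avg w x := by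
  simp only [avg, mul_smul_comm, smul_mul_assoc, wm_smul (hw.bd x)]

theorem PRep.avg_star (hw : PRep w) (x : Op H) : avg w (star x) = star (avg w x) := by
  rw [avg, avg, star_wm (hw.bd x)]
  simp only [star_mul, star_star, mul_assoc]

theorem PRep.norm_avg_le (hw : PRep w) (x : Op H) : ‖avg w x‖ ≤ ‖x‖ := by
  exact norm_wm_le fun a => (BMean_norm (hw.mem a) x).le

theorem PRep.avg_mul_left (hw : PRep w) {c : Op H} (h : ∀ a, Commute c (w a)) (x : Op H) :
    avg w (c * x) = c * avg w x := by
  rw [avg, avg, mul_wm (hw.bd x)]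
  simp only [← mul_assoc, (h _).eq]

theorem PRep.avg_mul_right (hw : PRep w) {c : Op H} (h : ∀ a, Commute c (w a)) (x : Op H) :
    avg w (x * c) = avg w x * c := by
  rw [avg, avg, wm_mul (hw.bd x)]
  simp only [mul_assoc, (BMean_comm_star (hw.mem _) (h _)).eq]

theorem PRep.avg_nonneg (hw : PRep w) {x : Op H} (h : ∀ η, 0 ≤ (⟪η, x η⟫_ℂ).re) (η : H) :
    0 ≤ (⟪η, avg w x η⟫_ℂ).re := by
  rw [avg, inner_wm (hw.bd x)]
  exact Mn.le_re _ (bd_inner (hw.bd x) η η) fun a => by rw [BMean_inner]; exact h _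

/-- Kadison–Schwarz. -/
theorem PRep.norm_avg_apply_sq_le (hw : PRep w) (x : Op H) (η : H) :
    ‖avg w x η‖ ^ 2 ≤ (⟪η, avg w (star x * x) η⟫_ℂ).re := by
  rw [avg, avg, wm_apply (hw.bd x), inner_wm (hw.bd _)]
  refine (norm_vm_sq_le (bd_apply (hw.bd x) η)).trans_eq ?_
  congr 2
  funext a
  rw [BMean_inner, mul_apply_eq_comp, mul_apply_eq_comp, mul_apply_eq_comp,
    ContinuousLinearMap.norm_map_of_mem_unitary (hw.mem a), ContinuousLinearMap.star_eq_adjoint x,
    ContinuousLinearMap.adjoint_inner_right, inner_self_eq_norm_sq_to_K]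
  simp

theorem PRep.avg_mem (hw : PRep w) {x : Op H} (h : ∀ a, w a * x * star (w a) ∈ M) :
    avg w x ∈ M := by
  exact wm_mem (hw.bd x) h

theorem PRep.commute_avg' (hw : PRep w) {x S : Op H} (h : Commute S x)
    (h' : ∀ a, Commute S (w a)) : Commute S (avg w x) := by
  exact commute_wm (hw.bd x) fun a =>
    ((h' a).mul_right h).mul_right (BMean_comm_star (hw.mem a) (h' a))

theorem PRep.norm_sub_avg_le (hw : PRep w) {x : Op H} (h : ∀ a, Commute x (w a)) (y : Op H) :
    ‖x - avg w y‖ ≤ ‖x - y‖ := by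
  have h1 := hw.norm_avg_le (x - y)
  rwa [hw.avg_sub, hw.avg_of_commute h] at h1

/-- Relative commutants of close algebras are close. -/
theorem PRep.avg_near (hw : PRep w) {δ : ℝ} (h : Near M N δ)
    (hN : ∀ a, ∀ y ∈ N, w a * y * star (w a) ∈ N) {x : Op H} (hx : x ∈ M)
    (hxw : ∀ a, Commute x (w a)) :
    ∃ y ∈ N, (∀ a, Commute y (w a)) ∧ ‖x - y‖ ≤ δ * ‖x‖ := by
  obtain ⟨y, hy, h1⟩ := h x hx
  exact ⟨avg w y, hw.avg_mem fun a => hN a y hy, hw.commute_avg y,
    (hw.norm_sub_avg_le hxw y).trans h1⟩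

theorem PRep.mem_cent_union (hw : PRep w) {S : Set (Op H)} {x : Op H} :
    x ∈ cent (S ∪ Set.range w) ↔ x ∈ cent S ∧ ∀ a, Commute x (w a) := by
  rw [mem_cent, mem_cent]
  refine ⟨fun h => ⟨fun s hs => h s (Or.inl hs), fun a => (h _ (Or.inr ⟨a, rfl⟩)).1⟩, ?_⟩
  rintro ⟨h1, h2⟩ s (hs | ⟨a, rfl⟩)
  · exact h1 s hs
  · exact ⟨h2 a, BMean_comm_star (hw.mem a) (h2 a)⟩

theorem PRep.near_cent_union (hw : PRep w) {S S' : Set (Op H)} {δ : ℝ}
    (h : Near (cent S) (cent S') δ) (hN : ∀ a, ∀ y ∈ cent S', w a * y * star (w a) ∈ cent S') :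
    Near (cent (S ∪ Set.range w)) (cent (S' ∪ Set.range w)) δ := by
  intro x hx
  obtain ⟨y, hy, h1, h2⟩ := hw.avg_near h hN (hw.mem_cent_union.1 hx).1 (hw.mem_cent_union.1 hx).2
  exact ⟨y, hw.mem_cent_union.2 ⟨hy, h1⟩, h2⟩

end avg

/-! ### The unitary group of the centre -/

/-- The central unitaries. -/
def UZ (M : VN H) : Subgroup (unitary (Op H)) where
  carrier := {u | Cen M (u : Op H)}
  one_mem' := cen_one
  mul_mem' := fun ha hb => Cen.mul ha hb
  inv_mem' := fun ha => Cen.star_mem ha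

noncomputable instance (M : VN H) : CommGroup (UZ M) :=
  { (inferInstance : Group (UZ M)) with
    mul_comm := fun a b => Subtype.ext (Subtype.ext (Cen.commute b.2 a.2.1).eq) }

/-- The central unitaries as a representation of an additive group. -/
def uz (M : VN H) (a : Additive (UZ M)) : Op H := ((Additive.toMul a : UZ M) : unitary (Op H))

theorem prep_uz (M : VN H) : PRep (uz M) := by
  exact ⟨fun a => ((Additive.toMul a : UZ M) : unitary (Op H)).2,
    fun a b => ⟨1, norm_one, (one_smul ℂ _).symm⟩⟩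

theorem cen_uz (M : VN H) (a : Additive (UZ M)) : Cen M (uz M a) := by
  exact (Additive.toMul a : UZ M).2

theorem exists_uz {u : Op H} (hu : u ∈ unitary (Op H)) (hc : Cen M u) : ∃ a, uz M a = u := by
  exact ⟨Additive.ofMul ⟨⟨u, hu⟩, hc⟩, rfl⟩

theorem BMean_cen {c : Op H} : c ∈ cent ((M : Set (Op H)) ∪ M.commutant) ↔ Cen M c := by
  rw [mem_cent]
  constructor
  · intro h
    exact ⟨mem_of_commute fun y hy => (h y (Or.inr hy)).1,
      mem_comm.2 fun x hx => (h x (Or.inl hx)).1.symm⟩
  · rintro hc s (hs | hs)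
    · exact ⟨(hc.commute hs).symm, (hc.commute (star_mem hs)).symm⟩
    · exact ⟨(hc.commute' hs).symm, (hc.commute' (star_mem hs)).symm⟩

theorem BMean_four {c : Op H} (hc : Cen M c) : ∃ (a : Fin 4 → Additive (UZ M)) (t : Fin 4 → ℂ),
    c = ∑ i, t i • uz M (a i) := by
  obtain ⟨v, t, h1, -, h2⟩ := exists_four_unitary (BMean_cen.2 hc)
  choose a ha using fun i => exists_uz (h1 i).2 (BMean_cen.1 (h1 i).1)
  exact ⟨a, t, by simpa only [ha] using h2⟩

/-- The centre is the von Neumann algebra `cent (M ∪ M')`; four unitaries. -/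
theorem commute_cen_of_uz {S : Op H} (h : ∀ a, Commute S (uz M a)) {c : Op H} (hc : Cen M c) :
    Commute S c := by
  obtain ⟨a, t, rfl⟩ := BMean_four hc
  exact Commute.sum_right _ _ _ fun i _ => (h (a i)).smul_right (t i)

/-- A set containing the central unitaries and closed under linear combinations contains the
centre. -/
theorem cen_mem_of_uz (h : ∀ a, uz M a ∈ N) {c : Op H} (hc : Cen M c) : c ∈ N := by
  obtain ⟨a, t, rfl⟩ := BMean_four hc
  exact sum_mem fun i _ => N.toStarSubalgebra.smul_mem (h (a i)) (t i)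

end Crest.Agent.R078
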