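import Crest.Agent.R078.BBasic

/-! Row 78: invariant means, weak means of vectors and operators, averaging over projective
representations of abelian groups. -/

set_option autoImplicit false

open scoped InnerProductSpace ComplexConjugate
open Filter Topology

namespace Crest.Agent.R078

open Crest.Agent.R121 (Mn Bd)
open Crest.Agent.R124 (ex)
open Crest.OpAlg

universe u

variable {H : Type*} [NormedAddCommGroup H] [InnerProductSpace ℂ H] [CompleteSpace H]

variable {X : Type*} {m : Mn X} {M N : VN H}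

theorem BMean0_approx {G : Type*} [AddCommGroup G] (s : Finset G) (L : ℕ) :
    ∃ m : Mn G, ∀ a ∈ s, ∀ (f : G → ℂ) (C : ℝ), (∀ x, ‖f x‖ ≤ C) →
      ‖m (fun x => f (x + a) - f x)‖ ≤ 2 * C / (L + 1) := by
  classical
  induction s using Finset.induction with
  | empty => exact ⟨Mn.pt 0, by simp⟩
  | insert b s _ ih =>
    obtain ⟨m, hm⟩ := ih
    refine ⟨m.bind fun x => Mn.ofEx fun k : Fin (L + 1) => x + (k : ℕ) • b, fun a ha f C hC => ?_⟩
    simp only [Mn.bind_apply, Mn.ofEx_apply]
    rcases Finset.mem_insert.1 ha with rfl | ha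
    · refine m.norm_le fun x => ?_
      rw [R124.ex_def, Fin.sum_univ_eq_sum_range (fun k => f (x + k • a + a) - f (x + k • a))]
      have := Finset.sum_range_sub (fun k => f (x + k • a)) (L + 1)
      simp only [succ_nsmul, ← add_assoc] at this
      rw [this, norm_smul, Real.norm_of_nonneg (by positivity), Fintype.card_fin, ← div_eq_inv_mul]
      push_cast
      gcongr
      exact (norm_sub_le _ _).trans (by linarith [hC (x + L • a + a), hC (x + 0 • a)])
    · have := hm a ha (fun x => ex fun k : Fin (L + 1) => f (x + (k : ℕ) • b)) C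
        fun x => R124.norm_ex_le_const fun k => hC _
      simpa only [R124.ex_sub, add_right_comm] using this

theorem BMean0_re_mono (m : Mn X) {f g : X → ℂ} (hf : Bd f) (hg : Bd g)
    (h : ∀ x, (f x).re ≤ (g x).re) : (m f).re ≤ (m g).re := by
  obtain ⟨C, hC⟩ := hf
  obtain ⟨D, hD⟩ := hg
  have := m.re_le (f := fun x => f x - g x)
    ⟨C + D, fun x => (norm_sub_le _ _).trans (add_le_add (hC x) (hD x))⟩ (c := 0)
    fun x => by rw [Complex.sub_re]; linarith [h x]
  rw [m.map_sub, Complex.sub_re] at this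
  linarith

theorem BMean0_bd_mul {f g : X → ℝ} (hf : Bd f) (hg : Bd g) :
    Bd fun x => ((f x * g x : ℝ) : ℂ) := by
  obtain ⟨C, hC⟩ := hf
  obtain ⟨D, hD⟩ := hg
  exact ⟨C * D, fun x => by
    rw [Complex.norm_real, norm_mul]
    exact mul_le_mul (hC x) (hD x) (norm_nonneg _) ((norm_nonneg _).trans (hC x))⟩

/-- `R121.Mn.exists_of_approx_norm` for the functions `x ↦ f (x + a) - f x`: for finitely many
`a i` use the uniform average over `∑ i, k i • a i`, `k : s → Fin L` (a shift in one coordinate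
changes the average by at most `2 C / L`). -/
theorem exists_invM (G : Type*) [AddCommGroup G] : ∃ m : Mn G, InvM m := by
  classical
  obtain ⟨m, hm⟩ := Mn.exists_of_approx_norm (X := G) (I := {f : G → ℂ // Bd f} × G)
    (fun i x => i.1.1 (x + i.2) - i.1.1 x)
    (fun i => by
      obtain ⟨C, hC⟩ := i.1.2
      exact ⟨C + C, fun x => (norm_sub_le _ _).trans (add_le_add (hC _) (hC _))⟩) (fun _ => 0)
    fun s ε hε => by
      choose C hC using fun i : {f : G → ℂ // Bd f} × G => i.1.2
      obtain ⟨L, hL⟩ := exists_nat_ge (2 * (∑ i ∈ s, |C i|) / ε)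
      obtain ⟨m, hm⟩ := BMean0_approx (s.image Prod.snd) L
      refine ⟨m, fun i hi => (hm i.2 (Finset.mem_image_of_mem _ hi) i.1.1 (C i) (hC i)).trans ?_⟩
      have h1 : |C i| ≤ ∑ i ∈ s, |C i| :=
        Finset.single_le_sum (f := fun i => |C i|) (fun _ _ => abs_nonneg _) hi
      rw [div_le_iff₀ hε] at hL
      rw [zero_add, div_le_iff₀ (by positivity)]
      nlinarith [le_abs_self (C i)]
  refine ⟨m, fun f hf a => ?_⟩
  have := hm (⟨f, hf⟩, a)
  rwa [m.map_sub, norm_le_zero_iff, sub_eq_zero] at this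

theorem invM_inv (G : Type*) [AddCommGroup G] : InvM (invM G) := by
  rw [invM, dif_pos (exists_invM G)]
  exact (exists_invM G).choose_spec

theorem InvM.add_left {G : Type*} [AddCommGroup G] {m : Mn G} (hm : InvM m) {f : G → ℂ}
    (hf : Bd f) (a : G) : m (fun x => f (a + x)) = m f := by
  simpa only [add_comm a] using hm f hf a

theorem mn_conj (m : Mn X) {f : X → ℂ} (hf : Bd f) : m (fun x => conj (f x)) = conj (m f) := by
  obtain ⟨C, hC⟩ := hf
  have hb : ∀ c : ℂ, Bd (fun x => c * f x) ∧ Bd (fun x => c * conj (f x)) := fun c =>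
    ⟨⟨‖c‖ * C, fun x => by rw [norm_mul]; gcongr; exact hC x⟩,
      ⟨‖c‖ * C, fun x => by rw [norm_mul, Complex.norm_conj]; gcongr; exact hC x⟩⟩
  have key : ∀ c : ℂ, (conj c * m fun x => conj (f x)).re = (c * m f).re := fun c => by
    rw [← m.map_mul_left, ← m.map_mul_left]
    exact le_antisymm (BMean0_re_mono m (hb _).2 (hb _).1 fun x => by simp)
      (BMean0_re_mono m (hb _).1 (hb _).2 fun x => by simp)
  refine Complex.ext (by simpa using key 1) (by simpa using key Complex.I)

theorem mn_re_mono (m : Mn X) {f g : X → ℂ} (hf : Bd f) (hg : Bd g)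
    (h : ∀ x, (f x).re ≤ (g x).re) : (m f).re ≤ (m g).re := by
  exact BMean0_re_mono m hf hg h

/-- `|m f| ≤ m |f|`. -/
theorem mn_norm_le (m : Mn X) {f : X → ℂ} {g : X → ℝ} (hg : Bd g) (h : ∀ x, ‖f x‖ ≤ g x) :
    ‖m f‖ ≤ (m fun x => (g x : ℂ)).re := by
  obtain ⟨C, hC⟩ := hg
  obtain ⟨c, hc, hc'⟩ : ∃ c : ℂ, ‖c‖ = 1 ∧ c * m f = ‖m f‖ := by
    by_cases h0 : m f = 0
    · exact ⟨1, by simp, by simp [h0]⟩
    · refine ⟨conj (m f) / ‖m f‖, ?_, ?_⟩
      · rw [norm_div, Complex.norm_conj, Complex.norm_real, norm_norm,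
          div_self (norm_ne_zero_iff.2 h0)]
      · have h1 : (‖m f‖ : ℂ) ≠ 0 := by exact_mod_cast norm_ne_zero_iff.2 h0
        rw [div_mul_eq_mul_div, Complex.conj_mul', div_eq_iff h1, sq]
  have h1 : ∀ x, ‖c * f x‖ ≤ g x := fun x => by rw [norm_mul, hc, one_mul]; exact h x
  have := BMean0_re_mono m (f := fun x => c * f x) (g := fun x => (g x : ℂ))
    ⟨C, fun x => (h1 x).trans ((le_abs_self _).trans (hC x))⟩
    ⟨C, fun x => by rw [Complex.norm_real]; exact hC x⟩
    fun x => (Complex.re_le_norm _).trans (h1 x)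
  rwa [m.map_mul_left, hc', Complex.ofReal_re] at this

/-- Cauchy–Schwarz. -/
theorem mn_mul_le (m : Mn X) {f g : X → ℝ} (hf : Bd f) (hg : Bd g) :
    (m fun x => ((f x * g x : ℝ) : ℂ)).re ≤
      √(m fun x => ((f x ^ 2 : ℝ) : ℂ)).re * √(m fun x => ((g x ^ 2 : ℝ) : ℂ)).re := by
  have ha : 0 ≤ (m fun x => ((f x ^ 2 : ℝ) : ℂ)).re :=
    m.le_re (by simpa only [sq] using BMean0_bd_mul hf hf) fun x => by
      rw [Complex.ofReal_re]; positivity
  have key : ∀ t : ℝ, 0 ≤ (m fun x => ((f x ^ 2 : ℝ) : ℂ)).re * (t * t) +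
      (-2 * (m fun x => ((f x * g x : ℝ) : ℂ)).re) * t + (m fun x => ((g x ^ 2 : ℝ) : ℂ)).re := by
    intro t
    have hb : Bd fun x => t * f x - g x := by
      obtain ⟨C, hC⟩ := hf
      obtain ⟨D, hD⟩ := hg
      exact ⟨‖t‖ * C + D, fun x => (norm_sub_le _ _).trans (add_le_add
        (by rw [norm_mul]; gcongr; exact hC x) (hD x))⟩
    have h1 := m.le_re (BMean0_bd_mul hb hb) (c := 0) fun x => by
      rw [Complex.ofReal_re]; exact mul_self_nonneg _
    have h2 : (fun x => (((t * f x - g x) * (t * f x - g x) : ℝ) : ℂ)) = fun x =>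
        ((t * t : ℝ) : ℂ) * ((f x ^ 2 : ℝ) : ℂ) + ((-2 * t : ℝ) : ℂ) * ((f x * g x : ℝ) : ℂ) +
          ((g x ^ 2 : ℝ) : ℂ) := by
      funext x
      push_cast
      ring
    rw [h2, m.map_add, m.map_add, m.map_mul_left, m.map_mul_left, Complex.add_re, Complex.add_re,
      Complex.re_ofReal_mul, Complex.re_ofReal_mul] at h1
    linarith
  have h := discrim_le_zero key
  rw [discrim] at h
  rw [← Real.sqrt_mul ha]
  exact (le_abs_self _).trans (Real.abs_le_sqrt (by nlinarith))

theorem mn_exists_le (m : Mn X) {f : X → ℂ} (hf : Bd f) {c : ℝ} (h : (m f).re < c) :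
    ∃ x, (f x).re < c := by
  by_contra hc
  push Not at hc
  exact absurd (m.le_re hf hc) (not_le.2 h)

/-- The mean given by an ultrafilter (`R121.Compact_ultra` with point masses). -/
theorem exists_mn_ultra (U : Ultrafilter X) :
    ∃ m : Mn X, ∀ f : X → ℂ, Bd f → Tendsto f U (𝓝 (m f)) := by
  exact R121.Compact_ultra U Mn.pt

end Crest.Agent.R078
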