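import Crest.Agent.R078.BMean0

/-! Row 78: invariant means, weak means of vectors and operators, averaging over projective
representations of abelian groups. -/

set_option autoImplicit false

open scoped InnerProductSpace ComplexConjugate
open Filter Topology

namespace Crest.Agent.R078

open Crest.Agent.R121 (Mn Bd)
open Crest.Agent.R124 (ex)
open Crest.OpAlg

universe u

variable {H : Type*} [NormedAddCommGroup H] [InnerProductSpace ℂ H] [CompleteSpace H]

variable {X : Type*} {m : Mn X} {M N : VN H}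

theorem BMean1_nonneg {E : Type*} [SeminormedAddCommGroup E] (m : Mn X) {v : X → E} {c : ℝ}
    (h : ∀ x, ‖v x‖ ≤ c) : 0 ≤ c :=
  (norm_nonneg _).trans
    (m.norm_le (f := fun _ => 0) fun x => by simpa using (norm_nonneg _).trans (h x))

omit [CompleteSpace H] in
theorem BMean1_inner_le {v : H} {c : ℝ} (h : ‖v‖ ≤ c) (η : H) : ‖⟪η, v⟫_ℂ‖ ≤ c * ‖η‖ :=
  (norm_inner_le_norm _ _).trans (by
    rw [mul_comm]; exact mul_le_mul_of_nonneg_right h (norm_nonneg _))

omit [CompleteSpace H] in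
theorem BMean1_bd_inner {v : X → H} (hv : Bd v) (η : H) : Bd fun x => ⟪η, v x⟫_ℂ := by
  obtain ⟨C, hC⟩ := hv
  exact ⟨C * ‖η‖, fun x => BMean1_inner_le (hC x) η⟩

theorem BMean1_bd_add {E : Type*} [SeminormedAddCommGroup E] {v w : X → E} (hv : Bd v)
    (hw : Bd w) : Bd fun x => v x + w x := by
  obtain ⟨C, hC⟩ := hv
  obtain ⟨D, hD⟩ := hw
  exact ⟨C + D, fun x => (norm_add_le _ _).trans (add_le_add (hC x) (hD x))⟩

theorem BMean1_bd_sub {E : Type*} [SeminormedAddCommGroup E] {v w : X → E} (hv : Bd v)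
    (hw : Bd w) : Bd fun x => v x - w x := by
  obtain ⟨C, hC⟩ := hv
  obtain ⟨D, hD⟩ := hw
  exact ⟨C + D, fun x => (norm_sub_le _ _).trans (add_le_add (hC x) (hD x))⟩

theorem BMean1_bd_const {E : Type*} [Norm E] (a : E) : Bd fun _ : X => a :=
  ⟨‖a‖, fun _ => le_rfl⟩

theorem BMean1_bd_smul {E : Type*} [SeminormedAddCommGroup E] [NormedSpace ℂ E] {v : X → E}
    (hv : Bd v) (c : ℂ) : Bd fun x => c • v x := by
  obtain ⟨C, hC⟩ := hv
  exact ⟨‖c‖ * C, fun x => (norm_smul_le c (v x)).trans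
    (mul_le_mul_of_nonneg_left (hC x) (norm_nonneg _))⟩

theorem BMean1_bd_smul_const {E : Type*} [SeminormedAddCommGroup E] [NormedSpace ℂ E] {f : X → ℂ}
    (hf : Bd f) (a : E) : Bd fun x => f x • a := by
  obtain ⟨C, hC⟩ := hf
  exact ⟨C * ‖a‖, fun x => (norm_smul_le (f x) a).trans
    (mul_le_mul_of_nonneg_right (hC x) (norm_nonneg _))⟩

omit [CompleteSpace H] in
theorem BMean1_norm_le_of_inner {ζ : H} {c : ℝ} (hc : 0 ≤ c) (h : ‖⟪ζ, ζ⟫_ℂ‖ ≤ c * ‖ζ‖) :
    ‖ζ‖ ≤ c := by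
  rw [inner_self_eq_norm_sq_to_K, norm_pow, RCLike.norm_ofReal, abs_norm, sq] at h
  rcases (norm_nonneg ζ).eq_or_lt with h0 | h0
  · rw [← h0]; exact hc
  · exact le_of_mul_le_mul_right h h0

theorem BMean1_exists_vm (m : Mn X) {v : X → H} (hv : Bd v) :
    ∃ ζ : H, ∀ η, ⟪η, ζ⟫_ℂ = m fun x => ⟪η, v x⟫_ℂ := by
  obtain ⟨C, hC⟩ := hv
  let L : H →ₗ[ℂ] ℂ :=
    { toFun := fun η => conj (m fun x => ⟪η, v x⟫_ℂ)
      map_add' := fun η η' => by simp only [inner_add_left, m.map_add, map_add]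
      map_smul' := fun c η => by
        simp only [inner_smul_left, m.map_mul_left, map_mul, Complex.conj_conj, RingHom.id_apply,
          smul_eq_mul] }
  have hL : ∀ η, ‖L η‖ ≤ C * ‖η‖ := fun η => by
    change ‖conj (m fun x => ⟪η, v x⟫_ℂ)‖ ≤ _
    rw [Complex.norm_conj]
    exact m.norm_le fun x => BMean1_inner_le (hC x) η
  refine ⟨(InnerProductSpace.toDual ℂ H).symm (L.mkContinuous C hL), fun η => ?_⟩
  rw [← inner_conj_symm, InnerProductSpace.toDual_symm_apply, LinearMap.mkContinuous_apply]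
  exact Complex.conj_conj _

theorem BMean1_exists_op (B : H →ₗ⋆[ℂ] H →ₗ[ℂ] ℂ) {C : ℝ}
    (hB : ∀ η ξ, ‖B η ξ‖ ≤ C * ‖η‖ * ‖ξ‖) : ∃ T : Op H, ∀ η ξ, ⟪η, T ξ⟫_ℂ = B η ξ :=
  ⟨ContinuousLinearMap.adjoint
    (InnerProductSpace.continuousLinearMapOfBilin (B.mkContinuous₂ C hB)), fun η ξ => by
      rw [ContinuousLinearMap.adjoint_inner_right,
        InnerProductSpace.continuousLinearMapOfBilin_apply, LinearMap.mkContinuous₂_apply]⟩

omit [CompleteSpace H] in
theorem BMean1_inner_op_le {T : Op H} {C : ℝ} (h : ‖T‖ ≤ C) (η ξ : H) :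
    ‖⟪η, T ξ⟫_ℂ‖ ≤ C * ‖η‖ * ‖ξ‖ := by
  have h1 : ‖T ξ‖ ≤ C * ‖ξ‖ := (T.le_opNorm ξ).trans
    (mul_le_mul_of_nonneg_right h (norm_nonneg _))
  exact (BMean1_inner_le h1 η).trans_eq (by ring)

omit [CompleteSpace H] in
theorem BMean1_op_norm_le {T : Op H} {C : ℝ} (hC : 0 ≤ C)
    (h : ∀ η ξ : H, ‖⟪η, T ξ⟫_ℂ‖ ≤ C * ‖η‖ * ‖ξ‖) : ‖T‖ ≤ C :=
  ContinuousLinearMap.opNorm_le_bound _ hC fun ξ =>
    BMean1_norm_le_of_inner (by positivity) ((h (T ξ) ξ).trans_eq (by ring))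

theorem BMean1_exists_wm (m : Mn X) {T : X → Op H} (hT : Bd T) :
    ∃ S : Op H, ∀ η ξ, ⟪η, S ξ⟫_ℂ = m fun x => ⟪η, T x ξ⟫_ℂ := by
  obtain ⟨C, hC⟩ := hT
  exact BMean1_exists_op (LinearMap.mk₂'ₛₗ (starRingEnd ℂ) (RingHom.id ℂ)
    (fun η ξ => m fun x => ⟪η, T x ξ⟫_ℂ)
    (fun η η' ξ => by simp only [inner_add_left, m.map_add])
    (fun c η ξ => by simp only [inner_smul_left, m.map_mul_left, smul_eq_mul])
    (fun η ξ ξ' => by simp only [map_add, inner_add_right, m.map_add])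
    (fun c η ξ => by
      simp only [map_smul, inner_smul_right, m.map_mul_left, smul_eq_mul, RingHom.id_apply]))
    (C := C) (fun η ξ => m.norm_le fun x => BMean1_inner_op_le (hC x) η ξ)

omit [CompleteSpace H] in
theorem BMean1_ext {S T : Op H} (h : ∀ η ξ, ⟪η, S ξ⟫_ℂ = ⟪η, T ξ⟫_ℂ) : S = T :=
  ContinuousLinearMap.ext fun ξ => ext_inner_left ℂ fun η => h η ξ

theorem BMean1_bd_mul_left {T : X → Op H} (hT : Bd T) (S : Op H) : Bd fun x => S * T x := by
  obtain ⟨C, hC⟩ := hT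
  exact ⟨‖S‖ * C, fun x => (norm_mul_le _ _).trans
    (mul_le_mul_of_nonneg_left (hC x) (norm_nonneg _))⟩

theorem BMean1_bd_mul_right {T : X → Op H} (hT : Bd T) (S : Op H) : Bd fun x => T x * S := by
  obtain ⟨C, hC⟩ := hT
  exact ⟨C * ‖S‖, fun x => (norm_mul_le _ _).trans
    (mul_le_mul_of_nonneg_right (hC x) (norm_nonneg _))⟩

/-! ### Vectors -/

theorem inner_vm {v : X → H} (hv : Bd v) (η : H) :
    ⟪η, vm m v⟫_ℂ = m fun x => ⟪η, v x⟫_ℂ := by
  have h := BMean1_exists_vm m hv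
  rw [vm, dif_pos h]
  exact h.choose_spec η

theorem vm_inner {v : X → H} (hv : Bd v) (η : H) :
    ⟪vm m v, η⟫_ℂ = m fun x => ⟪v x, η⟫_ℂ := by
  rw [← inner_conj_symm, inner_vm hv, ← mn_conj m (BMean1_bd_inner hv η)]
  simp only [inner_conj_symm]

theorem norm_vm_le {v : X → H} {c : ℝ} (h : ∀ x, ‖v x‖ ≤ c) : ‖vm m v‖ ≤ c := by
  refine BMean1_norm_le_of_inner (BMean1_nonneg m h) ?_
  rw [inner_vm ⟨c, h⟩]
  exact m.norm_le fun x => BMean1_inner_le (h x) _

theorem norm_vm_le_mn {v : X → H} (hv : Bd v) : ‖vm m v‖ ≤ (m fun x => (‖v x‖ : ℂ)).re := by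
  obtain ⟨C, hC⟩ := id hv
  have hb : Bd fun x => (‖v x‖ : ℂ) := ⟨C, fun x => by simpa using hC x⟩
  refine BMean1_norm_le_of_inner (m.le_re hb fun x => by simp) ?_
  rw [inner_vm hv]
  have h1 := mn_norm_le m (f := fun x => ⟪vm m v, v x⟫_ℂ) (g := fun x => ‖vm m v‖ * ‖v x‖)
    ⟨‖vm m v‖ * C, fun x => by
      rw [norm_mul, norm_norm, norm_norm]
      exact mul_le_mul_of_nonneg_left (hC x) (norm_nonneg _)⟩
    fun x => norm_inner_le_norm _ _
  refine h1.trans_eq ?_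
  simp only [Complex.ofReal_mul, m.map_mul_left, Complex.re_ofReal_mul]
  ring

theorem norm_vm_sq_le {v : X → H} (hv : Bd v) :
    ‖vm m v‖ ^ 2 ≤ (m fun x => ((‖v x‖ ^ 2 : ℝ) : ℂ)).re := by
  obtain ⟨C, hC⟩ := id hv
  have h1 := mn_mul_le m (f := fun x => ‖v x‖) (g := fun _ => 1)
    ⟨C, fun x => by simpa using hC x⟩ (BMean1_bd_const _)
  simp only [mul_one, one_pow, Complex.ofReal_one, m.map_const, Complex.one_re, Real.sqrt_one] at h1
  have h2 := (norm_vm_le_mn (m := m) hv).trans h1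
  have h3 : 0 ≤ (m fun x => ((‖v x‖ ^ 2 : ℝ) : ℂ)).re :=
    m.le_re ⟨C ^ 2, fun x => by
      rw [Complex.norm_real, norm_pow, norm_norm]
      exact pow_le_pow_left₀ (norm_nonneg _) (hC x) 2⟩ fun x => by
        rw [Complex.ofReal_re]; positivity
  calc ‖vm m v‖ ^ 2 ≤ √(m fun x => ((‖v x‖ ^ 2 : ℝ) : ℂ)).re ^ 2 :=
        pow_le_pow_left₀ (norm_nonneg _) h2 2
    _ = _ := Real.sq_sqrt h3

theorem vm_const (η : H) : vm m (fun _ => η) = η := by
  refine ext_inner_left ℂ fun ζ => ?_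
  rw [inner_vm (BMean1_bd_const η), m.map_const]

theorem vm_add {v w : X → H} (hv : Bd v) (hw : Bd w) :
    vm m (fun x => v x + w x) = vm m v + vm m w := by
  refine ext_inner_left ℂ fun ζ => ?_
  rw [inner_add_right, inner_vm (BMean1_bd_add hv hw), inner_vm hv, inner_vm hw, ← m.map_add]
  simp only [inner_add_right]

theorem vm_sub {v w : X → H} (hv : Bd v) (hw : Bd w) :
    vm m (fun x => v x - w x) = vm m v - vm m w := by
  refine ext_inner_left ℂ fun ζ => ?_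
  rw [inner_sub_right, inner_vm (BMean1_bd_sub hv hw), inner_vm hv, inner_vm hw, ← m.map_sub]
  simp only [inner_sub_right]

theorem vm_smul {v : X → H} (hv : Bd v) (c : ℂ) : vm m (fun x => c • v x) = c • vm m v := by
  refine ext_inner_left ℂ fun ζ => ?_
  rw [inner_smul_right, inner_vm (BMean1_bd_smul hv c), inner_vm hv, ← m.map_mul_left]
  simp only [inner_smul_right]

theorem vm_smul_const {f : X → ℂ} (hf : Bd f) (η : H) : vm m (fun x => f x • η) = m f • η := by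
  refine ext_inner_left ℂ fun ζ => ?_
  rw [inner_smul_right, inner_vm (BMean1_bd_smul_const hf η), mul_comm, ← m.map_mul_left]
  simp only [inner_smul_right, mul_comm]

theorem map_vm {K : Type*} [NormedAddCommGroup K] [InnerProductSpace ℂ K] [CompleteSpace K]
    (A : H →L[ℂ] K) {v : X → H} (hv : Bd v) : A (vm m v) = vm m fun x => A (v x) := by
  obtain ⟨C, hC⟩ := id hv
  refine ext_inner_left ℂ fun ζ => ?_
  rw [inner_vm ⟨‖A‖ * C, fun x => (A.le_opNorm _).trans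
    (mul_le_mul_of_nonneg_left (hC x) (norm_nonneg _))⟩,
    ← ContinuousLinearMap.adjoint_inner_left, inner_vm hv]
  simp only [ContinuousLinearMap.adjoint_inner_left]

theorem J_vm (J : H ≃ₗᵢ⋆[ℂ] H) {v : X → H} (hv : Bd v) : J (vm m v) = vm m fun x => J (v x) := by
  obtain ⟨C, hC⟩ := id hv
  refine ext_inner_left ℂ fun ζ => ?_
  obtain ⟨η, rfl⟩ := J.surjective ζ
  rw [inner_vm ⟨C, fun x => by rw [J.norm_map]; exact hC x⟩, inner_J, vm_inner hv]
  simp only [inner_J]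

theorem vm_mem {K : Submodule ℂ H} (hK : IsClosed (K : Set H)) {v : X → H} (hv : Bd v)
    (h : ∀ x, v x ∈ K) : vm m v ∈ K := by
  haveI : CompleteSpace K := hK.completeSpace_coe
  rw [← K.orthogonal_orthogonal, Submodule.mem_orthogonal]
  intro η hη
  rw [inner_vm hv]
  have : (fun x => ⟪η, v x⟫_ℂ) = fun _ => 0 :=
    funext fun x => (Submodule.mem_orthogonal' K η).1 hη _ (h x)
  rw [this, m.map_zero]

/-! ### Operators -/

theorem bd_apply {T : X → Op H} (hT : Bd T) (ξ : H) : Bd fun x => T x ξ := by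
  obtain ⟨C, hC⟩ := hT
  exact ⟨C * ‖ξ‖, fun x => ((T x).le_opNorm ξ).trans
    (mul_le_mul_of_nonneg_right (hC x) (norm_nonneg _))⟩

theorem bd_inner {T : X → Op H} (hT : Bd T) (η ξ : H) : Bd fun x => ⟪η, T x ξ⟫_ℂ := by
  exact BMean1_bd_inner (bd_apply hT ξ) η

theorem inner_wm {T : X → Op H} (hT : Bd T) (η ξ : H) :
    ⟪η, wm m T ξ⟫_ℂ = m fun x => ⟪η, T x ξ⟫_ℂ := by
  have h := BMean1_exists_wm m hT
  rw [wm, dif_pos h]
  exact h.choose_spec η ξ

theorem wm_apply {T : X → Op H} (hT : Bd T) (ξ : H) : wm m T ξ = vm m fun x => T x ξ := by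
  refine ext_inner_left ℂ fun ζ => ?_
  rw [inner_wm hT, inner_vm (bd_apply hT ξ)]

theorem norm_wm_le {T : X → Op H} {c : ℝ} (h : ∀ x, ‖T x‖ ≤ c) : ‖wm m T‖ ≤ c := by
  refine BMean1_op_norm_le (BMean1_nonneg m h) fun η ξ => ?_
  rw [inner_wm ⟨c, h⟩]
  exact m.norm_le fun x => BMean1_inner_op_le (h x) η ξ

theorem wm_const (S : Op H) : wm m (fun _ => S) = S := by
  refine BMean1_ext fun η ξ => ?_
  rw [inner_wm (BMean1_bd_const S), m.map_const]

theorem wm_add {T S : X → Op H} (hT : Bd T) (hS : Bd S) :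
    wm m (fun x => T x + S x) = wm m T + wm m S := by
  refine BMean1_ext fun η ξ => ?_
  rw [ContinuousLinearMap.add_apply, inner_add_right, inner_wm (BMean1_bd_add hT hS), inner_wm hT,
    inner_wm hS, ← m.map_add]
  simp only [ContinuousLinearMap.add_apply, inner_add_right]

theorem wm_sub {T S : X → Op H} (hT : Bd T) (hS : Bd S) :
    wm m (fun x => T x - S x) = wm m T - wm m S := by
  refine BMean1_ext fun η ξ => ?_
  rw [ContinuousLinearMap.sub_apply, inner_sub_right, inner_wm (BMean1_bd_sub hT hS), inner_wm hT,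
    inner_wm hS, ← m.map_sub]
  simp only [ContinuousLinearMap.sub_apply, inner_sub_right]

theorem wm_smul {T : X → Op H} (hT : Bd T) (c : ℂ) : wm m (fun x => c • T x) = c • wm m T := by
  refine BMean1_ext fun η ξ => ?_
  rw [ContinuousLinearMap.smul_apply, inner_smul_right, inner_wm (BMean1_bd_smul hT c),
    inner_wm hT, ← m.map_mul_left]
  simp only [ContinuousLinearMap.smul_apply, inner_smul_right]

theorem wm_smul_const {f : X → ℂ} (hf : Bd f) (S : Op H) :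
    wm m (fun x => f x • S) = m f • S := by
  refine BMean1_ext fun η ξ => ?_
  rw [ContinuousLinearMap.smul_apply, inner_smul_right, inner_wm (BMean1_bd_smul_const hf S),
    mul_comm, ← m.map_mul_left]
  simp only [ContinuousLinearMap.smul_apply, inner_smul_right, mul_comm]

theorem mul_wm {T : X → Op H} (hT : Bd T) (S : Op H) :
    S * wm m T = wm m fun x => S * T x := by
  refine BMean1_ext fun η ξ => ?_
  rw [inner_wm (BMean1_bd_mul_left hT S), ContinuousLinearMap.mul_apply,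
    ← ContinuousLinearMap.adjoint_inner_left, inner_wm hT]
  simp only [ContinuousLinearMap.mul_apply, ContinuousLinearMap.adjoint_inner_left]

theorem wm_mul {T : X → Op H} (hT : Bd T) (S : Op H) :
    wm m T * S = wm m fun x => T x * S := by
  refine BMean1_ext fun η ξ => ?_
  rw [inner_wm (BMean1_bd_mul_right hT S), ContinuousLinearMap.mul_apply, inner_wm hT]
  simp only [ContinuousLinearMap.mul_apply]

theorem star_wm {T : X → Op H} (hT : Bd T) : star (wm m T) = wm m fun x => star (T x) := by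
  obtain ⟨C, hC⟩ := id hT
  refine BMean1_ext fun η ξ => ?_
  rw [inner_wm ⟨C, fun x => by rw [norm_star]; exact hC x⟩, ContinuousLinearMap.star_eq_adjoint,
    ContinuousLinearMap.adjoint_inner_right, ← inner_conj_symm, inner_wm hT,
    ← mn_conj m (bd_inner hT ξ η)]
  simp only [ContinuousLinearMap.star_eq_adjoint, ContinuousLinearMap.adjoint_inner_right,
    inner_conj_symm]

theorem norm_wm_sub_le {T : X → Op H} {S : Op H} {c : ℝ} (h : ∀ x, ‖T x - S‖ ≤ c) :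
    ‖wm m T - S‖ ≤ c := by
  have hT : Bd T := by
    simpa using BMean1_bd_add (v := fun x => T x - S) ⟨c, h⟩ (BMean1_bd_const S)
  have h1 := norm_wm_le (m := m) h
  rwa [wm_sub hT (BMean1_bd_const S), wm_const] at h1

theorem norm_wm_sub_wm_le {T S : X → Op H} (hT : Bd T) {c : ℝ} (h : ∀ x, ‖T x - S x‖ ≤ c) :
    ‖wm m T - wm m S‖ ≤ c := by
  have hS : Bd S := by
    simpa using BMean1_bd_sub hT (w := fun x => T x - S x) ⟨c, h⟩
  have h1 := norm_wm_le (m := m) h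
  rwa [wm_sub hT hS] at h1

theorem commute_wm {T : X → Op H} (hT : Bd T) {S : Op H} (h : ∀ x, Commute S (T x)) :
    Commute S (wm m T) := by
  change S * wm m T = wm m T * S
  rw [mul_wm hT, wm_mul hT]
  exact congrArg _ (funext fun x => (h x).eq)

theorem wm_mem {T : X → Op H} (hT : Bd T) (h : ∀ x, T x ∈ M) : wm m T ∈ M := by
  exact mem_of_commute fun y hy => (commute_wm hT fun x => (commute_of_mem (h x) hy).symm).symm

theorem jc_wm {J : H ≃ₗᵢ⋆[ℂ] H} (hJ : ∀ η, J (J η) = η) {T : X → Op H} (hT : Bd T) :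
    jc J (wm m T) = wm m fun x => jc J (T x) := by
  obtain ⟨C, hC⟩ := id hT
  refine ContinuousLinearMap.ext fun ξ => ?_
  rw [wm_apply ⟨C, fun x => by rw [norm_jc]; exact hC x⟩, jc_apply, wm_apply hT,
    J_vm J (bd_apply hT _)]
  simp only [jc_apply]

theorem wm_shift {G : Type*} [AddCommGroup G] {m : Mn G} (hm : InvM m) {T : G → Op H}
    (hT : Bd T) (a : G) : wm m (fun x => T (x + a)) = wm m T := by
  obtain ⟨C, hC⟩ := id hT
  refine BMean1_ext fun η ξ => ?_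
  rw [inner_wm ⟨C, fun x => hC _⟩, inner_wm hT]
  exact hm (fun x => ⟪η, T x ξ⟫_ℂ) (bd_inner hT η ξ) a

/-- `mean (A B) - mean A mean B = mean ((A - A₀) (B - B₀)) - (mean A - A₀) (mean B - B₀)`. -/
theorem norm_wm_mul_sub {A B : X → Op H} {A₀ B₀ : Op H} {a b : ℝ} (hA : ∀ x, ‖A x - A₀‖ ≤ a)
    (hB : ∀ x, ‖B x - B₀‖ ≤ b) : ‖wm m (fun x => A x * B x) - wm m A * wm m B‖ ≤ 2 * a * b := by
  have ha : 0 ≤ a := BMean1_nonneg m hA
  have hb : 0 ≤ b := BMean1_nonneg m hB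
  have hAb : Bd A := by
    simpa using BMean1_bd_add (v := fun x => A x - A₀) ⟨a, hA⟩ (BMean1_bd_const A₀)
  have hBb : Bd B := by
    simpa using BMean1_bd_add (v := fun x => B x - B₀) ⟨b, hB⟩ (BMean1_bd_const B₀)
  have hD : ∀ x, ‖(A x - A₀) * (B x - B₀)‖ ≤ a * b := fun x =>
    (norm_mul_le _ _).trans (mul_le_mul (hA x) (hB x) (norm_nonneg _) ha)
  have e1 : (fun x => A x * B x) =
      fun x => (A x - A₀) * (B x - B₀) + (A x * B₀ + (A₀ * B x - A₀ * B₀)) :=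
    funext fun x => by noncomm_ring
  have e2 : wm m (fun x => A x * B x) - wm m A * wm m B =
      wm m (fun x => (A x - A₀) * (B x - B₀)) - (wm m A - A₀) * (wm m B - B₀) := by
    have h3 := BMean1_bd_sub (BMean1_bd_mul_left hBb A₀) (BMean1_bd_const (A₀ * B₀))
    rw [e1, wm_add ⟨_, hD⟩ (BMean1_bd_add (BMean1_bd_mul_right hAb B₀) h3),
      wm_add (BMean1_bd_mul_right hAb B₀) h3,
      wm_sub (BMean1_bd_mul_left hBb A₀) (BMean1_bd_const _), wm_const, ← wm_mul hAb,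
      ← mul_wm hBb]
    noncomm_ring
  rw [e2]
  calc _ ≤ a * b + a * b := (norm_sub_le _ _).trans (add_le_add (norm_wm_le hD)
        ((norm_mul_le _ _).trans (mul_le_mul (norm_wm_sub_le hA) (norm_wm_sub_le hB)
          (norm_nonneg _) ha)))
    _ = 2 * a * b := by ring

/-- Weak cluster points of bounded nets. -/
theorem exists_wlim {ι : Type*} (U : Ultrafilter ι) (T : ι → Op H) {c : ℝ}
    (h : ∀ᶠ i in (U : Filter ι), ‖T i‖ ≤ c) :
    ∃ S : Op H, ‖S‖ ≤ c ∧ ∀ η ξ, Tendsto (fun i => ⟪η, T i ξ⟫_ℂ) U (𝓝 ⟪η, S ξ⟫_ℂ) := by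
  have hc : 0 ≤ c := by
    obtain ⟨i, hi⟩ := h.exists
    exact (norm_nonneg _).trans hi
  have hl : ∀ η ξ : H, ∃ z : ℂ, ‖z‖ ≤ c * ‖η‖ * ‖ξ‖ ∧
      Tendsto (fun i => ⟪η, T i ξ⟫_ℂ) U (𝓝 z) := fun η ξ => by
    obtain ⟨z, hz, hz'⟩ := (isCompact_closedBall (0 : ℂ) (c * ‖η‖ * ‖ξ‖)).ultrafilter_le_nhds
      (U.map fun i => ⟪η, T i ξ⟫_ℂ) (by
        rw [le_principal_iff, Ultrafilter.coe_map, mem_map]
        filter_upwards [h] with i hi
        simpa using BMean1_inner_op_le hi η ξ)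
    exact ⟨z, by simpa using hz, hz'⟩
  choose B hB hB' using hl
  obtain ⟨S, hS⟩ := BMean1_exists_op (LinearMap.mk₂'ₛₗ (starRingEnd ℂ) (RingHom.id ℂ) B
    (fun η η' ξ => tendsto_nhds_unique (hB' _ _) (by
      simpa only [inner_add_left] using (hB' η ξ).add (hB' η' ξ)))
    (fun a η ξ => tendsto_nhds_unique (hB' _ _) (by
      simpa only [inner_smul_left, smul_eq_mul] using (hB' η ξ).const_mul (conj a)))
    (fun η ξ ξ' => tendsto_nhds_unique (hB' _ _) (by
      simpa only [map_add, inner_add_right] using (hB' η ξ).add (hB' η ξ')))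
    (fun a η ξ => tendsto_nhds_unique (hB' _ _) (by
      simpa only [map_smul, inner_smul_right, smul_eq_mul, RingHom.id_apply] using
        (hB' η ξ).const_mul a))) (C := c) hB
  refine ⟨S, BMean1_op_norm_le hc fun η ξ => ?_, fun η ξ => ?_⟩
  · rw [hS]; exact hB η ξ
  · rw [hS]; exact hB' η ξ

theorem norm_le_of_weak_tendsto {ι : Type*} {l : Filter ι} [l.NeBot] {T : ι → Op H} {S : Op H}
    {c : ℝ} (hT : ∀ᶠ i in l, ‖T i‖ ≤ c)
    (h : ∀ η ξ, Tendsto (fun i => ⟪η, T i ξ⟫_ℂ) l (𝓝 ⟪η, S ξ⟫_ℂ)) : ‖S‖ ≤ c := by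
  have hc : 0 ≤ c := by
    obtain ⟨i, hi⟩ := hT.exists
    exact (norm_nonneg _).trans hi
  refine BMean1_op_norm_le hc fun η ξ => le_of_tendsto (h η ξ).norm ?_
  filter_upwards [hT] with i hi using BMean1_inner_op_le hi η ξ

end Crest.Agent.R078
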