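import Crest.Agent.R078.BMod1

/-! Row 78: modular theory of a cyclic separating vector. -/

set_option autoImplicit false

open scoped InnerProductSpace ComplexConjugate
open Filter Topology

namespace Crest.Agent.R078

open Crest.Agent.R121 (Mn Bd)
open Crest.Agent.R124 (ex)
open Crest.OpAlg

universe u

variable {H : Type*} [NormedAddCommGroup H] [InnerProductSpace ℂ H] [CompleteSpace H]
open scoped BoundedContinuousFunction

variable {M : VN H} {ξ : H} {S : ModularDatum H} {a b x y : Op H}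
theorem commute_app_of_wave {D : LineCalculus H} {T : Op H} (h : ∀ t, Commute T (D.wave t))
    (f : ℝ →ᵇ ℂ) : Commute T (D.apply f) := by
  let A : StarSubalgebra ℂ (ℝ →ᵇ ℂ) := (StarSubalgebra.centralizer ℂ {T}).comap D.apply
  have hA : ∀ g ∈ A, Commute T (D.apply g) := fun g hg =>
    ((StarSubalgebra.mem_centralizer_iff ℂ).1 hg T rfl).1
  have hc : ∀ t, LineCalculus.character t ∈ A := fun t =>
    (StarSubalgebra.mem_centralizer_iff ℂ).2 (by
      rintro _ rfl
      refine ⟨h t, ?_⟩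
      have := (h (-t)).star_star
      rw [R084.star_wave, neg_neg] at this
      exact this)
  have approx : ∀ L ε : ℝ, 0 < ε → ∃ g ∈ A, ∀ u, |u| ≤ L → ‖f u - g u‖ ≤ ε := by
    intro L ε hε
    let r : (ℝ →ᵇ ℂ) →⋆ₐ[ℂ] C(Set.Icc (-L) L, ℂ) :=
      (ContinuousMap.compStarAlgHom' ℂ ℂ ⟨Subtype.val, continuous_subtype_val⟩).comp
        (BoundedContinuousFunction.toContinuousMapStarₐ ℂ)
    have hsep : (A.map r).SeparatesPoints := by
      intro x y hxy
      have hne : (x : ℝ) - y ≠ 0 := sub_ne_zero.2 fun e => hxy (Subtype.ext e)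
      refine ⟨_, ⟨r (LineCalculus.character (Real.pi / (x - y))), ⟨_, hc _, rfl⟩, rfl⟩, ?_⟩
      change LineCalculus.character _ (x : ℝ) ≠ LineCalculus.character _ (y : ℝ)
      rw [R084.character_apply, R084.character_apply]
      intro e
      have e1 : (Real.pi / (x - y) * x : ℝ) = Real.pi / (x - y) * y + Real.pi := by
        field_simp
        ring
      rw [e1, Complex.ofReal_add, mul_add, Complex.exp_add, mul_comm Complex.I (Real.pi : ℂ),
        Complex.exp_pi_mul_I, mul_neg_one, neg_eq_iff_add_eq_zero, ← two_mul] at e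
      exact mul_ne_zero two_ne_zero (Complex.exp_ne_zero _) e
    have hm : r f ∈ (A.map r).topologicalClosure := by
      rw [ContinuousMap.starSubalgebra_topologicalClosure_eq_top_of_separatesPoints _ hsep]
      trivial
    obtain ⟨_, ⟨g, hg, rfl⟩, hlt⟩ := Metric.mem_closure_iff.1 hm ε hε
    refine ⟨g, hg, fun u hu => ?_⟩
    have := (ContinuousMap.dist_apply_le_dist (f := r f) (g := r g) ⟨u, abs_le.1 hu⟩).trans hlt.le
    rwa [dist_eq_norm] at this
  refine sub_eq_zero.1 (TT.eq_zero_of_compress D fun F G hF hG η ζ => ?_)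
  obtain ⟨L₁, -, h₁⟩ := TT.exists_supp_bound hF
  obtain ⟨L₂, -, h₂⟩ := TT.exists_supp_bound hG
  suffices D.apply F ((T * D.apply f - D.apply f * T) (D.apply G ζ)) = 0 by
    rw [this, inner_zero_right]
  refine norm_le_zero_iff.1 (le_of_forall_pos_le_add fun ε hε => ?_)
  have hK : 0 < 2 * (‖F‖ * ‖T‖ * ‖G‖ * ‖ζ‖) + 1 := by positivity
  obtain ⟨g, hg, hfg⟩ := approx (max L₁ L₂) _ (div_pos hε hK)
  set δ := ε / (2 * (‖F‖ * ‖T‖ * ‖G‖ * ‖ζ‖) + 1) with hδ
  have hδ0 : 0 < δ := div_pos hε hK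
  have hb : ∀ (K : ℝ →ᵇ ℂ) (L : ℝ), L ≤ max L₁ L₂ → (∀ u, L < |u| → K u = 0) → ∀ u,
      ‖(K * (f - g)) u‖ ≤ ‖K‖ * δ := by
    intro K L hL hK u
    rw [BoundedContinuousFunction.mul_apply]
    rcases le_or_gt |u| L with h1 | h1
    · rw [norm_mul]
      exact mul_le_mul (K.norm_coe_le_norm u) (hfg u (h1.trans hL)) (norm_nonneg _) (norm_nonneg _)
    · rw [hK u h1, zero_mul, norm_zero]
      positivity
  have e : D.apply F ((T * D.apply f - D.apply f * T) (D.apply G ζ)) =
      D.apply F (T (D.apply (G * (f - g)) ζ)) - D.apply (F * (f - g)) (T (D.apply G ζ)) := by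
    have h1 : T (D.apply g (D.apply G ζ)) = D.apply g (T (D.apply G ζ)) := by
      rw [← mul_apply_eq_comp, (hA g hg).eq, mul_apply_eq_comp]
    rw [mul_comm G, R084.app_mul_apply, R084.app_mul_apply, ← map_sub, map_sub D.apply, sub_apply,
      sub_apply, sub_apply, map_sub T, h1, mul_apply_eq_comp, mul_apply_eq_comp]
    congr 1
    abel
  have n1 : ‖D.apply F (T (D.apply (G * (f - g)) ζ))‖ ≤ ‖F‖ * (‖T‖ * (‖G‖ * δ * ‖ζ‖)) := by
    refine (R084.norm_app_apply_le D _ _).trans ?_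
    gcongr
    refine (T.le_opNorm _).trans ?_
    gcongr
    exact R084.norm_app_apply_le_of_bound D _ _ (hb G L₂ (le_max_right _ _) h₂)
  have n2 : ‖D.apply (F * (f - g)) (T (D.apply G ζ))‖ ≤ ‖F‖ * δ * (‖T‖ * (‖G‖ * ‖ζ‖)) := by
    refine (R084.norm_app_apply_le_of_bound D _ _ (hb F L₁ (le_max_left _ _) h₁)).trans ?_
    gcongr
    refine (T.le_opNorm _).trans ?_
    gcongr
    exact R084.norm_app_apply_le D _ _
  have e2 : δ * (2 * (‖F‖ * ‖T‖ * ‖G‖ * ‖ζ‖) + 1) = ε := div_mul_cancel₀ _ hK.ne'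
  rw [e]
  refine (norm_sub_le _ _).trans ?_
  nlinarith

theorem Std.wave_eq_one (hS : Std S) (h : Tr S.M S.vac) (t : ℝ) : S.D.wave t = 1 := by
  obtain ⟨J, hJ⟩ := exists_trJ S.cyclic h
  refine Cyc.ext (A := S.M) S.cyclic fun a ha => ?_
  have h1 := (hS.centraliser ha (hJ.Rm_mem ha) (hJ.Rm_vac ha).symm
    (by rw [star_Rm hJ.J_J, hJ.Rm_vac (star_mem ha)])).2 t
  rw [← mul_apply_eq_comp, ← h1.eq, mul_apply_eq_comp, R084.wave_vac, one_apply_eq_self]

theorem trJ_of_wave (h : ∀ t, S.D.wave t = 1) : TrJ S.M S.vac S.J := by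
  refine ⟨S.cyclic, S.J_J, fun x hx => ?_⟩
  have := J_star_vac_of_commute (S := S) (star_mem hx) fun t => by rw [h t]; exact Commute.one_right _
  rwa [star_star] at this

/-- Transport by a unitary. -/
theorem Std.transport (hS : Std S) {v : Op H} (hv : v ∈ unitary (Op H)) :
    ∃ T : ModularDatum H, Std T ∧ T.M = conjVN v S.M ∧ T.vac = v S.vac ∧
      (∀ f, T.D.apply f = v * S.D.apply f * star v) ∧ ∀ η, T.J η = v (S.J (star v η)) := by
  let U : H ≃ₗᵢ[ℂ] H := Unitary.linearIsometryEquiv ⟨v, hv⟩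
  have hU : ∀ η, U η = v η := fun η => rfl
  have hU' : ∀ η, U.symm η = star v η := fun η => rfl
  have h1 : ∀ η, star v (v η) = η := fun η => U.symm_apply_apply η
  have h2 : ∀ η, v (star v η) = η := fun η => U.apply_symm_apply η
  let D : LineCalculus H :=
    { apply := (U.conjStarAlgEquiv : (H →L[ℂ] H) →⋆ₐ[ℂ] (H →L[ℂ] H)).comp S.D.apply
      window := fun η ε hε => by
        obtain ⟨f, hf, h⟩ := S.D.window (U.symm η) ε hε
        refine ⟨f, hf, ?_⟩
        change ‖U (S.D.apply f (U.symm η)) - η‖ < ε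
        rwa [← U.symm.norm_map, map_sub, U.symm_apply_apply] }
  have hD : ∀ f η, D.apply f η = v (S.D.apply f (star v η)) := fun f η => rfl
  let J : H ≃ₗᵢ⋆[ℂ] H := (U.symm.trans S.J).trans U
  have hJ : ∀ η, J η = v (S.J (star v η)) := fun η => rfl
  have hjc : ∀ x : Op H, jc J (v * x * star v) = v * jc S.J x * star v := fun x =>
    ContinuousLinearMap.ext fun η => by simp only [jc_apply, hJ, mul_apply_eq_comp, h1]
  have hcs := (md_cycSep S).conj_unitary hv
  have hvv : ∀ x : Op H, star (v * x * star v) = v * star x * star v := fun x => by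
    rw [star_mul, star_mul, star_star, mul_assoc]
  let e : H × H ≃ₜ H × H := U.toHomeomorph.prodCongr U.toHomeomorph
  refine ⟨{ M := conjVN v S.M, vac := v S.vac, norm_vac := hcs.1, cyclic := hcs.2.1
            separating := fun a ha h0 => hcs.2.2.sep ha h0
            D := D, J := J
            flow_mem := fun t a ha => ?_
            J_J := fun η => by simp only [hJ, h1, S.J_J, h2]
            tomita := ?_ }, ⟨fun x hx => ?_, fun y hy => ?_, fun f η => ?_⟩, rfl, rfl,
    fun f => rfl, hJ⟩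
  · obtain ⟨x, hx, rfl⟩ := (mem_conjVN hv).1 ha
    refine (mem_conjVN hv).2 ⟨_, S.flow_mem t x hx, ContinuousLinearMap.ext fun η => ?_⟩
    simp only [mul_apply_eq_comp, LineCalculus.wave, hD, h1]
  · have e1 : (Set.range fun a : conjVN v S.M =>
        ((a : Op H) (v S.vac), star (a : Op H) (v S.vac))) =
        e '' Set.range fun a : S.M => ((a : Op H) S.vac, star (a : Op H) S.vac) := by
      ext p
      constructor
      · rintro ⟨⟨a, ha⟩, rfl⟩
        obtain ⟨x, hx, rfl⟩ := (mem_conjVN hv).1 ha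
        refine ⟨_, ⟨⟨x, hx⟩, rfl⟩, ?_⟩
        simp only [hvv, mul_apply_eq_comp, h1]
        rfl
      · rintro ⟨_, ⟨a, rfl⟩, rfl⟩
        refine ⟨⟨_, conj_mem_conjVN hv a.2⟩, ?_⟩
        simp only [hvv, mul_apply_eq_comp, h1]
        rfl
    rw [e1, ← e.image_closure, S.tomita]
    ext p
    rw [e.image_eq_preimage_symm]
    change S.D.HalfExp (star v p.1) (S.J (star v p.2)) ↔ D.HalfExp p.1 (J p.2)
    rw [TT.halfExp_iff, TT.halfExp_iff, hD, hD, hJ, h1]
    exact U.injective.eq_iff.symm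
  · obtain ⟨a, ha, rfl⟩ := (mem_conjVN hv).1 hx
    change jc J _ ∈ (conjVN v S.M).commutant
    rw [hjc, commutant_conjVN hv]
    exact conj_mem_conjVN hv (hS.jc_mem a ha)
  · change y ∈ (conjVN v S.M).commutant at hy
    rw [commutant_conjVN hv] at hy
    obtain ⟨a, ha, rfl⟩ := (mem_conjVN hv).1 hy
    change jc J _ ∈ conjVN v S.M
    rw [hjc]
    exact conj_mem_conjVN hv (hS.jc_mem' a ha)
  · change J (D.apply f η) = D.apply _ (J η)
    rw [hJ, hJ, hD, hD, h1, h1, hS.J_app]

end Crest.Agent.R078
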