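import Crest.Agent.R078.BTr
import Crest.Agent.Lib.TT.Main

/-! Row 78: modular theory of a cyclic separating vector. -/

set_option autoImplicit false

open scoped InnerProductSpace ComplexConjugate
open Filter Topology

namespace Crest.Agent.R078

open Crest.Agent.R121 (Mn Bd)
open Crest.Agent.R124 (ex)
open Crest.OpAlg

universe u

variable {H : Type*} [NormedAddCommGroup H] [InnerProductSpace ℂ H] [CompleteSpace H]
open scoped BoundedContinuousFunction

variable {M : VN H} {ξ : H} {S : ModularDatum H} {a b x y : Op H}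

/-- `TT.exists_modularDatum`. -/
theorem exists_std (h : CycSep M ξ) : ∃ S : ModularDatum H, S.M = M ∧ S.vac = ξ ∧ Std S := by
  obtain ⟨S, h1, h2, h3, h4, h5⟩ := TT.exists_modularDatum M ξ h.1 h.2.1
    (fun a ha h0 => h.2.2.sep ha h0)
  refine ⟨S, h1, h2, fun x hx => ?_, fun y hy => ?_, h5.J_app⟩
  · rw [h1] at hx ⊢
    exact h3 x hx
  · rw [h1] at hy ⊢
    exact h4 y hy

theorem md_cycSep (S : ModularDatum H) : CycSep S.M S.vac := by
  refine ⟨S.norm_vac, S.cyclic, cyc_of_sep fun y hy h0 => S.separating y ?_ h0⟩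
  rwa [VonNeumannAlgebra.commutant_commutant] at hy

/-- The calculus of a real scalar. -/
noncomputable def BMod0_pt (s : ℝ) : LineCalculus ℂ where
  apply :=
    { toFun := fun f => f s • (1 : ℂ →L[ℂ] ℂ)
      map_one' := by simp
      map_mul' := fun f g => by simp [smul_smul, mul_comm]
      map_zero' := by simp
      map_add' := fun f g => add_smul (f s) (g s) _
      commutes' := fun c => by simp [Algebra.algebraMap_eq_smul_one]
      map_star' := fun f => by simp }
  window x ε hε := ⟨TT.cut |s|, TT.cut_compact _, by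
    change ‖(TT.cut |s| s • (1 : ℂ →L[ℂ] ℂ)) x - x‖ < ε
    rw [TT.cut_eq_one le_rfl]
    simpa using hε⟩

/-- Eigenvectors of `ρ(D)` are eigenvectors of the calculus. -/
theorem BMod0_eig {D : LineCalculus H} {η : H} {s : ℝ}
    (h : D.apply TT.rhoF η = TT.rhoF s • η) (f : ℝ →ᵇ ℂ) : D.apply f η = f s • η := by
  have := TT.inter_lin (BMod0_pt s) D (ContinuousLinearMap.toSpanSingleton ℂ η) (fun z => by
    change (TT.rhoF s • z) • η = D.apply TT.rhoF (z • η)
    rw [map_smul, h, smul_smul, smul_eq_mul, mul_comm]) f 1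
  change (f s • (1 : ℂ)) • η = D.apply f ((1 : ℂ) • η) at this
  rw [one_smul, smul_eq_mul, mul_one] at this
  exact this.symm

theorem BMod0_app_vac (S : ModularDatum H) (f : ℝ →ᵇ ℂ) : S.D.apply f S.vac = f 0 • S.vac := by
  refine BMod0_eig (R084.eq_of_forall_compact S.D _ _ fun F hF => ?_) f
  have hG : HasCompactSupport ((F * TT.rhoF : ℝ →ᵇ ℂ) : ℝ → ℂ) := hF.mul_right
  have h1 := R084.app_mulExp_one_vac S _ hG
  have h2 : F * TT.rhoF + R084.mulExp _ hG 1 = (2 : ℂ) • F := by
    ext u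
    have := (TT.one_add_exp_pos u).ne'
    have h3 : (1 : ℂ) + (Real.exp u : ℝ) ≠ 0 := by exact_mod_cast this
    simp only [BoundedContinuousFunction.add_apply, BoundedContinuousFunction.mul_apply,
      R084.mulExp_apply, TT.rhoF_apply, one_mul, BoundedContinuousFunction.smul_apply,
      smul_eq_mul, Complex.ofReal_div, Complex.ofReal_add, Complex.ofReal_one,
      Complex.ofReal_ofNat]
    field_simp
  have h4 := congrArg (fun g => S.D.apply g S.vac) h2
  simp only [map_add, map_smul, add_apply, smul_apply, h1] at h4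
  rw [← two_smul ℂ] at h4
  have h5 : TT.rhoF 0 = 1 := by rw [TT.rhoF_apply]; norm_num
  rw [← R084.app_mul_apply, h5, one_smul]
  exact smul_right_injective H two_ne_zero h4

theorem J_vac (S : ModularDatum H) : S.J S.vac = S.vac := by
  have h := R084.halfExp_of_mem S (one_mem S.M)
  simp only [star_one, one_apply_eq_self] at h
  refine TT.app_injective S.D TT.rhoF_ne ?_
  rw [(TT.halfExp_iff S.D).1 h, BMod0_app_vac, BMod0_app_vac, TT.tauF_eq]
  simp

theorem app_vac (S : ModularDatum H) (f : ℝ →ᵇ ℂ) : S.D.apply f S.vac = f 0 • S.vac := by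
  exact BMod0_app_vac S f

theorem Std.J_wave (hS : Std S) (t : ℝ) (η : H) : S.J (S.D.wave t η) = S.D.wave t (S.J η) := by
  unfold LineCalculus.wave
  rw [hS.J_app]
  congr 2
  ext u
  simp only [BoundedContinuousFunction.star_apply, TT.negF_apply, R084.character_apply]
  rw [Complex.star_def, ← Complex.exp_conj]
  congr 1
  simp

theorem Std.jc_flow (hS : Std S) (t : ℝ) (x : Op H) :
    jc S.J (S.flow t x) = S.flow t (jc S.J x) := by
  refine ContinuousLinearMap.ext fun η => ?_
  simp only [jc_apply, R084.flow_apply, hS.J_wave]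

theorem flow_mem_commutant (S : ModularDatum H) (t : ℝ) (hy : y ∈ S.M.commutant) :
    S.flow t y ∈ S.M.commutant := by
  refine mem_comm.2 fun a ha => ContinuousLinearMap.ext fun η => ?_
  have h := R084.comm_of_mem S.M (R084.flow_mem S (-t) ha) hy (S.D.wave (-t) η)
  simp only [R084.flow_apply, neg_neg, R084.wave_wave_neg] at h
  simp only [mul_apply_eq_comp, R084.flow_apply]
  rw [h, R084.wave_wave_neg]

/-- `Δ^{-1/2} y ξ = J y⋆ ξ` for `y ∈ M'` (apply `R084.halfExp_of_mem` to `jc J y⋆`). -/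
theorem Std.halfExp_commutant (hS : Std S) (hy : y ∈ S.M.commutant) :
    S.D.HalfExp (S.J (star y S.vac)) (y S.vac) := by
  have h := R084.halfExp_of_mem S (hS.jc_mem' _ (star_mem hy))
  rw [← jc_star S.J_J, star_star, jc_apply, jc_apply, S.J_J, J_vac] at h
  exact h

theorem halfExp_unique {D : LineCalculus H} {η ζ ζ' : H} (h : D.HalfExp η ζ)
    (h' : D.HalfExp η ζ') : ζ = ζ' := by
  exact TT.app_injective D TT.rhoF_ne (((TT.halfExp_iff D).1 h).trans ((TT.halfExp_iff D).1 h').symm)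

theorem halfExp_eq_zero {D : LineCalculus H} {η : H} (h : D.HalfExp η 0) : η = 0 := by
  refine TT.app_eq_zero D TT.tauF_ne ?_
  rw [← (TT.halfExp_iff D).1 h, map_zero]

theorem BMod0_star_cut (L : ℝ) : star (TT.cut L) = TT.cut L := by
  ext u
  simp only [BoundedContinuousFunction.star_apply, TT.cut, TT.bc_apply, Complex.star_def,
    Complex.conj_ofReal]

theorem BMod0_star_mulExp (L c : ℝ) :
    star (R084.mulExp _ (TT.cut_compact L) c) = R084.mulExp _ (TT.cut_compact L) c := by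
  ext u
  simp only [BoundedContinuousFunction.star_apply, TT.cut, TT.bc_apply, Complex.star_def,
    R084.mulExp_apply, map_mul, Complex.conj_ofReal]

theorem BMod0_tendsto_cut (D : LineCalculus H) (η : H) :
    Tendsto (fun L : ℝ => D.apply (TT.cut L) η) atTop (𝓝 η) := by
  rw [Metric.tendsto_nhds]
  intro ε hε
  obtain ⟨F, hF, h⟩ := D.window η ε hε
  obtain ⟨L, -, hL⟩ := TT.exists_supp_bound hF
  filter_upwards [eventually_ge_atTop L] with L' hL'
  have e : (TT.cut L' - 1) * F = 0 := by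
    ext u
    simp only [BoundedContinuousFunction.mul_apply, BoundedContinuousFunction.sub_apply,
      BoundedContinuousFunction.coe_one, Pi.one_apply, BoundedContinuousFunction.coe_zero,
      Pi.zero_apply]
    rcases le_or_gt |u| L' with h1 | h1
    · rw [TT.cut_eq_one h1, sub_self, zero_mul]
    · rw [hL u (by linarith), mul_zero]
  have e2 : D.apply (TT.cut L') η - η = -D.apply (TT.cut L' - 1) (D.apply F η - η) := by
    rw [map_sub (D.apply (TT.cut L' - 1)), ← R084.app_mul_apply, e, map_zero, map_sub, map_one]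
    simp
  rw [dist_eq_norm, e2, norm_neg]
  refine (R084.norm_app_apply_le_of_bound D _ _ (C := 1) (TT.norm_cut_sub_le L')).trans_lt ?_
  rwa [one_mul]

theorem BMod0_eq_of_cut {D : LineCalculus H} {η ζ η' ζ' : H}
    (h : ∀ L, ⟪η', D.apply (TT.cut L) ζ⟫_ℂ = ⟪ζ', D.apply (TT.cut L) η⟫_ℂ) :
    ⟪η', ζ⟫_ℂ = ⟪ζ', η⟫_ℂ :=
  tendsto_nhds_unique (tendsto_const_nhds.inner (𝕜 := ℂ) (BMod0_tendsto_cut D ζ))
    (by simpa only [h] using tendsto_const_nhds.inner (𝕜 := ℂ) (BMod0_tendsto_cut D η))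

/-- `Δ^{1/2}` is symmetric. -/
theorem halfExp_inner {D : LineCalculus H} {η ζ η' ζ' : H} (h : D.HalfExp η ζ)
    (h' : D.HalfExp η' ζ') : ⟪η', ζ⟫_ℂ = ⟪ζ', η⟫_ℂ := by
  refine BMod0_eq_of_cut (D := D) fun L => ?_
  have hc := TT.cut_compact L
  have e1 := h (TT.cut L) (R084.mulExp _ hc (1 / 2)) fun u => by
    rw [R084.mulExp_apply, R084.half_eq u]
  have e2 := h' (TT.cut L) (R084.mulExp _ hc (1 / 2)) fun u => by
    rw [R084.mulExp_apply, R084.half_eq u]
  rw [e1, R084.inner_app_right D (TT.cut L), BMod0_star_cut, e2, R084.inner_app_left,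
    BMod0_star_mulExp]

/-- `Δ^{1/2}` is positive (cut off with `TT.cut L`: `⟪F η, F ζ⟫ = ‖(F e^{u/4})(D) η‖²`). -/
theorem halfExp_inner_nonneg {D : LineCalculus H} {η ζ : H} (h : D.HalfExp η ζ) :
    0 ≤ (⟪η, ζ⟫_ℂ).re ∧ (⟪η, ζ⟫_ℂ).im = 0 ∧ (⟪η, ζ⟫_ℂ = 0 → η = 0) := by
  -- `2 ⟪η, ζ⟫ = ⟪η, τ(D) η⟫ + ⟪ζ, τ(D) ζ⟫`
  have h1 : D.apply TT.rhoF ζ = D.apply TT.tauF η := (TT.halfExp_iff D).1 h
  have h2 : D.apply TT.tauF ζ = D.apply (2 - TT.rhoF) η := h _ _ TT.two_sub_rhoF
  obtain ⟨g, hg, hgg⟩ : ∃ g : ℝ →ᵇ ℂ, star g = g ∧ g * g = TT.tauF ∧ ∀ u, g u ≠ 0 := by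
    refine ⟨TT.bc (fun u => Real.sqrt (2 * Real.exp (u / 2) / (1 + Real.exp u)))
      (Real.continuous_sqrt.comp ((by fun_prop : Continuous fun u : ℝ => 2 * Real.exp (u / 2)).div
        (by fun_prop) fun u => (TT.one_add_exp_pos u).ne')) 1 fun u => ?_, ?_, ?_, fun u => ?_⟩
    · rw [abs_of_nonneg (Real.sqrt_nonneg _), Real.sqrt_le_one,
        div_le_iff₀ (TT.one_add_exp_pos u), TT.exp_eq_sq u]
      nlinarith [sq_nonneg (Real.exp (u / 2) - 1)]
    · ext u
      simp only [BoundedContinuousFunction.star_apply, TT.bc_apply, Complex.star_def,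
        Complex.conj_ofReal]
    · ext u
      rw [BoundedContinuousFunction.mul_apply, TT.bc_apply, TT.tauF_apply, ← Complex.ofReal_mul,
        Real.mul_self_sqrt (by positivity)]
    · rw [TT.bc_apply]
      exact Complex.ofReal_ne_zero.2 (Real.sqrt_pos.2 (by positivity)).ne'
  have hτ : ∀ θ, ⟪θ, D.apply TT.tauF θ⟫_ℂ = ((‖D.apply g θ‖ ^ 2 : ℝ) : ℂ) := fun θ => by
    rw [← hgg.1, R084.app_mul_apply, R084.inner_app_right, hg, inner_self_eq_norm_sq_to_K]
    simp
  have key : 2 * ⟪η, ζ⟫_ℂ = ((‖D.apply g η‖ ^ 2 + ‖D.apply g ζ‖ ^ 2 : ℝ) : ℂ) := by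
    have e1 : ⟪η, D.apply (2 - TT.rhoF) ζ⟫_ℂ = ⟪ζ, D.apply TT.tauF ζ⟫_ℂ := by
      have : star (2 - TT.rhoF) = 2 - TT.rhoF := by rw [star_sub, TT.star_rhoF, star_ofNat]
      rw [R084.inner_app_right, this, ← h2, R084.inner_app_left, TT.star_tauF]
    rw [TT.app_two_sub, inner_sub_right, inner_smul_right, h1, hτ, hτ] at e1
    rw [Complex.ofReal_add]
    linear_combination e1
  have key' : ⟪η, ζ⟫_ℂ = (((‖D.apply g η‖ ^ 2 + ‖D.apply g ζ‖ ^ 2) / 2 : ℝ) : ℂ) := by
    rw [Complex.ofReal_div, ← key]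
    simp
  refine ⟨by rw [key', Complex.ofReal_re]; positivity, by rw [key', Complex.ofReal_im],
    fun h0 => TT.app_eq_zero D hgg.2 ?_⟩
  rw [key', Complex.ofReal_eq_zero] at h0
  have : ‖D.apply g η‖ ^ 2 = 0 := by
    nlinarith [sq_nonneg ‖D.apply g η‖, sq_nonneg ‖D.apply g ζ‖]
  simpa using this

theorem halfExp_app {D : LineCalculus H} {η ζ : H} (h : D.HalfExp η ζ) (f : ℝ →ᵇ ℂ) :
    D.HalfExp (D.apply f η) (D.apply f ζ) := by
  intro f' g' hfg
  rw [R084.app_comm, h f' g' hfg, R084.app_comm]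

theorem halfExp_of_fun (D : LineCalculus H) {f g : ℝ →ᵇ ℂ}
    (hfg : ∀ u, g u = f u * ((Real.exp (u / 2) : ℝ) : ℂ)) (η : H) :
    D.HalfExp (D.apply f η) (D.apply g η) := by
  intro f' g' hfg'
  rw [← R084.app_mul_apply, ← R084.app_mul_apply]
  congr 2
  ext u
  simp only [BoundedContinuousFunction.mul_apply, hfg, hfg']
  ring

/-- Exact pairs: `b ξ = f(D) η` implies `J b⋆ ξ = (f e^{u/2})(D) η`. -/
theorem J_star_vac_of_fun (hb : b ∈ S.M) {f g : ℝ →ᵇ ℂ}
    (hfg : ∀ u, g u = f u * ((Real.exp (u / 2) : ℝ) : ℂ)) {η : H}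
    (h : b S.vac = S.D.apply f η) : S.J (star b S.vac) = S.D.apply g η := by
  have h1 := R084.halfExp_of_mem S hb
  rw [h] at h1
  exact halfExp_unique h1 (halfExp_of_fun S.D hfg η)

/-- Analytic continuation: for compactly supported `F` both `z ↦ F(D) (G z)` and
`z ↦ (F e^{i z u})(D) η` (`TT.mulExpC`) are entire and agree on the real line. -/
theorem halfExp_of_entire {D : LineCalculus H} {η : H} {G : ℂ → H} (hG : Differentiable ℂ G)
    (h : ∀ t : ℝ, G t = D.wave t η) : D.HalfExp η (G (-(Complex.I / 2))) := by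
  have key : ∀ (F : ℝ →ᵇ ℂ) (hF : HasCompactSupport (F : ℝ → ℂ)) (z : ℂ),
      D.apply F (G z) = D.apply (TT.mulExpC F hF (Complex.I * z)) η := by
    intro F hF
    have h1 : Differentiable ℂ fun z => D.apply F (G z) := (D.apply F).differentiable.comp hG
    have h2 : Differentiable ℂ fun z => D.apply (TT.mulExpC F hF (Complex.I * z)) η :=
      (R084.appAt D η).differentiable.comp
        ((TT.differentiable_mulExpC F hF).comp (differentiable_id.const_mul _))
    have h3 : ∀ t : ℝ, D.apply F (G t) = D.apply (TT.mulExpC F hF (Complex.I * t)) η := fun t => by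
      rw [h, LineCalculus.wave, ← R084.app_mul_apply]
      congr 2
      ext u
      simp only [BoundedContinuousFunction.mul_apply, R084.character_apply, TT.mulExpC_apply]
      congr 2
      push_cast
      ring
    refine congrFun (AnalyticOnNhd.eq_of_frequently_eq (z₀ := 0)
      (h1.differentiableOn.analyticOnNhd isOpen_univ)
      (h2.differentiableOn.analyticOnNhd isOpen_univ) ?_)
    have ht : Tendsto (fun t : ℝ => (t : ℂ)) (𝓝[≠] 0) (𝓝[≠] 0) := by
      refine tendsto_nhdsWithin_of_tendsto_nhds_of_eventually_within _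
        ((Complex.continuous_ofReal.tendsto' 0 0 Complex.ofReal_zero).mono_left nhdsWithin_le_nhds) ?_
      filter_upwards [self_mem_nhdsWithin] with t ht
      exact Complex.ofReal_ne_zero.2 ht
    exact ht.frequently (Eventually.of_forall h3).frequently
  intro f g hfg
  refine R084.eq_of_forall_compact D _ _ fun F hF => ?_
  have hG : HasCompactSupport ((F * f : ℝ →ᵇ ℂ) : ℝ → ℂ) := hF.mul_right
  rw [← R084.app_mul_apply, ← R084.app_mul_apply, key _ hG]
  congr 2
  ext u
  simp only [BoundedContinuousFunction.mul_apply, TT.mulExpC_apply, hfg, Complex.ofReal_exp]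
  rw [mul_assoc]
  congr 3
  push_cast
  linear_combination (-(u : ℂ) / 2) * Complex.I_mul_I

end Crest.Agent.R078
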