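import Crest.Agent.R078.BMod0

/-! Row 78: modular theory of a cyclic separating vector. -/

set_option autoImplicit false

open scoped InnerProductSpace ComplexConjugate
open Filter Topology

namespace Crest.Agent.R078

open Crest.Agent.R121 (Mn Bd)
open Crest.Agent.R124 (ex)
open Crest.OpAlg

universe u

variable {H : Type*} [NormedAddCommGroup H] [InnerProductSpace ℂ H] [CompleteSpace H]
open scoped BoundedContinuousFunction

variable {M : VN H} {ξ : H} {S : ModularDatum H} {a b x y : Op H}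
/-- The natural cone: `⟪ξ, a J a J ξ⟫ = ⟪a⋆ ξ, Δ^{1/2} a⋆ ξ⟫`. -/
theorem inner_vac_mul_jc (ha : a ∈ S.M) :
    0 ≤ (⟪S.vac, a (jc S.J a S.vac)⟫_ℂ).re ∧ (⟪S.vac, a (jc S.J a S.vac)⟫_ℂ).im = 0 ∧
      (⟪S.vac, a (jc S.J a S.vac)⟫_ℂ = 0 → a = 0) := by
  have h := R084.halfExp_of_mem S (star_mem ha)
  rw [star_star] at h
  have e : ⟪S.vac, a (jc S.J a S.vac)⟫_ℂ = ⟪star a S.vac, S.J (a S.vac)⟫_ℂ := by
    rw [jc_apply, J_vac, ContinuousLinearMap.star_eq_adjoint,
      ContinuousLinearMap.adjoint_inner_left]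
  rw [e]
  obtain ⟨h1, h2, h3⟩ := halfExp_inner_nonneg h
  exact ⟨h1, h2, fun h0 => star_eq_zero.1 (S.separating _ (star_mem ha) (h3 h0))⟩

/-- With `r = μ e^{u/2}`, `α = a ξ`, `β = b ξ`, `e₁ = μ Δ^{1/2} α - Δ^{-1/2} β`, `e₂ = α - μ β`:
`μ Δ^{1/2} α - α = (r / (r + 1))(D) e₁ - (1 / (r + 1))(D) e₂` (test with compactly supported `F`). -/
theorem Std.eig (hS : Std S) (ha : a ∈ S.M) (hb : b ∈ S.M.commutant) {μ : ℝ} (hμ : 0 < μ) :
    ‖(μ : ℂ) • S.J (star a S.vac) - a S.vac‖ ≤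
      ‖(μ : ℂ) • star a S.vac - star b S.vac‖ + ‖a S.vac - (μ : ℂ) • b S.vac‖ := by
  have hpos : ∀ u : ℝ, 0 < μ * Real.exp (u / 2) + 1 := fun u => by positivity
  have hq1 : ∀ u : ℝ, |1 / (μ * Real.exp (u / 2) + 1)| ≤ 1 := fun u => by
    rw [abs_of_pos (by positivity), div_le_one (hpos u)]
    nlinarith [Real.exp_pos (u / 2)]
  let q : ℝ →ᵇ ℂ := TT.bc (fun u => 1 / (μ * Real.exp (u / 2) + 1))
    (continuous_const.div (by fun_prop) fun u => (hpos u).ne') 1 hq1
  have hq : ∀ u, q u = ((1 / (μ * Real.exp (u / 2) + 1) : ℝ) : ℂ) := fun u => rfl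
  have hp : ∀ u, (1 - q) u = ((μ * Real.exp (u / 2) / (μ * Real.exp (u / 2) + 1) : ℝ) : ℂ) := by
    intro u
    change 1 - q u = _
    rw [hq, ← Complex.ofReal_one, ← Complex.ofReal_sub]
    congr 1
    field_simp [(hpos u).ne']
    ring
  have hpq : ∀ u, (1 - q) u = ((μ : ℂ) • q) u * ((Real.exp (u / 2) : ℝ) : ℂ) := by
    intro u
    rw [hp, BoundedContinuousFunction.smul_apply, hq, smul_eq_mul, ← Complex.ofReal_mul,
      ← Complex.ofReal_mul]
    congr 1
    ring
  have h1 := R084.halfExp_of_mem S ha _ _ hpq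
  have h2 := hS.halfExp_commutant hb _ _ hpq
  rw [map_smul, smul_apply, map_sub, map_one, sub_apply, one_apply_eq_self] at h1 h2
  have e : (μ : ℂ) • S.J (star a S.vac) - a S.vac =
      S.D.apply (1 - q) (S.J ((μ : ℂ) • star a S.vac - star b S.vac)) -
        S.D.apply q (a S.vac - (μ : ℂ) • b S.vac) := by
    rw [map_sub S.J, LinearIsometryEquiv.map_smulₛₗ, Complex.conj_ofReal, map_sub S.D.apply,
      map_one, sub_apply, one_apply_eq_self, map_sub, map_sub, map_smul, map_smul, h1, h2]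
    abel
  rw [e]
  refine (norm_sub_le _ _).trans (add_le_add ?_ ?_)
  · refine (R084.norm_app_apply_le_of_bound S.D _ _ (C := 1) fun u => ?_).trans ?_
    · rw [hp, Complex.norm_real, Real.norm_of_nonneg (by positivity), div_le_one (hpos u)]
      linarith
    · rw [one_mul, S.J.norm_map]
  · refine (R084.norm_app_apply_le_of_bound S.D _ _ (C := 1) fun u => ?_).trans ?_
    · rw [hq, Complex.norm_real]
      exact hq1 u
    · rw [one_mul]

theorem wave_eq_of_halfExp {D : LineCalculus H} {η : H} {μ : ℝ} (hμ : 0 < μ)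
    (h : D.HalfExp η ((μ : ℂ) • η)) (t : ℝ) :
    D.wave t η = Complex.exp (Complex.I * ((t * (2 * Real.log μ) : ℝ) : ℂ)) • η := by
  have h1 : D.apply TT.rhoF ((μ : ℂ) • η) = D.apply TT.tauF η := (TT.halfExp_iff D).1 h
  have h2 : D.apply TT.tauF ((μ : ℂ) • η) = D.apply (2 - TT.rhoF) η := h _ _ TT.two_sub_rhoF
  rw [map_smul, ← h1, map_smul, smul_smul, TT.app_two_sub, eq_sub_iff_add_eq] at h2
  have h3 : (1 + (μ : ℂ) ^ 2) ≠ 0 := by
    exact_mod_cast (by positivity : (1 + μ ^ 2 : ℝ) ≠ 0)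
  have h4 : D.apply TT.rhoF η = TT.rhoF (2 * Real.log μ) • η := by
    refine smul_right_injective H h3 ?_
    have : Real.exp (2 * Real.log μ) = μ ^ 2 := by
      rw [two_mul, Real.exp_add, Real.exp_log hμ, sq]
    simp only
    rw [smul_smul, TT.rhoF_apply, this]
    push_cast
    rw [mul_div_cancel₀ _ h3, ← h2, add_smul, one_smul, sq, add_comm]
  exact BMod0_eig h4 _

/-- The centraliser. -/
theorem Std.centraliser (hS : Std S) (ha : a ∈ S.M) (hb : b ∈ S.M.commutant)
    (h : a S.vac = b S.vac) (h' : star a S.vac = star b S.vac) :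
    jc S.J (star a) = b ∧ ∀ t, Commute a (S.D.wave t) := by
  have h1 := hS.eig ha hb one_pos
  rw [Complex.ofReal_one, one_smul, one_smul, one_smul, h', h, sub_self, sub_self, norm_zero,
    add_zero, norm_le_zero_iff, sub_eq_zero, ← h'] at h1
  refine ⟨sub_eq_zero.1 ((md_cycSep S).2.1.sep' (sub_mem (hS.jc_mem _ (star_mem ha)) hb) ?_),
    fun t => ?_⟩
  · rw [sub_apply, jc_apply, J_vac, h1, sub_self]
  · have h2 := R084.halfExp_of_mem S ha
    rw [h1, ← h, ← one_smul ℂ (a S.vac), ← Complex.ofReal_one] at h2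
    nth_rewrite 1 [Complex.ofReal_one, one_smul] at h2
    have h3 := wave_eq_of_halfExp one_pos h2 t
    simp only [Real.log_one, mul_zero, Complex.ofReal_zero, Complex.exp_zero, one_smul] at h3
    have h4 : S.flow t a = a := sub_eq_zero.1 (S.separating _
      (sub_mem (R084.flow_mem S t ha) ha) (by rw [sub_apply, R084.flow_vac, h3, sub_self]))
    refine ContinuousLinearMap.ext fun η => ?_
    rw [mul_apply_eq_comp, mul_apply_eq_comp]
    nth_rewrite 1 [← h4]
    rw [R084.flow_apply, R084.wave_neg_wave]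

theorem Std.jc_cen (hS : Std S) {c : Op H} (hc : Cen S.M c) : jc S.J (star c) = c := by
  exact (hS.centraliser hc.1 hc.2 rfl rfl).1

theorem Std.commute_wave_cen (hS : Std S) {c : Op H} (hc : Cen S.M c) (t : ℝ) :
    Commute c (S.D.wave t) := by
  exact (hS.centraliser hc.1 hc.2 rfl rfl).2 t

theorem J_star_vac_of_commute (ha : a ∈ S.M) (h : ∀ t, Commute a (S.D.wave t)) :
    S.J (star a S.vac) = a S.vac := by
  refine halfExp_unique (R084.halfExp_of_mem S ha)
    (halfExp_of_entire (G := fun _ => a S.vac) (differentiable_const _) fun t => ?_)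
  rw [← mul_apply_eq_comp, ← (h t).eq, mul_apply_eq_comp, R084.wave_vac]

theorem Std.framed {F : Frame H} (hS : Std S) (h : Framed S.M S.vac F) (g : Gam) :
    Rm S.J (F.w g) = F.w' g ∧ ∀ t, Commute (F.w g) (S.D.wave t) ∧ Commute (F.w' g) (S.D.wave t) := by
  obtain ⟨h1, h2⟩ := hS.centraliser (h.w_mem g) (h.w'_mem g) (h.vac g) (h.star_vac g)
  refine ⟨h1, fun t => ⟨h2 t, ?_⟩⟩
  have h3 := (h2 (-t)).star_star
  rw [R084.star_wave, neg_neg] at h3
  rw [← h1]
  refine ContinuousLinearMap.ext fun η => ?_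
  rw [mul_apply_eq_comp, mul_apply_eq_comp, jc_apply, jc_apply, hS.J_wave, ← mul_apply_eq_comp,
    h3.eq, mul_apply_eq_comp, hS.J_wave]

end Crest.Agent.R078
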