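import Crest.Agent.R078.BBasic

/-! Row 78: unitary part of invertible operators, Cayley transform. -/

set_option autoImplicit false

open scoped InnerProductSpace ComplexConjugate
open Filter Topology

namespace Crest.Agent.R078

open Crest.Agent.R121 (Mn Bd)
open Crest.Agent.R124 (ex)
open Crest.OpAlg

universe u

variable {H : Type*} [NormedAddCommGroup H] [InnerProductSpace ℂ H] [CompleteSpace H]

variable {M : VN H} {T S k u : Op H}

/-- The unitary part `T (T⋆T)^{-1/2}`. -/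
noncomputable def polar (T : Op H) : Op H := T * cfc (fun t : ℝ => (√t)⁻¹) (star T * T)

theorem bpolar0_pos (hT : IsUnit T) : ∀ t ∈ spectrum ℝ (star T * T), 0 < t := fun t ht =>
  lt_of_le_of_ne (spectrum_star_mul_self_nonneg t ht) fun h =>
    spectrum.zero_notMem ℝ (hT.star.mul hT) (h ▸ ht)

theorem bpolar0_cont (hT : IsUnit T) :
    ContinuousOn (fun t : ℝ => (√t)⁻¹) (spectrum ℝ (star T * T)) :=
  Real.continuous_sqrt.continuousOn.inv₀ fun x hx => (Real.sqrt_pos.2 (bpolar0_pos hT x hx)).ne'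

theorem bpolar0_cs (hT : IsUnit T) :
    cfc (fun t : ℝ => (√t)⁻¹) (star T * T) * cfc (fun t : ℝ => √t) (star T * T) = 1 := by
  have hsa := IsSelfAdjoint.star_mul_self T
  rw [← cfc_mul _ _ (star T * T) (bpolar0_cont hT), ← cfc_const_one ℝ (star T * T)]
  exact cfc_congr fun t ht => inv_mul_cancel₀ (Real.sqrt_pos.2 (bpolar0_pos hT t ht)).ne'

theorem bpolar0_sc (hT : IsUnit T) :
    cfc (fun t : ℝ => √t) (star T * T) * cfc (fun t : ℝ => (√t)⁻¹) (star T * T) = 1 := by
  rw [(cfc_commute_cfc _ _ _).eq, bpolar0_cs hT]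

theorem bpolar0_ss (T : Op H) :
    cfc (fun t : ℝ => √t) (star T * T) * cfc (fun t : ℝ => √t) (star T * T) = star T * T := by
  have hsa := IsSelfAdjoint.star_mul_self T
  rw [← cfc_mul _ _ (star T * T)]
  conv_rhs => rw [← cfc_id' ℝ (star T * T)]
  exact cfc_congr fun t ht => Real.mul_self_sqrt (spectrum_star_mul_self_nonneg t ht)

theorem bpolar0_mul (hT : IsUnit T) : polar T * cfc (fun t : ℝ => √t) (star T * T) = T := by
  rw [polar, mul_assoc, bpolar0_cs hT, mul_one]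

theorem bpolar0_sub (hT : IsUnit T) :
    T - polar T = polar T * cfc (fun t : ℝ => √t - 1) (star T * T) := by
  have hsa := IsSelfAdjoint.star_mul_self T
  rw [cfc_sub _ _ (star T * T), cfc_const_one ℝ (star T * T), mul_sub, mul_one, bpolar0_mul hT]

theorem bpolar0_norm (hu : u ∈ unitary (Op H)) (η : H) : ‖u η‖ = ‖η‖ :=
  u.norm_map_of_mem_unitary hu η

theorem bpolar0_norm_le (hu : u ∈ unitary (Op H)) : ‖u‖ ≤ 1 :=
  u.opNorm_le_bound zero_le_one fun a => by rw [bpolar0_norm hu, one_mul]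

theorem bpolar0_inner (T : Op H) (a b : H) : ⟪star T a, b⟫_ℂ = ⟪a, T b⟫_ℂ := by
  rw [ContinuousLinearMap.star_eq_adjoint, ContinuousLinearMap.adjoint_inner_left]

theorem isUnit_of_near_unitary (hu : u ∈ unitary (Op H)) (h : ‖u - T‖ < 1) : IsUnit T := by
  have h1 : ‖1 - star u * T‖ < 1 := by
    rwa [← Unitary.star_mul_self_of_mem hu, ← mul_sub,
      CStarRing.norm_mem_unitary_mul _ (Unitary.star_mem hu)]
  have h2 : IsUnit (star u * T) := by
    simpa using (Units.oneSub _ h1).isUnit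
  have h3 := (Unitary.isUnit_coe (U := ⟨u, hu⟩)).mul h2
  rwa [← mul_assoc, Unitary.mul_star_self_of_mem hu, one_mul] at h3

theorem polar_unitary (hT : IsUnit T) : polar T ∈ unitary (Op H) := by
  have hc : IsSelfAdjoint (cfc (fun t : ℝ => (√t)⁻¹) (star T * T)) := cfc_predicate _ _
  have hu : IsUnit (cfc (fun t : ℝ => (√t)⁻¹) (star T * T)) :=
    ⟨⟨_, _, bpolar0_cs hT, bpolar0_sc hT⟩, rfl⟩
  refine (hT.mul hu).mem_unitary_of_star_mul_self ?_
  rw [star_mul, hc.star_eq, mul_assoc, ← mul_assoc (star T)]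
  conv_lhs => enter [2, 1]; rw [← bpolar0_ss T]
  rw [mul_assoc, bpolar0_sc hT, mul_one, bpolar0_cs hT]

theorem polar_mem (hT : T ∈ M) : polar T ∈ M := by
  exact mul_mem hT (cfc_real_mem _ (mul_mem (star_mem hT) hT))

theorem commute_polar (h : Commute S T) (h' : Commute S (star T)) : Commute S (polar T) := by
  exact h.mul_right ((h'.mul_right h).symm.cfc_real _).symm

theorem polar_of_unitary (hu : u ∈ unitary (Op H)) : polar u = u := by
  rw [polar, Unitary.star_mul_self_of_mem hu, cfc_apply_one]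
  simp

/-- `T - polar T = polar T (|T| - 1)` and `|s - 1| ≤ |s² - 1|` for `s ≥ 0`. -/
theorem norm_sub_polar_apply_le (hT : IsUnit T) (η : H) :
    ‖(T - polar T) η‖ ≤ ‖(star T * T - 1) η‖ := by
  have hsa := IsSelfAdjoint.star_mul_self T
  have hc : Continuous fun t : ℝ => (√t + 1)⁻¹ :=
    (Real.continuous_sqrt.add continuous_const).inv₀ fun t =>
      (add_pos_of_nonneg_of_pos (Real.sqrt_nonneg t) one_pos).ne'
  have h1 : cfc (fun t : ℝ => √t - 1) (star T * T) =
      cfc (fun t : ℝ => (√t + 1)⁻¹) (star T * T) * (star T * T - 1) := by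
    have h2 : star T * T - 1 = cfc (fun t : ℝ => t - 1) (star T * T) := by
      rw [cfc_sub _ _ (star T * T), cfc_const_one ℝ (star T * T), cfc_id' ℝ (star T * T)]
    rw [h2, ← cfc_mul _ _ (star T * T) hc.continuousOn]
    refine cfc_congr fun t ht => ?_
    have h3 := Real.mul_self_sqrt (spectrum_star_mul_self_nonneg t ht)
    have h4 : √t + 1 ≠ 0 := by positivity
    rw [eq_inv_mul_iff_mul_eq₀ h4]
    linear_combination h3
  have h2 : ‖cfc (fun t : ℝ => (√t + 1)⁻¹) (star T * T)‖ ≤ 1 :=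
    norm_cfc_le zero_le_one fun t _ => by
      rw [Real.norm_of_nonneg (by positivity)]
      exact inv_le_one_of_one_le₀ (by linarith [Real.sqrt_nonneg t])
  rw [bpolar0_sub hT, h1]
  change ‖polar T (cfc (fun t : ℝ => (√t + 1)⁻¹) (star T * T) ((star T * T - 1) η))‖ ≤ _
  rw [bpolar0_norm (polar_unitary hT)]
  exact (ContinuousLinearMap.le_of_opNorm_le _ h2 _).trans_eq (one_mul _)

/-- `polar T⋆ = (polar T)⋆`. -/
theorem polar_star (hT : IsUnit T) : polar (star T) = star (polar T) := by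
  have hsa := IsSelfAdjoint.star_mul_self T
  have hsa' := IsSelfAdjoint.mul_star_self T
  have hW := polar_unitary hT
  have hs : IsSelfAdjoint (cfc (fun t : ℝ => √t) (star T * T)) := cfc_predicate _ _
  have h1 : star T = cfc (fun t : ℝ => √t) (star T * T) * star (polar T) := by
    conv_lhs => rw [← bpolar0_mul hT]
    rw [star_mul, hs.star_eq]
  have h2 : Unitary.conjStarAlgAut ℝ (Op H) ⟨polar T, hW⟩ (star T * T) = T * star T := by
    change polar T * (star T * T) * star (polar T) = _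
    conv_lhs => enter [1, 2]; rw [← bpolar0_ss T]
    rw [← mul_assoc, bpolar0_mul hT, mul_assoc, ← h1]
  have h3 := StarAlgHomClass.map_cfc (R := ℝ) (S := ℝ) (p := IsSelfAdjoint) (q := IsSelfAdjoint)
    (Unitary.conjStarAlgAut ℝ (Op H) ⟨polar T, hW⟩)
    (fun t : ℝ => (√t)⁻¹) (star T * T) (bpolar0_cont hT)
    (show Continuous fun x : Op H => polar T * x * star (polar T) by fun_prop) hsa (h2 ▸ hsa')
  rw [h2] at h3
  conv_lhs => rw [polar, star_star, ← h3]
  change star T * (polar T * cfc (fun t : ℝ => (√t)⁻¹) (star T * T) * star (polar T)) = _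
  conv_lhs => enter [1]; rw [h1]
  rw [mul_assoc, ← mul_assoc (star (polar T)), ← mul_assoc (star (polar T)),
    Unitary.star_mul_self_of_mem hW, one_mul, ← mul_assoc, bpolar0_sc hT, one_mul]

theorem norm_sub_polar_le (hT : IsUnit T) : ‖T - polar T‖ ≤ ‖star T * T - 1‖ := by
  exact ContinuousLinearMap.opNorm_le_bound _ (norm_nonneg _) fun η =>
    (norm_sub_polar_apply_le hT η).trans (ContinuousLinearMap.le_opNorm _ _)

/-- The spectrum of `|T|` lies in `[1 - δ, 1 + δ]` since `| ‖T η‖ - ‖η‖ | ≤ δ ‖η‖`. -/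
theorem norm_sub_polar_le' (hu : u ∈ unitary (Op H)) (h : ‖u - T‖ < 1) :
    ‖T - polar T‖ ≤ ‖u - T‖ := by
  have hT := isUnit_of_near_unitary hu h
  have hW := polar_unitary hT
  have hsa := IsSelfAdjoint.star_mul_self T
  have h1 : ‖cfc (fun t : ℝ => √t) (star T * T)‖ ≤ 1 + ‖u - T‖ := by
    rw [← CStarRing.norm_mem_unitary_mul _ hW, bpolar0_mul hT]
    have := norm_sub_le u (u - T)
    rw [sub_sub_cancel] at this
    linarith [bpolar0_norm_le hu]
  have h2 : ‖cfc (fun t : ℝ => (√t)⁻¹) (star T * T)‖ ≤ (1 - ‖u - T‖)⁻¹ := by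
    refine ContinuousLinearMap.opNorm_le_bound _ (inv_nonneg.2 (by linarith)) fun η => ?_
    rw [le_inv_mul_iff₀ (by linarith)]
    set ζ := cfc (fun t : ℝ => (√t)⁻¹) (star T * T) η
    have h3 : ‖T ζ‖ = ‖η‖ := bpolar0_norm hW η
    have h4 := (u - T).le_opNorm ζ
    have h5 := norm_add_le ((u - T) ζ) (T ζ)
    rw [sub_apply, sub_add_cancel, bpolar0_norm hu, ← sub_apply] at h5
    linarith
  rw [bpolar0_sub hT, CStarRing.norm_mem_unitary_mul _ hW]
  refine norm_cfc_le (norm_nonneg _) fun t ht => ?_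
  have h3 := (norm_apply_le_norm_cfc (fun t : ℝ => √t) (star T * T) ht).trans h1
  have h4 := (norm_apply_le_norm_cfc (fun t : ℝ => (√t)⁻¹) (star T * T) ht
    (bpolar0_cont hT)).trans h2
  have h5 := Real.sqrt_pos.2 (bpolar0_pos hT t ht)
  rw [Real.norm_of_nonneg h5.le] at h3
  rw [Real.norm_of_nonneg (inv_nonneg.2 h5.le), inv_le_inv₀ h5 (by linarith)] at h4
  rw [Real.norm_eq_abs, abs_le]
  constructor <;> linarith

theorem norm_unitary_sub_polar (hu : u ∈ unitary (Op H)) (h : ‖u - T‖ < 1) :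
    ‖u - polar T‖ ≤ 2 * ‖u - T‖ := by
  have h1 := norm_add_le (u - T) (T - polar T)
  rw [sub_add_sub_cancel] at h1
  linarith [norm_sub_polar_le' hu h]

/-- `a T = T b` with unitaries `a`, `b`: then `b` commutes with `T⋆T`. -/
theorem polar_intertwine {a b : Op H} (ha : a ∈ unitary (Op H)) (hb : b ∈ unitary (Op H))
    (h : a * T = T * b) : a * polar T = polar T * b := by
  have h1 : star T * star a = star b * star T := by rw [← star_mul, h, star_mul]
  have h2 : star b * (star T * T * b) = star T * T := by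
    rw [mul_assoc, ← h, ← mul_assoc, ← h1, mul_assoc, ← mul_assoc (star a),
      Unitary.star_mul_self_of_mem ha, one_mul]
  have h3 : Commute (star T * T) b := by
    change star T * T * b = b * (star T * T)
    conv_rhs => rw [← h2, ← mul_assoc, Unitary.mul_star_self_of_mem hb, one_mul]
  rw [polar, ← mul_assoc, h, mul_assoc, mul_assoc, (h3.cfc_real _).eq]

theorem polar_apply_eq {ξ : H} (h : T ξ = ξ) (h' : star T ξ = ξ) (hT : IsUnit T) :
    polar T ξ = ξ := by
  have h1 := norm_sub_polar_apply_le hT ξ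
  rw [sub_apply, sub_apply, mul_apply_eq_comp, h, h', one_apply_eq_self, sub_self, norm_zero,
    norm_le_zero_iff, sub_eq_zero] at h1
  exact h1.symm

/-- `J T = T J'`: then `jc J' (T⋆T) = T⋆T`; use `jc_cfc`. -/
theorem polar_J {J J' : H ≃ₗᵢ⋆[ℂ] H} (hJ : ∀ η, J (J η) = η) (hJ' : ∀ η, J' (J' η) = η)
    (h : ∀ η, J (T η) = T (J' η)) (η : H) : J (polar T η) = polar T (J' η) := by
  have h1 : ∀ η, star T (J η) = J' (star T η) := fun η => ext_inner_right ℂ fun ζ => by
    rw [bpolar0_inner, inner_J_left hJ, h, inner_J_left hJ', ← inner_conj_symm, ← bpolar0_inner,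
      inner_conj_symm]
  have h2 : jc J' (star T * T) = star T * T := by
    ext η
    rw [jc_apply, mul_apply_eq_comp, ← h, h1, hJ', mul_apply_eq_comp]
  have h3 := jc_cfc hJ' (fun t : ℝ => (√t)⁻¹) (star T * T)
  rw [h2] at h3
  have h4 := congrArg (fun S : Op H => S (J' η)) h3
  simp only [jc_apply, hJ'] at h4
  rw [polar, mul_apply_eq_comp, mul_apply_eq_comp, h, h4]

/-- Unitary lifts. -/
theorem Near.exists_unitary {N : VN H} {δ : ℝ} (h : Near M N δ) (hδ0 : 0 ≤ δ) (hδ : δ < 1)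
    (hu : u ∈ M) (hu' : u ∈ unitary (Op H)) : ∃ v ∈ N, v ∈ unitary (Op H) ∧ ‖u - v‖ ≤ 2 * δ := by
  obtain ⟨y, hy, h1⟩ := h u hu
  have h2 : ‖u - y‖ ≤ δ := h1.trans (mul_le_of_le_one_right hδ0 (bpolar0_norm_le hu'))
  have h3 := h2.trans_lt hδ
  exact ⟨polar y, polar_mem hy, polar_unitary (isUnit_of_near_unitary hu' h3),
    (norm_unitary_sub_polar hu' h3).trans (by linarith)⟩

/-- A mean of unitaries close to `1` is unitary to second order: `re ⟪η, v η⟫ ≥ (1 - δ²/2) ‖η‖²`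
for a unitary `v` with `‖v - 1‖ ≤ δ`. -/
theorem norm_star_mul_self_sub_one_le {c : ℝ} (hc : 0 ≤ c) (hT : ‖T‖ ≤ 1)
    (h : ∀ η, (1 - c) * ‖η‖ ^ 2 ≤ (⟪η, T η⟫_ℂ).re) : ‖star T * T - 1‖ ≤ 2 * c := by
  have hsa := IsSelfAdjoint.star_mul_self T
  have h0 : IsSelfAdjoint (star T * T - 1) := hsa.sub (IsSelfAdjoint.one _)
  rw [ContinuousLinearMap.norm_eq_iSup_rayleighQuotient _ h0.isSymmetric]
  refine Real.iSup_le (fun η => ?_) (by positivity)
  have h1 : (star T * T - 1).reApplyInnerSelf η = ‖T η‖ ^ 2 - ‖η‖ ^ 2 := by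
    rw [ContinuousLinearMap.reApplyInnerSelf_apply, sub_apply, inner_sub_left, mul_apply_eq_comp,
      bpolar0_inner, one_apply_eq_self, map_sub, inner_self_eq_norm_sq, inner_self_eq_norm_sq]
  have h2 : ‖T η‖ ≤ ‖η‖ := (T.le_of_opNorm_le hT η).trans_eq (one_mul _)
  have h3 : (1 - c) * ‖η‖ ^ 2 ≤ ‖η‖ * ‖T η‖ :=
    (h η).trans ((Complex.re_le_norm _).trans (norm_inner_le_norm _ _))
  rw [ContinuousLinearMap.rayleighQuotient, h1]
  rcases eq_or_lt_of_le (norm_nonneg η) with h4 | h4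
  · rw [← h4]
    simpa using hc
  rw [abs_div, abs_of_pos (pow_pos h4 2), div_le_iff₀ (pow_pos h4 2), abs_le]
  have h5 := norm_nonneg (T η)
  constructor <;> nlinarith [sq_nonneg (‖η‖ - ‖T η‖), mul_nonneg hc (sq_nonneg ‖η‖)]

theorem re_inner_unitary_ge (hu : u ∈ unitary (Op H)) {δ : ℝ} (h : ‖u - 1‖ ≤ δ) (η : H) :
    (1 - δ ^ 2 / 2) * ‖η‖ ^ 2 ≤ (⟪η, u η⟫_ℂ).re := by
  have h1 := norm_sub_sq (𝕜 := ℂ) η (u η)
  rw [bpolar0_norm hu, RCLike.re_to_complex] at h1
  have h2 : ‖η - u η‖ ≤ δ * ‖η‖ := by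
    rw [norm_sub_rev]
    exact (u - 1).le_of_opNorm_le h η
  have h3 := pow_le_pow_left₀ (norm_nonneg _) h2 2
  nlinarith

end Crest.Agent.R078
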