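import Crest.Agent.R078.BSpec1

/-! Row 78: spectral projections, signs, logarithms, central partitions. -/

set_option autoImplicit false
set_option linter.deprecated false

open scoped InnerProductSpace ComplexConjugate
open Filter Topology

namespace Crest.Agent.R078

open Crest.Agent.R121 (Mn Bd)
open Crest.Agent.R124 (ex)
open Crest.OpAlg

universe u

variable {H : Type*} [NormedAddCommGroup H] [InnerProductSpace ℂ H] [CompleteSpace H]

variable {M : VN H}
/-- Finite partitions of unity by projections. -/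
structure Part {n : ℕ} (z : Fin n → Op H) : Prop where
  proj : ∀ j, IsStarProjection (z j)
  orth : ∀ i j, i ≠ j → z i * z j = 0
  sum : ∑ j, z j = 1

theorem bspec_inner_left {a : Op H} (ha : star a = a) (η ζ : H) : ⟪a η, ζ⟫_ℂ = ⟪η, a ζ⟫_ℂ := by
  conv_lhs => rw [← ha]
  rw [ContinuousLinearMap.star_eq_adjoint, ContinuousLinearMap.adjoint_inner_left]

theorem bspec_norm_le {a : Op H} (ha : star a = a) {b : ℝ} (hb : 0 ≤ b)
    (h : ∀ η, |(⟪η, a η⟫_ℂ).re| ≤ b * ‖η‖ ^ 2) : ‖a‖ ≤ b := by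
  have hs : a.IsSymmetric := fun x y => bspec_inner_left ha x y
  rw [ContinuousLinearMap.norm_eq_iSup_rayleighQuotient a hs]
  refine Real.iSup_le (fun η => ?_) hb
  rw [ContinuousLinearMap.rayleighQuotient, ContinuousLinearMap.reApplyInnerSelf_apply, abs_div,
    abs_sq, bspec_inner_left ha]
  exact div_le_of_le_mul₀ (sq_nonneg _) hb (h η)

theorem bspec_proj_apply {p : Op H} (hp : IsStarProjection p) (η : H) : p (p η) = p η := by
  rw [← ContinuousLinearMap.mul_apply, hp.isIdempotentElem.eq]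

theorem bspec_proj_norm_apply {p : Op H} (hp : IsStarProjection p) (η : H) : ‖p η‖ ≤ ‖η‖ :=
  (p.le_opNorm η).trans (mul_le_of_le_one_left (norm_nonneg _) hp.norm_le)

theorem bspec_re_inner_smul (t : ℝ) (ζ : H) : (⟪ζ, (t : ℂ) • ζ⟫_ℂ).re = t * ‖ζ‖ ^ 2 := by
  rw [inner_smul_right, Complex.re_ofReal_mul, inner_self_eq_norm_sq_to_K]
  norm_cast

/-- Two-sided form bounds on the range of a commuting projection give a norm bound. -/
theorem bspec_norm_le_of_form {h w : Op H} (hh : star h = h) (hw : IsStarProjection w)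
    (hc : Commute h w) {m b : ℝ} (hb : 0 ≤ b)
    (hf : ∀ ζ, w ζ = ζ → |(⟪ζ, h ζ⟫_ℂ).re - m * ‖ζ‖ ^ 2| ≤ b * ‖ζ‖ ^ 2) :
    ‖(h - (m : ℂ) • 1) * w‖ ≤ b := by
  have hc' : Commute (h - (m : ℂ) • (1 : Op H)) w := hc.sub_left ((Commute.one_left w).smul_left _)
  have hs : star (h - (m : ℂ) • (1 : Op H)) = h - (m : ℂ) • 1 := by
    simp [hh]
  refine bspec_norm_le (by rw [star_mul, hs, hw.isSelfAdjoint.star_eq, hc'.eq]) hb fun η => ?_
  have e1 : ((h - (m : ℂ) • (1 : Op H)) * w) η = w ((h - (m : ℂ) • (1 : Op H)) (w η)) := by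
    rw [← ContinuousLinearMap.mul_apply, ← ContinuousLinearMap.mul_apply, ← hc'.eq, mul_assoc,
      hw.isIdempotentElem.eq]
  rw [e1, ← bspec_inner_left hw.isSelfAdjoint.star_eq, ContinuousLinearMap.sub_apply,
    inner_sub_right, Complex.sub_re, ContinuousLinearMap.smul_apply,
    ContinuousLinearMap.one_apply, bspec_re_inner_smul]
  refine (hf _ (bspec_proj_apply hw η)).trans ?_
  gcongr
  exact bspec_proj_norm_apply hw η

theorem bspec_form_of_norm_le {h z : Op H} {t r : ℝ} (hn : ‖(h - (t : ℂ) • 1) * z‖ ≤ r) {ζ : H}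
    (hζ : z ζ = ζ) : |(⟪ζ, h ζ⟫_ℂ).re - t * ‖ζ‖ ^ 2| ≤ r * ‖ζ‖ ^ 2 := by
  have e : (⟪ζ, h ζ⟫_ℂ).re - t * ‖ζ‖ ^ 2 = (⟪ζ, ((h - (t : ℂ) • 1) * z) ζ⟫_ℂ).re := by
    rw [ContinuousLinearMap.mul_apply, hζ, ContinuousLinearMap.sub_apply, inner_sub_right,
      Complex.sub_re, ContinuousLinearMap.smul_apply, ContinuousLinearMap.one_apply,
      bspec_re_inner_smul]
  rw [e]
  calc _ ≤ ‖⟪ζ, ((h - (t : ℂ) • 1) * z) ζ⟫_ℂ‖ := Complex.abs_re_le_norm _
    _ ≤ ‖ζ‖ * ‖((h - (t : ℂ) • 1) * z) ζ‖ := norm_inner_le_norm _ _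
    _ ≤ ‖ζ‖ * (r * ‖ζ‖) := by
        gcongr
        exact (ContinuousLinearMap.le_opNorm _ _).trans (by gcongr)
    _ = r * ‖ζ‖ ^ 2 := by ring

/-- Partitions with an arbitrary finite index type and prescribed errors. -/
def BSpecQ {ι : Type*} (s : Finset ι) (c : ι → Op H) (r : ι → ℝ) : Prop :=
  ∃ (κ : Type) (_ : Fintype κ) (z : κ → Op H) (t : ι → κ → ℝ), (∀ j, IsStarProjection (z j)) ∧
    (∀ i j, i ≠ j → z i * z j = 0) ∧ ∑ j, z j = 1 ∧
    (∀ S, (∀ i ∈ s, Commute S (c i)) → ∀ j, Commute S (z j)) ∧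
    ∀ i ∈ s, ∀ j, ‖(c i - (t i j : ℂ) • 1) * z j‖ ≤ r i

theorem BSpecQ.mono {ι : Type*} {s : Finset ι} {c : ι → Op H} {r r' : ι → ℝ} (h : BSpecQ s c r)
    (hr : ∀ i ∈ s, r i ≤ r' i) : BSpecQ s c r' := by
  obtain ⟨κ, _, z, t, h1, h2, h3, h4, h5⟩ := h
  exact ⟨κ, inferInstance, z, t, h1, h2, h3, h4, fun i hi j => (h5 i hi j).trans (hr i hi)⟩

theorem BSpecQ.step {ι : Type*} [DecidableEq ι] {s : Finset ι} {c : ι → Op H}
    (hc : ∀ i ∈ s, star (c i) = c i) (hcc : ∀ i ∈ s, ∀ j ∈ s, Commute (c i) (c j))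
    {r : ι → ℝ} (h : BSpecQ s c r) {a : ι} (ha : a ∈ s) :
    BSpecQ s c (fun i => if i = a then r i / 2 else r i) := by
  obtain ⟨κ, _, z, t, h1, h2, h3, h4, h5⟩ := h
  choose p hp hpc hp1 hp2 _ using fun j : κ => exists_level (hc a ha) (t a j)
  have haz : ∀ j, Commute (c a) (z j) := h4 _ fun i hi => hcc a ha i hi
  let q : κ × Bool → Op H := fun jb => if jb.2 then p jb.1 else 1 - p jb.1
  have hq : ∀ jb, IsStarProjection (q jb) := by
    rintro ⟨j, b⟩
    cases b
    · exact (hp j).one_sub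
    · exact hp j
  have hqc : ∀ S, Commute S (c a) → ∀ jb, Commute S (q jb) := by
    rintro S hS ⟨j, b⟩
    cases b
    · exact (Commute.one_right S).sub_right (hpc j S hS)
    · exact hpc j S hS
  have hzq : ∀ j jb, Commute (z j) (q jb) := fun j jb => hqc _ (haz j).symm jb
  refine ⟨κ × Bool, inferInstance, fun jb => z jb.1 * q jb,
    fun i jb => if i = a then (if jb.2 then t a jb.1 + r a / 2 else t a jb.1 - r a / 2)
      else t i jb.1, fun jb => (h1 _).mul (hq jb) (hzq _ _), ?_, ?_, ?_, ?_⟩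
  · rintro ⟨j, b⟩ ⟨j', b'⟩ hne
    have e : z j * q (j, b) * (z j' * q (j', b')) = z j * z j' * (q (j, b) * q (j', b')) := by
      rw [mul_assoc, ← mul_assoc (q (j, b)), ← (hzq j' (j, b)).eq]
      simp only [mul_assoc]
    simp only
    rw [e]
    by_cases hj : j = j'
    · subst hj
      have hb : b ≠ b' := fun e => hne (by rw [e])
      have : q (j, b) * q (j, b') = 0 := by
        cases b <;> cases b'
        · exact absurd rfl hb
        · exact (hp j).one_sub_mul_self
        · exact (hp j).mul_one_sub_self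
        · exact absurd rfl hb
      rw [this, mul_zero]
    · rw [h2 j j' hj, zero_mul]
  · rw [Fintype.sum_prod_type, ← h3]
    refine Finset.sum_congr rfl fun j _ => ?_
    simp [q, ← mul_add]
  · intro S hS jb
    exact (h4 S hS _).mul_right (hqc S (hS a ha) jb)
  · rintro i hi ⟨j, b⟩
    by_cases hia : i = a
    · subst hia
      simp only [if_true]
      have hr : 0 ≤ r i := (norm_nonneg _).trans (h5 i hi j)
      refine bspec_norm_le_of_form (hc i hi) ((h1 _).mul (hq _) (hzq _ _))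
        ((haz j).mul_right (hqc _ (Commute.refl _) _)) (by linarith) fun ζ hζ => ?_
      have hz : z j ζ = ζ := by
        conv_lhs => rw [← hζ]
        rw [ContinuousLinearMap.mul_apply, bspec_proj_apply (h1 j), ← ContinuousLinearMap.mul_apply]
        exact hζ
      have hqz : q (j, b) ζ = ζ := by
        rw [(hzq j (j, b)).eq] at hζ
        conv_lhs => rw [← hζ]
        rw [ContinuousLinearMap.mul_apply, bspec_proj_apply (hq _), ← ContinuousLinearMap.mul_apply]
        exact hζ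
      have hf := abs_le.1 (bspec_form_of_norm_le (h5 i hi j) hz)
      cases b
      · have h6 := hp2 j ζ
        have e : (1 - p j) ζ = ζ := hqz
        rw [e] at h6
        simp only [Bool.false_eq_true, if_false]
        rw [abs_le]
        constructor <;> nlinarith [hf.1, hf.2]
      · have h6 := hp1 j ζ
        have e : p j ζ = ζ := hqz
        rw [e] at h6
        simp only [if_true]
        rw [abs_le]
        constructor <;> nlinarith [hf.1, hf.2]
    · simp only [if_neg hia]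
      rw [← mul_assoc]
      exact (norm_mul_le _ _).trans
        ((mul_le_of_le_one_right (norm_nonneg _) (hq _).norm_le).trans (h5 i hi j))

theorem BSpecQ.half {ι : Type*} {s : Finset ι} {c : ι → Op H}
    (hc : ∀ i ∈ s, star (c i) = c i) (hcc : ∀ i ∈ s, ∀ j ∈ s, Commute (c i) (c j))
    {R : ℝ} (h : BSpecQ s c fun _ => R) : BSpecQ s c fun _ => R / 2 := by
  classical
  have key : ∀ s' : Finset ι, s' ⊆ s → BSpecQ s c fun i => if i ∈ s' then R / 2 else R := by
    intro s'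
    induction s' using Finset.induction_on with
    | empty => intro _; simpa using h
    | insert a s' has ih =>
      intro hs
      have h1 := (ih ((Finset.subset_insert a s').trans hs)).step hc hcc
        (hs (Finset.mem_insert_self a s'))
      refine h1.mono fun i _ => le_of_eq ?_
      by_cases hia : i = a
      · subst hia; simp [has]
      · simp [hia]
  exact (key s subset_rfl).mono fun i hi => by simp [hi]

theorem bspec_level_zero {ξ : H} (hξ : Cyc M.commutant ξ) {p : Op H} (hp : p ∈ M)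
    (h0 : p ξ = 0) : p = 0 := by
  refine ContinuousLinearMap.ext_on (s := Set.range fun a : M.commutant => (a : Op H) ξ)
    (Dense.mono Submodule.subset_span hξ) ?_
  rintro _ ⟨a, rfl⟩
  have := VonNeumannAlgebra.mem_commutant_iff.1 a.2 p hp
  simp only
  rw [← ContinuousLinearMap.mul_apply, this, ContinuousLinearMap.mul_apply, h0]
  simp

theorem bspec_cen_of_comm {c p : Op H} (hc : Cen M c) (h : ∀ S, Commute S c → Commute S p) :
    Cen M p := by
  constructor
  · rw [← M.commutant_commutant, VonNeumannAlgebra.mem_commutant_iff]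
    intro g hg
    exact h g (VonNeumannAlgebra.mem_commutant_iff.1 hg c hc.1).symm
  · rw [VonNeumannAlgebra.mem_commutant_iff]
    intro g hg
    exact h g (VonNeumannAlgebra.mem_commutant_iff.1 hc.2 g hg)

/-- One-sided form bound for central self-adjoint elements. -/
theorem bspec_form_le {ξ : H} (hξ : Cyc M.commutant ξ) {c : Op H} (hc : Cen M c)
    (hs : star c = c) {b : ℝ} (h : ∀ z, CProj M z → (⟪z ξ, c (z ξ)⟫_ℂ).re ≤ b * ‖z ξ‖ ^ 2)
    (η : H) : (⟪η, c η⟫_ℂ).re ≤ b * ‖η‖ ^ 2 := by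
  have key : ∀ b', b < b' → (⟪η, c η⟫_ℂ).re ≤ b' * ‖η‖ ^ 2 := by
    intro b' hb'
    obtain ⟨p, hp, hpc, hp1, hp2, -⟩ := exists_level hs b'
    have hcen := bspec_cen_of_comm hc hpc
    have h1 := (hp1 ξ).trans (h p ⟨hp, hcen⟩)
    have h2 : ‖p ξ‖ ^ 2 ≤ 0 := by nlinarith [sq_nonneg ‖p ξ‖]
    have h3 : p ξ = 0 := by
      have : ‖p ξ‖ ^ 2 = 0 := le_antisymm h2 (sq_nonneg _)
      simpa using this
    have h4 := hp2 η
    rw [bspec_level_zero hξ hcen.1 h3] at h4
    simpa using h4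
  refine le_of_forall_pos_le_add fun ε hε => ?_
  have hpos : 0 < ‖η‖ ^ 2 + 1 := by positivity
  refine (key (b + ε / (‖η‖ ^ 2 + 1)) (lt_add_of_pos_right _ (by positivity))).trans ?_
  rw [add_mul]
  gcongr
  rw [div_mul_eq_mul_div, div_le_iff₀ hpos]
  nlinarith

theorem Part.sum_norm_sq {n : ℕ} {z : Fin n → Op H} (hz : Part z) (η : H) :
    ∑ j, ‖z j η‖ ^ 2 = ‖η‖ ^ 2 := by
  have h1 : ∀ j, ‖z j η‖ ^ 2 = (⟪η, z j η⟫_ℂ).re := by
    intro j
    conv_rhs => rw [← bspec_proj_apply (hz.proj j) η,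
      ← bspec_inner_left (hz.proj j).isSelfAdjoint.star_eq, inner_self_eq_norm_sq_to_K]
    norm_cast
  simp only [h1]
  rw [← Complex.re_sum, ← inner_sum, ← ContinuousLinearMap.sum_apply, hz.sum,
    ContinuousLinearMap.one_apply, inner_self_eq_norm_sq_to_K]
  norm_cast

/-- Commuting self-adjoint operators are simultaneously almost constant on a partition
(induction on `s`; for one operator use `exists_level` on a grid; refine by products). -/
theorem exists_part {ι : Type*} (s : Finset ι) (c : ι → Op H) (hc : ∀ i ∈ s, star (c i) = c i)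
    (hcc : ∀ i ∈ s, ∀ j ∈ s, Commute (c i) (c j)) {ε : ℝ} (hε : 0 < ε) :
    ∃ (n : ℕ) (z : Fin n → Op H) (t : ι → Fin n → ℝ), Part z ∧
      (∀ S, (∀ i ∈ s, Commute S (c i)) → ∀ j, Commute S (z j)) ∧
      ∀ i ∈ s, ∀ j, ‖(c i - (t i j : ℂ) • 1) * z j‖ ≤ ε := by
  have h0 : BSpecQ s c fun _ => ∑ i ∈ s, ‖c i‖ := by
    refine ⟨Unit, inferInstance, fun _ => 1, fun _ _ => 0, fun _ => IsStarProjection.one _,
      fun i j h => absurd rfl h, by simp, fun S _ _ => Commute.one_right S, fun i hi _ => ?_⟩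
    simpa using Finset.single_le_sum (f := fun i => ‖c i‖) (fun _ _ => norm_nonneg _) hi
  set R := ∑ i ∈ s, ‖c i‖ with hR
  have hR0 : 0 ≤ R := Finset.sum_nonneg fun _ _ => norm_nonneg _
  have h1 : ∀ m : ℕ, BSpecQ s c fun _ => R * (1 / 2) ^ m := by
    intro m
    induction m with
    | zero => simpa using h0
    | succ m ih => exact (ih.half hc hcc).mono fun _ _ => le_of_eq (by ring)
  obtain ⟨m, hm⟩ := exists_pow_lt_of_lt_one (show 0 < ε / (R + 1) by positivity)
    (show (1 / 2 : ℝ) < 1 by norm_num)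
  have h2 : R * (1 / 2) ^ m ≤ ε := by
    rw [lt_div_iff₀ (by positivity)] at hm
    nlinarith [pow_pos (show (0 : ℝ) < 1 / 2 by norm_num) m]
  obtain ⟨κ, _, z, t, k1, k2, k3, k4, k5⟩ := (h1 m).mono (r' := fun _ => ε) fun _ _ => h2
  let e := (Fintype.equivFin κ).symm
  refine ⟨Fintype.card κ, fun j => z (e j), fun i j => t i (e j),
    ⟨fun j => k1 _, fun i j h => k2 _ _ fun h' => h (e.injective h'), ?_⟩,
    fun S hS j => k4 S hS _, fun i hi j => k5 i hi _⟩
  rw [← k3]
  exact e.sum_comp z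

theorem exists_cen_part {ι : Type*} (s : Finset ι) (c : ι → Op H)
    (hc : ∀ i ∈ s, star (c i) = c i) (hcc : ∀ i ∈ s, Cen M (c i)) {ε : ℝ} (hε : 0 < ε) :
    ∃ (n : ℕ) (z : Fin n → Op H) (t : ι → Fin n → ℝ), Part z ∧ (∀ j, CProj M (z j)) ∧
      ∀ i ∈ s, ∀ j, ‖(c i - (t i j : ℂ) • 1) * z j‖ ≤ ε := by
  obtain ⟨n, z, t, h1, h2, h3⟩ := exists_part s c hc
    (fun i hi j hj => VonNeumannAlgebra.mem_commutant_iff.1 (hcc j hj).2 _ (hcc i hi).1) hε
  refine ⟨n, z, t, h1, fun j => ⟨h1.proj j, ?_, ?_⟩, h3⟩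
  · rw [← M.commutant_commutant, VonNeumannAlgebra.mem_commutant_iff]
    intro g hg
    exact h2 g (fun i hi => (VonNeumannAlgebra.mem_commutant_iff.1 hg _ (hcc i hi).1).symm) j
  · rw [VonNeumannAlgebra.mem_commutant_iff]
    intro g hg
    exact h2 g (fun i hi => VonNeumannAlgebra.mem_commutant_iff.1 (hcc i hi).2 g hg) j

/-- The norm of a central element is seen on central projections: if `‖c‖ > b ≥ 0` take the
spectral projection `z ≠ 0` of `c⋆c` above `b²`. -/
theorem Cen.norm_le {ξ : H} (hξ : Cyc M.commutant ξ) {c : Op H} (hc : Cen M c) {b : ℝ}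
    (hb : 0 ≤ b) (h : ∀ z, CProj M z → ‖c (z ξ)‖ ≤ b * ‖z ξ‖) : ‖c‖ ≤ b := by
  have e : ∀ η, (⟪η, (star c * c) η⟫_ℂ).re = ‖c η‖ ^ 2 := by
    intro η
    rw [ContinuousLinearMap.mul_apply, ContinuousLinearMap.star_eq_adjoint,
      ContinuousLinearMap.adjoint_inner_right, inner_self_eq_norm_sq_to_K]
    norm_cast
  have hcen : Cen M (star c * c) :=
    ⟨mul_mem (StarMemClass.star_mem hc.1) hc.1, mul_mem (StarMemClass.star_mem hc.2) hc.2⟩
  have key := bspec_form_le hξ hcen (by simp) (b := b ^ 2) fun z hz => by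
    rw [e, ← mul_pow]
    exact pow_le_pow_left₀ (norm_nonneg _) (h z hz) 2
  refine c.opNorm_le_bound hb fun η => ?_
  have := key η
  rw [e, ← mul_pow] at this
  exact (pow_le_pow_iff_left₀ (norm_nonneg _) (by positivity) two_ne_zero).1 this

/-- Self-adjoint version with expectation values. -/
theorem Cen.norm_le_of_inner {ξ : H} (hξ : Cyc M.commutant ξ) {c : Op H} (hc : Cen M c)
    (hs : star c = c) {b : ℝ} (hb : 0 ≤ b)
    (h : ∀ z, CProj M z → ‖⟪z ξ, c (z ξ)⟫_ℂ‖ ≤ b * ‖z ξ‖ ^ 2) : ‖c‖ ≤ b := by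
  have h1 := bspec_form_le hξ hc hs (b := b) fun z hz =>
    ((le_abs_self _).trans (Complex.abs_re_le_norm _)).trans (h z hz)
  have h2 := bspec_form_le hξ (c := -c) ⟨neg_mem hc.1, neg_mem hc.2⟩ (by simp [hs]) (b := b)
    fun z hz => by
      rw [ContinuousLinearMap.neg_apply, inner_neg_right, Complex.neg_re]
      exact ((neg_le_abs _).trans (Complex.abs_re_le_norm _)).trans (h z hz)
  refine bspec_norm_le hs hb fun η => abs_le.2 ⟨?_, h1 η⟩
  have := h2 η
  rw [ContinuousLinearMap.neg_apply, inner_neg_right, Complex.neg_re] at this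
  linarith

end Crest.Agent.R078
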