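import Crest.Agent.R078.BBasic

/-! Row 78: spectral projections, signs, logarithms, central partitions. -/

set_option autoImplicit false

open scoped InnerProductSpace ComplexConjugate
open Filter Topology

namespace Crest.Agent.R078

open Crest.Agent.R121 (Mn Bd)
open Crest.Agent.R124 (ex)
open Crest.OpAlg

universe u

variable {H : Type*} [NormedAddCommGroup H] [InnerProductSpace ℂ H] [CompleteSpace H]

variable {M : VN H}

/-- The range projection. -/
theorem BSpec0_rangeProj (a : Op H) : ∃ p : Op H, IsStarProjection p ∧ p * a = a ∧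
    (∀ S : Op H, S * a = 0 → S * p = 0) ∧
    ∀ x : Op H, (∀ η, ‖x η‖ ≤ ‖a η‖) → ∃ v : Op H, v * a = x ∧ v * p = v := by
  let K : Submodule ℂ H := (LinearMap.range (a : H →ₗ[ℂ] H)).topologicalClosure
  have hK : ∀ η, η ∈ K ↔ η ∈ closure (Set.range fun ζ => a ζ) := fun η => Iff.rfl
  have hp : IsStarProjection K.starProjection := isStarProjection_starProjection
  have hmem : ∀ η, a η ∈ K := fun η => (hK _).2 (subset_closure ⟨η, rfl⟩)
  refine ⟨K.starProjection, hp, ?_, ?_, ?_⟩
  · refine ContinuousLinearMap.ext fun η => ?_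
    rw [mul_apply_eq_comp, Submodule.starProjection_eq_self_iff]
    exact hmem η
  · intro S hS
    refine ContinuousLinearMap.ext fun η => ?_
    rw [mul_apply_eq_comp]
    have h1 : closure (Set.range fun ζ => a ζ) ⊆ {ζ | S ζ = 0} := by
      refine closure_minimal ?_ (isClosed_eq S.continuous continuous_const)
      rintro _ ⟨ζ, rfl⟩
      have := congrArg (fun T : Op H => T ζ) hS
      exact this
    exact h1 ((hK _).1 (K.starProjection_apply_mem η))
  · intro x hx
    let e : H →ₗ[ℂ] K := LinearMap.codRestrict K (a : H →ₗ[ℂ] H) hmem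
    have hd : DenseRange e := by
      intro ζ
      rw [closure_subtype]
      have : (Subtype.val '' Set.range e) = Set.range fun ζ => a ζ := by
        ext w
        constructor
        · rintro ⟨_, ⟨y, rfl⟩, rfl⟩
          exact ⟨y, rfl⟩
        · rintro ⟨y, rfl⟩
          exact ⟨e y, ⟨y, rfl⟩, rfl⟩
      rw [this]
      exact (hK _).1 ζ.2
    have hb : ∀ η, ‖(x : H →ₗ[ℂ] H) η‖ ≤ 1 * ‖e η‖ := fun η => by
      rw [one_mul]
      exact hx η
    refine ⟨((x : H →ₗ[ℂ] H).extendOfNorm e).comp K.orthogonalProjectionOnto, ?_, ?_⟩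
    · refine ContinuousLinearMap.ext fun η => ?_
      rw [mul_apply_eq_comp, ContinuousLinearMap.comp_apply]
      have h1 : K.orthogonalProjectionOnto (a η) = e η :=
        K.orthogonalProjectionOnto_mem_subspace_eq_self (e η)
      rw [h1]
      exact LinearMap.extendOfNorm_eq hd ⟨1, hb⟩ η
    · refine ContinuousLinearMap.ext fun η => ?_
      rw [mul_apply_eq_comp, ContinuousLinearMap.comp_apply, ContinuousLinearMap.comp_apply]
      congr 1
      exact K.orthogonalProjectionOnto_mem_subspace_eq_self (K.orthogonalProjectionOnto η)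

/-- The range projection of a self-adjoint operator commutes with its commutant. -/
theorem BSpec0_commute {a p S : Op H} (hp : IsStarProjection p) (hpa : p * a = a)
    (hk : ∀ S : Op H, S * a = 0 → S * p = 0) (h1 : Commute S a) (h2 : Commute (star S) a) :
    Commute S p := by
  have key : ∀ T : Op H, Commute T a → T * p = p * T * p := by
    intro T hT
    have h3 : (T - p * T) * a = 0 := by
      rw [sub_mul, mul_assoc, hT.eq, ← mul_assoc, hpa, sub_self]
    have h4 := hk _ h3
    rw [sub_mul, sub_eq_zero] at h4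
    exact h4
  have h5 := congrArg star (key _ h2)
  rw [star_mul, star_mul, star_mul, star_star, hp.isSelfAdjoint.star_eq, ← mul_assoc,
    ← key S h1] at h5
  exact h5.symm

omit [CompleteSpace H] in
theorem BSpec0_re_nonneg {a : Op H} (ha : 0 ≤ a) (η : H) : 0 ≤ (⟪η, a η⟫_ℂ).re :=
  ((ContinuousLinearMap.nonneg_iff_isPositive a).1 ha).re_inner_nonneg_right η

/-- The spectral projection of `h` for `(t, ∞)`: the projection onto the closure of the range of
`(h - t)⁺`. -/
theorem exists_level {h : Op H} (hh : star h = h) (t : ℝ) : ∃ p : Op H, IsStarProjection p ∧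
    (∀ S, Commute S h → Commute S p) ∧
    (∀ η, t * ‖p η‖ ^ 2 ≤ (⟪p η, h (p η)⟫_ℂ).re) ∧
    (∀ η, (⟪(1 - p) η, h ((1 - p) η)⟫_ℂ).re ≤ t * ‖(1 - p) η‖ ^ 2) ∧
    p * cfc (fun s : ℝ => max (s - t) 0) h = cfc (fun s : ℝ => max (s - t) 0) h ∧
    p * cfc (fun s : ℝ => max (t - s) 0) h = 0 := by
  have hsa : IsSelfAdjoint h := hh
  set a := cfc (fun s : ℝ => max (s - t) 0) h with ha
  set b := cfc (fun s : ℝ => max (t - s) 0) h with hb
  have ha0 : 0 ≤ a := cfc_nonneg fun s _ => le_max_right _ _
  have hb0 : 0 ≤ b := cfc_nonneg fun s _ => le_max_right _ _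
  have has : star a = a := (IsSelfAdjoint.of_nonneg ha0).star_eq
  have hbs : star b = b := (IsSelfAdjoint.of_nonneg hb0).star_eq
  have hba : b * a = 0 := by
    rw [ha, hb, ← cfc_mul _ _ h (by fun_prop) (by fun_prop)]
    have : (fun s : ℝ => max (t - s) 0 * max (s - t) 0) = fun _ => 0 := by
      funext s
      rcases le_total s t with h1 | h1
      · rw [max_eq_right (by linarith : s - t ≤ 0), mul_zero]
      · rw [max_eq_right (by linarith : t - s ≤ 0), zero_mul]
    rw [this]
    exact cfc_const_zero ℝ h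
  have hdec : h = algebraMap ℝ (Op H) t + a - b := by
    rw [ha, hb, ← cfc_const t h, ← cfc_add h _ _ (by fun_prop) (by fun_prop),
      ← cfc_sub _ _ h (by fun_prop) (by fun_prop)]
    have : (fun s : ℝ => t + max (s - t) 0 - max (t - s) 0) = fun s => s := by
      funext s
      rcases le_total s t with h1 | h1
      · rw [max_eq_right (by linarith : s - t ≤ 0), max_eq_left (by linarith : 0 ≤ t - s)]
        ring
      · rw [max_eq_right (by linarith : t - s ≤ 0), max_eq_left (by linarith : 0 ≤ s - t)]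
        ring
    rw [this, cfc_id' ℝ h]
  have hin : ∀ ζ : H, (⟪ζ, h ζ⟫_ℂ).re = t * ‖ζ‖ ^ 2 + (⟪ζ, a ζ⟫_ℂ).re - (⟪ζ, b ζ⟫_ℂ).re := by
    intro ζ
    have h1 : h ζ = (t : ℂ) • ζ + a ζ - b ζ := by
      conv_lhs => rw [hdec]
      rw [Algebra.algebraMap_eq_smul_one]
      rfl
    rw [h1, inner_sub_right, inner_add_right, inner_smul_right, inner_self_eq_norm_sq_to_K,
      Complex.sub_re, Complex.add_re]
    congr 2
    have h2 : ((t : ℂ) * ((‖ζ‖ : ℝ) : ℂ) ^ 2) = ((t * ‖ζ‖ ^ 2 : ℝ) : ℂ) := by push_cast; rfl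
    exact (congrArg Complex.re h2).trans (Complex.ofReal_re _)
  obtain ⟨p, hp, hpa, hk, -⟩ := BSpec0_rangeProj a
  have hbp : b * p = 0 := hk b hba
  have hap : a * p = a := by
    have := congrArg star hpa
    rwa [star_mul, has, hp.isSelfAdjoint.star_eq] at this
  refine ⟨p, hp, fun S hS => ?_, fun η => ?_, fun η => ?_, hpa, ?_⟩
  · refine BSpec0_commute hp hpa hk ?_ ?_
    · exact (hS.symm.cfc_real _).symm
    · have h2 : Commute h (star S) := by
        have := hS.star_star
        rw [hh] at this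
        exact this.symm
      exact (h2.cfc_real _).symm
  · have h1 : b (p η) = 0 := by
      rw [← mul_apply_eq_comp, hbp]
      rfl
    have h2 := BSpec0_re_nonneg ha0 (p η)
    rw [hin, h1, inner_zero_right, Complex.zero_re]
    linarith
  · have h1 : a ((1 - p) η) = 0 := by
      rw [← mul_apply_eq_comp, mul_sub, mul_one, hap, sub_self]
      rfl
    have h2 := BSpec0_re_nonneg hb0 ((1 - p) η)
    rw [hin, h1, inner_zero_right, Complex.zero_re]
    linarith
  · have := congrArg star hbp
    rwa [star_mul, hbs, hp.isSelfAdjoint.star_eq, star_zero] at this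

/-- `s = 2 p - 1` with `p` from `exists_level` at `t = 0`. -/
theorem exists_sign {h : Op H} (hh : star h = h) : ∃ s : Op H, star s = s ∧ s * s = 1 ∧
    (∀ S, Commute S h → Commute S s) ∧ s * h = cfc (fun t : ℝ => |t|) h := by
  have hsa : IsSelfAdjoint h := hh
  obtain ⟨p, hp, hc, -, -, hpa, hpb⟩ := exists_level hh 0
  set a := cfc (fun s : ℝ => max (s - 0) 0) h with ha
  set b := cfc (fun s : ℝ => max (0 - s) 0) h with hb
  have h1 : h = a - b := by
    rw [ha, hb, ← cfc_sub _ _ h (by fun_prop) (by fun_prop)]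
    have : (fun s : ℝ => max (s - 0) 0 - max (0 - s) 0) = fun s => s := by
      funext s
      rcases le_total s 0 with h1 | h1
      · rw [max_eq_right (by linarith : s - 0 ≤ 0), max_eq_left (by linarith : 0 ≤ 0 - s)]
        ring
      · rw [max_eq_right (by linarith : 0 - s ≤ 0), max_eq_left (by linarith : 0 ≤ s - 0)]
        ring
    rw [this, cfc_id' ℝ h]
  have h2 : cfc (fun t : ℝ => |t|) h = a + b := by
    rw [ha, hb, ← cfc_add h _ _ (by fun_prop) (by fun_prop)]
    congr 1
    funext s
    rcases le_total s 0 with h1 | h1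
    · rw [max_eq_right (by linarith : s - 0 ≤ 0), max_eq_left (by linarith : 0 ≤ 0 - s),
        abs_of_nonpos h1]
      ring
    · rw [max_eq_right (by linarith : 0 - s ≤ 0), max_eq_left (by linarith : 0 ≤ s - 0),
        abs_of_nonneg h1]
      ring
  have hpp : p * p = p := hp.isIdempotentElem.eq
  refine ⟨p + p - 1, ?_, ?_, fun S hS => ?_, ?_⟩
  · rw [star_sub, star_add, hp.isSelfAdjoint.star_eq, star_one]
  · simp only [sub_mul, mul_sub, add_mul, mul_add, hpp, mul_one, one_mul]
    abel
  · exact ((hc S hS).add_right (hc S hS)).sub_right (Commute.one_right S)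
  · rw [h2]
    have h3 : p * h = a := by
      conv_lhs => rw [h1]
      rw [mul_sub, hpa, hpb, sub_zero]
    rw [sub_mul, add_mul, h3, one_mul]
    conv_lhs => rw [h1]
    abel

/-- Polar decomposition in `M`. -/
theorem exists_polar_decomp {x : Op H} (hx : x ∈ M) : ∃ v ∈ M, v * star v * v = v ∧
    x = v * cfc (fun t : ℝ => √t) (star x * x) ∧
    star v * x = cfc (fun t : ℝ => √t) (star x * x) := by
  have hxx : 0 ≤ star x * x := star_mul_self_nonneg x
  have hsa : IsSelfAdjoint (star x * x) := IsSelfAdjoint.of_nonneg hxx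
  set r := cfc (fun t : ℝ => √t) (star x * x) with hr
  have hr0 : 0 ≤ r := cfc_nonneg fun s _ => Real.sqrt_nonneg s
  have hrs : star r = r := (IsSelfAdjoint.of_nonneg hr0).star_eq
  have hrr : r * r = star x * x := by
    rw [hr, ← cfc_mul _ _ _ (by fun_prop) (by fun_prop)]
    conv_rhs => rw [← cfc_id' ℝ (star x * x)]
    refine cfc_congr fun s hs => ?_
    exact Real.mul_self_sqrt (spectrum_nonneg_of_nonneg hxx hs)
  have hnorm : ∀ η, ‖x η‖ ≤ ‖r η‖ := by
    intro η
    have h1 : ⟪x η, x η⟫_ℂ = ⟪r η, r η⟫_ℂ := by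
      rw [← ContinuousLinearMap.adjoint_inner_right, ← ContinuousLinearMap.adjoint_inner_right r,
        ← ContinuousLinearMap.star_eq_adjoint, ← ContinuousLinearMap.star_eq_adjoint, hrs,
        ← mul_apply_eq_comp, ← mul_apply_eq_comp, hrr]
    have h2 : ‖x η‖ ^ 2 = ‖r η‖ ^ 2 := by
      rw [← inner_self_eq_norm_sq (𝕜 := ℂ), ← inner_self_eq_norm_sq (𝕜 := ℂ), h1]
    exact ((sq_eq_sq₀ (norm_nonneg _) (norm_nonneg _)).1 h2).le
  obtain ⟨p, hp, hpr, hk, hv⟩ := BSpec0_rangeProj r
  obtain ⟨v, hvr, hvp⟩ := hv x hnorm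
  have hps : star p = p := hp.isSelfAdjoint.star_eq
  have hpp : p * p = p := hp.isIdempotentElem.eq
  have hrv : r * star v = star x := by
    rw [← hvr, star_mul, hrs]
  have hpv : p * star v = star v := by
    conv_rhs => rw [← hvp, star_mul, hps]
  have hvv : star v * v = p := by
    have h1 : r * (star v * v - 1) * r = 0 := by
      rw [mul_sub, sub_mul, mul_one, hrr, ← mul_assoc, hrv, mul_assoc, hvr, sub_self]
    have h2 := congrArg star (hk _ h1)
    rw [star_mul, star_mul, hps, hrs, star_sub, star_mul, star_star, star_one, star_zero,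
      ← mul_assoc] at h2
    have h3 := hk _ h2
    rw [mul_sub, sub_mul, mul_one, hpp, ← mul_assoc, hpv, mul_assoc, hvp, sub_eq_zero] at h3
    exact h3
  have hrM : r ∈ M := cfc_real_mem _ (mul_mem (star_mem hx) hx)
  refine ⟨v, mem_of_commute fun y hy => ?_, ?_, hvr.symm, ?_⟩
  · have hyr : Commute y r := (commute_of_mem hrM hy).symm
    have hyp : Commute y p :=
      BSpec0_commute hp hpr hk hyr (commute_of_mem hrM (star_mem hy)).symm
    have h1 : (v * y - y * v) * r = 0 := by
      rw [sub_mul, mul_assoc, hyr.eq, ← mul_assoc, hvr, mul_assoc, hvr,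
        (commute_of_mem hx hy).eq, sub_self]
    have h2 := hk _ h1
    rw [sub_mul, mul_assoc, hyp.eq, ← mul_assoc, hvp, mul_assoc, hvp, sub_eq_zero] at h2
    exact h2
  · rw [mul_assoc, hvv, hvp]
  · conv_lhs => rw [← hvr]
    rw [← mul_assoc, hvv, hpr]

end Crest.Agent.R078
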