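import Crest.Agent.R078.BSpec0

/-! Row 78: spectral projections, signs, logarithms, central partitions. -/

set_option autoImplicit false

open scoped InnerProductSpace ComplexConjugate
open Filter Topology

namespace Crest.Agent.R078

open Crest.Agent.R121 (Mn Bd)
open Crest.Agent.R124 (ex)
open Crest.OpAlg

universe u

variable {H : Type*} [NormedAddCommGroup H] [InnerProductSpace ℂ H] [CompleteSpace H]

variable {M : VN H}
/-- `exp (i t h)`. -/
noncomputable def expI (t : ℝ) (h : Op H) : Op H := NormedSpace.exp (((t : ℂ) * Complex.I) • h)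

theorem expI_zero (h : Op H) : expI 0 h = 1 := by
  simp [expI]

theorem expI_add (s t : ℝ) (h : Op H) : expI (s + t) h = expI s h * expI t h := by
  let +nondep : NormedAlgebra ℚ (Op H) := .restrictScalars ℚ ℂ (Op H)
  rw [expI, expI, expI, ← NormedSpace.exp_add_of_commute
    (((Commute.refl h).smul_left _).smul_right _), ← add_smul, ← add_mul, Complex.ofReal_add]

theorem star_expI {h : Op H} (hh : star h = h) (t : ℝ) : star (expI t h) = expI (-t) h := by
  rw [expI, expI, NormedSpace.star_exp, star_smul, hh]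
  simp

theorem expI_unitary {h : Op H} (hh : star h = h) (t : ℝ) : expI t h ∈ unitary (Op H) := by
  constructor
  · rw [star_expI hh, ← expI_add, neg_add_cancel, expI_zero]
  · rw [star_expI hh, ← expI_add, add_neg_cancel, expI_zero]

theorem commute_expI {h S : Op H} (hS : Commute S h) (t : ℝ) : Commute S (expI t h) := by
  exact (hS.smul_right _).exp_right

theorem expI_mem {h : Op H} (hh : h ∈ M) (t : ℝ) : expI t h ∈ M := by
  exact mem_of_commute fun _ hy => (commute_expI (commute_of_mem hh hy).symm t).symm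

theorem continuous_expI (h : Op H) : Continuous fun t => expI t h := by
  let +nondep : NormedAlgebra ℚ (Op H) := .restrictScalars ℚ ℂ (Op H)
  exact NormedSpace.exp_continuous.comp (by fun_prop)

theorem BSpec1_norm {u : Op H} (hu : u ∈ unitary (Op H)) (η : H) : ‖u η‖ = ‖η‖ := by
  rw [@norm_eq_sqrt_re_inner ℂ, @norm_eq_sqrt_re_inner ℂ,
    ← ContinuousLinearMap.adjoint_inner_right, ← ContinuousLinearMap.star_eq_adjoint,
    ← mul_apply_eq_comp, Unitary.star_mul_self_of_mem hu, one_apply_eq_self]

theorem BSpec1_deriv (h : Op H) (η : H) (t : ℝ) :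
    HasDerivAt (fun s => expI s h η) (expI t h (Complex.I • h η)) t := by
  have e : ∀ s : ℝ, expI s h = NormedSpace.exp (s • (Complex.I • h)) := fun s => by
    rw [expI, mul_smul, Complex.coe_smul]
  simp only [e]
  exact ((ContinuousLinearMap.apply ℂ H η).restrictScalars ℝ).hasFDerivAt.comp_hasDerivAt t
    (hasDerivAt_exp_smul_const (Complex.I • h) t)

theorem norm_expI_sub_one_apply {h : Op H} (hh : star h = h) (t : ℝ) (η : H) :
    ‖(expI t h - 1) η‖ ≤ |t| * ‖h η‖ := by
  have h1 := Convex.norm_image_sub_le_of_norm_hasDerivWithin_le (𝕜 := ℝ) (s := Set.univ)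
    (f := fun s => expI s h η) (f' := fun s => expI s h (Complex.I • h η)) (C := ‖h η‖)
    (x := 0) (y := t) (fun s _ => (BSpec1_deriv h η s).hasDerivWithinAt)
    (fun s _ => by rw [BSpec1_norm (expI_unitary hh s), norm_smul, Complex.norm_I, one_mul])
    convex_univ trivial trivial
  rw [expI_zero, sub_zero, Real.norm_eq_abs, mul_comm] at h1
  exact h1

theorem norm_expI_sub_apply {h : Op H} (hh : star h = h) (t : ℝ) (η : H) :
    ‖(expI t h - 1 - ((t : ℂ) * Complex.I) • h) η‖ ≤ t ^ 2 / 2 * ‖h (h η)‖ := by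
  have key : ∀ {h : Op H}, star h = h → ∀ t : ℝ, 0 ≤ t →
      ‖(expI t h - 1 - ((t : ℂ) * Complex.I) • h) η‖ ≤ t ^ 2 / 2 * ‖h (h η)‖ := by
    intro h hh t ht
    have hd : ∀ s : ℝ, HasDerivAt (fun s : ℝ => expI s h η - η - s • (Complex.I • h η))
        ((expI s h - 1) (Complex.I • h η)) s := fun s => by
      have := ((BSpec1_deriv h η s).sub_const η).fun_sub
        ((hasDerivAt_id' s).smul_const (Complex.I • h η))
      rwa [one_smul] at this
    have h1 := image_norm_le_of_norm_deriv_right_le_deriv_boundary (a := 0) (b := t)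
      (fun s _ => (hd s).continuousAt.continuousWithinAt) (fun s _ => (hd s).hasDerivWithinAt)
      (B := fun s => s ^ 2 / 2 * ‖h (h η)‖) (B' := fun s => s * ‖h (h η)‖)
      (by simp [expI_zero])
      (fun s => by
        have := ((hasDerivAt_pow 2 s).div_const 2).mul_const ‖h (h η)‖
        refine this.congr_deriv ?_
        push_cast
        ring)
      (fun s hs => by
        refine (norm_expI_sub_one_apply hh s _).trans_eq ?_
        rw [abs_of_nonneg hs.1, map_smul, norm_smul, Complex.norm_I, one_mul])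
      ⟨ht, le_rfl⟩
    refine le_trans (le_of_eq ?_) h1
    congr 1
    change expI t h η - η - ((t : ℂ) * Complex.I) • h η = _
    rw [mul_smul, Complex.coe_smul]
  rcases le_total 0 t with ht | ht
  · exact key hh t ht
  · have h1 := key (h := -h) (by rw [star_neg, hh]) (-t) (neg_nonneg.2 ht)
    simpa [expI] using h1

theorem BSpec1_eq {h k p : Op H} (hh : star h = h) (hk : star k = k) (hc : Commute k h)
    (hp : h * p = k * p) : expI 1 h * p = expI 1 k * p := by
  let +nondep : NormedAlgebra ℚ (Op H) := .restrictScalars ℚ ℂ (Op H)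
  have e1 : expI 1 h = expI 1 k * expI 1 (h - k) := by
    rw [expI, expI, expI, ← NormedSpace.exp_add_of_commute
      (((hc.sub_right (Commute.refl k)).smul_left _).smul_right _), ← smul_add, add_sub_cancel]
  have e2 : expI 1 (h - k) * p = p := ContinuousLinearMap.ext fun η => by
    have h1 := norm_expI_sub_one_apply (h := h - k) (by rw [star_sub, hh, hk]) 1 (p η)
    have h2 : (h - k) (p η) = 0 := by
      rw [← mul_apply_eq_comp, sub_mul, hp, sub_self]
      rfl
    rw [h2, norm_zero, mul_zero, norm_le_zero_iff] at h1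
    exact sub_eq_zero.1 h1
  rw [e1, mul_assoc, e2]

/-- Borel logarithm: `h = s * arccos (re u)` where `s` is the sign of `im u`.  Indeed
`cos h = cos (arccos re u) = re u` and `sin h = s * sin (arccos re u) = s |im u| = im u`
(`h` and `arccos re u` agree up to sign on the ranges of `(1 ± s) / 2`). -/
theorem exists_log {u : Op H} (hu : u ∈ unitary (Op H)) : ∃ h : Op H, star h = h ∧
    ‖h‖ ≤ Real.pi ∧ expI 1 h = u ∧ ∀ S, Commute S u → Commute S h := by
  have hn : IsStarNormal u := isStarNormal_of_mem_unitary hu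
  have hst : ∀ S : Op H, Commute S u → Commute S (star u) := by
    intro S hS
    have h1 := Unitary.star_mul_self_of_mem hu
    have h2 := Unitary.mul_star_self_of_mem hu
    calc S * star u = star u * u * S * star u := by rw [h1, one_mul]
      _ = star u * S * (u * star u) := by simp only [mul_assoc, ← hS.eq]
      _ = star u * S := by rw [h2, mul_one]
  have hc : ∀ (S : Op H) (f : ℂ → ℂ), Commute S u → Commute S (cfc f u) := fun S f hS =>
    (Commute.cfc hS.symm (hst S hS).symm f).symm
  obtain ⟨s, hs1, hs2, hs3, hs4⟩ := exists_sign (h := (imaginaryPart u : Op H))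
    (imaginaryPart u).2
  have hs5 : ∀ S : Op H, Commute S u → Commute S s := fun S hS =>
    hs3 S (by rw [← cfc_im_id u]; exact hc S _ hS)
  obtain ⟨k, hk⟩ : ∃ k : Op H, k = cfc (fun z : ℂ => ((Real.arccos z.re : ℝ) : ℂ)) u := ⟨_, rfl⟩
  have hca : Continuous fun z : ℂ => ((Real.arccos z.re : ℝ) : ℂ) :=
    Complex.continuous_ofReal.comp (Real.continuous_arccos.comp Complex.continuous_re)
  have hk1 : star k = k := by
    rw [hk, ← cfc_star]
    simp
  have hk2 : ‖k‖ ≤ Real.pi := by
    rw [hk]
    refine norm_cfc_le Real.pi_pos.le fun z _ => ?_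
    rw [Complex.norm_real, Real.norm_of_nonneg (Real.arccos_nonneg _)]
    exact Real.arccos_le_pi _
  have hk3 : ∀ S : Op H, Commute S u → Commute S k := fun S hS => hk ▸ hc S _ hS
  have hsk : Commute s k := hk3 s (hs5 u (Commute.refl u)).symm
  have he : expI 1 k = (realPart u : Op H) + Complex.I • (s * (imaginaryPart u : Op H)) := by
    rw [hs4, ← cfc_comp_im (fun t : ℝ => |t|) u (by fun_prop), ← cfc_re_id u,
      ← cfc_const_mul _ _ u (by fun_prop), ← cfc_add u _ _ (by fun_prop) (by fun_prop), expI, hk,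
      ← cfc_const_mul _ _ u hca.continuousOn,
      ← CFC.complex_exp_eq_normedSpace_exp (cfc_predicate _ _),
      ← cfc_comp' _ _ u (by fun_prop) (by fun_prop)]
    refine cfc_congr fun z hz => ?_
    have hz1 : ‖z‖ = 1 := spectrum.norm_eq_one_of_unitary hu hz
    have hz2 := abs_le.1 ((Complex.abs_re_le_norm z).trans hz1.le)
    have hz3 : 1 - z.re ^ 2 = z.im ^ 2 := by
      have := Complex.sq_norm_sub_sq_re z
      rwa [hz1, one_pow] at this
    rw [Complex.ofReal_one, one_mul, mul_comm, Complex.exp_mul_I, ← Complex.ofReal_cos,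
      ← Complex.ofReal_sin, Real.cos_arccos hz2.1 hz2.2, Real.sin_arccos, hz3,
      Real.sqrt_sq_eq_abs, mul_comm]
  have hsb : Commute s (imaginaryPart u : Op H) := (hs3 _ (Commute.refl _)).symm
  have he' : expI 1 (-k) = (realPart u : Op H) - Complex.I • (s * (imaginaryPart u : Op H)) := by
    have h1 : expI 1 (-k) = star (expI 1 k) := by
      rw [star_expI hk1]
      simp [expI]
    rw [h1, he, star_add, star_smul, star_mul, hs1, (realPart u).2, (imaginaryPart u).2,
      Complex.star_def, Complex.conj_I, neg_smul, hsb.eq, sub_eq_add_neg]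
  have hu' : (realPart u : Op H) + Complex.I • (imaginaryPart u : Op H) = u :=
    realPart_add_I_smul_imaginaryPart u
  have hh : star (s * k) = s * k := by rw [star_mul, hs1, hk1, hsk.eq]
  have hkk : Commute k (s * k) := hsk.symm.mul_right (Commute.refl k)
  have e1 : s * (1 + s) = 1 + s := by rw [mul_add, mul_one, hs2, add_comm]
  have e2 : s * (1 - s) = -(1 - s) := by rw [mul_sub, mul_one, hs2, neg_sub]
  generalize (realPart u : Op H) = a at he he' hu'
  generalize (imaginaryPart u : Op H) = b at he he' hu' hsb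
  have f1 : expI 1 (s * k) * (1 + s) = u * (1 + s) := by
    rw [BSpec1_eq hh hk1 hkk (by rw [hsk.eq, mul_assoc, e1]), he, ← hu', add_mul, add_mul,
      smul_mul_assoc, smul_mul_assoc, hsb.eq, mul_assoc, e1]
  have f2 : expI 1 (s * k) * (1 - s) = u * (1 - s) := by
    rw [BSpec1_eq hh (by rw [star_neg, hk1]) hkk.neg_left
      (by rw [hsk.eq, mul_assoc, e2, mul_neg, neg_mul]), he', ← hu', sub_mul, add_mul,
      smul_mul_assoc, smul_mul_assoc, hsb.eq, mul_assoc, e2, mul_neg, smul_neg, sub_neg_eq_add]
  refine ⟨s * k, hh, ?_, ?_, fun S hS => (hs5 S hS).mul_right (hk3 S hS)⟩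
  · refine ContinuousLinearMap.opNorm_le_bound _ Real.pi_pos.le fun η => ?_
    rw [mul_apply_eq_comp, BSpec1_norm ⟨by rw [hs1, hs2], by rw [hs1, hs2]⟩]
    exact (k.le_opNorm η).trans (mul_le_mul_of_nonneg_right hk2 (norm_nonneg _))
  · have f3 := congrArg₂ (· + ·) f1 f2
    simp only [← mul_add, add_add_sub_cancel] at f3
    rw [mul_add, mul_add, mul_one, mul_one, ← two_smul ℂ, ← two_smul ℂ] at f3
    exact smul_right_injective _ two_ne_zero f3

end Crest.Agent.R078
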