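import Crest.Agent.R078.BFrame

/-! Row 78: trace vectors. -/

set_option autoImplicit false

open scoped InnerProductSpace ComplexConjugate
open Filter Topology

namespace Crest.Agent.R078

open Crest.Agent.R121 (Mn Bd)
open Crest.Agent.R124 (ex)
open Crest.OpAlg

universe u

variable {H : Type*} [NormedAddCommGroup H] [InnerProductSpace ℂ H] [CompleteSpace H]

variable {A M N : VN H} {ξ : H} {J : H ≃ₗᵢ⋆[ℂ] H} {x y : Op H}

/-- `J` is the conjugation of the cyclic trace vector `ξ`. -/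
structure TrJ (A : VN H) (ξ : H) (J : H ≃ₗᵢ⋆[ℂ] H) : Prop where
  cyc : Cyc A ξ
  J_J : ∀ η, J (J η) = η
  J_vac : ∀ x ∈ A, J (x ξ) = star x ξ

theorem BTr_adj (x : Op H) (η ζ : H) : ⟪star x η, ζ⟫_ℂ = ⟪η, x ζ⟫_ℂ :=
  ContinuousLinearMap.adjoint_inner_left x ζ η

theorem BTr_comm (hJ : ∀ η, J (J η) = η) (h : Commute x y) : Commute (jc J x) (jc J y) := by
  rw [Commute, SemiconjBy, ← jc_mul hJ, ← jc_mul hJ, h.eq]

/-- Extend `x ξ ↦ x⋆ ξ` by density (as a real-linear isometry, `LinearMap.extendOfNorm`). -/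
theorem exists_trJ (hc : Cyc A ξ) (ht : Tr A ξ) : ∃ J, TrJ A ξ J := by
  have hd : DenseRange (BBasic2_ev A ξ) := hc
  have hn : ∀ a : A.toStarSubalgebra,
      ‖BBasic2_ev A ξ (starLinearEquiv ℂ a)‖ = ‖BBasic2_ev A ξ a‖ := fun a => ht a a.2
  have he : ∀ a ∈ A, (starLinearEquiv ℂ).extendOfIsometry _ _ hd hd hn (a ξ) = star a ξ :=
    fun a ha => LinearEquiv.extendOfIsometry_eq _ _ _ hd hd hn ⟨a, ha⟩
  refine ⟨_, hc, hc.induction (isClosed_eq (by fun_prop) continuous_id) fun a ha => ?_, he⟩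
  rw [he a ha, he _ (star_mem ha), star_star]

theorem TSit.trM {F : Frame H} (h : TSit M N ξ F J) : TrJ M ξ J := ⟨h.sit.fM.cs.2.1, h.J_J, h.J_M⟩

theorem TSit.trN {F : Frame H} (h : TSit M N ξ F J) : TrJ N ξ J := ⟨h.sit.fN.cs.2.1, h.J_J, h.J_N⟩

namespace TrJ

theorem tr (h : TrJ A ξ J) : Tr A ξ := fun x hx => by rw [← h.J_vac x hx, J.norm_map]

theorem J_vac_self (h : TrJ A ξ J) : J ξ = ξ := by
  simpa using h.J_vac 1 (one_mem A)

theorem inner_mul_comm (h : TrJ A ξ J) (hx : x ∈ A) (hy : y ∈ A) :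
    ⟪ξ, (x * y) ξ⟫_ℂ = ⟪ξ, (y * x) ξ⟫_ℂ := by
  rw [mul_apply_eq_comp, mul_apply_eq_comp, ← BTr_adj, ← inner_J J, h.J_vac y hy,
    h.J_vac _ (star_mem hx), star_star, BTr_adj]

theorem Rm_apply (h : TrJ A ξ J) (hx : x ∈ A) (hy : y ∈ A) : Rm J y (x ξ) = x (y ξ) := by
  rw [Rm, jc_apply, h.J_vac x hx, ← mul_apply_eq_comp, ← star_mul,
    h.J_vac _ (star_mem (mul_mem hx hy)), star_star, mul_apply_eq_comp]

theorem Rm_vac (h : TrJ A ξ J) (hy : y ∈ A) : Rm J y ξ = y ξ := by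
  simpa only [one_apply_eq_self] using h.Rm_apply (one_mem A) hy

theorem jc_mem (h : TrJ A ξ J) (hx : x ∈ A) : jc J x ∈ A.commutant := by
  refine mem_comm.2 fun a ha => h.cyc.ext fun b hb => ?_
  have h1 := h.Rm_apply hb (star_mem hx)
  have h2 := h.Rm_apply (mul_mem ha hb) (star_mem hx)
  rw [Rm, star_star] at h1 h2
  rw [mul_apply_eq_comp, mul_apply_eq_comp, h1]
  exact h2.symm

theorem Rm_mem (h : TrJ A ξ J) (hx : x ∈ A) : Rm J x ∈ A.commutant := h.jc_mem (star_mem hx)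

/-- `⟪J y ξ, a ξ⟫ = ⟪a⋆ ξ, y ξ⟫ = ⟪y⋆ ξ, a ξ⟫`. -/
theorem commutant (h : TrJ A ξ J) : TrJ A.commutant ξ J := by
  refine ⟨Dense.mono ?_ h.cyc, h.J_J, fun y hy => h.cyc.eq_of_inner fun a ha => ?_⟩
  · rintro _ ⟨a, rfl⟩
    exact ⟨⟨_, h.Rm_mem a.2⟩, h.Rm_vac a.2⟩
  · rw [← star_star a, ← h.J_vac _ (star_mem ha), inner_J, h.J_vac _ (star_mem ha), BTr_adj,
      ← mul_apply_eq_comp, (commute_of_mem (star_mem ha) (star_mem hy)).eq, mul_apply_eq_comp,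
      ← BTr_adj (star y), star_star]

theorem jc_mem' (h : TrJ A ξ J) (hy : y ∈ A.commutant) : jc J y ∈ A := by
  simpa only [VonNeumannAlgebra.commutant_commutant] using h.commutant.jc_mem hy

theorem Rm_mem' (h : TrJ A ξ J) (hy : y ∈ A.commutant) : Rm J y ∈ A := h.jc_mem' (star_mem hy)

theorem cycSep (h : TrJ A ξ J) (hξ : ‖ξ‖ = 1) : CycSep A ξ := ⟨hξ, h.cyc, h.commutant.cyc⟩

theorem norm_mul_vac_le (h : TrJ A ξ J) (hx : x ∈ A) (hy : y ∈ A) :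
    ‖x (y ξ)‖ ≤ ‖x ξ‖ * ‖y‖ := by
  rw [← h.Rm_apply hx hy, mul_comm, ← norm_star y, ← norm_jc (J := J)]
  exact ContinuousLinearMap.le_opNorm _ _

theorem Rm_cen (h : TrJ A ξ J) {c : Op H} (hc : Cen A c) : Rm J c = c :=
  sub_eq_zero.1 (h.cyc.sep' (sub_mem (h.Rm_mem hc.1) hc.2) (sub_eq_zero.2 (h.Rm_vac hc.1)))

theorem Rm_eq (h : TrJ A ξ J) (hx : x ∈ A) (hy : y ∈ A.commutant) (hxy : x ξ = y ξ) :
    Rm J x = y :=
  sub_eq_zero.1 (h.cyc.sep' (sub_mem (h.Rm_mem hx) hy) (sub_eq_zero.2 ((h.Rm_vac hx).trans hxy)))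

theorem conj_unitary (h : TrJ A ξ J) {v : Op H} (hv : v ∈ unitary (Op H)) (hξ : v ξ = ξ)
    (hJ : jc J v = v) : TrJ (conjVN v A) ξ J := by
  have h1 : star v ξ = ξ := by
    conv_lhs => rw [← hξ, ← mul_apply_eq_comp, Unitary.star_mul_self_of_mem hv, one_apply_eq_self]
  have h2 : ∀ η, J (v η) = v (J η) := fun η => by
    conv_rhs => rw [← hJ, jc_apply, h.J_J]
  refine ⟨by simpa only [hξ] using BBasic2_conj h.cyc hv, h.J_J, fun y hy => ?_⟩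
  obtain ⟨x, hx, rfl⟩ := (mem_conjVN hv).1 hy
  simp only [star_mul, star_star, mul_apply_eq_comp, h1, h2, h.J_vac x hx]

end TrJ

theorem cycSep_of_tr (hξ : ‖ξ‖ = 1) (hc : Cyc A ξ) (ht : Tr A ξ) : CycSep A ξ := (exists_trJ hc ht).choose_spec.cycSep hξ

theorem Rm_mul (hJ : ∀ η, J (J η) = η) (x y : Op H) : Rm J (x * y) = Rm J y * Rm J x := by
  rw [Rm, star_mul, jc_mul hJ, Rm, Rm]

theorem star_Rm (hJ : ∀ η, J (J η) = η) (x : Op H) : star (Rm J x) = Rm J (star x) := (jc_star hJ _).symm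

theorem norm_Rm (x : Op H) : ‖Rm J x‖ = ‖x‖ := by
  rw [Rm, norm_jc, norm_star]

theorem Rm_Rm (hJ : ∀ η, J (J η) = η) (x : Op H) : Rm J (Rm J x) = x := by
  rw [Rm, star_Rm hJ, Rm, star_star, jc_jc hJ]

namespace TSit

variable {F : Frame H}

theorem symm (h : TSit M N ξ F J) : TSit N M ξ F J := ⟨h.sit.symm, h.J_J, h.J_N, h.J_M⟩

theorem swap (h : TSit M N ξ F J) : TSit M.commutant N.commutant ξ F.swap J :=
  ⟨h.sit.swap, h.J_J, h.trM.commutant.J_vac, h.trN.commutant.J_vac⟩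

theorem Rm_w (h : TSit M N ξ F J) (a : Gam) : Rm J (F.w a) = F.w' a :=
  h.trM.Rm_eq (h.sit.fM.w_mem a) (h.sit.fM.w'_mem a) (h.sit.fM.vac a)

theorem bim_jc (h : TSit M N ξ F J) {T : Op H} (hT : F.Bim M T) : F.Bim M (jc J T) := by
  refine ⟨fun a => ?_, fun a => ?_, fun c hc => ?_⟩
  · rw [← Rm_Rm h.J_J (F.w a), h.Rm_w]
    exact BTr_comm h.J_J (F.commute_star_w' (hT.w' a))
  · rw [← h.Rm_w]
    exact BTr_comm h.J_J (F.commute_star_w (hT.w a))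
  · rw [← h.trM.Rm_cen hc]
    exact BTr_comm h.J_J (hT.cen _ hc.star_mem)

theorem conj_left (h : TSit M N ξ F J) {v : Op H} (hv : v ∈ unitary (Op H)) (hb : F.Bim M v)
    (hξ : v ξ = ξ) (hJ : jc J v = v) : TSit (conjVN v M) N ξ F J :=
  ⟨h.sit.conj_left hv hb hξ, h.J_J, (h.trM.conj_unitary hv hξ hJ).J_vac, h.J_N⟩

theorem conj_right (h : TSit M N ξ F J) {v : Op H} (hv : v ∈ unitary (Op H)) (hb : F.Bim M v)
    (hξ : v ξ = ξ) (hJ : jc J v = v) : TSit M (conjVN v N) ξ F J :=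
  ⟨h.sit.conj_right hv hb hξ, h.J_J, h.J_M, (h.trN.conj_unitary hv hξ hJ).J_vac⟩

/-- If `M` commutes with `N'` then `M = N` (`M ⊆ N`, and `N' = J N J ⊇ J M J = M'`). -/
theorem eq_of_le (h : TSit M N ξ F J) (hMN : ∀ x ∈ M, x ∈ N) : M = N := by
  refine SetLike.ext fun x => ⟨hMN x, fun hx => mem_of_commute fun y hy => commute_of_mem hx ?_⟩
  rw [← jc_jc h.J_J y]
  exact h.trN.jc_mem (hMN _ (h.trM.jc_mem' hy))

end TSit

end Crest.Agent.R078
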