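import Crest.Agent.R078.CCore

/-! Row 78, stage 6: the limit `T → 0`. -/

set_option autoImplicit false

open scoped InnerProductSpace
open Filter Topology

namespace Crest.Agent.R078

open Crest.OpAlg Crest.Agent.R078X Multiplicative

variable {H : Type*} [NormedAddCommGroup H] [InnerProductSpace ℂ H] [CompleteSpace H]
variable {K : Type*} [NormedAddCommGroup K] [InnerProductSpace ℂ K] [CompleteSpace K]

namespace Amp

variable {A : Amp ZZ H K} {D : LineCalculus H} {T : ℝ} {M : VN H} {b : Op K} {ξ : H}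

theorem CApp_tri (p q : K) :
    ‖star (A.W D T) p - p‖ ≤ ‖star (A.W D T) q - q‖ + 2 * ‖p - q‖ := by
  have h1 := BSpec1_norm (Unitary.star_mem (A.W_unitary D T)) (p - q)
  calc ‖star (A.W D T) p - p‖
      = ‖(star (A.W D T) q - q) + (star (A.W D T) (p - q) - (p - q))‖ := by
        rw [map_sub]; congr 1; abel
    _ ≤ ‖star (A.W D T) q - q‖ + (‖star (A.W D T) (p - q)‖ + ‖p - q‖) :=
        (norm_add_le _ _).trans (by gcongr; exact norm_sub_le _ _)
    _ = _ := by rw [h1]; ring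

theorem CApp_wave (η : H) {ε : ℝ} (hε : 0 < ε) {X : Type*} [TopologicalSpace X] {f : X → ℝ}
    (hf : Continuous f) {x : X} (hx : f x = 0) : ∀ᶠ z in 𝓝 x, ‖D.wave (f z) η - η‖ ≤ ε := by
  have hc : Continuous fun z => ‖D.wave (f z) η - η‖ :=
    (((R084.continuous_wave D η).comp hf).sub continuous_const).norm
  refine (hc.continuousAt.eventually_lt continuousAt_const ?_).mono fun _ h => h.le
  rw [hx, R084.wave_zero]
  simpa using hε

theorem CApp_strong (p : K) :
    ∀ ε : ℝ, 0 < ε → ∀ᶠ T in 𝓝 (0 : ℝ), ‖star (A.W D T) p - p‖ ≤ ε := by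
  refine A.induction_on (p := fun p => ∀ ε : ℝ, 0 < ε →
    ∀ᶠ T in 𝓝 (0 : ℝ), ‖star (A.W D T) p - p‖ ≤ ε) ?_ (fun ε hε => by simp [hε.le])
    (fun p q hp hq ε hε => ?_) (fun g η ε hε => ?_) p
  · refine isClosed_of_closure_subset fun p hp ε hε => ?_
    obtain ⟨q, hq, hpq⟩ := Metric.mem_closure_iff.1 hp (ε / 4) (by positivity)
    rw [dist_eq_norm] at hpq
    refine (hq (ε / 2) (by positivity)).mono fun T hT => (CApp_tri p q).trans ?_
    linarith
  · refine ((hp (ε / 2) (by positivity)).and (hq (ε / 2) (by positivity))).mono fun T h => ?_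
    rw [map_add, add_sub_add_comm]
    exact (norm_add_le _ _).trans (by linarith [h.1, h.2])
  · simp only [star_W_e, ← map_sub, norm_e]
    exact CApp_wave η hε (f := fun T : ℝ => -((toAdd g : ℤ) * T)) (by fun_prop) (by simp)

theorem CApp_unif {S : Set K} (hS : IsCompact S) {ε : ℝ} (hε : 0 < ε) :
    ∀ᶠ T in 𝓝 (0 : ℝ), ∀ p ∈ S, ‖star (A.W D T) p - p‖ ≤ ε := by
  refine hS.eventually_forall_of_forall_eventually fun q _ => ?_
  rw [nhds_prod_eq]
  refine ((CApp_strong (A := A) (D := D) q (ε / 2) (by positivity)).prod_mk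
    (Metric.ball_mem_nhds q (by positivity : 0 < ε / 4))).mono fun z hz => ?_
  have h2 : ‖z.2 - q‖ < ε / 4 := mem_ball_iff_norm.1 hz.2
  refine (CApp_tri z.2 q).trans ?_
  linarith [hz.1]

theorem CApp_bound (hb : A.IsLog b) (ζ : H) (s : ℝ) : ‖A.U D T b s (A.V ζ) - A.V ζ‖ ≤
    ‖star (A.W D T) (expI s b (A.V ζ)) - expI s b (A.V ζ)‖ + ‖D.wave (s * T) ζ - ζ‖ := by
  have h1 : expI s (A.lg' D T b) = star (A.W D T) * expI s b * A.W D T := A.exp_lg' D T b _
  have h2 : expI (-s) b (expI s b (A.V ζ)) = A.V ζ := by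
    rw [← mul_apply_eq_comp, ← expI_add, neg_add_cancel, expI_zero]; rfl
  have h3 : A.U D T b s (A.V ζ) - A.V ζ = A.ι (D.wave (s * T)) (expI (-s) b
      (star (A.W D T) (expI s b (A.V ζ)) - expI s b (A.V ζ))) + A.V (D.wave (s * T) ζ - ζ) := by
    rw [U, h1]
    simp only [mul_apply_eq_comp, W_V, map_sub, h2, A.ι_V]
    abel
  rw [h3]
  refine (norm_add_le _ _).trans_eq ?_
  rw [BSpec1_norm (CCore_ι_wave _), BSpec1_norm (expI_unitary hb.sa _), norm_V]

/-- The range of `V` is almost fixed when `T` is small. -/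
theorem IsLog.approx (hb : A.IsLog b) (ζ : H) {ε : ℝ} (hε : 0 < ε) :
    ∀ᶠ T in 𝓝 (0 : ℝ), ∀ s, ‖A.U D T b s (A.V ζ) - A.V ζ‖ ≤ ε := by
  have hc : Continuous fun s : ℝ => expI s b (A.V ζ) := (continuous_expI b).clm_apply continuous_const
  have h1 := CApp_unif (A := A) (D := D) ((isCompact_Icc (a := (0 : ℝ)) (b := 1)).image hc)
    (half_pos hε)
  have h2 : ∀ᶠ T in 𝓝 (0 : ℝ), ∀ s ∈ Set.Icc (0 : ℝ) 1, ‖D.wave (s * T) ζ - ζ‖ ≤ ε / 2 :=
    isCompact_Icc.eventually_forall_of_forall_eventually fun s _ =>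
      CApp_wave ζ (half_pos hε) (f := fun z : ℝ × ℝ => z.2 * z.1) (by fun_prop) (by simp)
  refine (h1.and h2).mono fun T h s => ?_
  have hp : Function.Periodic (A.U D T b) 1 := fun s => by rw [hb.urep.add, hb.U_one, mul_one]
  obtain ⟨t, ht, e⟩ := hp.exists_mem_Ico₀ one_pos s
  have ht' := Set.Ico_subset_Icc_self ht
  rw [e]
  refine (CApp_bound hb ζ t).trans ?_
  linarith [h.1 _ ⟨t, ht', rfl⟩, h.2 t ht']

end Amp

end Crest.Agent.R078
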