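import Crest.Agent.R078.CCore0

/-! Row 78, stage 6: the discrete core on `ℓ²(ℤ, H)` and its periodic flow. -/

set_option autoImplicit false

open scoped InnerProductSpace
open Filter Topology

namespace Crest.Agent.R078

open Crest.OpAlg Crest.Agent.R078X Multiplicative

universe u

variable {H : Type*} [NormedAddCommGroup H] [InnerProductSpace ℂ H] [CompleteSpace H]
variable {K : Type*} [NormedAddCommGroup K] [InnerProductSpace ℂ K] [CompleteSpace K]

theorem CCore_comm {u X Y : Op K} (hu : u ∈ unitary (Op K)) :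
    Commute (u * X * star u) Y ↔ Commute X (star u * Y * u) := by
  have h1 := Unitary.mul_star_self_of_mem hu
  have h2 := Unitary.star_mul_self_of_mem hu
  constructor
  · intro h
    calc X * (star u * Y * u) = star u * (u * X * star u * Y) * u := by
          simp only [← mul_assoc, h2, one_mul]
      _ = star u * Y * u * X := by
          rw [h.eq]
          simp only [mul_assoc, h2, mul_one]
  · intro h
    calc u * X * star u * Y = u * (X * (star u * Y * u)) * star u := by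
          simp only [mul_assoc, h1, mul_one]
      _ = Y * (u * X * star u) := by
          rw [h.eq]
          simp only [← mul_assoc, h1, one_mul]

theorem CCore_wave (D : LineCalculus H) (t : ℝ) : D.wave t ∈ unitary (Op H) := by
  rw [Unitary.mem_iff, R084.star_wave, ← R084.wave_add, ← R084.wave_add, neg_add_cancel,
    add_neg_cancel, R084.wave_zero]
  exact ⟨rfl, rfl⟩

namespace Amp

variable {A : Amp ZZ H K} {D : LineCalculus H} {T : ℝ} {M N : VN H} {b : Op K} {ξ : H}

theorem CCore_ι_wave (t : ℝ) : A.ι (D.wave t) ∈ unitary (Op K) :=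
  Unitary.map_mem A.ι (CCore_wave D t)

theorem CCore_wave_wave (s t : ℝ) : Commute (A.ι (D.wave s)) (A.ι (D.wave t)) := by
  refine Commute.map ?_ A.ι
  rw [Commute, SemiconjBy, ← R084.wave_add, ← R084.wave_add, add_comm]

theorem CCore_lam_sh (g : ZZ) (n : ℤ) : Commute (A.L.lam g) (A.sh D T n) :=
  ((A.com _).lam g).symm.mul_right ((Commute.all _ _).map A.L.lam)

theorem CCore_wave_sh (t : ℝ) (n : ℤ) : Commute (A.ι (D.wave t)) (A.sh D T n) :=
  (CCore_wave_wave _ _).mul_right ((A.com _).lam _)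

theorem CCore_cpi_e (x : Op H) (g : ZZ) (η : H) : A.cpi D T x (A.e g η) =
    A.e g ((D.wave (-((toAdd g : ℤ) * T)) * x * D.wave (-(-((toAdd g : ℤ) * T)))) η) := by
  rw [cpi, mul_apply_eq_comp, mul_apply_eq_comp, W_e, ι_e, star_W_e, neg_neg]
  rfl

theorem CCore_tens (h : Flow D M) {X : Op K} (hX : X ∈ A.tens M) (t : ℝ) :
    A.ι (D.wave t) * X * star (A.ι (D.wave t)) ∈ A.tens M := by
  refine A.mem_tens.2 fun y hy => (CCore_comm (CCore_ι_wave t)).2 ?_
  have := A.mem_tens.1 hX _ (h.commutant (-t) y hy)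
  rwa [neg_neg, map_mul, map_mul, ← R084.star_wave, map_star] at this

theorem CCore_cyc {P : VN K} {ζ : K} (hc : Cyc M ξ)
    (h : ∀ n : ℤ, ∀ x ∈ M, ∃ X ∈ P, X ζ = A.e (ofAdd n) (x ξ)) : Cyc P ζ := by
  refine A.induction_on (p := fun η => η ∈ closure (Set.range fun a : P => (a : Op K) ζ))
    isClosed_closure (subset_closure ⟨⟨0, zero_mem _⟩, rfl⟩) (fun η η' h1 h2 => ?_) fun g => ?_
  · refine map_mem_closure₂ continuous_add h1 h2 ?_
    rintro _ ⟨a, rfl⟩ _ ⟨a', rfl⟩
    exact ⟨⟨a + a', add_mem a.2 a'.2⟩, rfl⟩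
  · refine hc.induction (p := fun η => A.e g η ∈ closure (Set.range fun a : P => (a : Op K) ζ))
      (isClosed_closure.preimage (A.e g).continuous) fun x hx => ?_
    obtain ⟨X, hX, e⟩ := h (toAdd g) x hx
    exact subset_closure ⟨⟨X, hX⟩, e⟩

theorem cpi_mem (h : Flow D M) {x : Op H} (hx : x ∈ M) : A.cpi D T x ∈ A.core D T M := by
  refine (A.mem_core D T).2 ⟨A.mem_tens.2 fun y hy => A.op_ext fun g η => ?_, fun n => ?_⟩
  · rw [mul_apply_eq_comp, mul_apply_eq_comp, ι_e, CCore_cpi_e, CCore_cpi_e, ι_e,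
      ← mul_apply_eq_comp, (commute_of_mem (h _ x hx) hy).eq, mul_apply_eq_comp y]
  · have hW := A.W_unitary D T
    rw [sh_eq, ← CCore_comm hW, cpi]
    simp only [← mul_assoc, Unitary.mul_star_self_of_mem hW, one_mul]
    rw [mul_assoc, Unitary.mul_star_self_of_mem hW, mul_one]
    exact (A.com x).lam _
theorem lam_mem_core (n : ℤ) : A.L.lam (ofAdd n) ∈ A.core D T M :=
  (A.mem_core D T).2 ⟨A.lam_mem_tens M _, CCore_lam_sh _⟩
theorem ι_mem_core' {y : Op H} (hy : y ∈ M.commutant) : A.ι y ∈ (A.core D T M).commutant :=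
  mem_cent_commutant (Or.inl ⟨y, hy, rfl⟩)
theorem sh_mem_core' (n : ℤ) : A.sh D T n ∈ (A.core D T M).commutant :=
  mem_cent_commutant (Or.inr ⟨n, rfl⟩)
theorem IsLog.mem_core (hb : A.IsLog b) : b ∈ A.core D T M :=
  (A.mem_core D T).2 ⟨A.mem_tens.2 fun y _ => (hb.comm _ ((A.com y).lam _)).symm,
    fun n => (hb.comm _ (CCore_lam_sh _ n).symm).symm⟩
theorem IsLog.star_lg' (hb : A.IsLog b) : star (A.lg' D T b) = A.lg' D T b := by
  rw [lg', star_mul, star_mul, star_star, hb.sa, mul_assoc]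
theorem IsLog.commute_lg' (hb : A.IsLog b) {S : Op K} (h : Commute S (A.sh D T 1)) :
    Commute S (A.lg' D T b) := by
  rw [sh_eq, ← CCore_comm (A.W_unitary D T)] at h
  exact (CCore_comm (A.W_unitary D T)).1 (hb.comm _ h)
theorem IsLog.mem_core' (hb : A.IsLog b) : A.lg' D T b ∈ (A.core D T M).commutant :=
  mem_comm.2 fun _ hX => hb.commute_lg' (((A.mem_core D T).1 hX).2 1)
theorem IsLog.commute_ι (hb : A.IsLog b) (x : Op H) : Commute (A.ι x) b :=
  hb.comm _ ((A.com x).lam _)
theorem IsLog.commute_wave_lg' (hb : A.IsLog b) (t : ℝ) :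
    Commute (A.ι (D.wave t)) (A.lg' D T b) :=
  hb.commute_lg' (CCore_wave_sh t 1)
theorem IsLog.commute_self (hb : A.IsLog b) : Commute b (A.lg' D T b) :=
  hb.commute_lg' (hb.comm _ (CCore_lam_sh _ 1).symm).symm
theorem IsLog.urep (hb : A.IsLog b) : URep (A.U D T b) := by
  refine ⟨fun s => mul_mem (mul_mem (CCore_ι_wave _) (expI_unitary hb.sa _))
    (expI_unitary hb.star_lg' _), fun s t => ?_⟩
  have h1 := (commute_expI (hb.commute_ι (D.wave (t * T))) (-s)).eq
  have h2 := (commute_expI (hb.commute_wave_lg' (D := D) (T := T) (t * T)) s).eq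
  have h3 := (commute_expI (commute_expI (hb.commute_self (D := D) (T := T)) s).symm (-t)).eq
  rw [U, U, U, add_mul, R084.wave_add, map_mul, neg_add, expI_add, expI_add]
  simp only [mul_assoc]
  rw [← mul_assoc (expI s _), ← h2, ← mul_assoc (A.ι (D.wave (t * T))), h1, mul_assoc, mul_assoc,
    ← mul_assoc (expI (-t) b), ← h3, mul_assoc]
theorem IsLog.U_one (hb : A.IsLog b) : A.U D T b 1 = 1 := by
  have h1 : expI 1 (A.lg' D T b) = A.sh D T 1 := by
    rw [sh_eq, ← hb.exp]
    exact A.exp_lg' D T b _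
  rw [U, h1, ← star_expI hb.sa, hb.exp, sh, A.L.star_lam, mul_assoc, ← mul_assoc (A.L.lam _),
    ← ((A.com _).lam _).eq, mul_assoc, ← map_mul, inv_mul_cancel, map_one, mul_one, ← map_mul,
    ← R084.wave_add, Int.cast_one, add_neg_cancel, R084.wave_zero, map_one]
theorem IsLog.nrm (hb : A.IsLog b) (h : Flow D M) : Nrm (A.U D T b) (A.core D T M) := by
  intro s x hx
  have h1 : expI (-s) b ∈ A.core D T M := expI_mem hb.mem_core _
  have h2 := (commute_of_mem hx (expI_mem hb.mem_core' s)).eq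
  have h3 := (A.mem_core D T).1 (mul_mem (mul_mem h1 hx) (star_mem h1))
  have e : A.U D T b s * x * star (A.U D T b s) = A.ι (D.wave (s * T)) *
      (expI (-s) b * x * star (expI (-s) b)) * star (A.ι (D.wave (s * T))) := by
    rw [U, star_mul, star_mul, mul_assoc _ (expI s _), ← h2]
    simp only [mul_assoc]
    rw [← mul_assoc (expI s _), Unitary.mul_star_self_of_mem (expI_unitary hb.star_lg' s), one_mul]
  rw [e]
  exact (A.mem_core D T).2 ⟨CCore_tens h h3.1 _, fun n =>
    ((CCore_wave_sh _ n).mul_left (h3.2 n)).mul_left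
      (BMean_comm_star (CCore_ι_wave _) (CCore_wave_sh _ n).symm).symm⟩
theorem cyc_core (h : Flow D M) (hv : ∀ t, D.wave t ξ = ξ) (hc : Cyc M ξ) :
    Cyc (A.core D T M) (A.V ξ) :=
  CCore_cyc (A := A) hc fun n x hx => ⟨_, mul_mem (lam_mem_core n) (cpi_mem h hx), by
    rw [mul_apply_eq_comp, cpi_V, e_apply]⟩
theorem cyc_core' (hv : ∀ t, D.wave t ξ = ξ) (hc : Cyc M.commutant ξ) :
    Cyc (A.core D T M).commutant (A.V ξ) :=
  CCore_cyc (A := A) hc fun n y hy => ⟨_, mul_mem (ι_mem_core' hy) (sh_mem_core' n), by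
    rw [mul_apply_eq_comp, ← e_one, sh_e, mul_one, hv, ι_e]⟩

end Amp

theorem near_core : ∃ C : ℝ, 0 ≤ C ∧ ∀ (H K : Type u) [NormedAddCommGroup H]
    [InnerProductSpace ℂ H] [CompleteSpace H] [NormedAddCommGroup K] [InnerProductSpace ℂ K]
    [CompleteSpace K] (A : Amp ZZ H K) (D : LineCalculus H) (T : ℝ) (M N : VN H) (δ : ℝ),
    Flow D N → 0 ≤ δ → Near M N δ → Near (A.core D T M) (A.core D T N) (C * δ) := by
  obtain ⟨C, hC, h⟩ := near_cent_map.{u}
  refine ⟨C, hC, fun H K _ _ _ _ _ _ A D T M N δ hN hδ hn => ?_⟩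
  refine (A.urep_sh D T).prep.near_cent_union (h H K A.ι M N δ A.ι_injective hδ hn)
    fun n Y hY => ?_
  have key : ∀ X, X ∈ cent (A.ι '' (N.commutant : Set (Op H))) ↔ X ∈ A.tens N := fun X => by
    rw [A.mem_tens, amp_mem_cent, Set.forall_mem_image]
    · rfl
    · rintro _ ⟨y, hy, rfl⟩
      exact ⟨star y, star_mem hy, map_star _ _⟩
  rw [key] at hY ⊢
  have h1 := A.lam_mem_tens N (ofAdd n)
  have := Amp.CCore_tens hN (mul_mem (mul_mem h1 hY) (star_mem h1)) (-(n * T))
  rw [Amp.sh, star_mul]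
  simpa only [mul_assoc] using this

end Crest.Agent.R078
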