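import Crest.Agent.R078.CFix
import Crest.Agent.R078.AAmp
import Crest.Agent.R078.BDist
import Crest.Agent.R078.BSpec

/-! Row 78, stage 6: the discrete core on `ℓ²(ℤ, H)` and its periodic flow. -/

set_option autoImplicit false

open scoped InnerProductSpace
open Filter Topology

namespace Crest.Agent.R078

open Crest.OpAlg Crest.Agent.R078X Multiplicative

universe u

variable {H : Type*} [NormedAddCommGroup H] [InnerProductSpace ℂ H] [CompleteSpace H]
variable {K : Type*} [NormedAddCommGroup K] [InnerProductSpace ℂ K] [CompleteSpace K]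

/-- The integers. -/
abbrev ZZ := Multiplicative ℤ

/-- `M` is invariant under the flow. -/
def Flow (D : LineCalculus H) (M : VN H) : Prop :=
  ∀ t, ∀ x ∈ M, D.wave t * x * D.wave (-t) ∈ M

theorem CCore0_wave_mul_neg (D : LineCalculus H) (t : ℝ) : D.wave t * D.wave (-t) = 1 := by
  rw [← R084.wave_add, add_neg_cancel, R084.wave_zero]

theorem CCore0_wave_neg_mul (D : LineCalculus H) (t : ℝ) : D.wave (-t) * D.wave t = 1 := by
  rw [← R084.wave_add, neg_add_cancel, R084.wave_zero]

theorem CCore0_wave_unitary (D : LineCalculus H) (t : ℝ) : D.wave t ∈ unitary (Op H) := by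
  rw [Unitary.mem_iff, R084.star_wave]
  exact ⟨CCore0_wave_neg_mul D t, CCore0_wave_mul_neg D t⟩

theorem Flow.commutant {D : LineCalculus H} {M : VN H} (h : Flow D M) : Flow D M.commutant := by
  intro t y hy
  rw [mem_comm] at hy ⊢
  intro x hx
  have h1 := (hy _ (h (-t) x hx)).eq
  rw [neg_neg] at h1
  calc x * (D.wave t * y * D.wave (-t))
      = (D.wave t * D.wave (-t)) * x * (D.wave t * y * D.wave (-t)) := by
        rw [CCore0_wave_mul_neg, one_mul]
    _ = D.wave t * (D.wave (-t) * x * D.wave t * y) * D.wave (-t) := by simp only [mul_assoc]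
    _ = D.wave t * y * D.wave (-t) * x * (D.wave t * D.wave (-t)) := by
        rw [h1]; simp only [mul_assoc]
    _ = D.wave t * y * D.wave (-t) * x := by rw [CCore0_wave_mul_neg, mul_one]

namespace Amp

variable (A : Amp ZZ H K) (D : LineCalculus H) (T : ℝ)

/-- `⊕ₙ Δ^{i n T}`. -/
noncomputable def W : Op K := bsum A.L.f fun g => A.ι (D.wave ((toAdd g : ℤ) * T))

/-- `Δ^{-i n T} ⊗ λ^n`. -/
noncomputable def sh (n : ℤ) : Op K := A.ι (D.wave (-(n * T))) * A.L.lam (ofAdd n)

/-- The crossed product by `σ_T`. -/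
noncomputable def core (M : VN H) : VN K := cent (A.ι '' M.commutant ∪ Set.range (A.sh D T))

/-- The embedding of `M` in the crossed product. -/
noncomputable def cpi (x : Op H) : Op K := star (A.W D T) * A.ι x * A.W D T

/-- `b` is a logarithm of the shift. -/
structure IsLog (b : Op K) : Prop where
  sa : star b = b
  exp : expI 1 b = A.L.lam (ofAdd 1)
  comm : ∀ S, Commute S (A.L.lam (ofAdd 1)) → Commute S b

theorem exists_isLog : ∃ b, A.IsLog b := by
  obtain ⟨b, h1, -, h2, h3⟩ := exists_log (rep_unitary A.L.star_lam (ofAdd 1))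
  exact ⟨b, h1, h2, h3⟩

/-- The logarithm of `sh 1`. -/
noncomputable def lg' (b : Op K) : Op K := star (A.W D T) * b * A.W D T

/-- The periodic flow. -/
noncomputable def U (b : Op K) (s : ℝ) : Op K :=
  A.ι (D.wave (s * T)) * expI (-s) b * expI s (A.lg' D T b)

theorem CCore0_ι_unitary (t : ℝ) : A.ι (D.wave t) ∈ unitary (Op K) := by
  rw [Unitary.mem_iff, ← map_star, ← map_mul, ← map_mul, R084.star_wave, CCore0_wave_mul_neg,
    CCore0_wave_neg_mul, map_one]
  exact ⟨rfl, rfl⟩

theorem CCore0_blk : Blk A.L.f fun g : ZZ => A.ι (D.wave ((toAdd g : ℤ) * T)) :=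
  ⟨fun g => (A.com _).f g, 1, fun _ => unitary_norm_le (A.CCore0_ι_unitary D _)⟩

theorem W_e (g : ZZ) (η : H) : A.W D T (A.e g η) = A.e g (D.wave ((toAdd g : ℤ) * T) η) := by
  have h := congrArg (fun S : Op K => S (A.e g η)) (A.L.res.bsum_mul (A.CCore0_blk D T) g)
  simp only [ContinuousLinearMap.mul_apply, f_e, ι_e] at h
  exact h
theorem W_unitary : A.W D T ∈ unitary (Op K) :=
  A.L.res.bsum_unitary (A.CCore0_blk D T).comm fun _ => A.CCore0_ι_unitary D _
theorem star_W_e (g : ZZ) (η : H) :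
    star (A.W D T) (A.e g η) = A.e g (D.wave (-((toAdd g : ℤ) * T)) η) := by
  have h := congrArg (fun S : Op K => S (A.e g (D.wave (-((toAdd g : ℤ) * T)) η)))
    (Unitary.mem_iff.1 (A.W_unitary D T)).1
  simp only [ContinuousLinearMap.mul_apply, W_e, R084.wave_wave_neg,
    ContinuousLinearMap.one_apply] at h
  exact h
theorem co_W (g : ZZ) (ζ : K) :
    A.co g (A.W D T ζ) = D.wave ((toAdd g : ℤ) * T) (A.co g ζ) := by
  refine ext_inner_left ℂ fun η => ?_
  rw [← inner_e, R084.inner_wave_right, ← inner_e, ← star_W_e,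
    ContinuousLinearMap.star_eq_adjoint, ContinuousLinearMap.adjoint_inner_left]
theorem co_star_W (g : ZZ) (ζ : K) :
    A.co g (star (A.W D T) ζ) = D.wave (-((toAdd g : ℤ) * T)) (A.co g ζ) := by
  refine ext_inner_left ℂ fun η => ?_
  rw [← inner_e, R084.inner_wave_right, neg_neg, ← inner_e, ← W_e,
    ContinuousLinearMap.star_eq_adjoint, ContinuousLinearMap.adjoint_inner_right]
theorem W_V (η : H) : A.W D T (A.V η) = A.V η := by
  rw [← e_one, W_e]
  simp [R084.wave_zero]
theorem star_W_V (η : H) : star (A.W D T) (A.V η) = A.V η := by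
  rw [← e_one, star_W_e]
  simp [R084.wave_zero]
theorem commute_W (t : ℝ) : Commute (A.ι (D.wave t)) (A.W D T) := by
  refine A.op_ext fun g η => ?_
  simp only [ContinuousLinearMap.mul_apply, W_e, ι_e, R084.wave_wave, add_comm t]
theorem sh_e (n : ℤ) (g : ZZ) (η : H) :
    A.sh D T n (A.e g η) = A.e (ofAdd n * g) (D.wave (-(n * T)) η) := by
  rw [sh, ContinuousLinearMap.mul_apply, lam_e, ι_e]
theorem sh_eq (n : ℤ) : A.sh D T n = star (A.W D T) * A.L.lam (ofAdd n) * A.W D T := by
  refine A.op_ext fun g η => ?_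
  simp only [ContinuousLinearMap.mul_apply, sh_e, W_e, lam_e, star_W_e, R084.wave_wave]
  congr 3
  rw [toAdd_mul, toAdd_ofAdd]
  push_cast
  ring
theorem urep_sh : URep (A.sh D T) := by
  refine ⟨fun n => mul_mem (A.CCore0_ι_unitary D _) (rep_unitary A.L.star_lam _), fun s t => ?_⟩
  refine A.op_ext fun g η => ?_
  simp only [ContinuousLinearMap.mul_apply, sh_e, R084.wave_wave, ofAdd_add, mul_assoc]
  congr 3
  push_cast
  ring
theorem mem_core {M : VN H} {X : Op K} :
    X ∈ A.core D T M ↔ X ∈ A.tens M ∧ ∀ n, Commute X (A.sh D T n) := by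
  rw [core, (A.urep_sh D T).prep.mem_cent_union, mem_tens, amp_mem_cent]
  · refine and_congr ⟨fun h y hy => h _ ⟨y, hy, rfl⟩, ?_⟩ Iff.rfl
    rintro h _ ⟨y, hy, rfl⟩
    exact h y hy
  · rintro _ ⟨y, hy, rfl⟩
    exact ⟨star y, star_mem hy, map_star _ _⟩
theorem cpi_V (x : Op H) (η : H) : A.cpi D T x (A.V η) = A.V (x η) := by
  rw [cpi, ContinuousLinearMap.mul_apply, ContinuousLinearMap.mul_apply, W_V, A.ι_V, star_W_V]
theorem star_cpi (x : Op H) : star (A.cpi D T x) = A.cpi D T (star x) := by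
  rw [cpi, cpi, star_mul, star_mul, star_star, map_star, mul_assoc]
theorem norm_cpi_le (x : Op H) : ‖A.cpi D T x‖ ≤ ‖x‖ := by
  have h1 := unitary_norm_le (A.W_unitary D T)
  have h2 : ‖star (A.W D T)‖ ≤ 1 := by rwa [norm_star]
  rw [cpi, ← A.norm_ι x]
  exact (norm_mul_le _ _).trans ((mul_le_of_le_one_right (norm_nonneg _) h1).trans
    ((norm_mul_le _ _).trans (mul_le_of_le_one_left (norm_nonneg _) h2)))
theorem exp_lg' (b : Op K) (z : ℂ) : NormedSpace.exp (z • A.lg' D T b) =
    star (A.W D T) * NormedSpace.exp (z • b) * A.W D T := by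
  let +nondep : NormedAlgebra ℚ (Op K) := .restrictScalars ℚ ℂ (Op K)
  obtain ⟨h1, h2⟩ := Unitary.mem_iff.1 (A.W_unitary D T)
  have h := NormedSpace.exp_units_conj (⟨star (A.W D T), A.W D T, h1, h2⟩ : (Op K)ˣ) (z • b)
  rw [lg', ← smul_mul_assoc, ← mul_smul_comm]
  exact h

end Amp

end Crest.Agent.R078
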