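import Crest.Agent.R078.BMean
import Crest.Agent.R078.BBasic

/-! Row 78, stage 6: fixed point algebras acting on the fixed vectors of a unitary
representation. -/

set_option autoImplicit false

open scoped InnerProductSpace
open Filter Topology

namespace Crest.Agent.R078

variable {K : Type*} [NormedAddCommGroup K] [InnerProductSpace ℂ K] [CompleteSpace K]
variable {G : Type*} [AddCommGroup G] {U : G → Op K} {P Q : VN K} {X Y : Op K} {η : K}

/-- Unitary representations. -/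
structure URep (U : G → Op K) : Prop where
  mem : ∀ s, U s ∈ unitary (Op K)
  add : ∀ s t, U (s + t) = U s * U t

theorem URep.prep (hU : URep U) : PRep U := ⟨hU.mem, fun a b => ⟨1, norm_one, by
  rw [one_smul, hU.add]⟩⟩

theorem URep.star_eq (hU : URep U) (s : G) : star (U s) = U (-s) := by
  have h0 : U 0 = 1 := by
    have h1 := hU.add 0 0
    rw [add_zero] at h1
    have h2 := congrArg (star (U 0) * ·) h1
    simp only [← mul_assoc, Unitary.star_mul_self_of_mem (hU.mem 0), one_mul] at h2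
    exact h2.symm
  calc star (U s) = star (U s) * (U s * U (-s)) := by rw [← hU.add, add_neg_cancel, h0, mul_one]
    _ = U (-s) := by rw [← mul_assoc, Unitary.star_mul_self_of_mem (hU.mem s), one_mul]

/-- The fixed vectors. -/
def fixS (U : G → Op K) : Submodule ℂ K where
  carrier := {ζ | ∀ s, U s ζ = ζ}
  add_mem' := fun ha hb s => by rw [map_add, ha s, hb s]
  zero_mem' := fun s => map_zero _
  smul_mem' := fun c _ ha s => by rw [map_smul, ha s]

omit [CompleteSpace K] [AddCommGroup G] in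
theorem isClosed_fixS (U : G → Op K) : IsClosed (fixS U : Set K) := by
  have : (fixS U : Set K) = ⋂ s, {ζ | U s ζ = ζ} := by ext ζ; simp [fixS]
  rw [this]
  exact isClosed_iInter fun s => isClosed_eq (U s).continuous continuous_id

instance (U : G → Op K) : CompleteSpace (fixS U) := (isClosed_fixS U).completeSpace_coe

/-- The projection onto the fixed vectors. -/
noncomputable def fixP (U : G → Op K) : K →L[ℂ] fixS U := (fixS U).orthogonalProjection

/-- Compression to the fixed vectors. -/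
noncomputable def res (U : G → Op K) (X : Op K) : Op (fixS U) :=
  (fixP U).comp (X.comp (fixS U).subtypeL)

/-- The fixed point algebra on the fixed vectors. -/
noncomputable def fixVN (U : G → Op K) (P : VN K) : VN (fixS U) :=
  cent (res U '' {Y | Y ∈ P.commutant ∧ ∀ s, Commute Y (U s)})

/-- `U` normalises `P`. -/
def Nrm (U : G → Op K) (P : VN K) : Prop := ∀ s, ∀ x ∈ P, U s * x * star (U s) ∈ P

theorem Nrm.commutant (hU : URep U) (h : Nrm U P) : Nrm U P.commutant := by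
  intro s y hy
  refine mem_comm.2 fun x hx => ?_
  have h1 := (commute_of_mem (h (-s) x hx) hy).eq
  rw [← hU.star_eq, star_star] at h1
  have h2 := Unitary.mul_star_self_of_mem (hU.mem s)
  calc x * (U s * y * star (U s)) = U s * (star (U s) * x * U s * y) * star (U s) := by
        simp only [← mul_assoc, h2, one_mul]
    _ = U s * y * star (U s) * x := by
        rw [h1]
        simp only [mul_assoc, h2, mul_one]

omit [AddCommGroup G] in
theorem norm_fixP_le (U : G → Op K) : ‖fixP U‖ ≤ 1 :=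
  (fixS U).orthogonalProjectionOnto_norm_le

omit [AddCommGroup G] in
theorem norm_res_le (U : G → Op K) (X : Op K) : ‖res U X‖ ≤ ‖X‖ := by
  refine ContinuousLinearMap.opNorm_le_bound _ (norm_nonneg _) fun ζ => ?_
  exact ((fixS U).norm_orthogonalProjectionOnto_apply_le (X ζ)).trans (X.le_opNorm _)

omit [AddCommGroup G] in
theorem star_res (U : G → Op K) (X : Op K) : star (res U X) = res U (star X) := by
  symm
  rw [ContinuousLinearMap.star_eq_adjoint (res U X), ContinuousLinearMap.eq_adjoint_iff]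
  intro a b
  change ⟪(fixS U).orthogonalProjectionOnto (star X a), b⟫_ℂ =
    ⟪a, (fixS U).orthogonalProjectionOnto (X b)⟫_ℂ
  rw [Submodule.inner_orthogonalProjectionOnto_eq_of_mem_right,
    Submodule.inner_orthogonalProjectionOnto_eq_of_mem_left, ContinuousLinearMap.star_eq_adjoint,
    ContinuousLinearMap.adjoint_inner_left]

omit [AddCommGroup G] in
theorem res_apply (h : ∀ s, Commute X (U s)) (ζ : fixS U) : (res U X ζ : K) = X ζ := by
  refine Submodule.starProjection_eq_self_iff.2 fun s => ?_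
  change (U s * X) ζ = X ζ
  rw [← (h s).eq, mul_apply_eq_comp, ζ.2 s]

theorem CFix_bd (hU : URep U) : R121.Bd U :=
  ⟨1, fun s => ContinuousLinearMap.opNorm_le_bound _ zero_le_one fun ζ => by
    rw [ContinuousLinearMap.norm_map_of_mem_unitary (hU.mem s), one_mul]⟩

theorem CFix_vm_sub {v : G → K} (hv : R121.Bd v) {ζ : K} {ε : ℝ} (h : ∀ s, ‖v s - ζ‖ ≤ ε) :
    ‖vm (invM G) v - ζ‖ ≤ ε := by
  have := norm_vm_le (m := invM G) h
  rwa [vm_sub hv (BMean1_bd_const ζ), vm_const] at this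

theorem CFix_fixP_eq (hU : URep U) (ζ : K) : (fixP U ζ : K) = wm (invM G) U ζ := by
  refine Submodule.eq_starProjection_of_mem_orthogonal (fun s => ?_) ?_
  · rw [← mul_apply_eq_comp, mul_wm (CFix_bd hU), ← wm_shift (invM_inv G) (CFix_bd hU) s]
    simp only [← hU.add, add_comm s]
  · refine (Submodule.mem_orthogonal _ _).2 fun k hk => ?_
    have e : ∀ s, ⟪k, U s ζ⟫_ℂ = ⟪k, ζ⟫_ℂ := fun s => by
      rw [← ContinuousLinearMap.adjoint_inner_left, ← ContinuousLinearMap.star_eq_adjoint,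
        hU.star_eq, hk (-s)]
    rw [inner_sub_right, inner_wm (CFix_bd hU)]
    simp only [e, R121.Mn.map_const, sub_self]

theorem CFix_star (hU : URep U) (h : ∀ s, Commute X (U s)) (s : G) : Commute (star X) (U s) := by
  have := (h (-s)).star_star
  rwa [hU.star_eq, neg_neg] at this

omit [AddCommGroup G] in
theorem CFix_res_mul (h : ∀ s, Commute Y (U s)) : res U X * res U Y = res U (X * Y) := by
  refine ContinuousLinearMap.ext fun ζ => ?_
  change fixP U (X (res U Y ζ : K)) = fixP U (X (Y ζ))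
  rw [res_apply h]

theorem res_fixP (hU : URep U) (h : ∀ s, Commute X (U s)) (ζ : K) :
    res U X (fixP U ζ) = fixP U (X ζ) := by
  refine Subtype.ext ?_
  rw [res_apply h, CFix_fixP_eq hU, CFix_fixP_eq hU, ← mul_apply_eq_comp,
    (commute_wm (CFix_bd hU) h).eq, mul_apply_eq_comp]

/-- The projection is the mean of `U s`. -/
theorem fixP_eq (hU : URep U) (ζ : K) : (fixP U ζ : K) = wm (invM G) U ζ :=
  CFix_fixP_eq hU ζ

theorem norm_fixP_sub_le (hU : URep U) {ζ : K} {ε : ℝ} (h : ∀ s, ‖U s ζ - ζ‖ ≤ ε) :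
    ‖(fixP U ζ : K) - ζ‖ ≤ ε := by
  rw [fixP_eq hU, wm_apply (CFix_bd hU)]
  exact CFix_vm_sub (bd_apply (CFix_bd hU) ζ) h

theorem norm_avg_sub_le (hU : URep U) {ζ : K} {ε ε' : ℝ} (h : ∀ s, ‖U s ζ - ζ‖ ≤ ε)
    (h' : ∀ s, ‖U s (X ζ) - X ζ‖ ≤ ε') : ‖avg U X ζ - X ζ‖ ≤ ‖X‖ * ε + ε' := by
  rw [avg, wm_apply (hU.prep.bd X)]
  refine CFix_vm_sub (bd_apply (hU.prep.bd X) ζ) fun s => ?_
  have e : (U s * X * star (U s)) ζ - X ζ = U s (X (U (-s) ζ - ζ)) + (U s (X ζ) - X ζ) := by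
    rw [hU.star_eq, mul_apply_eq_comp, mul_apply_eq_comp, map_sub, map_sub]
    abel
  rw [e]
  refine (norm_add_le _ _).trans (add_le_add ?_ (h' s))
  rw [ContinuousLinearMap.norm_map_of_mem_unitary (hU.mem s)]
  exact (X.le_opNorm _).trans (mul_le_mul_of_nonneg_left (h _) (norm_nonneg _))

theorem avg_apply_fix (hU : URep U) (X : Op K) (hη : η ∈ fixS U) :
    avg U X η = fixP U (X η) := by
  rw [fixP_eq hU, avg, wm_apply (hU.prep.bd X), wm_apply (CFix_bd hU)]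
  congr 1
  funext s
  rw [hU.star_eq, mul_apply_eq_comp, mul_apply_eq_comp, hη (-s)]

theorem res_mem (hU : URep U) (hX : X ∈ P) (h : ∀ s, Commute X (U s)) : res U X ∈ fixVN U P := by
  refine mem_cent.2 ?_
  rintro _ ⟨Y, ⟨hY, hY'⟩, rfl⟩
  refine ⟨?_, ?_⟩
  · change _ * _ = _ * _
    rw [CFix_res_mul hY', CFix_res_mul h, (commute_of_mem hX hY).eq]
  · change _ * _ = _ * _
    rw [star_res, CFix_res_mul (CFix_star hU hY'), CFix_res_mul h,
      (commute_of_mem hX (star_mem hY)).eq]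

theorem res_mem' (hY : Y ∈ P.commutant) (h : ∀ s, Commute Y (U s)) :
    res U Y ∈ (fixVN U P).commutant :=
  mem_cent_commutant ⟨Y, ⟨hY, h⟩, rfl⟩

theorem CFix_cyc (hU : URep U) (hP : Nrm U P) (hη : η ∈ fixS U) (h : Cyc P η) {A : VN (fixS U)}
    (hA : ∀ X ∈ P, (∀ s, Commute X (U s)) → res U X ∈ A) : Cyc A (⟨η, hη⟩ : fixS U) := by
  intro ζ
  have e : fixP U ζ = ζ := Subtype.ext (Submodule.starProjection_eq_self_iff.2 ζ.2)
  rw [← e]
  refine map_mem_closure (fixP U).continuous (h (ζ : K)) ?_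
  rintro _ ⟨X, rfl⟩
  refine ⟨⟨res U (avg U X), hA _ (hU.prep.avg_mem fun s => hP s _ X.2) (hU.prep.commute_avg _)⟩,
    Subtype.ext ?_⟩
  exact (res_apply (hU.prep.commute_avg _) _).trans (avg_apply_fix hU _ hη)

theorem CFix_sqrt (hU : URep U) (hP : Nrm U P) (hY : Y ∈ P) :
    ∃ r ∈ P, (∀ s, Commute r (U s)) ∧ ∀ ξ ∈ fixS U, ‖r ξ‖ = ‖Y ξ‖ := by
  have hYY : ∀ ξ : K, ⟪ξ, (star Y * Y) ξ⟫_ℂ = ⟪Y ξ, Y ξ⟫_ℂ := fun ξ => by
    rw [mul_apply_eq_comp, ContinuousLinearMap.star_eq_adjoint,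
      ContinuousLinearMap.adjoint_inner_right]
  have hsa : IsSelfAdjoint (avg U (star Y * Y)) := by
    rw [IsSelfAdjoint, ← hU.prep.avg_star, star_mul, star_star]
  have h0 : 0 ≤ avg U (star Y * Y) := by
    rw [ContinuousLinearMap.nonneg_iff_isPositive, ContinuousLinearMap.isPositive_def']
    refine ⟨hsa, fun ξ => ?_⟩
    rw [ContinuousLinearMap.reApplyInnerSelf_apply, inner_re_symm]
    refine hU.prep.avg_nonneg (fun ζ => ?_) ξ
    rw [hYY]
    exact inner_self_nonneg (𝕜 := ℂ)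
  have hr : cfc Real.sqrt (avg U (star Y * Y)) * cfc Real.sqrt (avg U (star Y * Y)) =
      avg U (star Y * Y) := by
    rw [← cfc_mul _ _ _]
    conv_rhs => rw [← cfc_id' ℝ (avg U (star Y * Y))]
    exact cfc_congr fun t ht => Real.mul_self_sqrt (spectrum_nonneg_of_nonneg h0 ht)
  refine ⟨cfc Real.sqrt (avg U (star Y * Y)),
    cfc_real_mem _ (hU.prep.avg_mem fun s => hP s _ (mul_mem (star_mem hY) hY)),
    fun s => Commute.cfc_real (hU.prep.commute_avg _ s) _, fun ξ hξ => ?_⟩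
  have hs : IsSelfAdjoint (cfc Real.sqrt (avg U (star Y * Y))) := cfc_predicate _ _
  rw [@norm_eq_sqrt_re_inner ℂ, @norm_eq_sqrt_re_inner ℂ, ← hYY,
    ← ContinuousLinearMap.adjoint_inner_right, ← ContinuousLinearMap.star_eq_adjoint, hs.star_eq,
    ← mul_apply_eq_comp, hr, avg_apply_fix hU _ hξ]
  congr 2
  exact Submodule.inner_orthogonalProjectionOnto_eq_of_mem_left (K := fixS U) ⟨ξ, hξ⟩ _

theorem cyc_fix (hU : URep U) (hP : Nrm U P) (hη : η ∈ fixS U) (h : Cyc P η) :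
    Cyc (fixVN U P) (⟨η, hη⟩ : fixS U) :=
  CFix_cyc hU hP hη h fun _ hX hX' => res_mem hU hX hX'

theorem cyc_fix' (hU : URep U) (hP : Nrm U P) (hη : η ∈ fixS U) (h : Cyc P.commutant η) :
    Cyc (fixVN U P).commutant (⟨η, hη⟩ : fixS U) :=
  CFix_cyc hU (hP.commutant hU) hη h fun _ hX hX' => res_mem' hX hX'

/-- For `Y ∈ P'`: `‖Y (x η)‖² = ⟪x η, h (x η)⟫ = ‖x (res √h η)‖² ≤ ‖x‖² ‖Y η‖²` with
`h = avg U (Y⋆Y)`; `Cyc.exists_op` gives `X₀ ∈ P` with `X₀ η = x η`; take `X = avg U X₀`. -/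
theorem exists_fix_lift (hU : URep U) (hP : Nrm U P) (hη : η ∈ fixS U) (h : Cyc P.commutant η)
    {x : Op (fixS U)} (hx : x ∈ fixVN U P) :
    ∃ X ∈ P, (∀ s, Commute X (U s)) ∧ ‖X‖ ≤ ‖x‖ ∧ res U X = x := by
  have key : ∀ Y ∈ P.commutant, ‖Y (x ⟨η, hη⟩ : K)‖ ≤ ‖x‖ * ‖Y η‖ := by
    intro Y hY
    obtain ⟨r, hr, hr', hr''⟩ := CFix_sqrt hU (hP.commutant hU) hY
    rw [← hr'' _ (x ⟨η, hη⟩).2, ← hr'' η hη, ← res_apply hr', ← mul_apply_eq_comp,
      ← (commute_of_mem hx (res_mem' hr hr')).eq, mul_apply_eq_comp,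
      ← res_apply hr' (⟨η, hη⟩ : fixS U)]
    exact x.le_opNorm _
  obtain ⟨X₀, hX₀, h1, h2⟩ := h.exists_op _ (norm_nonneg x) key
  rw [VonNeumannAlgebra.commutant_commutant] at hX₀
  have hm : avg U X₀ ∈ P := hU.prep.avg_mem fun s => hP s _ hX₀
  refine ⟨avg U X₀, hm, hU.prep.commute_avg X₀, (hU.prep.norm_avg_le _).trans h1, ?_⟩
  rw [← sub_eq_zero]
  refine (cyc_fix' hU hP hη h).sep (sub_mem (res_mem hU hm (hU.prep.commute_avg X₀)) hx) ?_
  rw [ContinuousLinearMap.sub_apply, sub_eq_zero]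
  refine Subtype.ext ?_
  rw [res_apply (hU.prep.commute_avg X₀), avg_apply_fix hU _ hη, h2]
  exact Submodule.starProjection_eq_self_iff.2 (x ⟨η, hη⟩).2

theorem near_fix (hU : URep U) (hP : Nrm U P) (hQ : Nrm U Q) (hη : η ∈ fixS U)
    (h : Cyc P.commutant η) {δ : ℝ} (hδ : 0 ≤ δ) (hn : Near P Q δ) :
    Near (fixVN U P) (fixVN U Q) δ := by
  intro x hx
  obtain ⟨X, hX, h1, h2, rfl⟩ := exists_fix_lift hU hP hη h hx
  obtain ⟨Y, hY, h3, h4⟩ := hU.prep.avg_near hn hQ hX h1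
  refine ⟨res U Y, res_mem hU hY h3, ?_⟩
  have e : res U X - res U Y = res U (X - Y) := by
    ext ζ
    simp [res]
  rw [e]
  exact (norm_res_le U _).trans (h4.trans (mul_le_mul_of_nonneg_left h2 hδ))

theorem tr_fix (hU : URep U) (hP : Nrm U P) (hη : η ∈ fixS U) (h : Cyc P.commutant η)
    (ht : ∀ X ∈ P, (∀ s, Commute X (U s)) → ‖star X η‖ = ‖X η‖) :
    Tr (fixVN U P) (⟨η, hη⟩ : fixS U) := by
  intro x hx
  obtain ⟨X, hX, h1, -, rfl⟩ := exists_fix_lift hU hP hη h hx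
  rw [star_res, ← Submodule.norm_coe, ← Submodule.norm_coe, res_apply h1,
    res_apply (CFix_star hU h1)]
  exact ht X hX h1

theorem CFix_tendsto {ι : Type*} {l : Filter ι} {U : ι → G → Op K} (hU : ∀ i, URep (U i))
    {ζ ζ' : K} (h : ∀ ε > 0, ∀ᶠ i in l, ∀ s, ‖U i s ζ - ζ‖ ≤ ε)
    (h' : ∀ ε > 0, ∀ᶠ i in l, ∀ s, ‖U i s ζ' - ζ'‖ ≤ ε) {c : ℝ} {X : ι → Op K}
    (hX : ∀ i, ‖X i‖ ≤ c) (h1 : ∀ i, X i ζ = ζ') :
    Tendsto (fun i => ‖res (U i) (avg (U i) (X i)) (fixP (U i) ζ) - fixP (U i) ζ'‖) l (𝓝 0) := by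
  refine Metric.tendsto_nhds.2 fun ε hε => ?_
  have hc : 0 < |c| + 2 := by positivity
  filter_upwards [h _ (div_pos hε hc), h' _ (div_pos hε hc)] with i hi hi'
  rw [dist_zero_right, norm_norm, res_fixP (hU i) ((hU i).prep.commute_avg _), ← map_sub]
  have h2 := norm_avg_sub_le (X := X i) (hU i) hi (by rw [h1]; exact hi')
  rw [h1] at h2
  refine (((fixS (U i)).norm_orthogonalProjectionOnto_apply_le _).trans h2).trans_lt ?_
  have h3 : ‖X i‖ * (ε / (|c| + 2)) ≤ |c| * (ε / (|c| + 2)) :=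
    mul_le_mul_of_nonneg_right ((hX i).trans (le_abs_self c)) (div_pos hε hc).le
  have h4 : (|c| + 2) * (ε / (|c| + 2)) = ε := mul_div_cancel₀ _ hc.ne'
  have h5 := div_pos hε hc
  linarith

/-- Approximate intertwiners: `V₀` is an isometry whose range becomes almost fixed. -/
theorem appInt_fix {H : Type*} [NormedAddCommGroup H] [InnerProductSpace ℂ H] [CompleteSpace H]
    {ι : Type*} {l : Filter ι} {U : ι → G → Op K} (hU : ∀ i, URep (U i)) (V₀ : H →L[ℂ] K)
    (hV : ∀ ζ, ∀ ε > 0, ∀ᶠ i in l, ∀ s, ‖U i s (V₀ ζ) - V₀ ζ‖ ≤ ε) {x : Op H} {X : ι → Op K}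
    (hX : ∀ i, ‖X i‖ ≤ ‖x‖) (h1 : ∀ i ζ, X i (V₀ ζ) = V₀ (x ζ))
    (h2 : ∀ i ζ, star (X i) (V₀ ζ) = V₀ (star x ζ)) :
    (∀ i, ‖res (U i) (avg (U i) (X i))‖ ≤ ‖x‖) ∧
    (∀ ζ, Tendsto (fun i => ‖res (U i) (avg (U i) (X i)) (fixP (U i) (V₀ ζ)) -
      fixP (U i) (V₀ (x ζ))‖) l (𝓝 0)) ∧
    ∀ ζ, Tendsto (fun i => ‖star (res (U i) (avg (U i) (X i))) (fixP (U i) (V₀ ζ)) -
      fixP (U i) (V₀ (star x ζ))‖) l (𝓝 0) := by
  refine ⟨fun i => (norm_res_le _ _).trans (((hU i).prep.norm_avg_le _).trans (hX i)),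
    fun ζ => CFix_tendsto hU (hV ζ) (hV _) hX fun i => h1 i ζ, fun ζ => ?_⟩
  simp only [star_res, fun i => ((hU i).prep.avg_star (X i)).symm]
  exact CFix_tendsto (X := fun i => star (X i)) hU (hV ζ) (hV _)
    (fun i => (norm_star (X i)).trans_le (hX i)) fun i => h2 i ζ

end Crest.Agent.R078
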