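import Crest.Agent.R078.CTr
import Crest.Agent.R078.CApp
import Crest.Agent.R078.BDesc

/-! Row 78, stage 6: reduction to the tracial case through the discrete core. -/

set_option autoImplicit false

open scoped InnerProductSpace
open Filter Topology

namespace Crest.Agent.R078

open Crest.OpAlg

universe u

/-- Common flow, which is the modular flow of `M`. -/
def Cls.flow : Cls.{u} := fun H _ _ _ M N =>
  TopologicalSpace.SeparableSpace H ∧ ∃ (ξ : H) (D : LineCalculus H), CycSep M ξ ∧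
    Cyc N.commutant ξ ∧ Flow D M ∧ Flow D N ∧ (∀ t, D.wave t ξ = ξ) ∧
    ∀ x ∈ M, ∀ y, D.HalfExp (x ξ) y → ‖y‖ = ‖star x ξ‖

lemma Cyc.smul {K : Type*} [NormedAddCommGroup K] [InnerProductSpace ℂ K] [CompleteSpace K]
    {P : VN K} {η : K} (h : Cyc P η) {c : ℂ} (hc : c ≠ 0) : Cyc P (c • η) :=
  Dense.mono (by
    rintro _ ⟨a, rfl⟩
    exact ⟨⟨c⁻¹ • (a : Op K), P.toStarSubalgebra.smul_mem a.2 _⟩, by simp [smul_smul, hc]⟩) h

theorem good_flow (hQ : GoodOn (Cls.std.{u} True)) : GoodOn Cls.flow.{u} := by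
  obtain ⟨C, hC, hnear⟩ := near_core.{u}
  refine good_of_desc (C := C) one_pos ?_ hQ
  rintro H _ _ _ M N δ κ ε ⟨hsep, ξ, D, hM, hN, fM, fN, hv, kms⟩ hδ - hcl - hε hNS
  obtain ⟨A⟩ := exists_amp ZZ H
  obtain ⟨b, hb⟩ := A.exists_isLog
  have hU : ∀ T, URep (A.U D T b) := fun T => hb.urep
  have happ : ∀ ζ, ∀ ε > 0, ∀ᶠ T in 𝓝[>] (0 : ℝ), ∀ s, ‖A.U D T b s (A.V ζ) - A.V ζ‖ ≤ ε :=
    fun ζ ε hε => (hb.approx ζ hε).filter_mono nhdsWithin_le_nhds
  have hVn : ‖A.V‖ ≤ 1 := ContinuousLinearMap.opNorm_le_bound _ zero_le_one fun ζ => by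
    rw [A.norm_V, one_mul]
  refine ns_desc (𝓝[>] (0 : ℝ)) (K := fun T => fixS (A.U D T b))
    (fun T => fixVN _ (A.core D T M)) (fun T => fixVN _ (A.core D T N))
    (fun T => (fixP (A.U D T b)).comp A.V) (fun T => ?_) (fun ζ => ?_) (fun x hx => ?_)
    (fun y hy => ?_) hε ?_
  · exact (ContinuousLinearMap.opNorm_comp_le _ _).trans
      (mul_le_one₀ (norm_fixP_le _) (norm_nonneg _) hVn)
  · rw [← A.norm_V ζ]
    refine Tendsto.norm (f := fun T => (fixP (A.U D T b) (A.V ζ) : LL ZZ H))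
      (Metric.tendsto_nhds.2 fun ε hε => ?_)
    filter_upwards [happ ζ _ (half_pos hε)] with T hT
    rw [dist_eq_norm]
    exact (norm_fixP_sub_le (hU T) hT).trans_lt (half_lt_self hε)
  · obtain ⟨h1, h2, h3⟩ := appInt_fix hU A.V happ (X := fun T => A.cpi D T x)
      (fun T => A.norm_cpi_le D T x) (fun T ζ => A.cpi_V D T x ζ)
      (fun T ζ => by rw [A.star_cpi, A.cpi_V])
    exact ⟨_, Eventually.of_forall fun T => ⟨res_mem (hU T) ((hU T).prep.avg_mem fun s =>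
      hb.nrm fM s _ (Amp.cpi_mem fM hx)) ((hU T).prep.commute_avg _), h1 T⟩, h2, h3⟩
  · obtain ⟨h1, h2, h3⟩ := appInt_fix hU A.V happ (X := fun _ => A.ι y)
      (fun _ => (A.norm_ι y).le) (fun _ ζ => A.ι_V y ζ)
      (fun _ ζ => by rw [← map_star, A.ι_V])
    exact ⟨_, Eventually.of_forall fun T => ⟨res_mem' ((hU T).prep.avg_mem fun s =>
      (hb.nrm fN).commutant (hU T) s _ (Amp.ι_mem_core' hy)) ((hU T).prep.commute_avg _), h1 T⟩,
      h2, h3⟩
  · filter_upwards [self_mem_nhdsWithin] with T hT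
    set η₀ := NormedSpace.exp ((-(2 * T)⁻¹ : ℂ) • b) (A.V ξ) with hη₀
    have h0 : η₀ ≠ 0 := fun h => by
      have := (hb.cyc_exp (T := T) fM hv hM.2.1 (-(2 * T)⁻¹)).induction (p := fun ζ => ζ = 0)
        isClosed_singleton (fun a _ => by rw [← hη₀, h, map_zero]) (A.V ξ)
      have h1 := A.norm_V ξ
      rw [this, norm_zero, hM.1] at h1
      exact zero_ne_one h1
    have hc : ((‖η₀‖⁻¹ : ℝ) : ℂ) ≠ 0 := by simpa using h0
    have hη : ((‖η₀‖⁻¹ : ℝ) : ℂ) • η₀ ∈ fixS (A.U D T b) :=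
      Submodule.smul_mem _ _ (hb.exp_mem_fix hv _)
    have cM' := (hb.cyc_exp' (T := T) hv hM.2.2 (-(2 * T)⁻¹)).smul hc
    have cN' := (hb.cyc_exp' (T := T) hv hN (-(2 * T)⁻¹)).smul hc
    have := A.separable
    have := UniformSpace.secondCountable_of_separable (LL ZZ H)
    refine hNS _ _ _ ⟨inferInstance, ⟨_, hη⟩, ⟨?_, cyc_fix (hU T) (hb.nrm fM) hη
      ((hb.cyc_exp fM hv hM.2.1 _).smul hc), cyc_fix' (hU T) (hb.nrm fM) hη cM'⟩,
      fun _ => tr_fix (hU T) (hb.nrm fM) hη cM' fun X hX hXU => ?_⟩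
      ⟨near_fix (hU T) (hb.nrm fM) (hb.nrm fN) hη cM' (mul_nonneg hC hδ)
        (hnear _ _ A D T M N δ fN hδ hcl.1),
      near_fix (hU T) (hb.nrm fN) (hb.nrm fM) hη cN' (mul_nonneg hC hδ)
        (hnear _ _ A D T N M δ fM hδ hcl.2)⟩
    · change ‖((‖η₀‖⁻¹ : ℝ) : ℂ) • η₀‖ = 1
      rw [norm_smul, Complex.norm_real, norm_inv, norm_norm,
        inv_mul_cancel₀ (norm_ne_zero_iff.2 h0)]
    · rw [map_smul, map_smul, norm_smul, norm_smul, hb.tr hT hv kms hX hXU]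

end Crest.Agent.R078
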