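import Crest.Agent.R078.Defs
import Crest.Agent.Lib.TT.Main

/-! Row 78, stage 5: bounded strongly analytic operator families on the strip `0 ≤ re z ≤ 1/2`. -/

set_option autoImplicit false

open scoped InnerProductSpace BoundedContinuousFunction Topology

namespace Crest.Agent.R078

open Crest.OpAlg Crest.OpAlg.LineCalculus Crest.Agent.R084 Crest.Agent.TT Filter Set Complex

variable {H : Type*} [NormedAddCommGroup H] [InnerProductSpace ℂ H] [CompleteSpace H]

/-- The open strip `0 < re z < b`. -/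
abbrev oS (b : ℝ) : Set ℂ := re ⁻¹' Ioo 0 b

/-- The closed strip `0 ≤ re z ≤ b`. -/
abbrev cS (b : ℝ) : Set ℂ := re ⁻¹' Icc 0 b

lemma closure_oS {b : ℝ} (hb : 0 < b) : closure (oS b) = cS b := by
  rw [closure_preimage_re, closure_Ioo hb.ne]

lemma isOpen_oS (b : ℝ) : IsOpen (oS b) := isOpen_Ioo.preimage continuous_re

lemma oS_subset (b : ℝ) : oS b ⊆ cS b := preimage_mono Ioo_subset_Icc_self

/-- Bounded, strongly analytic inside, strongly continuous up to the boundary. -/
structure StrAn (b : ℝ) (F : ℂ → Op H) : Prop where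
  bdd : ∃ C : ℝ, ∀ z ∈ cS b, ‖F z‖ ≤ C
  diff : ∀ v, DifferentiableOn ℂ (fun z => F z v) (oS b)
  cont : ∀ v, ContinuousOn (fun z => F z v) (cS b)

namespace StrAn

variable {b : ℝ} {F G : ℂ → Op H}

omit [CompleteSpace H] in
lemma const (T : Op H) : StrAn b fun _ => T :=
  ⟨⟨‖T‖, fun _ _ => le_rfl⟩, fun _ => differentiableOn_const _, fun _ => continuousOn_const⟩

omit [CompleteSpace H] in
lemma add (hF : StrAn b F) (hG : StrAn b G) : StrAn b fun z => F z + G z := by
  obtain ⟨C, hC⟩ := hF.bdd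
  obtain ⟨D, hD⟩ := hG.bdd
  exact ⟨⟨C + D, fun z hz => norm_add_le_of_le (hC z hz) (hD z hz)⟩,
    fun v => (hF.diff v).add (hG.diff v), fun v => (hF.cont v).add (hG.cont v)⟩

omit [CompleteSpace H] in
lemma sub (hF : StrAn b F) (hG : StrAn b G) : StrAn b fun z => F z - G z := by
  obtain ⟨C, hC⟩ := hF.bdd
  obtain ⟨D, hD⟩ := hG.bdd
  exact ⟨⟨C + D, fun z hz => norm_sub_le_of_le (hC z hz) (hD z hz)⟩,
    fun v => (hF.diff v).sub (hG.diff v), fun v => (hF.cont v).sub (hG.cont v)⟩

omit [CompleteSpace H] in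
lemma cont_apply (hF : StrAn b F) {g : ℂ → H} (hg : ContinuousOn g (cS b)) :
    ContinuousOn (fun z => F z (g z)) (cS b) := by
  obtain ⟨C, hC⟩ := hF.bdd
  intro z hz
  have h1 : Tendsto (fun w => F w (g w - g z)) (𝓝[cS b] z) (𝓝 0) := by
    refine squeeze_zero_norm' (a := fun w => C * ‖g w - g z‖) ?_ ?_
    · filter_upwards [self_mem_nhdsWithin] with w hw
      exact ((F w).le_opNorm _).trans (by gcongr; exact hC w hw)
    · simpa using (tendsto_iff_norm_sub_tendsto_zero.1 (hg z hz)).const_mul C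
  simpa [ContinuousWithinAt] using h1.add (hF.cont (g z) z hz)

omit [CompleteSpace H] in
lemma diff_apply (hF : StrAn b F) {g : ℂ → H} (hg : DifferentiableOn ℂ g (oS b)) :
    DifferentiableOn ℂ (fun z => F z (g z)) (oS b) := by
  intro z hz
  have hn := (isOpen_oS b).mem_nhds hz
  have h1 := ((hg z hz).differentiableAt hn).hasDerivAt
  have h2 := ((hF.diff (g z) z hz).differentiableAt hn).hasDerivAt
  rw [hasDerivAt_iff_tendsto_slope] at h1 h2
  obtain ⟨C, hC⟩ := hF.bdd
  have h3 : Tendsto (fun w => F w (slope g z w - deriv g z)) (𝓝[≠] z) (𝓝 0) := by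
    refine squeeze_zero_norm' (a := fun w => C * ‖slope g z w - deriv g z‖) ?_ ?_
    · filter_upwards [nhdsWithin_le_nhds hn] with w hw
      exact ((F w).le_opNorm _).trans (by gcongr; exact hC w (oS_subset b hw))
    · simpa using (tendsto_iff_norm_sub_tendsto_zero.1 h1).const_mul C
  have h4 := (((hF.diff (deriv g z) z hz).differentiableAt hn).continuousAt.tendsto).mono_left
    (nhdsWithin_le_nhds (s := {z}ᶜ))
  refine (hasDerivAt_iff_tendsto_slope.2 (((h3.add h4).add h2).congr fun w => ?_)).differentiableAt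
    |>.differentiableWithinAt
  simp only [slope_def_module, map_sub, map_smul, smul_sub]
  abel

omit [CompleteSpace H] in
lemma mul (hF : StrAn b F) (hG : StrAn b G) : StrAn b fun z => F z * G z := by
  obtain ⟨C, hC⟩ := hF.bdd
  obtain ⟨D, hD⟩ := hG.bdd
  exact ⟨⟨C * D, fun z hz => norm_mul_le_of_le (hC z hz) (hD z hz)⟩,
    fun v => hF.diff_apply (hG.diff v), fun v => hF.cont_apply (hG.cont v)⟩

omit [CompleteSpace H] in
lemma comp {b' : ℝ} (hF : StrAn b F) {φ : ℂ → ℂ} (hφ : Differentiable ℂ φ)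
    (h1 : MapsTo φ (oS b') (oS b)) (h2 : MapsTo φ (cS b') (cS b)) : StrAn b' fun z => F (φ z) := by
  obtain ⟨C, hC⟩ := hF.bdd
  exact ⟨⟨C, fun z hz => hC _ (h2 hz)⟩, fun v => (hF.diff v).comp hφ.differentiableOn h1,
    fun v => (hF.cont v).comp hφ.continuous.continuousOn h2⟩

omit [CompleteSpace H] in
lemma shift (hF : StrAn b F) (t : ℝ) : StrAn b fun z => F (z + I * t) :=
  hF.comp (by fun_prop) (fun z hz => by simpa using hz) (fun z hz => by simpa using hz)

lemma of_dense {C : ℝ} (hC : ∀ z ∈ cS b, ‖F z‖ ≤ C) {s : Set H} (hs : Dense s)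
    (h1 : ∀ v ∈ s, DifferentiableOn ℂ (fun z => F z v) (oS b))
    (h2 : ∀ v ∈ s, ContinuousOn (fun z => F z v) (cS b)) : StrAn b F := by
  have key : ∀ v, ∃ u : ℕ → H, (∀ n, u n ∈ s) ∧
      TendstoUniformlyOn (fun n z => F z (u n)) (fun z => F z v) atTop (cS b) := fun v => by
    obtain ⟨u, hu, hlim⟩ := mem_closure_iff_seq_limit.1 (hs v)
    refine ⟨u, hu, Metric.tendstoUniformlyOn_iff.2 fun ε hε => ?_⟩
    have h3 : Tendsto (fun n => C * ‖u n - v‖) atTop (𝓝 0) := by
      simpa using (tendsto_iff_norm_sub_tendsto_zero.1 hlim).const_mul C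
    filter_upwards [h3.eventually (gt_mem_nhds hε)] with n hn z hz
    rw [dist_comm, dist_eq_norm, ← map_sub]
    exact (((F z).le_opNorm _).trans (by gcongr; exact hC z hz)).trans_lt hn
  refine ⟨⟨C, hC⟩, fun v => ?_, fun v => ?_⟩
  · obtain ⟨u, hu, h⟩ := key v
    exact (h.mono (oS_subset b)).tendstoLocallyUniformlyOn.differentiableOn
      (Eventually.of_forall fun n => h1 _ (hu n)) (isOpen_oS b)
  · obtain ⟨u, hu, h⟩ := key v
    exact h.continuousOn (Eventually.of_forall fun n => h2 _ (hu n)).frequently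

omit [CompleteSpace H] in
lemma apply_le (hb : 0 < b) (hF : StrAn b F) (v : H) {C : ℝ}
    (h0 : ∀ t : ℝ, ‖F (I * t) v‖ ≤ C) (h1 : ∀ t : ℝ, ‖F (b + I * t) v‖ ≤ C) {z : ℂ}
    (hz : z ∈ cS b) : ‖F z v‖ ≤ C := by
  obtain ⟨B, hB⟩ := hF.bdd
  refine PhragmenLindelof.vertical_strip (f := fun z => F z v) (a := 0) (b := b)
    ⟨hF.diff v, closure_oS hb ▸ hF.cont v⟩ ⟨0, by simpa using div_pos Real.pi_pos hb, 0, ?_⟩
    (fun w hw => ?_) (fun w hw => ?_) hz.1 hz.2
  · refine Asymptotics.IsBigO.of_bound (B * ‖v‖) ?_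
    filter_upwards [mem_inf_of_right (mem_principal_self _)] with w hw
    simpa using ((F w).le_opNorm v).trans (by gcongr; exact hB w (oS_subset b hw))
  · have : w = I * w.im := Complex.ext (by simp [hw]) (by simp)
    rw [this]; exact h0 _
  · have : w = b + I * w.im := Complex.ext (by simp [hw]) (by simp)
    rw [this]; exact h1 _

omit [CompleteSpace H] in
/-- Three lines. -/
theorem norm_le (hb : 0 < b) (hF : StrAn b F) {C : ℝ} (h0 : ∀ t : ℝ, ‖F (I * t)‖ ≤ C)
    (h1 : ∀ t : ℝ, ‖F (b + I * t)‖ ≤ C) {z : ℂ} (hz : z ∈ cS b) : ‖F z‖ ≤ C :=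
  ContinuousLinearMap.opNorm_le_bound _ ((norm_nonneg _).trans (h0 0)) fun v =>
    hF.apply_le hb v (fun t => ((F _).le_opNorm v).trans (by gcongr; exact h0 t))
      (fun t => ((F _).le_opNorm v).trans (by gcongr; exact h1 t)) hz

omit [CompleteSpace H] in
/-- Norm continuity along interior vertical lines. -/
theorem continuous_line (hF : StrAn b F) {s : ℝ} (hs : s ∈ Ioo 0 b) :
    Continuous fun t : ℝ => F (s + I * t) := by
  obtain ⟨C, hC⟩ := hF.bdd
  have hb : 0 < b := hs.1.trans hs.2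
  have hC0 : 0 ≤ C := (norm_nonneg _).trans (hC 0 ⟨le_rfl, hb.le⟩)
  set r := min s (b - s) with hr
  have hr0 : 0 < r := lt_min hs.1 (sub_pos.2 hs.2)
  have hd : ∀ v (t : ℝ), ‖deriv (fun z => F z v) (s + I * t)‖ ≤ C * ‖v‖ / r := fun v t => by
    have hsub : Metric.closedBall (s + I * t : ℂ) r ⊆ cS b := fun w hw => by
      have := (abs_re_le_norm _).trans (mem_closedBall_iff_norm.1 hw)
      simp only [sub_re, add_re, ofReal_re, mul_re, I_re, zero_mul, I_im, ofReal_im, mul_zero,
        sub_self, add_zero] at this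
      have h2 := abs_le.1 this
      exact ⟨by linarith [min_le_left s (b - s)], by linarith [min_le_right s (b - s)]⟩
    have hsub' : Metric.ball (s + I * t : ℂ) r ⊆ oS b := fun w hw => by
      have := (abs_re_le_norm _).trans_lt (mem_ball_iff_norm.1 hw)
      simp only [sub_re, add_re, ofReal_re, mul_re, I_re, zero_mul, I_im, ofReal_im, mul_zero,
        sub_self, add_zero] at this
      have h2 := abs_lt.1 this
      exact ⟨by linarith [min_le_left s (b - s)], by linarith [min_le_right s (b - s)]⟩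
    refine norm_deriv_le_of_forall_mem_sphere_norm_le hr0
      (DiffContOnCl.mk_ball ((hF.diff v).mono hsub') ((hF.cont v).mono hsub)) fun w hw => ?_
    exact ((F w).le_opNorm v).trans (by gcongr; exact hC w (hsub (Metric.sphere_subset_closedBall hw)))
  refine (LipschitzWith.of_dist_le_mul (K := ⟨C / r, by positivity⟩) fun t t' => ?_).continuous
  rw [dist_eq_norm, Real.dist_eq]
  refine ContinuousLinearMap.opNorm_le_bound _ (by positivity) fun v => ?_
  have h1 : ∀ x : ℝ, HasDerivAt (fun x : ℝ => F (s + I * x) v)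
      (I • deriv (fun z => F z v) (s + I * x)) x := fun x => by
    have a1 := ((hF.diff v (s + I * x) (by simpa using hs)).differentiableAt
      ((isOpen_oS b).mem_nhds (by simpa using hs))).hasDerivAt
    have a2 : HasDerivAt (fun x : ℝ => (s + I * x : ℂ)) I x :=
      (((hasDerivAt_id (x : ℂ)).const_mul I).const_add (s : ℂ)).comp_ofReal.congr_deriv (by simp)
    exact a1.scomp x a2
  have := convex_univ.norm_image_sub_le_of_norm_hasDerivWithin_le
    (fun x _ => (h1 x).hasDerivWithinAt) (C := C * ‖v‖ / r)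
    (fun x _ => by rw [norm_smul, norm_I, one_mul]; exact hd v x) (mem_univ t') (mem_univ t)
  rw [sub_apply]
  refine this.trans_eq ?_
  change _ = C / r * |t - t'| * ‖v‖
  rw [Real.norm_eq_abs]
  ring

end StrAn

lemma rz_bound {z : ℂ} (hz : z ∈ cS 1) (u : ℝ) : ‖rhoF u * cexp (z * u)‖ ≤ 2 := by
  have h1 := one_add_exp_pos u
  rw [norm_mul, rhoF_apply, Complex.norm_real, Real.norm_of_nonneg (by positivity), norm_exp,
    re_mul_ofReal, div_mul_eq_mul_div, div_le_iff₀ h1]
  have h2 : Real.exp (z.re * u) ≤ 1 + Real.exp u := by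
    rcases le_total u 0 with h | h
    · exact (Real.exp_le_one_iff.2 (mul_nonpos_of_nonneg_of_nonpos hz.1 h)).trans
        (by linarith [Real.exp_pos u])
    · exact (Real.exp_le_exp.2 (mul_le_of_le_one_left h hz.2)).trans (by linarith)
  linarith

open Classical in
/-- `ρ(u) e^{z u}` for `0 ≤ re z ≤ 1`. -/
noncomputable def rz (z : ℂ) : ℝ →ᵇ ℂ :=
  if hz : z ∈ cS 1 then BoundedContinuousFunction.ofNormedAddCommGroup
    (fun u => rhoF u * cexp (z * u)) (by fun_prop) 2 (rz_bound hz) else 0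

lemma rz_apply {z : ℂ} (hz : z ∈ cS 1) (u : ℝ) : rz z u = rhoF u * cexp (z * u) := by
  rw [rz, dif_pos hz]; rfl

lemma strAn_rz (D : LineCalculus H) : StrAn 1 fun z => D.apply (rz z) := by
  have key : ∀ (F : ℝ →ᵇ ℂ) (hF : HasCompactSupport (F : ℝ → ℂ)) (v : H), ∃ g : ℂ → H,
      Differentiable ℂ g ∧ ∀ z ∈ cS 1, D.apply (rz z) (D.apply F v) = g z := fun F hF v => by
    refine ⟨fun z => appAt D v (mulExpC (rhoF * F) hF.mul_left z), (appAt D v).differentiable.comp
      (differentiable_mulExpC _ _), fun z hz => ?_⟩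
    simp only [appAt_apply, ← app_mul_apply]
    congr 2
    ext u
    simp only [BoundedContinuousFunction.mul_apply, rz_apply hz, mulExpC_apply]
    ring
  refine StrAn.of_dense (C := 2) (fun z hz => (norm_app_le D _).trans
    ((BoundedContinuousFunction.norm_le (by norm_num)).2 fun u => by
      rw [rz_apply hz]; exact rz_bound hz u))
    (s := {w | ∃ F : ℝ →ᵇ ℂ, HasCompactSupport (F : ℝ → ℂ) ∧ ∃ v, D.apply F v = w})
    (Metric.dense_iff.2 fun x ε hε => ?_) ?_ ?_
  · obtain ⟨F, hF, h⟩ := D.window x ε hε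
    exact ⟨_, mem_ball_iff_norm.2 h, F, hF, x, rfl⟩
  · rintro _ ⟨F, hF, v, rfl⟩
    obtain ⟨g, hg, h⟩ := key F hF v
    exact hg.differentiableOn.congr fun z hz => h z (oS_subset _ hz)
  · rintro _ ⟨F, hF, v, rfl⟩
    obtain ⟨g, hg, h⟩ := key F hF v
    exact hg.continuous.continuousOn.congr h

lemma tauF_eq' (u : ℝ) : tauF u = rhoF u * cexp (1 / 2 * u) := by
  rw [tauF_eq, Complex.ofReal_exp]; congr 2; push_cast; ring

lemma two_sub_rhoF' (u : ℝ) : 2 - rhoF u = rhoF u * cexp u := by
  rw [two_sub_rhoF, tauF_eq', Complex.ofReal_exp, mul_assoc, ← Complex.exp_add]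
  congr 2; push_cast; ring

lemma rz_I (t : ℝ) : rz (I * t) = character t * rhoF := by
  ext u
  rw [rz_apply (by simp), BoundedContinuousFunction.mul_apply, character_apply, mul_comm]
  congr 2; push_cast; ring

lemma rz_half (t : ℝ) : rz (1 / 2 + I * t) = character t * tauF := by
  ext u
  rw [rz_apply (by simp; norm_num), BoundedContinuousFunction.mul_apply, character_apply,
    tauF_eq', mul_left_comm, ← Complex.exp_add]
  congr 2; push_cast; ring

lemma rz_one (t : ℝ) : rz (1 + I * t) = character t * (2 - rhoF) := by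
  ext u
  rw [rz_apply (by simp), BoundedContinuousFunction.mul_apply, character_apply]
  change _ = _ * (2 - rhoF u)
  rw [two_sub_rhoF', mul_left_comm, ← Complex.exp_add]
  congr 2; push_cast; ring

lemma tau_of_rho {D D' : LineCalculus H} {W U : Op H}
    (h : D'.apply rhoF * U * D.apply tauF = D'.apply tauF * W * D.apply rhoF) :
    D'.apply tauF * U * D.apply tauF = D'.apply (2 - rhoF) * W * D.apply rhoF := by
  ext v
  refine app_injective D' rhoF_ne ?_
  have := congrArg (fun T : Op H => D'.apply tauF (T v)) h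
  simp only [mul_apply_eq_comp] at this ⊢
  rw [app_comm, this, ← app_mul_apply, ← app_mul_apply, tauF_mul_tauF]

/-- The analytic family `Δ'^z W Δ^{-z}`. -/
theorem exists_strAn {D D' : LineCalculus H} {W U : Op H}
    (h : D'.apply rhoF * U * D.apply tauF = D'.apply tauF * W * D.apply rhoF) :
    ∃ F : ℂ → Op H, StrAn (1 / 2) F ∧ (∀ t : ℝ, F (I * t) = D'.wave t * W * D.wave (-t)) ∧
      (∀ t : ℝ, F ((1 / 2 : ℝ) + I * t) = D'.wave t * U * D.wave (-t)) := by
  have h' := tau_of_rho h
  let G : ℂ → Op H := fun z => (D'.apply (rz z) * (W * D.apply rhoF) +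
    D'.apply (rz (z + 1 / 2)) * (U * D.apply tauF)) * D.apply (rz (1 - z))
  have hG : StrAn (1 / 2) G := by
    refine ((((strAn_rz D').comp differentiable_id ?_ ?_).mul (.const _)).add
      (((strAn_rz D').comp (φ := fun z => z + 1 / 2) (by fun_prop) ?_ ?_).mul (.const _))).mul
      ((strAn_rz D).comp (φ := fun z => 1 - z) (by fun_prop) ?_ ?_)
    all_goals
      intro z hz
      simp only [mem_preimage, mem_Ioo, mem_Icc, id, add_re, sub_re, one_re, div_ofNat_re] at hz ⊢
      constructor <;> linarith [hz.1, hz.2]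
  let T : Op H := D.apply (2 * (tauF * tauF))
  have hT : DenseRange T := app_denseRange D fun u => by
    simp [tauF_ne]
  have two : ∀ (D : LineCalculus H) (f : ℝ →ᵇ ℂ), D.apply (2 * f) = 2 * D.apply f := fun D f => by
    rw [map_mul, map_ofNat]
  have g0 : ∀ t : ℝ, G (I * t) = D'.wave t * W * D.wave (-t) * T := fun t => by
    have e1 : (1 : ℂ) - I * t = 1 + I * (-t : ℝ) := by push_cast; ring
    simp only [G, add_comm (I * t), rz_I, rz_half, e1, rz_one, map_mul, T, tauF_mul_tauF]
    rw [mul_assoc (D'.apply _), mul_assoc (D'.apply _), ← mul_add, ← mul_assoc _ U, h', map_sub,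
      map_sub, map_ofNat, map_ofNat]
    have c := congrArg D.apply (mul_comm rhoF (character (-t)))
    simp only [map_mul] at c
    change _ = D'.apply _ * W * D.apply _ * _
    calc _ = D'.apply (character t) * W * (D.apply rhoF * D.apply (character (-t))) *
        (2 * (2 - D.apply rhoF)) := by noncomm_ring
      _ = _ := by rw [c]; noncomm_ring
  have g1 : ∀ t : ℝ, G ((1 / 2 : ℝ) + I * t) = D'.wave t * U * D.wave (-t) * T := fun t => by
    have e1 : (1 : ℂ) - ((1 / 2 : ℝ) + I * t) = 1 / 2 + I * (-t : ℝ) := by push_cast; ring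
    have e2 : ((1 / 2 : ℝ) + I * t : ℂ) + 1 / 2 = 1 + I * t := by push_cast; ring
    have e3 : ((1 / 2 : ℝ) + I * t : ℂ) = 1 / 2 + I * t := by push_cast; ring
    simp only [G, e1, e2]
    simp only [e3, rz_half, rz_one, map_mul, T]
    rw [mul_assoc (D'.apply _), mul_assoc (D'.apply _), ← mul_add, ← mul_assoc _ W, ← h, map_sub,
      map_ofNat, map_ofNat]
    have c := congrArg D.apply (mul_comm tauF (character (-t)))
    simp only [map_mul] at c
    change _ = D'.apply _ * U * D.apply _ * _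
    calc _ = D'.apply (character t) * U * (D.apply tauF * D.apply (character (-t))) *
        (2 * D.apply tauF) := by noncomm_ring
      _ = _ := by rw [c]; noncomm_ring
  have hw : ∀ (A : Op H) (t : ℝ) v, ‖(D'.wave t * A * D.wave (-t) * T) v‖ ≤ ‖A‖ * ‖T v‖ :=
    fun A t v => by
    simp only [mul_apply_eq_comp, norm_wave_apply]
    exact (A.le_opNorm _).trans (by rw [norm_wave_apply])
  have hb : ∀ z ∈ cS (1 / 2), ∀ v, ‖G z v‖ ≤ max ‖W‖ ‖U‖ * ‖T v‖ := fun z hz v =>
    hG.apply_le (by norm_num) v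
      (fun t => by rw [g0]; exact (hw _ _ _).trans (by gcongr; exact le_max_left _ _))
      (fun t => by rw [g1]; exact (hw _ _ _).trans (by gcongr; exact le_max_right _ _)) hz
  have ex : ∀ z ∈ cS (1 / 2), ∃ S : Op H, ‖S‖ ≤ max ‖W‖ ‖U‖ ∧ ∀ v, S (T v) = G z v :=
    fun z hz => ⟨(G z).toLinearMap.extendOfNorm T.toLinearMap,
      ContinuousLinearMap.opNorm_le_bound _ (by positivity)
        (LinearMap.norm_extendOfNorm_apply_le hT _ (hb z hz)),
      LinearMap.extendOfNorm_eq hT ⟨_, hb z hz⟩⟩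
  choose! F hF1 hF2 using ex
  refine ⟨F, StrAn.of_dense hF1 hT ?_ ?_, fun t => ?_, fun t => ?_⟩
  · rintro _ ⟨v, rfl⟩
    exact (hG.diff v).congr fun z hz => hF2 z (oS_subset _ hz) v
  · rintro _ ⟨v, rfl⟩
    exact (hG.cont v).congr fun z hz => hF2 z hz v
  · ext w
    refine hT.induction_on w (isClosed_eq (by fun_prop) (by fun_prop)) fun v => ?_
    rw [hF2 _ (by simp), g0]; rfl
  · ext w
    refine hT.induction_on w (isClosed_eq (by fun_prop) (by fun_prop)) fun v => ?_
    rw [hF2 _ (by simp), g1]; rfl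

/-- Analytic continuation of the orbit of a vector. -/
theorem halfExp_of_entire' (D : LineCalculus H) {x : H} {G : ℂ → H} (hG : Differentiable ℂ G)
    (h : ∀ t : ℝ, G (I * t) = D.wave t x) : D.HalfExp x (G (1 / 2)) := by
  have key : ∀ (F : ℝ →ᵇ ℂ) (hF : HasCompactSupport (F : ℝ → ℂ)) (z : ℂ),
      D.apply (mulExpC F hF z) x = D.apply F (G z) := fun F hF => by
    have h1 : Differentiable ℂ fun z => appAt D x (mulExpC F hF z) :=
      (appAt D x).differentiable.comp (differentiable_mulExpC F hF)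
    have h2 : Differentiable ℂ fun z => D.apply F (G z) := (D.apply F).differentiable.comp hG
    refine congrFun (AnalyticOnNhd.eq_of_frequently_eq (fun z _ => h1.analyticAt z)
      (fun z _ => h2.analyticAt z) (z₀ := 0) ?_)
    have t1 : Tendsto (fun x : ℝ => I * (x : ℂ)) (𝓝[≠] 0) (𝓝[≠] 0) :=
      tendsto_nhdsWithin_iff.2 ⟨(Continuous.tendsto' (by fun_prop) 0 0 (by simp)).mono_left
        nhdsWithin_le_nhds, eventually_nhdsWithin_of_forall fun x hx => by simpa using hx⟩
    refine t1.frequently (Eventually.of_forall fun t => ?_).frequently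
    rw [h, LineCalculus.wave, ← app_mul_apply]
    congr 2
    ext u
    rw [mulExpC_apply, BoundedContinuousFunction.mul_apply, character_apply]
    congr 2; push_cast; ring
  rw [halfExp_iff]
  refine eq_of_forall_compact D _ _ fun F hF => ?_
  rw [← app_mul_apply, ← app_mul_apply, ← key _ hF.mul_right]
  congr 2
  ext u
  simp only [mulExpC_apply, BoundedContinuousFunction.mul_apply, tauF_eq']
  ring

end Crest.Agent.R078
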