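import Crest.Agent.R078.CCore
import Crest.Agent.R078.MStrip

/-! Row 78, stage 6: the trace vector of the fixed point algebra. -/

set_option autoImplicit false

open scoped InnerProductSpace
open Filter Topology

namespace Crest.Agent.R078

open Crest.OpAlg Crest.Agent.R078X Multiplicative

variable {H : Type*} [NormedAddCommGroup H] [InnerProductSpace ℂ H] [CompleteSpace H]
variable {K : Type*} [NormedAddCommGroup K] [InnerProductSpace ℂ K] [CompleteSpace K]

theorem CTr_add (a : Op K) (z w : ℂ) (v : K) :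
    NormedSpace.exp (z • a) (NormedSpace.exp (w • a) v) = NormedSpace.exp ((z + w) • a) v := by
  let +nondep : NormedAlgebra ℚ (Op K) := .restrictScalars ℚ ℂ (Op K)
  rw [add_smul, NormedSpace.exp_add_of_commute (((Commute.refl a).smul_left _).smul_right _),
    mul_apply_eq_comp]

theorem CTr_comm {S a : Op K} (h : Commute S a) (z : ℂ) (v : K) :
    S (NormedSpace.exp (z • a) v) = NormedSpace.exp (z • a) (S v) := by
  rw [← mul_apply_eq_comp, (h.smul_right z).exp_right.eq, mul_apply_eq_comp]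

theorem CTr_mem {P : VN K} {a : Op K} (h : a ∈ P) (z : ℂ) : NormedSpace.exp (z • a) ∈ P :=
  mem_of_commute fun _ hy => ((commute_of_mem h hy).smul_left z).exp_left

theorem CTr_cyc {P : VN K} {a : Op K} (h : a ∈ P) {η : K} (hc : Cyc P η) (z : ℂ) :
    Cyc P (NormedSpace.exp (z • a) η) := by
  refine Dense.mono ?_ hc
  rintro _ ⟨X, rfl⟩
  refine ⟨⟨_, mul_mem X.2 (CTr_mem h (-z))⟩, ?_⟩
  simp only [mul_apply_eq_comp, CTr_add, neg_add_cancel, zero_smul, NormedSpace.exp_zero,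
    one_apply_eq_self]

namespace Amp

variable {A : Amp ZZ H K} {D : LineCalculus H} {T : ℝ} {M : VN H} {b : Op K} {ξ : H}

/-- `f(b) (δ₀ ⊗ ξ)` is fixed by `ι (wave t)`, so each coordinate is fixed by the waves and the
vector is fixed by `W⋆`. -/
theorem IsLog.exp_lg'_V (hb : A.IsLog b) (hv : ∀ t, D.wave t ξ = ξ) (z : ℂ) :
    NormedSpace.exp (z • A.lg' D T b) (A.V ξ) = NormedSpace.exp (z • b) (A.V ξ) := by
  rw [exp_lg', mul_apply_eq_comp, mul_apply_eq_comp, W_V]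
  refine A.vec_ext fun g => ?_
  rw [co_star_W, ← co_ι, CTr_comm (hb.commute_ι _), A.ι_V, hv]

theorem IsLog.U_V (hb : A.IsLog b) (hv : ∀ t, D.wave t ξ = ξ) (s : ℝ) :
    A.U D T b s (A.V ξ) = A.V ξ := by
  rw [U, mul_apply_eq_comp, mul_apply_eq_comp, expI, expI, hb.exp_lg'_V hv, CTr_add,
    Complex.ofReal_neg, neg_mul, neg_add_cancel, zero_smul, NormedSpace.exp_zero, one_apply_eq_self,
    A.ι_V, hv]

theorem IsLog.exp_mem_fix (hb : A.IsLog b) (hv : ∀ t, D.wave t ξ = ξ) (z : ℂ) :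
    NormedSpace.exp (z • b) (A.V ξ) ∈ fixS (A.U D T b) := fun s => by
  have h : Commute (A.U D T b s) b :=
    ((hb.commute_ι _).mul_left (commute_expI (Commute.refl b) _).symm).mul_left
      (commute_expI hb.commute_self _).symm
  rw [CTr_comm h, hb.U_V hv]

theorem IsLog.cyc_exp (hb : A.IsLog b) (h : Flow D M) (hv : ∀ t, D.wave t ξ = ξ) (hc : Cyc M ξ)
    (z : ℂ) : Cyc (A.core D T M) (NormedSpace.exp (z • b) (A.V ξ)) := 
  CTr_cyc hb.mem_core (cyc_core h hv hc) z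

theorem IsLog.cyc_exp' (hb : A.IsLog b) (hv : ∀ t, D.wave t ξ = ξ) (hc : Cyc M.commutant ξ)
    (z : ℂ) : Cyc (A.core D T M).commutant (NormedSpace.exp (z • b) (A.V ξ)) := by
  rw [← hb.exp_lg'_V (T := T) hv]
  exact CTr_cyc hb.mem_core' (cyc_core' hv hc) z

/-- `‖X⋆ (δ₀ ⊗ ξ)‖² = ∑ₙ ‖Xₙ⋆ ξ‖²` with `Xₙ = co n ∘ X ∘ V ∈ M`. -/
theorem norm_star_V (hv : ∀ t, D.wave t ξ = ξ)
    (kms : ∀ x ∈ M, ∀ y, D.HalfExp (x ξ) y → ‖y‖ = ‖star x ξ‖) {X : Op K}
    (hX : X ∈ A.core D T M) {ζ : K} (h : ∀ g, D.HalfExp (A.co g (X (A.V ξ))) (A.co g ζ)) :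
    ‖ζ‖ = ‖star X (A.V ξ)‖ := by
  have key : ∀ g, ‖A.co g ζ‖ = ‖A.co g⁻¹ (star X (A.V ξ))‖ := fun g => by
    have h1 := kms _ (A.mem_tens'.1 ((A.mem_core D T).1 hX).1 g 1) (A.co g ζ) (by
      rw [e_one]; exact h g)
    have h2 : A.e g ξ = A.sh D T (toAdd g) (A.V ξ) := by
      rw [← e_one, sh_e, hv, mul_one, ofAdd_toAdd]
    rw [h1, ContinuousLinearMap.star_eq_adjoint, ContinuousLinearMap.adjoint_comp,
      ContinuousLinearMap.adjoint_comp, adjoint_co, ← ContinuousLinearMap.star_eq_adjoint X]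
    change ‖A.co 1 (star X (A.e g ξ))‖ = _
    rw [h2, ← mul_apply_eq_comp, (((A.mem_core D T).1 (star_mem hX)).2 _).eq, mul_apply_eq_comp, sh,
      mul_apply_eq_comp, co_ι, R084.norm_wave_apply, co_lam, mul_one, ofAdd_toAdd]
  have h1 := A.hasSum_sq ζ
  simp only [key] at h1
  exact (sq_eq_sq₀ (norm_nonneg _) (norm_nonneg _)).1
    (h1.unique ((Equiv.inv ZZ).hasSum_iff.2 (A.hasSum_sq (star X (A.V ξ)))))

theorem IsLog.tr (hb : A.IsLog b) (hT : 0 < T) (hv : ∀ t, D.wave t ξ = ξ)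
    (kms : ∀ x ∈ M, ∀ y, D.HalfExp (x ξ) y → ‖y‖ = ‖star x ξ‖) {X : Op K}
    (hX : X ∈ A.core D T M) (hU : ∀ s, Commute X (A.U D T b s)) :
    ‖star X (NormedSpace.exp ((-(2 * T)⁻¹ : ℂ) • b) (A.V ξ))‖ =
      ‖X (NormedSpace.exp ((-(2 * T)⁻¹ : ℂ) • b) (A.V ξ))‖ := by
  set c : ℂ := -(2 * T)⁻¹ with hc
  have hT' : (T : ℂ) ≠ 0 := Complex.ofReal_ne_zero.2 hT.ne'
  have e1 : star (NormedSpace.exp (c • b) * X) = star X * NormedSpace.exp (c • b) := by
    rw [star_mul, NormedSpace.star_exp, star_smul, hb.sa, hc]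
    simp
  have e2 : ∀ s : ℝ, expI s b (expI (-s) (A.lg' D T b) (X (A.V ξ))) =
      A.ι (D.wave (s * T)) (X (A.V ξ)) := fun s => by
    conv_lhs => rw [← hb.U_V (T := T) hv s, ← mul_apply_eq_comp X, (hU s).eq, mul_apply_eq_comp]
    generalize X (A.V ξ) = v
    rw [U, mul_apply_eq_comp, mul_apply_eq_comp, expI, expI, expI, expI,
      ← CTr_comm (hb.commute_wave_lg' _), ← CTr_comm (hb.commute_ι _),
      ← CTr_comm (hb.commute_self.smul_left _).exp_left, CTr_add, CTr_add]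
    simp
  rw [← mul_apply_eq_comp (star X), ← e1]
  refine (norm_star_V hv kms (mul_mem (CTr_mem hb.mem_core c) hX) fun g => ?_).symm
  have h := halfExp_of_entire' D (x := A.co g ((NormedSpace.exp (c • b) * X) (A.V ξ)))
    (G := fun z => A.co g (NormedSpace.exp (c • b) (NormedSpace.exp ((z / T) • b)
      (NormedSpace.exp ((-(z / T)) • A.lg' D T b) (X (A.V ξ)))))) ?_ fun t => ?_
  · have e3 : -(1 / 2 / T : ℂ) = c := by rw [hc]; push_cast; rw [one_div, div_eq_mul_inv, mul_inv]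
    rw [CTr_add, e3, ← e3, neg_add_cancel, e3, zero_smul, NormedSpace.exp_zero, one_apply_eq_self,
      ← CTr_comm (commute_of_mem hX hb.mem_core'), hb.exp_lg'_V hv] at h
    exact h
  · have d : ∀ (a : Op K) (φ : ℂ → ℂ), Differentiable ℂ φ →
        Differentiable ℂ fun z => NormedSpace.exp (φ z • a) := fun a φ hφ =>
      (differentiable_exp_smul_const ℂ a).comp hφ
    exact (A.co g).differentiable.comp ((NormedSpace.exp (c • b)).differentiable.comp
      ((d b _ (by fun_prop)).clm_apply ((d _ _ (by fun_prop)).clm_apply (differentiable_const _))))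
  · have h := e2 (t / T)
    rw [div_mul_cancel₀ _ hT.ne', expI, expI] at h
    push_cast at h
    rw [← co_ι, mul_apply_eq_comp, CTr_comm (hb.commute_ι _), ← h, neg_mul, mul_comm,
      div_mul_eq_mul_div]

end Amp

end Crest.Agent.R078
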