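import Crest.Agent.R121.WMean
import Crest.Agent.R121.Compact
import Crest.Agent.R078X.Res
import Crest.Agent.R084.Modular
import Crest.Agent.Lib.TT.Calc

/-! Row 78, S0103 (Kadison–Kastler): common definitions.

`NS M N κ ε` is one Newton step.  A class `P` of pairs of algebras is *good* if close pairs of the
class admit a Newton step with quadratic error.  The proof is a chain of reductions
`all ⇐ sep ⇐ std False ⇐ frame False ⇐ sit False ⇐ msit ⇐ std True ⇐ frame True ⇐ sit True ⇐ tsit`. -/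

set_option autoImplicit false

open scoped InnerProductSpace

namespace Crest.Agent.R078

open Crest.Agent.R121 (Mn Bd)
open Crest.Agent.R124 (ex)
open Crest.OpAlg

/-- Bounded operators. -/
abbrev Op (H : Type*) [NormedAddCommGroup H] [InnerProductSpace ℂ H] := H →L[ℂ] H

/-- Von Neumann algebras. -/
abbrev VN (H : Type*) [NormedAddCommGroup H] [InnerProductSpace ℂ H] [CompleteSpace H] :=
  VonNeumannAlgebra H

variable {H : Type*} [NormedAddCommGroup H] [InnerProductSpace ℂ H] [CompleteSpace H]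

/-! ### Closeness and the Newton step -/

/-- The commutator. -/
def cm (x y : Op H) : Op H := x * y - y * x

/-- Near inclusion. -/
def Near (M N : VN H) (δ : ℝ) : Prop := ∀ x ∈ M, ∃ y ∈ N, ‖x - y‖ ≤ δ * ‖x‖

/-- Closeness. -/
def Cl (M N : VN H) (δ : ℝ) : Prop := Near M N δ ∧ Near N M δ

/-- One Newton step: `x + [k, x]` almost commutes with the commutant of `N`. -/
def NS (M N : VN H) (κ ε : ℝ) : Prop :=
  ∃ k : Op H, ‖k‖ ≤ κ ∧
    ∀ x ∈ M, ∀ y ∈ N.commutant, ‖cm x y + cm (cm k x) y‖ ≤ ε * ‖x‖ * ‖y‖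

/-- The von Neumann algebra of operators commuting with `S` and `S⋆`. -/
noncomputable def cent (S : Set (Op H)) : VN H where
  toStarSubalgebra := StarSubalgebra.centralizer ℂ S
  centralizer_centralizer' := by simp

/-- The algebra `u M u⋆` (for unitary `u`). -/
noncomputable def conjVN (u : Op H) (M : VN H) : VN H :=
  cent ((fun y => u * y * star u) '' M.commutant)

/-- Central elements. -/
def Cen (M : VN H) (c : Op H) : Prop := c ∈ M ∧ c ∈ M.commutant

/-- Central projections. -/
def CProj (M : VN H) (z : Op H) : Prop := IsStarProjection z ∧ Cen M z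

/-- Cyclic vectors (same form as in `ModularDatum`). -/
def Cyc (A : VN H) (ξ : H) : Prop := Dense (Set.range fun a : A => (a : Op H) ξ)

/-- Cyclic and separating unit vectors. -/
def CycSep (A : VN H) (ξ : H) : Prop := ‖ξ‖ = 1 ∧ Cyc A ξ ∧ Cyc A.commutant ξ

/-- Trace vectors. -/
def Tr (A : VN H) (ξ : H) : Prop := ∀ x ∈ A, ‖star x ξ‖ = ‖x ξ‖

/-! ### Means -/

/-- Invariant means. -/
def InvM {G : Type*} [Add G] (m : Mn G) : Prop :=
  ∀ f : G → ℂ, Bd f → ∀ a, m (fun x => f (x + a)) = m f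

open Classical in
/-- A fixed invariant mean (`invM_inv` in `Mean.lean`). -/
noncomputable def invM (G : Type*) [AddCommGroup G] : Mn G :=
  if h : ∃ m : Mn G, InvM m then h.choose else Mn.pt 0

open Classical in
/-- The weak mean of a bounded family of vectors. -/
noncomputable def vm {X : Type*} (m : Mn X) (v : X → H) : H :=
  if h : ∃ ζ : H, ∀ η, ⟪η, ζ⟫_ℂ = m fun x => ⟪η, v x⟫_ℂ then h.choose else 0

open Classical in
/-- The weak operator mean of a bounded family of operators. -/
noncomputable def wm {X : Type*} (m : Mn X) (T : X → Op H) : Op H :=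
  if h : ∃ S : Op H, ∀ η ξ, ⟪η, S ξ⟫_ℂ = m fun x => ⟪η, T x ξ⟫_ℂ then h.choose else 0

/-! ### Conjugations -/

/-- `J T J`. -/
noncomputable def jc (J : H ≃ₗᵢ⋆[ℂ] H) (T : Op H) : Op H :=
  (J.toContinuousLinearEquiv : H →L⋆[ℂ] H).comp
    (T.comp (J.toContinuousLinearEquiv : H →L⋆[ℂ] H))

omit [CompleteSpace H] in
@[simp] lemma jc_apply (J : H ≃ₗᵢ⋆[ℂ] H) (T : Op H) (ξ : H) : jc J T ξ = J (T (J ξ)) := rfl

/-- Right multiplication `J y⋆ J`. -/
noncomputable def Rm (J : H ≃ₗᵢ⋆[ℂ] H) (y : Op H) : Op H := jc J (star y)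

/-- Tomita's theorem holds for `S` (true for every `S`; delivered with the existence theorem). -/
structure Std (S : ModularDatum H) : Prop where
  jc_mem : ∀ x ∈ S.M, jc S.J x ∈ S.M.commutant
  jc_mem' : ∀ y ∈ S.M.commutant, jc S.J y ∈ S.M
  J_app : ∀ f η, S.J (S.D.apply f η) = S.D.apply (star (Crest.Agent.TT.negF f)) (S.J η)

/-! ### Pauli frames -/

/-- The Pauli group modulo scalars. -/
abbrev Gam := ℕ →₀ (ZMod 2 × ZMod 2)

/-- The bilinear form of the Pauli cocycle. -/
noncomputable def beta (a b : Gam) : ZMod 2 := a.sum fun n x => x.2 * (b n).1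

/-- The Pauli cocycle: `X^a₁ Z^a₂ X^b₁ Z^b₂ = (-1)^(a₂ b₁) X^(a₁+b₁) Z^(a₂+b₂)`. -/
noncomputable def sg (a b : Gam) : ℂ := if beta a b = 0 then 1 else -1

/-- The generator `X n`. -/
noncomputable def gX (n : ℕ) : Gam := Finsupp.single n (1, 0)

/-- The generator `Z n`. -/
noncomputable def gZ (n : ℕ) : Gam := Finsupp.single n (0, 1)

/-- Exchange of `X` and `Z`. -/
noncomputable def gflip (a : Gam) : Gam := a.mapRange Prod.swap rfl

/-- The finite subgroup of the first `l` qubits. -/
abbrev Gl (l : ℕ) := Fin l → ZMod 2 × ZMod 2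

/-- The embedding of `Gl l`. -/
noncomputable def emb {l : ℕ} (a : Gl l) : Gam := ∑ i : Fin l, Finsupp.single (i : ℕ) (a i)

/-- Two commuting projective representations of the Pauli group with opposite cocycles. -/
structure Frame (H : Type*) [NormedAddCommGroup H] [InnerProductSpace ℂ H] [CompleteSpace H] where
  w : Gam → Op H
  w' : Gam → Op H
  w_mem : ∀ a, w a ∈ unitary (Op H)
  w'_mem : ∀ a, w' a ∈ unitary (Op H)
  w_mul : ∀ a b, w a * w b = sg a b • w (a + b)
  w'_mul : ∀ a b, w' b * w' a = sg a b • w' (a + b)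
  comm : ∀ a b, Commute (w a) (w' b)

namespace Frame

variable (F : Frame H)

/-- Average over the first `l` qubits. -/
noncomputable def EF (l : ℕ) (x : Op H) : Op H :=
  ex fun a : Gl l => F.w (emb a) * x * star (F.w (emb a))

/-- Average over the frame. -/
noncomputable def E (x : Op H) : Op H := wm (invM Gam) fun a => F.w a * x * star (F.w a)

/-- The projection `∏_{n<l} (1 + Z n) / 2`, of trace `2^{-l}`. -/
noncomputable def q (l : ℕ) : Op H := ex fun b : Fin l → ZMod 2 => F.w (emb fun i => (0, b i))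

/-- The projection `∏_{n<l} (1 + Z' n) / 2`. -/
noncomputable def q' (l : ℕ) : Op H := ex fun b : Fin l → ZMod 2 => F.w' (emb fun i => (0, b i))

/-- Operators commuting with both copies of the frame and with the centre of `M`. -/
structure Bim (M : VN H) (T : Op H) : Prop where
  w : ∀ a, Commute T (F.w a)
  w' : ∀ a, Commute T (F.w' a)
  cen : ∀ c, Cen M c → Commute T c

end Frame

/-- `F` is an irreducible Pauli frame in the centraliser of the cyclic separating vector `ξ`. -/
structure Framed (A : VN H) (ξ : H) (F : Frame H) : Prop where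
  cs : CycSep A ξ
  w_mem : ∀ a, F.w a ∈ A
  w'_mem : ∀ a, F.w' a ∈ A.commutant
  vac : ∀ a, F.w a ξ = F.w' a ξ
  irr : ∀ x ∈ A, (∀ a, Commute x (F.w a)) → x ∈ A.commutant
  irr' : ∀ y ∈ A.commutant, (∀ a, Commute y (F.w' a)) → y ∈ A

/-- Common frame and common centre. -/
structure Sit (M N : VN H) (ξ : H) (F : Frame H) : Prop where
  fM : Framed M ξ F
  fN : Framed N ξ F
  cen : ∀ c, Cen M c ↔ Cen N c

/-- Common frame, centre, trace vector and conjugation. -/
structure TSit (M N : VN H) (ξ : H) (F : Frame H) (J : H ≃ₗᵢ⋆[ℂ] H) : Prop where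
  sit : Sit M N ξ F
  J_J : ∀ η, J (J η) = η
  J_M : ∀ x ∈ M, J (x ξ) = star x ξ
  J_N : ∀ x ∈ N, J (x ξ) = star x ξ

/-! ### Classes of pairs -/

universe u

/-- A class of pairs of von Neumann algebras. -/
def Cls := ∀ (H : Type u) [NormedAddCommGroup H] [InnerProductSpace ℂ H] [CompleteSpace H],
  VN H → VN H → Prop

/-- Close pairs of the class admit a Newton step with quadratic error. -/
def GoodOn (P : Cls.{u}) : Prop :=
  ∃ C δ₀ : ℝ, 0 < δ₀ ∧ ∀ (H : Type u) [NormedAddCommGroup H] [InnerProductSpace ℂ H]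
    [CompleteSpace H] (M N : VN H) (δ : ℝ), P H M N → 0 ≤ δ → δ ≤ δ₀ → Cl M N δ →
      NS M N (C * δ) (C * δ ^ 2)

namespace Cls

/-- All pairs. -/
def all : Cls.{u} := fun _ _ _ _ _ _ => True

/-- Separable Hilbert space. -/
def sep : Cls.{u} := fun H _ _ _ _ _ => TopologicalSpace.SeparableSpace H

/-- `M` is in standard form (`tr`: with a trace vector). -/
def std (tr : Prop) : Cls.{u} := fun H _ _ _ M _ =>
  TopologicalSpace.SeparableSpace H ∧ ∃ ξ, CycSep M ξ ∧ (tr → Tr M ξ)

/-- `M` has an irreducible frame. -/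
def frame (tr : Prop) : Cls.{u} := fun H _ _ _ M _ =>
  TopologicalSpace.SeparableSpace H ∧ ∃ ξ F, Framed M ξ F ∧ (tr → Tr M ξ)

/-- Common frame and centre. -/
def sit (tr : Prop) : Cls.{u} := fun H _ _ _ M N =>
  TopologicalSpace.SeparableSpace H ∧ ∃ ξ F, Sit M N ξ F ∧ (tr → Tr M ξ)

/-- Common frame, centre and modular group. -/
def msit : Cls.{u} := fun H _ _ _ M N =>
  TopologicalSpace.SeparableSpace H ∧ ∃ (S T : ModularDatum H) (F : Frame H), Std S ∧ Std T ∧
    S.M = M ∧ T.M = N ∧ T.vac = S.vac ∧ Sit M N S.vac F ∧ ∀ t, T.D.wave t = S.D.wave t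

/-- Common frame, centre, trace vector and conjugation. -/
def tsit : Cls.{u} := fun H _ _ _ M N =>
  TopologicalSpace.SeparableSpace H ∧ ∃ ξ F J, TSit M N ξ F J

end Cls

end Crest.Agent.R078
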