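import Crest.Agent.R078.FPair

/-! Row 78, stage (3): almost Markov channels. -/

set_option autoImplicit false

open scoped InnerProductSpace ComplexConjugate
open Filter Topology

namespace Crest.Agent.R078

open Crest.Agent.R121 (Mn Bd)
open Crest.Agent.R124 (ex)
open Crest.OpAlg

universe u

variable {H : Type*} [NormedAddCommGroup H] [InnerProductSpace ℂ H] [CompleteSpace H]

variable {S : ModularDatum H} {B : VN H} {η η' : ℝ} {T T' x : Op H}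
variable {σ : Type} [Fintype σ] {a b : σ → Op H}

theorem FChan_inner_star (p : Op H) (v w : H) : ⟪v, star p w⟫_ℂ = ⟪p v, w⟫_ℂ := by
  rw [ContinuousLinearMap.star_eq_adjoint, ContinuousLinearMap.adjoint_inner_right]

omit [CompleteSpace H] in
theorem FChan_inner_self (v : H) : (⟪v, v⟫_ℂ).re = ‖v‖ ^ 2 := inner_self_eq_norm_sq (𝕜 := ℂ) v

theorem FChan_inner_col (p : σ → Op H) (v : H) :
    (⟪v, (∑ i, star (p i) * p i) v⟫_ℂ).re = ∑ i, ‖p i v‖ ^ 2 := by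
  rw [ContinuousLinearMap.sum_apply, inner_sum, Complex.re_sum]
  refine Finset.sum_congr rfl fun i _ => ?_
  rw [ContinuousLinearMap.mul_apply, FChan_inner_star, FChan_inner_self]

theorem FChan_energy (S : ModularDatum H) (a b : σ → Op H) (v : H) :
    ∑ i, ‖a i v - Rm S.J (b i) v‖ ^ 2 =
      ∑ i, ‖a i v‖ ^ 2 + ∑ i, ‖Rm S.J (b i) v‖ ^ 2 - 2 * (⟪v, chan S a b v⟫_ℂ).re := by
  rw [chan, ContinuousLinearMap.sum_apply, inner_sum, Complex.re_sum, Finset.mul_sum,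
    ← Finset.sum_add_distrib, ← Finset.sum_sub_distrib]
  refine Finset.sum_congr rfl fun i _ => ?_
  rw [ContinuousLinearMap.mul_apply, FChan_inner_star, norm_sub_sq (𝕜 := ℂ)]
  simp only [RCLike.re_to_complex]
  ring

theorem FChan_norm_sum {p : σ → Op H} (hp : ∀ w, ∑ i, ‖p i w‖ ^ 2 ≤ ‖w‖ ^ 2) (y : σ → H) {C : ℝ}
    (hC : 0 ≤ C) (hy : ∑ i, ‖y i‖ ^ 2 ≤ C ^ 2) : ‖∑ i, star (p i) (y i)‖ ≤ C := by
  set w := ∑ i, star (p i) (y i) with hw
  have h1 : ‖w‖ ^ 2 ≤ ∑ i, ‖p i w‖ * ‖y i‖ := by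
    rw [← FChan_inner_self]
    conv_lhs => rw [show ⟪w, w⟫_ℂ = ⟪w, ∑ i, star (p i) (y i)⟫_ℂ from rfl, inner_sum,
      Complex.re_sum]
    refine Finset.sum_le_sum fun i _ => ?_
    rw [FChan_inner_star]
    exact (Complex.re_le_norm _).trans (norm_inner_le_norm _ _)
  have h2 : (∑ i, ‖p i w‖ * ‖y i‖) ^ 2 ≤ (‖w‖ * C) ^ 2 := by
    refine (Finset.sum_mul_sq_le_sq_mul_sq _ _ _).trans ?_
    rw [mul_pow]
    exact mul_le_mul (hp w) hy (Finset.sum_nonneg fun _ _ => sq_nonneg _) (sq_nonneg _)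
  have h3 : ‖w‖ ^ 2 ≤ ‖w‖ * C :=
    h1.trans (abs_le_of_sq_le_sq' h2 (mul_nonneg (norm_nonneg _) hC)).2
  rcases (norm_nonneg w).eq_or_lt with h0 | h0
  · rw [← h0]; exact hC
  · rw [sq] at h3
    exact le_of_mul_le_mul_left h3 h0

theorem FChan_norm_le_of_sa {Q : Op H} (hQ : star Q = Q) {δ : ℝ} (hδ : 0 ≤ δ)
    (h : ∀ v, |(⟪v, Q v⟫_ℂ).re| ≤ δ * ‖v‖ ^ 2) : ‖Q‖ ≤ δ := by
  have hs : IsSelfAdjoint Q := hQ
  rw [Q.norm_eq_iSup_rayleighQuotient hs.isSymmetric]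
  refine ciSup_le fun v => ?_
  rw [ContinuousLinearMap.rayleighQuotient, ContinuousLinearMap.reApplyInnerSelf_apply, abs_div,
    abs_sq, inner_re_symm]
  exact div_le_of_le_mul₀ (sq_nonneg _) hδ (h v)

theorem FChan_star_smul (r : ℝ) (p : Op H) : star ((r : ℂ) • p) = (r : ℂ) • star p := by
  rw [star_smul, Complex.star_def, Complex.conj_ofReal]

omit [CompleteSpace H] in
theorem FChan_sum_smul (r : ℝ) (p : σ → Op H) (ζ : H) :
    ∑ i, ‖((r : ℂ) • p i) ζ‖ ^ 2 = r ^ 2 * ∑ i, ‖p i ζ‖ ^ 2 := by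
  rw [Finset.mul_sum]
  refine Finset.sum_congr rfl fun i _ => ?_
  rw [ContinuousLinearMap.smul_apply, norm_smul, Complex.norm_real, mul_pow, Real.norm_eq_abs,
    sq_abs]

theorem FChan_term_smul (J : H ≃ₗᵢ⋆[ℂ] H) (r : ℝ) (p q : Op H) :
    star ((r : ℂ) • p) * Rm J ((r : ℂ) • q) = r ^ 2 • (star p * Rm J q) := by
  rw [Rm, FChan_star_smul, FChan_star_smul, jc_smul, Complex.conj_ofReal, smul_mul_smul_comm,
    ← Complex.ofReal_mul, Complex.coe_smul, sq, Rm]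

theorem FChan_vac (hB : Sub S B) (hk : Kr S B η a b) (hx : x ∈ S.M) :
    chan S a b (x S.vac) = (∑ i, star (a i) * (x * a i)) S.vac := by
  rw [chan, ContinuousLinearMap.sum_apply, ContinuousLinearMap.sum_apply]
  refine Finset.sum_congr rfl fun i _ => ?_
  have hc := (commute_of_mem hx (hB.Rm_mem (hk.pr i).mb)).eq
  have e : Rm S.J (b i) (x S.vac) = x (Rm S.J (b i) S.vac) :=
    (congrArg (fun T : Op H => T S.vac) hc).symm
  simp only [ContinuousLinearMap.mul_apply]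
  rw [e, (hk.pr i).vac_eq]

theorem FChan_approx {p : σ → Op H} {κ : ℝ} (hκ : 0 ≤ κ) (hκ' : κ ≤ 1 / 2)
    (hp : ‖∑ i, star (p i) * p i - 1‖ ≤ κ) (ζ : H) :
    Real.exp (-(4 * κ)) * ‖ζ‖ ^ 2 ≤ ∑ i, ‖((((√(1 + κ))⁻¹ : ℝ) : ℂ) • p i) ζ‖ ^ 2 ∧
      ∑ i, ‖((((√(1 + κ))⁻¹ : ℝ) : ℂ) • p i) ζ‖ ^ 2 ≤ ‖ζ‖ ^ 2 := by
  have hk : 0 < 1 + κ := by linarith
  have h1 : |(⟪ζ, (∑ i, star (p i) * p i - 1 : Op H) ζ⟫_ℂ).re| ≤ κ * ‖ζ‖ ^ 2 := by
    refine (Complex.abs_re_le_norm _).trans ((norm_inner_le_norm _ _).trans ?_)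
    have h2 := (ContinuousLinearMap.le_opNorm (∑ i, star (p i) * p i - 1 : Op H) ζ).trans
      (mul_le_mul_of_nonneg_right hp (norm_nonneg ζ))
    have h3 := mul_le_mul_of_nonneg_left h2 (norm_nonneg ζ)
    linarith
  rw [ContinuousLinearMap.sub_apply, inner_sub_right, Complex.sub_re, FChan_inner_col,
    ContinuousLinearMap.one_apply, FChan_inner_self, abs_le] at h1
  rw [FChan_sum_smul, inv_pow, Real.sq_sqrt hk.le, le_inv_mul_iff₀ hk, inv_mul_le_iff₀ hk]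
  refine ⟨?_, by linarith [h1.2]⟩
  have h4 : (1 + κ) * Real.exp (-(4 * κ)) ≤ 1 - κ := by
    rw [Real.exp_neg, mul_inv_le_iff₀ (Real.exp_pos _)]
    have h5 := mul_le_mul_of_nonneg_left (Real.add_one_le_exp (4 * κ)) (by linarith : 0 ≤ 1 - κ)
    nlinarith
  have h6 := mul_le_mul_of_nonneg_right h4 (sq_nonneg ‖ζ‖)
  linarith [h1.1]

theorem Kr.sum_Rm (h : Kr S B η a b) (ζ : H) :
    Real.exp (-η) * ‖ζ‖ ^ 2 ≤ ∑ i, ‖Rm S.J (b i) ζ‖ ^ 2 ∧
      ∑ i, ‖Rm S.J (b i) ζ‖ ^ 2 ≤ ‖ζ‖ ^ 2 := by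
  have e : ∀ i, ‖Rm S.J (b i) ζ‖ = ‖star (b i) (S.J ζ)‖ := fun i => by
    rw [Rm, jc_apply, LinearIsometryEquiv.norm_map]
  simp only [e]
  have h1 := h.le_row (S.J ζ)
  have h2 := h.row_le (S.J ζ)
  rw [LinearIsometryEquiv.norm_map] at h1 h2
  exact ⟨h1, h2⟩

/-- The energy identity, upper bound. -/
theorem Kr.energy_le (h : Kr S B η a b) (v : H) :
    ∑ i, ‖a i v - Rm S.J (b i) v‖ ^ 2 ≤ 2 * ‖v‖ ^ 2 - 2 * (⟪v, chan S a b v⟫_ℂ).re := by
  rw [FChan_energy]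
  linarith [h.col_le v, (h.sum_Rm v).2]

theorem Kr.le_energy (h : Kr S B η a b) (v : H) :
    2 * Real.exp (-η) * ‖v‖ ^ 2 - 2 * (⟪v, chan S a b v⟫_ℂ).re ≤
      ∑ i, ‖a i v - Rm S.J (b i) v‖ ^ 2 := by
  rw [FChan_energy]
  linarith [h.le_col v, (h.sum_Rm v).1]

theorem Kr.energy_le' (h : Kr S B η a b) (v : H) :
    ∑ i, ‖a i v - Rm S.J (b i) v‖ ^ 2 ≤ 4 * ‖v‖ ^ 2 := by
  have h1 : ∑ i, ‖a i v - Rm S.J (b i) v‖ ^ 2 ≤
      ∑ i, (2 * ‖a i v‖ ^ 2 + 2 * ‖Rm S.J (b i) v‖ ^ 2) := by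
    refine Finset.sum_le_sum fun i _ => ?_
    have h2 := pow_le_pow_left₀ (norm_nonneg _) (norm_sub_le (a i v) (Rm S.J (b i) v)) 2
    nlinarith [sq_nonneg (‖a i v‖ - ‖Rm S.J (b i) v‖)]
  rw [Finset.sum_add_distrib, ← Finset.mul_sum, ← Finset.mul_sum] at h1
  linarith [h.col_le v, (h.sum_Rm v).2]

theorem Ch.one (S : ModularDatum H) (B : VN H) (hη : 0 ≤ η) : Ch S B η 1 := by
  have he : ∀ ζ : H, Real.exp (-η) * ‖ζ‖ ^ 2 ≤ ‖ζ‖ ^ 2 := fun ζ =>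
    mul_le_of_le_one_left (sq_nonneg _) (Real.exp_le_one_iff.2 (by linarith))
  refine ⟨Unit, inferInstance, fun _ => 1, fun _ => 1,
    ⟨fun _ => Pr.one S B, fun ζ => by simp, fun ζ => by simpa using he ζ, fun ζ => by simp,
      fun ζ => by simpa using he ζ⟩, ?_⟩
  simp [chan, Rm, jc_one S.J_J]

theorem Ch.mono (h : Ch S B η T) (hη : η ≤ η') : Ch S B η' T := by
  obtain ⟨σ, _, a, b, hk, rfl⟩ := h
  have he : ∀ ζ : H, Real.exp (-η') * ‖ζ‖ ^ 2 ≤ Real.exp (-η) * ‖ζ‖ ^ 2 := fun ζ =>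
    mul_le_mul_of_nonneg_right (Real.exp_le_exp.2 (by linarith)) (sq_nonneg _)
  exact ⟨σ, inferInstance, a, b, ⟨hk.pr, hk.col_le, fun ζ => (he ζ).trans (hk.le_col ζ), hk.row_le,
    fun ζ => (he ζ).trans (hk.le_row ζ)⟩, rfl⟩

/-- The family `(a i * a' j, b i * b' j)`. -/
theorem Ch.mul (hB : Sub S B) (h : Ch S B η T) (h' : Ch S B η' T') :
    Ch S B (η + η') (T' * T) := by
  obtain ⟨σ, _, a, b, hk, rfl⟩ := h
  obtain ⟨σ', _, a', b', hk', rfl⟩ := h'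
  have ee : Real.exp (-(η + η')) = Real.exp (-η) * Real.exp (-η') := by
    rw [← Real.exp_add, neg_add]
  refine ⟨σ × σ', inferInstance, fun p => a p.1 * a' p.2, fun p => b p.1 * b' p.2,
    ⟨fun p => Pr.mul hB (hk.pr _) (hk'.pr _), fun ζ => ?_, fun ζ => ?_, fun ζ => ?_, fun ζ => ?_⟩,
    ?_⟩
  · rw [Fintype.sum_prod_type_right]
    exact (Finset.sum_le_sum fun j _ => hk.col_le (a' j ζ)).trans (hk'.col_le ζ)
  · rw [Fintype.sum_prod_type_right, ee, mul_assoc]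
    refine (mul_le_mul_of_nonneg_left (hk'.le_col ζ) (Real.exp_pos _).le).trans ?_
    rw [Finset.mul_sum]
    exact Finset.sum_le_sum fun j _ => hk.le_col (a' j ζ)
  · rw [Fintype.sum_prod_type]
    simp only [star_mul]
    exact (Finset.sum_le_sum fun i _ => hk'.row_le (star (b i) ζ)).trans (hk.row_le ζ)
  · rw [Fintype.sum_prod_type, ee, mul_comm (Real.exp _), mul_assoc]
    simp only [star_mul]
    refine (mul_le_mul_of_nonneg_left (hk.le_row ζ) (Real.exp_pos _).le).trans ?_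
    rw [Finset.mul_sum]
    exact Finset.sum_le_sum fun i _ => hk'.le_row (star (b i) ζ)
  · rw [chan, chan, chan, Fintype.sum_prod_type_right, Finset.sum_mul]
    refine Finset.sum_congr rfl fun j _ => ?_
    rw [Finset.mul_sum]
    refine Finset.sum_congr rfl fun i _ => ?_
    have hc : Commute (star (a i)) (Rm S.J (b' j)) :=
      commute_of_mem (star_mem (hB.le _ (hk.pr i).ma)) (hB.Rm_mem (hk'.pr j).mb)
    have e : Rm S.J (b i * b' j) = Rm S.J (b' j) * Rm S.J (b i) := by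
      rw [Rm, star_mul, jc_mul S.J_J, Rm, Rm]
    rw [e, star_mul, mul_assoc, mul_assoc, ← mul_assoc (Rm S.J (b' j)), ← hc.eq, mul_assoc]

/-- The family `√s a ⊕ √t a'` on a sum type. -/
theorem Ch.convex (h : Ch S B η T) (h' : Ch S B η T') {s t : ℝ} (hs : 0 ≤ s) (ht : 0 ≤ t)
    (hst : s + t = 1) : Ch S B η (s • T + t • T') := by
  obtain ⟨σ, _, a, b, hk, rfl⟩ := h
  obtain ⟨σ', _, a', b', hk', rfl⟩ := h'
  have hss : √s ^ 2 = s := Real.sq_sqrt hs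
  have htt : √t ^ 2 = t := Real.sq_sqrt ht
  refine ⟨σ ⊕ σ', inferInstance,
    Sum.elim (fun i => ((√s : ℝ) : ℂ) • a i) (fun i => ((√t : ℝ) : ℂ) • a' i),
    Sum.elim (fun i => ((√s : ℝ) : ℂ) • b i) (fun i => ((√t : ℝ) : ℂ) • b' i),
    ⟨?_, fun ζ => ?_, fun ζ => ?_, fun ζ => ?_, fun ζ => ?_⟩, ?_⟩
  · rintro (i | i)
    exacts [(hk.pr i).smul _, (hk'.pr i).smul _]
  · simp only [Fintype.sum_sum_type, Sum.elim_inl, Sum.elim_inr, FChan_sum_smul, hss, htt]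
    have h1 := mul_le_mul_of_nonneg_left (hk.col_le ζ) hs
    have h2 := mul_le_mul_of_nonneg_left (hk'.col_le ζ) ht
    have h3 : s * ‖ζ‖ ^ 2 + t * ‖ζ‖ ^ 2 = ‖ζ‖ ^ 2 := by rw [← add_mul, hst, one_mul]
    linarith
  · simp only [Fintype.sum_sum_type, Sum.elim_inl, Sum.elim_inr, FChan_sum_smul, hss, htt]
    have h1 := mul_le_mul_of_nonneg_left (hk.le_col ζ) hs
    have h2 := mul_le_mul_of_nonneg_left (hk'.le_col ζ) ht
    have h3 : s * (Real.exp (-η) * ‖ζ‖ ^ 2) + t * (Real.exp (-η) * ‖ζ‖ ^ 2) =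
      Real.exp (-η) * ‖ζ‖ ^ 2 := by rw [← add_mul, hst, one_mul]
    linarith
  · simp only [Fintype.sum_sum_type, Sum.elim_inl, Sum.elim_inr, FChan_star_smul, FChan_sum_smul,
      hss, htt]
    have h1 := mul_le_mul_of_nonneg_left (hk.row_le ζ) hs
    have h2 := mul_le_mul_of_nonneg_left (hk'.row_le ζ) ht
    have h3 : s * ‖ζ‖ ^ 2 + t * ‖ζ‖ ^ 2 = ‖ζ‖ ^ 2 := by rw [← add_mul, hst, one_mul]
    linarith
  · simp only [Fintype.sum_sum_type, Sum.elim_inl, Sum.elim_inr, FChan_star_smul, FChan_sum_smul,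
      hss, htt]
    have h1 := mul_le_mul_of_nonneg_left (hk.le_row ζ) hs
    have h2 := mul_le_mul_of_nonneg_left (hk'.le_row ζ) ht
    have h3 : s * (Real.exp (-η) * ‖ζ‖ ^ 2) + t * (Real.exp (-η) * ‖ζ‖ ^ 2) =
      Real.exp (-η) * ‖ζ‖ ^ 2 := by rw [← add_mul, hst, one_mul]
    linarith
  · rw [chan, chan, chan, Fintype.sum_sum_type, Finset.smul_sum, Finset.smul_sum]
    simp only [Sum.elim_inl, Sum.elim_inr, FChan_term_smul, hss, htt]

theorem Ch.norm_apply_le (h : Ch S B η T) (v : H) : ‖T v‖ ≤ ‖v‖ := by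
  obtain ⟨σ, _, a, b, hk, rfl⟩ := h
  rw [chan, ContinuousLinearMap.sum_apply]
  exact FChan_norm_sum hk.col_le _ (norm_nonneg v) (hk.sum_Rm v).2

theorem Ch.apply_vac (hB : Sub S B) (h : Ch S B η T) (hx : x ∈ B) :
    ∃ x' ∈ B, ‖x'‖ ≤ ‖x‖ ∧ T (x S.vac) = x' S.vac := by
  obtain ⟨σ, _, a, b, hk, rfl⟩ := h
  refine ⟨∑ i, star (a i) * (x * a i), sum_mem fun i _ =>
    mul_mem (star_mem (hk.pr i).ma) (mul_mem hx (hk.pr i).ma), ?_, FChan_vac hB hk (hB.le _ hx)⟩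
  refine ContinuousLinearMap.opNorm_le_bound _ (norm_nonneg _) fun v => ?_
  rw [ContinuousLinearMap.sum_apply]
  refine FChan_norm_sum hk.col_le _ (by positivity) ?_
  calc ∑ i, ‖(x * a i) v‖ ^ 2 ≤ ∑ i, ‖x‖ ^ 2 * ‖a i v‖ ^ 2 := by
        refine Finset.sum_le_sum fun i _ => ?_
        rw [← mul_pow]
        exact pow_le_pow_left₀ (norm_nonneg _) (x.le_opNorm _) 2
    _ ≤ (‖x‖ * ‖v‖) ^ 2 := by
        rw [← Finset.mul_sum, mul_pow]
        exact mul_le_mul_of_nonneg_left (hk.col_le v) (sq_nonneg _)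

/-- `T c ξ = c (∑ a⋆ a) ξ` and `‖1 - ∑ a⋆ a‖ ≤ 1 - e^{-η} ≤ η`. -/
theorem Ch.apply_cen (hB : Sub S B) (h : Ch S B η T) {c : Op H} (hc : Cen S.M c) :
    ‖T (c S.vac) - c S.vac‖ ≤ η * ‖c‖ := by
  obtain ⟨σ, _, a, b, hk, rfl⟩ := h
  have e1 : ∑ i, star (a i) * (c * a i) = c * ∑ i, star (a i) * a i := by
    rw [Finset.mul_sum]
    refine Finset.sum_congr rfl fun i _ => ?_
    rw [← mul_assoc, (hc.commute (star_mem (hB.le _ (hk.pr i).ma))).eq, mul_assoc]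
  have h0 : Real.exp (-η) ≤ 1 := by
    have := (hk.le_col S.vac).trans (hk.col_le S.vac)
    simpa [S.norm_vac] using this
  have h1 : ‖∑ i, star (a i) * a i - 1‖ ≤ 1 - Real.exp (-η) := by
    refine FChan_norm_le_of_sa ?_ (by linarith) fun v => ?_
    · simp [star_sum, star_mul]
    · rw [ContinuousLinearMap.sub_apply, inner_sub_right, Complex.sub_re, FChan_inner_col,
        ContinuousLinearMap.one_apply, FChan_inner_self, abs_le]
      constructor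
      · linarith [hk.le_col v]
      · nlinarith [hk.col_le v, sq_nonneg ‖v‖]
  have h2 : 1 - Real.exp (-η) ≤ η := by linarith [Real.add_one_le_exp (-η)]
  rw [FChan_vac hB hk hc.1, e1]
  have e2 : (c * ∑ i, star (a i) * a i) S.vac - c S.vac =
      c ((∑ i, star (a i) * a i - 1 : Op H) S.vac) := by
    rw [ContinuousLinearMap.sub_apply, map_sub]
    rfl
  rw [e2, mul_comm]
  refine (c.le_opNorm _).trans (mul_le_mul_of_nonneg_left ?_ (norm_nonneg _))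
  refine (ContinuousLinearMap.le_opNorm _ _).trans ?_
  rw [S.norm_vac, mul_one]
  exact h1.trans h2

/-- A family whose row and column sums are the same up to `κ` is rescaled by `(1 + κ)^{-1/2}`;
`(1 - κ) / (1 + κ) ≥ e^{-4κ}` for `κ ≤ 1/2`. -/
theorem kr_of_approx (hpr : ∀ i, Pr S B (a i) (b i)) {κ : ℝ} (hκ : 0 ≤ κ) (hκ' : κ ≤ 1 / 2)
    (ha : ‖∑ i, star (a i) * a i - 1‖ ≤ κ) (hb : ‖∑ i, b i * star (b i) - 1‖ ≤ κ) :
    Kr S B (4 * κ) (fun i => (((√(1 + κ))⁻¹ : ℝ) : ℂ) • a i)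
      (fun i => (((√(1 + κ))⁻¹ : ℝ) : ℂ) • b i) := by
  have hb' : ‖∑ i, star (star (b i)) * star (b i) - 1‖ ≤ κ := by simpa only [star_star] using hb
  refine ⟨fun i => (hpr i).smul _, fun ζ => ?_, fun ζ => ?_, fun ζ => ?_, fun ζ => ?_⟩
  · exact (FChan_approx hκ hκ' ha ζ).2
  · exact (FChan_approx hκ hκ' ha ζ).1
  · simp only [FChan_star_smul]
    exact (FChan_approx (p := fun i => star (b i)) hκ hκ' hb' ζ).2
  · simp only [FChan_star_smul]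
    exact (FChan_approx (p := fun i => star (b i)) hκ hκ' hb' ζ).1

end Crest.Agent.R078
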