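import Crest.Agent.R078.BMod
import Crest.Agent.R078.BSpec

/-! Row 78, stage (3): definitions (qubits, towers, Kraus families). -/

set_option autoImplicit false

open scoped InnerProductSpace ComplexConjugate
open Filter Topology

namespace Crest.Agent.R078

open Crest.Agent.R121 (Mn Bd)
open Crest.Agent.R124 (ex)
open Crest.OpAlg

universe u

variable {H : Type*} [NormedAddCommGroup H] [InnerProductSpace ℂ H] [CompleteSpace H]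

/-! ### Qubits -/

/-- One qubit. -/
structure QB (X Z : Op H) : Prop where
  sX : star X = X
  sZ : star Z = Z
  XX : X * X = 1
  ZZ : Z * Z = 1
  anti : Z * X = -(X * Z)

/-- Two qubits commute. -/
structure QC (X Z X' Z' : Op H) : Prop where
  XX : Commute X X'
  XZ : Commute X Z'
  ZX : Commute Z X'
  ZZ : Commute Z Z'

/-- The average over the Pauli group of one qubit. -/
noncomputable def av (X Z y : Op H) : Op H :=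
  (1 / 4 : ℂ) • (y + X * y * X + Z * y * Z + X * Z * y * (Z * X))

/-- The average over the first `n` qubits. -/
noncomputable def avn (X Z : ℕ → Op H) : ℕ → Op H → Op H
  | 0, y => y
  | n + 1, y => av (X n) (Z n) (avn X Z n y)

/-- The relative commutant of `p` in `M`. -/
noncomputable def rel (M : VN H) (p : Set (Op H)) : VN H := cent ((M.commutant : Set (Op H)) ∪ p)

/-- `y ξ` is at distance at least `d` from `Z ξ`. -/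
def Far (M : VN H) (ξ : H) (d : ℝ) (y : Op H) : Prop := ∀ c, Cen M c → d ≤ ‖y ξ - c ξ‖

/-! ### Towers -/

/-- `M ≅ M₀ ⊗ ⨂ₙ (M₂, ω_{μ n})`: finite levels, slice maps, the qubits `c n`, their copies in the
commutant and the vacuum projections `e n` of the sites. -/
structure Tower (M : VN H) (rich : Prop) where
  L : ℕ → VN H
  L_le : ∀ m, ∀ x ∈ L m, x ∈ M
  L_mono : ∀ m n, m ≤ n → ∀ x ∈ L m, x ∈ L n
  Φ : ℕ → Op H →ₗ[ℂ] Op H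
  Φ_mem : ∀ m, ∀ x ∈ M, Φ m x ∈ L m
  Φ_comm : ∀ m x, ∀ s ∈ L m, Commute s x → Commute s (Φ m x)
  Φ_star : ∀ m x, Φ m (star x) = star (Φ m x)
  Φ_col : ∀ m (σ : Type) [Fintype σ] (x : σ → Op H) (C : ℝ),
    (∀ ζ, ∑ i, ‖x i ζ‖ ^ 2 ≤ C * ‖ζ‖ ^ 2) → ∀ ζ, ∑ i, ‖Φ m (x i) ζ‖ ^ 2 ≤ C * ‖ζ‖ ^ 2
  Φ_tendsto : ∀ x ζ, Tendsto (fun m => Φ m x ζ) atTop (𝓝 (x ζ))
  c : ℕ → Op H
  c' : ℕ → Op H
  e : ℕ → Op H
  μ : ℕ → ℝ
  μ_pos : ∀ n, 0 < μ n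
  c_mem : ∀ n, c n ∈ L (n + 1)
  c_comm : ∀ n, ∀ x ∈ L n, Commute x (c n)
  c_sq : ∀ n, c n * c n = 0
  c_car : ∀ n, star (c n) * c n + c n * star (c n) = 1
  c'_mem : ∀ n, c' n ∈ M.commutant
  norm_c' : ∀ n, ‖c' n‖ ≤ 1
  e_proj : ∀ n, IsStarProjection (e n)
  e_comm : ∀ n, ∀ x ∈ L n, Commute x (e n)
  e_comm_c : ∀ n l, l ≠ n → Commute (c l) (e n)
  e_comm_e : ∀ n l, Commute (e l) (e n)
  e_tendsto : ∀ ζ, Tendsto (fun n => e n ζ) atTop (𝓝 ζ)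
  c_e : ∀ n, c n * e n = (μ n : ℂ) • (star (c' n) * e n)
  cs_e : ∀ n, star (c n) * e n = ((μ n)⁻¹ : ℂ) • (c' n * e n)
  e_cc_e : ∀ n, e n * (star (c n) * c n) * e n = ((μ n ^ 2 / (1 + μ n ^ 2) : ℝ) : ℂ) • e n
  e_c_e : ∀ n, e n * c n * e n = 0
  one : ∀ N, ∃ n, N ≤ n ∧ μ n = 1
  rat : rich → ∀ q : ℚ, 0 < q → ∀ N, ∃ n, N ≤ n ∧ μ n = q

/-- The value `t` occurs at infinitely many sites. -/
def Tower.Avail {M : VN H} {r : Prop} (T : Tower M r) (t : ℝ) : Prop := ∀ N, ∃ n, N ≤ n ∧ T.μ n = t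

/-- `n` qubits of level `m` in the centraliser of `ξ`. -/
structure Stage {M : VN H} {r : Prop} (T : Tower M r) (n m : ℕ) (ξ : H) (X Z X' Z' : ℕ → Op H) :
    Prop where
  cs : CycSep M ξ
  qb : ∀ j < n, QB (X j) (Z j)
  qb' : ∀ j < n, QB (X' j) (Z' j)
  mem : ∀ j < n, X j ∈ T.L m ∧ Z j ∈ T.L m
  mem' : ∀ j < n, X' j ∈ M.commutant ∧ Z' j ∈ M.commutant
  qc : ∀ i < n, ∀ j < n, i ≠ j → QC (X i) (Z i) (X j) (Z j)
  qc' : ∀ i < n, ∀ j < n, i ≠ j → QC (X' i) (Z' i) (X' j) (Z' j)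
  vac : ∀ j < n, X j ξ = X' j ξ ∧ Z j ξ = Z' j ξ

/-- The first `n` qubits as a set. -/
def qset (X Z : ℕ → Op H) (n : ℕ) : Set (Op H) := {s | ∃ j < n, s = X j ∨ s = Z j}

/-! ### Kraus families -/

/-- A flow invariant subalgebra whose centre is central in `S.M`. -/
structure Sub (S : ModularDatum H) (B : VN H) : Prop where
  std : Std S
  le : ∀ x ∈ B, x ∈ S.M
  flow : ∀ t, ∀ x ∈ B, S.flow t x ∈ B
  cen : ∀ z ∈ B, (∀ a ∈ B, Commute a z) → z ∈ S.M.commutant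

/-- Exact pairs: `a ξ = J b⋆ ξ = Δ^{1/2} b ξ`. -/
structure Pr (S : ModularDatum H) (B : VN H) (a b : Op H) : Prop where
  ma : a ∈ B
  mb : b ∈ B
  vac : a S.vac = S.J (star b S.vac)

/-- Almost Markov Kraus families with budget `η`. -/
structure Kr (S : ModularDatum H) (B : VN H) (η : ℝ) {σ : Type} [Fintype σ] (a b : σ → Op H) :
    Prop where
  pr : ∀ i, Pr S B (a i) (b i)
  col_le : ∀ ζ, ∑ i, ‖a i ζ‖ ^ 2 ≤ ‖ζ‖ ^ 2
  le_col : ∀ ζ, Real.exp (-η) * ‖ζ‖ ^ 2 ≤ ∑ i, ‖a i ζ‖ ^ 2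
  row_le : ∀ ζ, ∑ i, ‖star (b i) ζ‖ ^ 2 ≤ ‖ζ‖ ^ 2
  le_row : ∀ ζ, Real.exp (-η) * ‖ζ‖ ^ 2 ≤ ∑ i, ‖star (b i) ζ‖ ^ 2

/-- The `L²` operator of a Kraus family: `x ξ ↦ (∑ a⋆ x a) ξ`. -/
noncomputable def chan (S : ModularDatum H) {σ : Type} [Fintype σ] (a b : σ → Op H) : Op H :=
  ∑ i, star (a i) * Rm S.J (b i)

/-- Channels with budget `η`. -/
def Ch (S : ModularDatum H) (B : VN H) (η : ℝ) (T : Op H) : Prop :=
  ∃ (σ : Type) (_ : Fintype σ) (a b : σ → Op H), Kr S B η a b ∧ T = chan S a b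

/-- Narrow band families that do not commute with `y`. -/
def Kfam (S : ModularDatum H) (B : VN H) (y : Op H) (c₀ η : ℝ) (P : ℝ → Prop) : Prop :=
  ∃ (σ : Type) (_ : Fintype σ) (m : σ → Op H) (μ : σ → ℝ),
    (∀ s, m s ∈ B ∧ 0 < μ s ∧ P (μ s)) ∧
    (∀ ζ, ∑ s, ‖m s ζ‖ ^ 2 ≤ 2 * ‖ζ‖ ^ 2) ∧
    (∀ ζ, ∑ s, ‖((μ s)⁻¹ : ℂ) • star (m s) ζ‖ ^ 2 ≤ 2 * ‖ζ‖ ^ 2) ∧
    ∑ s, ‖m s S.vac - ((μ s)⁻¹ : ℂ) • S.J (star (m s) S.vac)‖ ^ 2 ≤ η ∧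
    c₀ ≤ ∑ s, ‖cm y (m s) S.vac‖ ^ 2

/-- The shifted Gaussian `exp (-(t + i y)² / (2 β²))`. -/
noncomputable def gs (β y t : ℝ) : ℂ :=
  Complex.exp (-((t : ℂ) + Complex.I * y) ^ 2 / (2 * (β : ℂ) ^ 2))

/-- The character `exp (-i t s)`. -/
noncomputable def ch (s t : ℝ) : ℂ := Complex.exp (-(Complex.I * ((t * s : ℝ) : ℂ)))

end Crest.Agent.R078
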