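import Crest.Agent.R078.FDefs

/-! Row 78, stage (3): kernels on the real line. -/

set_option autoImplicit false

open scoped InnerProductSpace ComplexConjugate
open Filter Topology

namespace Crest.Agent.R078

open Crest.Agent.R121 (Mn Bd)
open Crest.Agent.R124 (ex)
open Crest.OpAlg

universe u

variable {H : Type*} [NormedAddCommGroup H] [InnerProductSpace ℂ H] [CompleteSpace H]
open MeasureTheory LineCalculus
open scoped BoundedContinuousFunction

theorem FKer_char (t u : ℝ) : character t u = Complex.exp (Complex.I * ((t * u : ℝ) : ℂ)) := rfl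

theorem FKer_norm_char (t u : ℝ) : ‖character t u‖ = 1 := by
  rw [FKer_char, Complex.norm_exp]; simp

theorem FKer_hat {ρ : ℝ → ℂ} (hρ : Integrable ρ) :
    ∃ f : ℝ →ᵇ ℂ, ∀ u, f u = ∫ t, ρ t * character t u := by
  have hb : ∀ u t, ‖ρ t * character t u‖ ≤ ‖ρ t‖ := fun u t => by
    rw [norm_mul, FKer_norm_char, mul_one]
  refine ⟨BoundedContinuousFunction.ofNormedAddCommGroup (fun u => ∫ t, ρ t * character t u)
    (continuous_of_dominated (fun u => hρ.aestronglyMeasurable.mul ?_)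
      (fun u => Eventually.of_forall (hb u)) hρ.norm
      (Eventually.of_forall fun t => continuous_const.mul (character t).continuous))
    (∫ t, ‖ρ t‖) fun u => norm_integral_le_of_norm_le hρ.norm (Eventually.of_forall (hb u)),
    fun _ => rfl⟩
  simp only [FKer_char]
  exact Continuous.aestronglyMeasurable (by fun_prop)

/-- The function whose contour is shifted. -/
noncomputable def FKer_F (u : ℝ) (z : ℂ) : ℂ := Complex.exp (Complex.I * z * u) / (1 + z ^ 2)

theorem FKer_re (x : ℝ) {y : ℝ} (hy : |y| ≤ 1 / 4) :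
    (1 + x ^ 2) / 2 ≤ (1 + ((x : ℂ) + y * Complex.I) ^ 2).re := by
  have h := abs_le.1 hy
  simp [sq]
  nlinarith [mul_self_nonneg x]

theorem FKer_ne {x y : ℝ} (hy : |y| ≤ 1 / 4) : 1 + ((x : ℂ) + y * Complex.I) ^ 2 ≠ 0 := fun h => by
  have := FKer_re x hy
  rw [h, Complex.zero_re] at this
  nlinarith [sq_nonneg x]

theorem FKer_F_le (u x : ℝ) {y : ℝ} (hy : |y| ≤ 1 / 4) :
    ‖FKer_F u (x + y * Complex.I)‖ ≤ 2 * Real.exp |u| * (1 + x ^ 2)⁻¹ := by
  have h1 := (FKer_re x hy).trans (Complex.re_le_norm _)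
  have h2 : (Complex.I * (x + y * Complex.I) * u).re ≤ |u| := by
    have h3 := neg_abs_le (y * u)
    rw [abs_mul] at h3
    have h4 := mul_le_mul_of_nonneg_right hy (abs_nonneg u)
    simp
    linarith [abs_nonneg u]
  rw [FKer_F, norm_div, Complex.norm_exp]
  refine (div_le_div₀ (Real.exp_pos _).le (Real.exp_le_exp.2 h2) (by positivity) h1).trans_eq ?_
  field_simp

theorem FKer_F_cont (u : ℝ) {y : ℝ} (hy : |y| ≤ 1 / 4) :
    Continuous fun x : ℝ => FKer_F u (x + y * Complex.I) :=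
  Continuous.div (by fun_prop) (by fun_prop) fun _ => FKer_ne hy

theorem FKer_F_int (u : ℝ) {y : ℝ} (hy : |y| ≤ 1 / 4) :
    Integrable fun x : ℝ => FKer_F u (x + y * Complex.I) :=
  (integrable_inv_one_add_sq.const_mul _).mono' (FKer_F_cont u hy).aestronglyMeasurable
    (Eventually.of_forall fun x => FKer_F_le u x hy)

theorem FKer_shift (u : ℝ) : ∫ x : ℝ, FKer_F u (x + (-(1 / 4) : ℝ) * Complex.I) =
    ∫ x : ℝ, FKer_F u (x + (1 / 4 : ℝ) * Complex.I) := by
  have hq : |(1 / 4 : ℝ)| ≤ 1 / 4 := (abs_of_pos (by norm_num)).le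
  have hq' : |(-(1 / 4) : ℝ)| ≤ 1 / 4 := by rwa [abs_neg]
  let V : ℝ → ℂ := fun T => ∫ y : ℝ in (-(1 / 4))..(1 / 4), FKer_F u (T + y * Complex.I)
  have hV : ∀ T, ‖V T‖ ≤ 2 * Real.exp |u| * (1 + T ^ 2)⁻¹ * |1 / 4 - -(1 / 4)| := fun T =>
    intervalIntegral.norm_integral_le_of_norm_le_const fun y hy => FKer_F_le u T (by
      rw [Set.uIoc_of_le (by norm_num)] at hy
      exact abs_le.2 ⟨hy.1.le, hy.2⟩)
  have h0 : Tendsto (fun T : ℝ => 2 * Real.exp |u| * (1 + T ^ 2)⁻¹ * |1 / 4 - -(1 / 4)|) atTop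
      (𝓝 0) := by
    have := ((tendsto_atTop_add_const_left atTop (1 : ℝ)
      (tendsto_pow_atTop two_ne_zero)).inv_tendsto_atTop.const_mul
        (2 * Real.exp |u|)).mul_const |1 / 4 - -(1 / 4)|
    simpa using this
  have h1 : Tendsto V atTop (𝓝 0) := squeeze_zero_norm hV h0
  have h2 : Tendsto (fun T => V (-T)) atTop (𝓝 0) :=
    squeeze_zero_norm (fun T => by simpa only [neg_sq] using hV (-T)) h0
  have h3 := (((intervalIntegral_tendsto_integral (FKer_F_int u hq') tendsto_neg_atTop_atBot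
    tendsto_id).sub (intervalIntegral_tendsto_integral (FKer_F_int u hq) tendsto_neg_atTop_atBot
    tendsto_id)).add (h1.const_smul Complex.I)).sub (h2.const_smul Complex.I)
  simp only [smul_zero, add_zero, sub_zero] at h3
  refine sub_eq_zero.1 (tendsto_nhds_unique h3 (tendsto_const_nhds.congr fun T => Eq.symm ?_))
  refine Complex.integral_boundary_rect_eq_zero_of_differentiableOn (FKer_F u) ⟨-T, -(1 / 4)⟩
    ⟨T, 1 / 4⟩ (DifferentiableOn.div (by fun_prop) (by fun_prop) fun z hz => ?_)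
  have h4 := hz.2
  rw [Set.mem_preimage, Set.uIcc_of_le (by norm_num)] at h4
  have := FKer_ne (x := z.re) (abs_le.2 h4)
  rwa [Complex.re_add_im] at this

theorem FKer_gauss {a : ℝ} (ha : 0 < a) (c d : ℂ) :
    ∫ t : ℝ, Complex.exp (-a * t ^ 2 + c * t + d) =
      (√(Real.pi / a) : ℝ) * Complex.exp (d + c ^ 2 / (4 * a)) := by
  rw [integral_cexp_quadratic (by simpa using ha), Real.sqrt_eq_rpow,
    Complex.ofReal_cpow (by positivity)]
  congr 2
  · simp
  · simp
  · ring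

/-- `ρ t = 1 / (1 + (t + i/4)²)`; its real part is `(1 + t² - 1/16) / |⋯|²`; `conj (ρ t)` is the
shift by `-i/4`.  `f`, `g` are bounded and continuous as Fourier transforms of integrable
functions.  The identity is a contour shift for `z ↦ exp (i z u) / (1 + z²)` between
`im z = ± 1/4` (`Complex.integral_boundary_rect_eq_zero_of_differentiableOn`, vertical sides
`O(T⁻²)`): `e^{-u/4} f u = e^{u/4} g u`. -/
theorem exists_kernel : ∃ (ρ : ℝ → ℂ) (f g : ℝ →ᵇ ℂ), Integrable ρ ∧ Continuous ρ ∧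
    (∀ t, 0 < (ρ t).re) ∧ (∀ u, f u = ∫ t, ρ t * character t u) ∧
    (∀ u, g u = ∫ t, conj (ρ t) * character t u) ∧
    ∀ u, f u = g u * ((Real.exp (u / 2) : ℝ) : ℂ) := by
  have hq : |(1 / 4 : ℝ)| ≤ 1 / 4 := (abs_of_pos (by norm_num)).le
  have hq' : |(-(1 / 4) : ℝ)| ≤ 1 / 4 := by rwa [abs_neg]
  let ρ : ℝ → ℂ := fun t => FKer_F 0 (t + (1 / 4 : ℝ) * Complex.I)
  have hρ : ∀ t, ρ t = (1 + ((t : ℂ) + (1 / 4 : ℝ) * Complex.I) ^ 2)⁻¹ := fun t => by
    simp [ρ, FKer_F]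
  have hρ' : ∀ t, conj (ρ t) = (1 + ((t : ℂ) + (-(1 / 4) : ℝ) * Complex.I) ^ 2)⁻¹ := fun t => by
    simp [hρ, map_ofNat]
  have i1 : Integrable ρ := FKer_F_int 0 hq
  obtain ⟨f, hf⟩ := FKer_hat i1
  obtain ⟨g, hg⟩ := FKer_hat (ρ := fun t => conj (ρ t)) 
    (Complex.conjCLE.toContinuousLinearMap.integrable_comp i1)
  refine ⟨ρ, f, g, i1, FKer_F_cont 0 hq, fun t => ?_, hf, hg, fun u => ?_⟩
  · rw [hρ, Complex.inv_re]
    refine div_pos ?_ (Complex.normSq_pos.2 (FKer_ne hq))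
    have := FKer_re t hq
    nlinarith [sq_nonneg t]
  · have h := FKer_shift u
    have h1 : ∀ t : ℝ, FKer_F u (t + (1 / 4 : ℝ) * Complex.I) =
        Complex.exp (-(u / 4)) * (ρ t * character t u) := fun t => by
      rw [hρ, FKer_char, FKer_F, mul_left_comm, ← Complex.exp_add, div_eq_inv_mul]
      congr 2
      push_cast
      linear_combination (u / 4 : ℂ) * Complex.I_mul_I
    have h2 : ∀ t : ℝ, FKer_F u (t + (-(1 / 4) : ℝ) * Complex.I) =
        Complex.exp (u / 4) * (conj (ρ t) * character t u) := fun t => by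
      rw [hρ', FKer_char, FKer_F, mul_left_comm, ← Complex.exp_add, div_eq_inv_mul]
      congr 2
      push_cast
      linear_combination (-u / 4 : ℂ) * Complex.I_mul_I
    simp only [h1, h2, integral_const_mul, ← hf, ← hg] at h
    have h3 : Complex.exp (u / 4) * Complex.exp (-(u / 4)) = 1 := by
      rw [← Complex.exp_add]; simp
    have h4 : ((Real.exp (u / 2) : ℝ) : ℂ) = Complex.exp (u / 4) * Complex.exp (u / 4) := by
      rw [← Complex.exp_add]; push_cast; congr 1; ring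
    rw [h4]
    linear_combination (-Complex.exp (u / 4)) * h - f u * h3

variable {β : ℝ}

theorem continuous_gs (β y : ℝ) : Continuous (gs β y) := by
  unfold gs
  fun_prop

theorem continuous_ch (s : ℝ) : Continuous (ch s) := by
  unfold ch
  fun_prop

theorem norm_ch (s t : ℝ) : ‖ch s t‖ = 1 := by
  rw [ch, Complex.norm_exp]
  simp

theorem conj_ch (s t : ℝ) : conj (ch s t) = ch (-s) t := by
  rw [ch, ch, ← Complex.exp_conj]
  simp

theorem conj_gs (β y t : ℝ) : conj (gs β y t) = gs β (-y) t := by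
  rw [gs, gs, ← Complex.exp_conj]
  simp [map_ofNat]

theorem norm_gs (β y t : ℝ) :
    ‖gs β y t‖ = Real.exp (y ^ 2 / (2 * β ^ 2)) * Real.exp (-t ^ 2 / (2 * β ^ 2)) := by
  have h : -((t : ℂ) + Complex.I * y) ^ 2 / (2 * (β : ℂ) ^ 2) =
      (y ^ 2 / (2 * β ^ 2) + -t ^ 2 / (2 * β ^ 2) : ℝ) + (-(t * y) / β ^ 2 : ℝ) * Complex.I := by
    push_cast
    linear_combination (-(y : ℂ) ^ 2 / (2 * β ^ 2)) * Complex.I_sq
  rw [gs, h, Complex.norm_exp, ← Real.exp_add, Complex.add_re, Complex.ofReal_re,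
    Complex.re_ofReal_mul, Complex.I_re, mul_zero, add_zero]

theorem integrable_gs (hβ : 0 < β) (y : ℝ) : Integrable (gs β y) := by
  refine ((integrable_exp_neg_mul_sq (b := 1 / (2 * β ^ 2)) (by positivity)).const_mul
    (Real.exp (y ^ 2 / (2 * β ^ 2)))).mono' (continuous_gs β y).aestronglyMeasurable
    (Eventually.of_forall fun t => (norm_gs β y t).trans_le (le_of_eq ?_))
  congr 2
  ring

theorem integrable_gs_ch (hβ : 0 < β) (y s : ℝ) : Integrable fun t => gs β y t * ch s t := by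
  refine (integrable_gs hβ y).norm.mono'
    ((continuous_gs β y).mul (continuous_ch s)).aestronglyMeasurable
    (Eventually.of_forall fun t => ?_)
  rw [norm_mul, norm_ch, mul_one]

theorem FKer_sq (β y t : ℝ) :
    ‖gs β y t‖ ^ 2 = Real.exp (y ^ 2 / β ^ 2) * Real.exp (-(1 / β ^ 2) * t ^ 2) := by
  rw [norm_gs, ← Real.exp_add, ← Real.exp_add, sq, ← Real.exp_add]
  congr 1
  ring

theorem FKer_sqrt (hβ : 0 < β) : √(Real.pi / (1 / β ^ 2)) = β * √Real.pi := by
  rw [one_div, div_inv_eq_mul, Real.sqrt_mul Real.pi_pos.le, Real.sqrt_sq hβ.le, mul_comm]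

theorem integrable_gs_sq (hβ : 0 < β) (y : ℝ) : Integrable fun t => ‖gs β y t‖ ^ 2 := by
  simp only [FKer_sq]
  exact (integrable_exp_neg_mul_sq (by positivity)).const_mul _

theorem integral_gs_sq (hβ : 0 < β) (y : ℝ) :
    ∫ t, ‖gs β y t‖ ^ 2 = β * √Real.pi * Real.exp (y ^ 2 / β ^ 2) := by
  simp only [FKer_sq]
  rw [integral_const_mul, integral_gaussian, FKer_sqrt hβ, mul_comm]

/-- `integral_cexp_quadratic`. -/
theorem integral_gs_ch (hβ : 0 < β) (y s u : ℝ) :
    ∫ t, gs β y t * ch s t * character t u =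
      ((β * √(2 * Real.pi) * Real.exp (y * (u - s)) *
        Real.exp (-(β ^ 2 * (u - s) ^ 2 / 2)) : ℝ) : ℂ) := by
  have hβ' : (β : ℂ) ≠ 0 := by exact_mod_cast hβ.ne'
  have h : ∀ t : ℝ, gs β y t * ch s t * character t u = Complex.exp (-(1 / (2 * β ^ 2) : ℝ) * t ^ 2 +
      Complex.I * (u - s - y / β ^ 2) * t + y ^ 2 / (2 * β ^ 2)) := fun t => by
    rw [gs, ch, FKer_char, ← Complex.exp_add, ← Complex.exp_add]
    congr 1
    push_cast
    linear_combination (-(y : ℂ) ^ 2 / (2 * β ^ 2)) * Complex.I_sq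
  simp only [h]
  have h2 : √(Real.pi / (1 / (2 * β ^ 2))) = β * √(2 * Real.pi) := by
    rw [show Real.pi / (1 / (2 * β ^ 2)) = 2 * Real.pi * β ^ 2 by field_simp,
      Real.sqrt_mul (by positivity), Real.sqrt_sq hβ.le, mul_comm]
  rw [FKer_gauss (by positivity), h2, mul_assoc (β * _), ← Real.exp_add, Complex.ofReal_mul (β * _),
    Complex.ofReal_exp]
  congr 2
  push_cast
  rw [mul_pow, Complex.I_sq]
  field_simp
  ring

/-- The Fourier transform as a bounded continuous function. -/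
theorem exists_gs_hat (hβ : 0 < β) (y s : ℝ) : ∃ f : ℝ →ᵇ ℂ, ∀ u,
    f u = ((β * √(2 * Real.pi) * Real.exp (y * (u - s)) *
        Real.exp (-(β ^ 2 * (u - s) ^ 2 / 2)) : ℝ) : ℂ) := by
  obtain ⟨f, hf⟩ := FKer_hat (integrable_gs_ch hβ y s)
  exact ⟨f, fun u => (hf u).trans (integral_gs_ch hβ y s u)⟩

theorem FKer_sub (β y t : ℝ) : ‖gs β 0 t - gs β y t‖ ^ 2 =
    ‖gs β 0 t‖ ^ 2 + ‖gs β y t‖ ^ 2 - 2 * (gs β 0 t * gs β (-y) t).re := by
  simp only [← Complex.normSq_eq_norm_sq, Complex.normSq_sub, conj_gs]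

theorem FKer_mul (β y t : ℝ) : gs β 0 t * gs β (-y) t = Complex.exp (-(1 / β ^ 2 : ℝ) * t ^ 2 +
    Complex.I * (y / β ^ 2) * t + y ^ 2 / (2 * β ^ 2)) := by
  rw [gs, gs, ← Complex.exp_add]
  congr 1
  push_cast
  linear_combination (-(y : ℂ) ^ 2 / (2 * β ^ 2)) * Complex.I_sq

theorem FKer_int_mul (hβ : 0 < β) (y : ℝ) : Integrable fun t => gs β 0 t * gs β (-y) t := by
  simp only [FKer_mul]
  exact integrable_cexp_quadratic (by rw [Complex.ofReal_re]; positivity) _ _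

theorem FKer_integral_mul (hβ : 0 < β) (y : ℝ) : ∫ t, gs β 0 t * gs β (-y) t =
    ((β * √Real.pi * Real.exp (y ^ 2 / (4 * β ^ 2)) : ℝ) : ℂ) := by
  have hβ' : (β : ℂ) ≠ 0 := by exact_mod_cast hβ.ne'
  simp only [FKer_mul]
  rw [FKer_gauss (by positivity), FKer_sqrt hβ, Complex.ofReal_mul (β * _), Complex.ofReal_exp]
  congr 2
  push_cast
  rw [mul_pow, Complex.I_sq]
  field_simp
  ring

theorem integrable_gs_sub_sq (hβ : 0 < β) (y : ℝ) :
    Integrable fun t => ‖gs β 0 t - gs β y t‖ ^ 2 := by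
  simp only [FKer_sub]
  exact ((integrable_gs_sq hβ 0).add (integrable_gs_sq hβ y)).sub
    ((FKer_int_mul hβ y).re.const_mul 2)

/-- Exactly `β √π (1 - 2 e^{y²/(4β²)} + e^{y²/β²})`. -/
theorem eventually_gs_sub (y : ℝ) {κ : ℝ} (hκ : 0 < κ) :
    ∀ᶠ β in atTop, ∫ t, ‖gs β 0 t - gs β y t‖ ^ 2 ≤ κ * (β * √Real.pi) := by
  have h0 : Tendsto (fun β : ℝ => Real.exp (y ^ 2 / β ^ 2)) atTop (𝓝 1) := by
    have := (Real.continuous_exp.tendsto 0).comp
      (tendsto_const_nhds (x := y ^ 2).div_atTop (tendsto_pow_atTop (α := ℝ) two_ne_zero))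
    simpa [Function.comp_def] using this
  filter_upwards [eventually_gt_atTop 0, h0.eventually (ge_mem_nhds (lt_add_of_pos_right 1 hκ))]
    with β hβ h1
  have i1 : Integrable fun t => ‖gs β 0 t‖ ^ 2 + ‖gs β y t‖ ^ 2 :=
    (integrable_gs_sq hβ 0).add (integrable_gs_sq hβ y)
  have i2 : Integrable fun t => 2 * (gs β 0 t * gs β (-y) t).re :=
    (FKer_int_mul hβ y).re.const_mul 2
  have e : ∫ t, (gs β 0 t * gs β (-y) t).re = (∫ t, gs β 0 t * gs β (-y) t).re :=
    integral_re (FKer_int_mul hβ y)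
  simp only [FKer_sub]
  rw [integral_sub i1 i2, integral_add (integrable_gs_sq hβ 0) (integrable_gs_sq hβ y),
    integral_const_mul, e, FKer_integral_mul hβ, integral_gs_sq hβ, integral_gs_sq hβ,
    Complex.ofReal_re]
  have h2 : 1 ≤ Real.exp (y ^ 2 / (4 * β ^ 2)) := Real.one_le_exp (by positivity)
  have h3 : 0 < β * √Real.pi := by have := Real.pi_pos; positivity
  have h4 : Real.exp (0 ^ 2 / β ^ 2) = 1 := by simp
  rw [h4]
  nlinarith

theorem exists_gs_window (hβ : 0 < β) {κ : ℝ} (hκ : 0 < κ) : ∃ Λ : ℝ, 0 < Λ ∧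
    (1 - κ) * (β * √Real.pi) ≤ ∫ t in Set.Icc (-Λ) Λ, ‖gs β 0 t‖ ^ 2 := by
  have h1 := intervalIntegral_tendsto_integral (integrable_gs_sq hβ 0) tendsto_neg_atTop_atBot
    tendsto_id
  have h3 : 0 < β * √Real.pi := by have := Real.pi_pos; positivity
  have h2 : (1 - κ) * (β * √Real.pi) < ∫ t, ‖gs β 0 t‖ ^ 2 := by
    rw [integral_gs_sq hβ, show Real.exp (0 ^ 2 / β ^ 2) = 1 by simp]
    nlinarith
  obtain ⟨Λ, h4, h5⟩ := ((eventually_gt_atTop 0).and (h1.eventually (le_mem_nhds h2))).exists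
  refine ⟨Λ, h4, ?_⟩
  rwa [integral_Icc_eq_integral_Ioc, ← intervalIntegral.integral_of_le (by linarith)]

/-- Finite quadrature: `Convex.integral_mem` (or `Convex.average_mem`) for the closed convex hull
of the range, with the measure `volume.withDensity w` normalised; or Riemann sums on a large
compact interval. -/
theorem exists_quadrature {E : Type*} [NormedAddCommGroup E] [NormedSpace ℝ E] [CompleteSpace E]
    {w : ℝ → ℝ} (hw : Integrable w) (hw0 : ∀ t, 0 ≤ w t) {Φ : ℝ → E} (hΦ : Continuous Φ)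
    {C : ℝ} (hC : ∀ t, ‖Φ t‖ ≤ C) {κ : ℝ} (hκ : 0 < κ) :
    ∃ (n : ℕ) (s lam : Fin n → ℝ), (∀ j, 0 ≤ lam j) ∧
      ‖∑ j, lam j • Φ (s j) - ∫ t, w t • Φ t‖ ≤ κ := by
  have := isFiniteMeasure_withDensity_ofReal hw.hasFiniteIntegral
  have h1 : ∫ t, Φ t ∂(volume.withDensity fun t => ENNReal.ofReal (w t)) = ∫ t, w t • Φ t := by
    rw [integral_withDensity_eq_integral_toReal_smul₀ hw.aemeasurable.ennreal_ofReal (by simp)]
    simp only [ENNReal.toReal_ofReal (hw0 _)]
  rw [← h1]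
  generalize (volume.withDensity fun t => ENNReal.ofReal (w t)) = μ at this
  rcases eq_zero_or_neZero μ with rfl | hμ
  · exact ⟨0, Fin.elim0, Fin.elim0, fun j => j.elim0, by simpa using hκ.le⟩
  have h2 := (convex_convexHull ℝ (Set.range fun t => μ.real Set.univ • Φ t)).closure.average_mem
    (μ := μ) isClosed_closure (f := fun t => μ.real Set.univ • Φ t)
    (Eventually.of_forall fun t => subset_closure (subset_convexHull ℝ _ ⟨t, rfl⟩))
    ((Integrable.of_bound hΦ.aestronglyMeasurable C (Eventually.of_forall hC)).smul _)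
  rw [average_eq, integral_smul, inv_smul_smul₀ measureReal_univ_ne_zero] at h2
  obtain ⟨x, hx, h3⟩ := Metric.mem_closure_iff.1 h2 κ hκ
  obtain ⟨ι, _, c, z, h4, -, h5, rfl⟩ := mem_convexHull_iff_exists_fintype.1 hx
  choose s hs using h5
  refine ⟨_, s ∘ (Fintype.equivFin ι).symm, fun j => c ((Fintype.equivFin ι).symm j) *
    μ.real Set.univ, fun j => mul_nonneg (h4 _) measureReal_nonneg, ?_⟩
  rw [dist_comm, dist_eq_norm, ← (Fintype.equivFin ι).symm.sum_comp] at h3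
  simpa only [← hs, mul_smul, Function.comp_apply] using h3.le

/-- `Monotone.ae_differentiableAt`. -/
theorem exists_dini {r : ℝ → ℝ} (hr : Antitone r) {a : ℝ} (ha : 0 < a) :
    ∃ t, 0 < t ∧ t < a ∧ ∃ C : ℝ, 0 < C ∧ ∀ᶠ h in 𝓝[>] (0 : ℝ), r t - C * h ≤ r (t + h) := by
  have h1 : volume (Set.Ioo 0 a) ≠ 0 := by simpa using ha
  obtain ⟨t, ht, h2⟩ := Measure.exists_mem_of_measure_ne_zero_of_ae h1
    (ae_restrict_of_ae hr.neg.ae_differentiableAt)
  obtain ⟨C, hC, h3⟩ := h2.isBigO_sub.exists_pos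
  refine ⟨t, ht.1, ht.2, C, hC, ?_⟩
  have h4 : Tendsto (fun h : ℝ => t + h) (𝓝[>] 0) (𝓝 t) := by
    have : Tendsto (fun h : ℝ => t + h) (𝓝 0) (𝓝 (t + 0)) := tendsto_id.const_add t
    rw [add_zero] at this
    exact this.mono_left nhdsWithin_le_nhds
  filter_upwards [h4.eventually h3.bound, self_mem_nhdsWithin] with h h5 h6
  rw [add_sub_cancel_left, Real.norm_eq_abs, Real.norm_eq_abs, abs_of_pos (show 0 < h from h6)] at h5
  have := (abs_le.1 h5).2
  linarith

end Crest.Agent.R078
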