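import Crest.Agent.R078.FOne

/-! Row 78, stage (3): almost Markov channels flatten finite sets. -/

set_option autoImplicit false

open scoped InnerProductSpace ComplexConjugate
open Filter Topology

namespace Crest.Agent.R078

open Crest.Agent.R121 (Mn Bd)
open Crest.Agent.R124 (ex)
open Crest.OpAlg

universe u

variable {H : Type*} [NormedAddCommGroup H] [InnerProductSpace ℂ H] [CompleteSpace H]

variable {S : ModularDatum H} {B : VN H}

theorem FLemD_min {K : Type*} [NormedAddCommGroup K] [InnerProductSpace ℂ K] [CompleteSpace K]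
    {C : Set K} (hne : C.Nonempty)
    (hc : ∀ u ∈ C, ∀ u' ∈ C, ∀ s t : ℝ, 0 ≤ s → 0 ≤ t → s + t = 1 → s • u + t • u' ∈ C) :
    ∃ w ∈ closure C, ∀ u ∈ C, ‖w‖ ≤ ‖u‖ := by
  let _ := InnerProductSpace.rclikeToReal ℂ K
  have hconv : Convex ℝ C := fun u hu u' hu' s t hs ht hst => hc u hu u' hu' s t hs ht hst
  obtain ⟨w, hw, h⟩ := exists_norm_eq_iInf_of_complete_convex hne.closure
    isClosed_closure.isComplete hconv.closure 0
  refine ⟨w, hw, fun u hu => ?_⟩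
  have h1 : (⨅ w : closure C, ‖(0 : K) - w‖) ≤ ‖(0 : K) - u‖ :=
    ciInf_le (f := fun w : closure C => ‖(0 : K) - w‖)
      ⟨0, Set.forall_mem_range.2 fun _ => norm_nonneg _⟩ ⟨u, subset_closure hu⟩
  rw [← h] at h1
  simpa using h1

omit [CompleteSpace H] in
theorem FLemD_half {T : Op H} (hT : ∀ v, ‖T v‖ ≤ ‖v‖) (v : H) :
    ‖((1 / 2 : ℝ) • (1 : Op H) + (1 / 2 : ℝ) • T) v‖ ^ 2 ≤
      ‖v‖ ^ 2 - (‖v‖ ^ 2 - (⟪v, T v⟫_ℂ).re) / 2 := by
  have e : ((1 / 2 : ℝ) • (1 : Op H) + (1 / 2 : ℝ) • T) v = (1 / 2 : ℝ) • (v + T v) := by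
    simp [smul_add]
  have h1 := norm_add_sq (𝕜 := ℂ) v (T v)
  have h2 := pow_le_pow_left₀ (norm_nonneg _) (hT v) 2
  rw [e, norm_smul, mul_pow, h1]
  simp only [RCLike.re_to_complex, Real.norm_eq_abs, sq_abs]
  nlinarith

/-- In `K = PiLp 2 (fun _ : ι => H)` let `v l = x l ξ`, `C t = {(T (v l))_l | Ch S B t T}` (convex,
increasing in `t ≥ 0`), `r t = inf {‖u‖ | u ∈ C (max t 0)}` (antitone).  Take `t < η` and `C₀` from
`exists_dini`, and `w` of minimal norm `r t` in `closure (C t)`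
(`exists_norm_eq_iInf_of_complete_convex`).  For `Ch h T'` the channel `(1 + T') / 2` maps
`closure (C t)` into `closure (C (t + h))`, so `‖w + T' w‖ / 2 ≥ r t - C₀ h` for small `h`, whence
`∑ l (‖w l‖² - re ⟪w l, T' (w l)⟫) ≤ 4 (r t) C₀ h`.  With `h = C κ²` this contradicts
`exists_one_step`, so all analytic pairs have zero energy on `w`.  `w l = z l ξ` with `z l ∈ B`,
`‖z l‖ ≤ ‖x l‖` (`Ch.apply_vac`, `exists_wlim`), and `Sub.cen_of_energy` applies. -/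
theorem exists_flatten (hB : Sub S B) {ι : Type} [Fintype ι] {x : ι → Op H} (hx : ∀ l, x l ∈ B)
    {η κ : ℝ} (hη : 0 < η) (hκ : 0 < κ) : ∃ (T : Op H) (z : ι → Op H), Ch S B η T ∧
      ∀ l, Cen S.M (z l) ∧ ‖z l‖ ≤ ‖x l‖ ∧ ‖T (x l S.vac) - z l S.vac‖ ≤ κ := by
  classical
  let v : Op H → (ι → H) → PiLp 2 (fun _ : ι => H) := fun T u => WithLp.toLp 2 fun l => T (u l)
  let x₀ : ι → H := fun l => x l S.vac
  let C : ℝ → Set (PiLp 2 fun _ : ι => H) := fun t => {u | ∃ T, Ch S B (max t 0) T ∧ u = v T x₀}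
  have hne : ∀ t, (C t).Nonempty := fun t => ⟨_, 1, Ch.one S B (le_max_right _ _), rfl⟩
  have hconv : ∀ t, ∀ u ∈ C t, ∀ u' ∈ C t, ∀ s s' : ℝ, 0 ≤ s → 0 ≤ s' → s + s' = 1 →
      (s : ℂ) • u + (s' : ℂ) • u' ∈ C t := by
    rintro t _ ⟨T, hT, rfl⟩ _ ⟨T', hT', rfl⟩ s s' hs hs' hss
    refine ⟨_, hT.convex hT' hs hs' hss, ?_⟩
    ext l
    simp [v]
  choose w hw hmin using fun t => FLemD_min (hne t) (hconv t)
  have hcl : ∀ t (c : ℝ) (T : Op H), (∀ u ∈ C t, c ≤ ‖v T u‖) → c ≤ ‖v T (w t)‖ := by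
    intro t c T h
    have hcont : Continuous fun u : PiLp 2 (fun _ : ι => H) => ‖v T u‖ := by
      refine Continuous.norm ?_
      refine (PiLp.continuous_toLp 2 _).comp (continuous_pi fun l => ?_)
      exact T.continuous.comp (by fun_prop)
    exact (isClosed_le continuous_const hcont).closure_subset_iff.2 h (hw t)
  have hv1 : ∀ u : PiLp 2 (fun _ : ι => H), v 1 u = u := fun u => rfl
  have hr : Antitone fun t => ‖w t‖ := fun t t' htt => by
    have := hcl t ‖w t'‖ 1 fun u ⟨T, hT, e⟩ =>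
      hmin t' _ ⟨T, hT.mono (max_le_max htt le_rfl), (hv1 u).trans e⟩
    rwa [hv1] at this
  obtain ⟨t, ht0, htη, C₀, hC₀, hd⟩ := exists_dini hr hη
  have key : ∀ h T', 0 ≤ h → Ch S B h T' → ‖w t‖ - C₀ * h ≤ ‖w (t + h)‖ →
      ∑ l, (‖w t l‖ ^ 2 - (⟪w t l, T' (w t l)⟫_ℂ).re) ≤ 4 * ‖w t‖ * C₀ * h := by
    intro h T' h0 hT' hh
    have hT'' := (Ch.one S B h0).convex hT' (s := 1 / 2) (t := 1 / 2) (by norm_num) (by norm_num)
      (by norm_num)
    have h1 := hcl t ‖w (t + h)‖ ((1 / 2 : ℝ) • (1 : Op H) + (1 / 2 : ℝ) • T')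
      fun u ⟨T, hT, e⟩ => hmin (t + h) _
      ⟨_, (Ch.mul hB hT hT'').mono (η' := max (t + h) 0) (by
        rw [max_eq_left ht0.le]; exact le_max_left _ _), by subst e; rfl⟩
    have h2 : ‖v ((1 / 2 : ℝ) • (1 : Op H) + (1 / 2 : ℝ) • T') (w t)‖ ^ 2 ≤
        ‖w t‖ ^ 2 - (∑ l, (‖w t l‖ ^ 2 - (⟪w t l, T' (w t l)⟫_ℂ).re)) / 2 := by
      rw [PiLp.norm_sq_eq_of_L2, PiLp.norm_sq_eq_of_L2, Finset.sum_div, ← Finset.sum_sub_distrib]
      exact Finset.sum_le_sum fun l _ => FLemD_half hT'.norm_apply_le _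
    set N := ‖v ((1 / 2 : ℝ) • (1 : Op H) + (1 / 2 : ℝ) • T') (w t)‖
    have hN : 0 ≤ N := norm_nonneg _
    have h3 : ‖w t‖ - C₀ * h ≤ N := hh.trans h1
    have h4 : 0 ≤ ‖w t‖ := norm_nonneg _
    have h5 : 0 ≤ C₀ * h := by positivity
    have h6 : ‖w t‖ ^ 2 - 2 * ‖w t‖ * (C₀ * h) ≤ N ^ 2 := by
      rcases le_total (C₀ * h) ‖w t‖ with h7 | h7
      · nlinarith [pow_le_pow_left₀ (sub_nonneg.2 h7) h3 2, sq_nonneg (C₀ * h)]
      · nlinarith [sq_nonneg N]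
    nlinarith
  have zero : ∀ a b, Pr S B a b → (Continuous fun t => S.flow t a) →
      (Continuous fun t => S.flow t b) → ∀ l, a (w t l) = Rm S.J b (w t l) := by
    intro a b hab ha hb
    by_contra hcon
    obtain ⟨E, D, hE, hD, hev⟩ := exists_one_step hB hab ha hb (fun l => w t l) (not_forall.1 hcon)
    have ht : Tendsto (fun κ : ℝ => D * κ ^ 2) (𝓝[>] 0) (𝓝[>] 0) := by
      refine tendsto_nhdsWithin_iff.2 ⟨?_, ?_⟩
      · refine tendsto_nhdsWithin_of_tendsto_nhds ?_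
        have : Continuous fun κ : ℝ => D * κ ^ 2 := by fun_prop
        simpa using this.tendsto 0
      · filter_upwards [self_mem_nhdsWithin] with κ hκ
        have : 0 < κ := hκ
        exact Set.mem_Ioi.2 (by positivity)
    have hs : ∀ᶠ κ : ℝ in 𝓝[>] 0, 4 * ‖w t‖ * C₀ * D * κ < E := by
      refine Filter.Eventually.filter_mono nhdsWithin_le_nhds ?_
      have : Continuous fun κ : ℝ => 4 * ‖w t‖ * C₀ * D * κ := by fun_prop
      exact (this.tendsto 0).eventually (gt_mem_nhds (by simpa using hE))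
    obtain ⟨κ', ⟨⟨⟨T', hT', h1⟩, h2⟩, h3⟩, h4⟩ :=
      (((hev.and (ht.eventually hd)).and hs).and self_mem_nhdsWithin).exists
    have h5 : 0 < κ' := h4
    have h6 := key _ T' (by positivity) hT' h2
    nlinarith
  obtain ⟨u, hu, hlim⟩ := mem_closure_iff_seq_limit.1 (hw t)
  choose T hT hTe using hu
  have hlim' : ∀ l, Tendsto (fun n => T n (x l S.vac)) atTop (𝓝 (w t l)) := fun l => by
    have hc : Continuous fun u : PiLp 2 (fun _ : ι => H) => u l := by fun_prop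
    have := (hc.tendsto _).comp hlim
    refine this.congr fun n => ?_
    simp only [Function.comp, hTe n]
    rfl
  have hz : ∀ l, ∃ z ∈ B, ‖z‖ ≤ ‖x l‖ ∧ z S.vac = w t l := fun l => by
    choose x' hx' hn he using fun n => (hT n).apply_vac hB (hx l)
    let U : Ultrafilter ℕ := Ultrafilter.of atTop
    obtain ⟨z, hz, hzl⟩ := exists_wlim U x' (Eventually.of_forall hn)
    refine ⟨z, mem_of_weak_tendsto (Eventually.of_forall hx') hzl, hz,
      ext_inner_left ℂ fun ζ => tendsto_nhds_unique (hzl ζ S.vac) ?_⟩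
    have h1 := ((tendsto_const_nhds (x := ζ)).inner (𝕜 := ℂ) (hlim' l)).mono_left
      (Ultrafilter.of_le atTop)
    simpa only [he] using h1
  choose z hzB hzn hze using hz
  have hev : ∀ᶠ n in atTop, ∀ l, ‖T n (x l S.vac) - w t l‖ ≤ κ :=
    eventually_all.2 fun l => by
      have := tendsto_iff_norm_sub_tendsto_zero.1 (hlim' l)
      exact this.eventually (ge_mem_nhds hκ)
  obtain ⟨n, hn⟩ := hev.exists
  refine ⟨T n, z, (hT n).mono (max_le htη.le hη.le), fun l => ⟨?_, hzn l, by rw [hze]; exact hn l⟩⟩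
  exact hB.cen_of_energy (hzB l) fun a b hab ha hb => by rw [hze]; exact zero a b hab ha hb l

/-- With `u = x l ξ - z l ξ` (`‖u‖ ≥ d`): the energy of `x l ξ` is that of `u` (`Pr.cm_vac`),
`‖T u‖ ≤ κ + η R` (`Ch.apply_cen`), so `Kr.le_energy` gives at least
`‖u‖ (2 e^{-η} ‖u‖ - 2 κ - 2 η R) ≥ d²` for small `η, κ`. -/
theorem lemD (hB : Sub S B) {ι : Type} [Fintype ι] {x : ι → Op H} (hx : ∀ l, x l ∈ B) {d : ℝ}
    (hd : 0 < d) (hfar : ∀ l, Far S.M S.vac d (x l)) :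
    ∃ (σ : Type) (_ : Fintype σ) (a b : σ → Op H), Kr S B 1 a b ∧
      ∀ l, d ^ 2 ≤ ∑ i, ‖cm (a i) (x l) S.vac‖ ^ 2 := by
  obtain ⟨R, hR0, hR⟩ : ∃ R : ℝ, 0 < R ∧ ∀ l, ‖x l‖ ≤ R :=
    ⟨∑ l, ‖x l‖ + 1, by positivity, fun l => (Finset.single_le_sum (f := fun l => ‖x l‖)
      (fun _ _ => norm_nonneg _) (Finset.mem_univ l)).trans (by linarith)⟩
  set η := min (1 / 4) (d / (8 * R)) with hηd
  have hη : 0 < η := lt_min (by norm_num) (by positivity)
  have hη1 : η ≤ 1 / 4 := min_le_left _ _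
  have hη2 : η * R ≤ d / 8 := by
    have := min_le_right (1 / 4) (d / (8 * R))
    rw [← hηd, le_div_iff₀ (by positivity)] at this
    linarith
  obtain ⟨T, z, hT, hz⟩ := exists_flatten hB hx hη (κ := d / 8) (by positivity)
  obtain ⟨σ, _, a, b, hK, rfl⟩ := id hT
  have he : Real.exp (-1) ≤ Real.exp (-η) := Real.exp_le_exp.2 (by linarith)
  refine ⟨σ, inferInstance, a, b, ⟨hK.pr, hK.col_le, fun ζ => le_trans ?_ (hK.le_col ζ), hK.row_le,
    fun ζ => le_trans ?_ (hK.le_row ζ)⟩, fun l => ?_⟩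
  · gcongr
  · gcongr
  obtain ⟨hc, hn, hκ⟩ := hz l
  set u := x l S.vac - z l S.vac with hu
  have h1 : d ≤ ‖u‖ := hfar l _ hc
  have h2 : ∀ i, cm (a i) (x l) S.vac = a i u - Rm S.J (b i) u := fun i => by
    have e1 := (hK.pr i).cm_vac hB (hB.le _ (hx l))
    have e2 := (hK.pr i).cm_vac hB hc.1
    rw [cm_eq_zero.2 (hc.commute (hB.le _ (hK.pr i).ma)), zero_apply] at e2
    rw [← e1, hu, map_sub, map_sub, sub_eq_zero.1 e2]
    abel
  simp only [h2]
  refine le_trans ?_ (hK.le_energy u)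
  have h3 : ‖chan S a b u‖ ≤ d / 4 := by
    have e : chan S a b u = (chan S a b (x l S.vac) - z l S.vac) -
        (chan S a b (z l S.vac) - z l S.vac) := by rw [hu, map_sub]; abel
    have h4 := hT.apply_cen hB hc
    have h5 : η * ‖z l‖ ≤ η * R := by gcongr; exact hn.trans (hR l)
    rw [e]
    linarith [norm_sub_le (chan S a b (x l S.vac) - z l S.vac) (chan S a b (z l S.vac) - z l S.vac)]
  have h4 : (⟪u, chan S a b u⟫_ℂ).re ≤ ‖u‖ * (d / 4) :=
    ((Complex.re_le_norm _).trans (norm_inner_le_norm _ _)).trans (by gcongr)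
  have h5 : 3 / 4 ≤ Real.exp (-η) := by linarith [Real.add_one_le_exp (-η)]
  have h6 : 3 / 4 * ‖u‖ ^ 2 ≤ Real.exp (-η) * ‖u‖ ^ 2 := by gcongr
  nlinarith

end Crest.Agent.R078
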