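import Crest.Agent.R078.FKer

/-! Row 78, stage (3): a regularised Parseval identity for vector valued functions. -/

set_option autoImplicit false

open scoped InnerProductSpace ComplexConjugate
open Filter Topology

namespace Crest.Agent.R078

open Crest.Agent.R121 (Mn Bd)
open Crest.Agent.R124 (ex)
open Crest.OpAlg

universe u

variable {H : Type*} [NormedAddCommGroup H] [InnerProductSpace ℂ H] [CompleteSpace H]
open MeasureTheory

variable {ρ : ℝ → ℂ} {F : ℝ → H} {C : ℝ}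

/-- The Fourier transform of `ρ • F`. -/
noncomputable def ft (ρ : ℝ → ℂ) (F : ℝ → H) (s : ℝ) : H := ∫ t, (ρ t * ch s t) • F t

omit [CompleteSpace H] in
theorem fpars_meas (hρ : Integrable ρ) (hF : Continuous F) (s : ℝ) :
    AEStronglyMeasurable (fun t => (ρ t * ch s t) • F t) volume :=
  (hρ.1.mul (continuous_ch s).aestronglyMeasurable).smul hF.aestronglyMeasurable

omit [CompleteSpace H] in
theorem fpars_norm (hC : ∀ t, ‖F t‖ ≤ C) (s t : ℝ) : ‖(ρ t * ch s t) • F t‖ ≤ ‖ρ t‖ * C := by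
  rw [norm_smul, norm_mul, norm_ch, mul_one]
  exact mul_le_mul_of_nonneg_left (hC t) (norm_nonneg _)

theorem fpars_cont_ch : Continuous fun p : ℝ × ℝ => ch p.1 p.2 := by
  unfold ch
  fun_prop

theorem continuous_ft (hρ : Integrable ρ) (hF : Continuous F) (hC : ∀ t, ‖F t‖ ≤ C) :
    Continuous (ft ρ F) := by

  refine continuous_of_dominated (fun s => fpars_meas hρ hF s)
    (fun s => Eventually.of_forall (fpars_norm hC s)) (hρ.norm.mul_const C)
    (Eventually.of_forall fun t => ?_)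
  exact (continuous_const.mul (fpars_cont_ch.comp (continuous_id.prodMk continuous_const))).smul
    continuous_const

theorem norm_ft_le (hρ : Integrable ρ) (hC : ∀ t, ‖F t‖ ≤ C) (s : ℝ) :
    ‖ft ρ F s‖ ≤ (∫ t, ‖ρ t‖) * C := by

  rw [← integral_mul_const]
  exact norm_integral_le_of_norm_le (hρ.norm.mul_const C) (Eventually.of_forall (fpars_norm hC s))

theorem integrable_ft_sq (hρ : Integrable ρ) (hF : Continuous F) (hC : ∀ t, ‖F t‖ ≤ C) {ε : ℝ}
    (hε : 0 < ε) : Integrable fun s => Real.exp (-ε * s ^ 2) * ‖ft ρ F s‖ ^ 2 := by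

  refine (integrable_exp_neg_mul_sq hε).mul_bdd (c := ((∫ t, ‖ρ t‖) * C) ^ 2)
    ((continuous_ft hρ hF hC).norm.pow 2).aestronglyMeasurable (Eventually.of_forall fun s => ?_)
  rw [norm_pow, norm_norm]
  exact pow_le_pow_left₀ (norm_nonneg _) (norm_ft_le hρ hC s) 2

/-- the Gaussian kernel -/
noncomputable def fparsG (ε r : ℝ) : ℝ := √(Real.pi / ε) * Real.exp (-(4 * ε)⁻¹ * r ^ 2)

theorem fparsG_nonneg (ε r : ℝ) : 0 ≤ fparsG ε r := by unfold fparsG; positivity

theorem fparsG_cont (ε : ℝ) : Continuous (fparsG ε) := by unfold fparsG; fun_prop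

theorem fparsG_neg (ε r : ℝ) : fparsG ε (-r) = fparsG ε r := by simp [fparsG]

theorem fparsG_le {ε : ℝ} (hε : 0 < ε) (r : ℝ) : fparsG ε r ≤ √(Real.pi / ε) := by
  refine mul_le_of_le_one_right (Real.sqrt_nonneg _) (Real.exp_le_one_iff.2 ?_)
  have : 0 ≤ (4 * ε)⁻¹ * r ^ 2 := by positivity
  linarith

theorem fparsG_int {ε : ℝ} (hε : 0 < ε) : Integrable (fparsG ε) :=
  (integrable_exp_neg_mul_sq (b := (4 * ε)⁻¹) (by positivity)).const_mul _

theorem fparsG_integral {ε : ℝ} (hε : 0 < ε) : ∫ r, fparsG ε r = 2 * Real.pi := by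
  unfold fparsG
  rw [integral_const_mul, integral_gaussian, ← Real.sqrt_mul (by positivity)]
  rw [show Real.pi / ε * (Real.pi / (4 * ε)⁻¹) = (2 * Real.pi) ^ 2 by field_simp; ring]
  exact Real.sqrt_sq (by positivity)

theorem fpars_gauss {ε : ℝ} (hε : 0 < ε) (t t' : ℝ) :
    ∫ s : ℝ, ((Real.exp (-ε * s ^ 2) : ℝ) : ℂ) * (conj (ch s t) * ch s t') =
      ((fparsG ε (t - t') : ℝ) : ℂ) := by
  have h := fourierIntegral_gaussian (b := (ε : ℂ)) (by simpa using hε) ((t - t' : ℝ) : ℂ)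
  have e1 : ∀ s : ℝ, ((Real.exp (-ε * s ^ 2) : ℝ) : ℂ) * (conj (ch s t) * ch s t') =
      Complex.exp (Complex.I * ((t - t' : ℝ) : ℂ) * s) * Complex.exp (-(ε : ℂ) * s ^ 2) := by
    intro s
    rw [conj_ch, ch, ch, ← Complex.exp_add, mul_comm]
    push_cast
    congr 2
    ring
  simp only [e1]
  rw [h, fparsG, Real.sqrt_eq_rpow, Complex.ofReal_mul,
    Complex.ofReal_cpow (by positivity)]
  push_cast
  congr 2
  have : (ε : ℂ) ≠ 0 := by exact_mod_cast hε.ne'
  field_simp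

omit [CompleteSpace H] in
theorem fpars_int_inner {f g : ℝ → H} (hf : Integrable f) (hg : Integrable g) :
    Integrable (fun p : ℝ × ℝ => ⟪f p.1, g p.2⟫_ℂ) (volume.prod volume) :=
  Integrable.op_fst_snd (op := fun x y : H => ⟪x, y⟫_ℂ) continuous_inner
    ⟨1, fun x y => by rw [one_mul]; exact norm_inner_le_norm x y⟩ hf hg

theorem fpars_inner {f g : ℝ → H} (hf : Integrable f) (hg : Integrable g) :
    ⟪∫ t, f t, ∫ t, g t⟫_ℂ = ∫ p : ℝ × ℝ, ⟪f p.1, g p.2⟫_ℂ ∂(volume.prod volume) := by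
  rw [integral_prod _ (fpars_int_inner hf hg)]
  simp only [integral_inner hg]
  rw [← inner_conj_symm, ← integral_inner hf, ← integral_conj]
  simp only [inner_conj_symm]

theorem fpars_id {u : ℝ → H} (hu : Integrable u) {ε : ℝ} (hε : 0 < ε) :
    ∫ s, Real.exp (-ε * s ^ 2) * ‖∫ t, ch s t • u t‖ ^ 2 =
      ∫ p : ℝ × ℝ, (⟪u p.1, u p.2⟫_ℂ).re * fparsG ε (p.1 - p.2) ∂(volume.prod volume) := by
  have hi := fpars_int_inner hu hu
  have hs : ∀ s, Integrable fun t => ch s t • u t := fun s =>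
    hu.norm.mono' ((continuous_ch s).aestronglyMeasurable.smul hu.1)
      (Eventually.of_forall fun t => by rw [norm_smul, norm_ch, one_mul])
  have e1 : ∀ s : ℝ, ((Real.exp (-ε * s ^ 2) * ‖∫ t, ch s t • u t‖ ^ 2 : ℝ) : ℂ) =
      ∫ p : ℝ × ℝ, (((Real.exp (-ε * s ^ 2) : ℝ) : ℂ) * (conj (ch s p.1) * ch s p.2)) *
        ⟪u p.1, u p.2⟫_ℂ ∂(volume.prod volume) := by
    intro s
    have := fpars_inner (hs s) (hs s)
    rw [inner_self_eq_norm_sq_to_K] at this
    rw [Complex.ofReal_mul, Complex.ofReal_pow]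
    erw [this]
    rw [← integral_const_mul]
    congr 1
    funext p
    rw [inner_smul_left, inner_smul_right]
    ring
  have hc : Continuous fun q : ℝ × (ℝ × ℝ) =>
      ((Real.exp (-ε * q.1 ^ 2) : ℝ) : ℂ) * (conj (ch q.1 q.2.1) * ch q.1 q.2.2) := by
    refine Continuous.mul (by fun_prop) (Continuous.mul (Complex.continuous_conj.comp ?_) ?_)
    · exact fpars_cont_ch.comp (continuous_fst.prodMk (continuous_fst.comp continuous_snd))
    · exact fpars_cont_ch.comp (continuous_fst.prodMk (continuous_snd.comp continuous_snd))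
  have hI : Integrable (Function.uncurry fun (s : ℝ) (p : ℝ × ℝ) =>
      (((Real.exp (-ε * s ^ 2) : ℝ) : ℂ) * (conj (ch s p.1) * ch s p.2)) * ⟪u p.1, u p.2⟫_ℂ)
      (volume.prod (volume.prod volume)) := by
    refine ((integrable_exp_neg_mul_sq hε).mul_prod hi.norm).mono'
      (hc.aestronglyMeasurable.mul hi.1.comp_snd) (Eventually.of_forall fun q => ?_)
    simp only [Function.uncurry, norm_mul, RCLike.norm_conj, norm_ch, mul_one, Complex.norm_real,
      Real.norm_eq_abs, abs_of_pos (Real.exp_pos _), le_refl]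
  have e2 : ((∫ s, Real.exp (-ε * s ^ 2) * ‖∫ t, ch s t • u t‖ ^ 2 : ℝ) : ℂ) =
      ∫ p : ℝ × ℝ, ⟪u p.1, u p.2⟫_ℂ * ((fparsG ε (p.1 - p.2) : ℝ) : ℂ) ∂(volume.prod volume) := by
    rw [← integral_complex_ofReal]
    simp only [e1]
    rw [integral_integral_swap hI]
    congr 1
    funext p
    rw [integral_mul_const, fpars_gauss hε, mul_comm]
  have hJ : Integrable (fun p : ℝ × ℝ => ⟪u p.1, u p.2⟫_ℂ * ((fparsG ε (p.1 - p.2) : ℝ) : ℂ))
      (volume.prod volume) := by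
    refine hi.mul_bdd (c := √(Real.pi / ε)) (Complex.continuous_ofReal.comp
      ((fparsG_cont ε).comp continuous_sub)).aestronglyMeasurable
      (Eventually.of_forall fun p => ?_)
    rw [Complex.norm_real, Real.norm_eq_abs, abs_of_nonneg (fparsG_nonneg _ _)]
    exact fparsG_le hε _
  have e3 := congrArg Complex.re e2
  rw [Complex.ofReal_re] at e3
  rw [e3]
  refine (integral_re hJ).symm.trans ?_
  congr 1
  funext p
  simp

omit [CompleteSpace H] in
theorem fpars_u (hρ : Integrable ρ) (hF : Continuous F) (hC : ∀ t, ‖F t‖ ≤ C) :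
    Integrable fun t => ρ t • F t :=
  (hρ.norm.mul_const C).mono' (hρ.1.smul hF.aestronglyMeasurable)
    (Eventually.of_forall fun t => by
      rw [norm_smul]; exact mul_le_mul_of_nonneg_left (hC t) (norm_nonneg _))

omit [CompleteSpace H] in
theorem fpars_ft (ρ : ℝ → ℂ) (F : ℝ → H) (s : ℝ) : ft ρ F s = ∫ t, ch s t • (ρ t • F t) := by
  simp only [ft, smul_smul, mul_comm]

theorem fpars_conv {a : ℝ → ℝ} (ha : Integrable a) {ε : ℝ} (hε : 0 < ε) :
    Integrable (fun p : ℝ × ℝ => a p.2 * fparsG ε (p.1 - p.2)) (volume.prod volume) ∧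
      ∫ p : ℝ × ℝ, a p.2 * fparsG ε (p.1 - p.2) ∂(volume.prod volume) =
        2 * Real.pi * ∫ t, a t := by
  have h : Integrable (fun p : ℝ × ℝ => a p.2 * fparsG ε (p.1 - p.2)) (volume.prod volume) :=
    ha.convolution_integrand (ContinuousLinearMap.mul ℝ ℝ) (fparsG_int hε)
  refine ⟨h, ?_⟩
  rw [integral_prod_symm _ h]
  simp only [integral_const_mul, integral_sub_right_eq_self, fparsG_integral hε]
  rw [integral_mul_const, mul_comm]

/-- Fubini: the left side is `∬ ⟪ρ t • F t, ρ t' • F t'⟫ G (t - t')` with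
`G r = √(π/ε) exp (-r²/(4ε)) ≥ 0`, `∫ G = 2π` (`integral_cexp_quadratic` /
`fourierIntegral_gaussian`); bound the inner product by the mean of the squares. -/
theorem pars_le (hρ : Integrable ρ) (hρ2 : Integrable fun t => ‖ρ t‖ ^ 2) (hF : Continuous F)
    (hC : ∀ t, ‖F t‖ ≤ C) {ε : ℝ} (hε : 0 < ε) :
    ∫ s, Real.exp (-ε * s ^ 2) * ‖ft ρ F s‖ ^ 2 ≤
      2 * Real.pi * ∫ t, ‖ρ t‖ ^ 2 * ‖F t‖ ^ 2 := by

  have hu := fpars_u hρ hF hC
  have ha : Integrable fun t => ‖ρ t‖ ^ 2 * ‖F t‖ ^ 2 := by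
    refine hρ2.mul_bdd (c := C ^ 2) (hF.norm.pow 2).aestronglyMeasurable
      (Eventually.of_forall fun s => ?_)
    rw [norm_pow, norm_norm]
    exact pow_le_pow_left₀ (norm_nonneg _) (hC s) 2
  obtain ⟨i2, e2⟩ := fpars_conv ha hε
  have i1 : Integrable (fun p : ℝ × ℝ => ‖ρ p.1‖ ^ 2 * ‖F p.1‖ ^ 2 * fparsG ε (p.1 - p.2))
      (volume.prod volume) := by
    have := i2.swap
    refine this.congr (Eventually.of_forall fun p => ?_)
    simp only [Function.comp, Prod.fst_swap, Prod.snd_swap]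
    rw [← fparsG_neg, neg_sub]
  have e1 : ∫ p : ℝ × ℝ, ‖ρ p.1‖ ^ 2 * ‖F p.1‖ ^ 2 * fparsG ε (p.1 - p.2) ∂(volume.prod volume) =
      2 * Real.pi * ∫ t, ‖ρ t‖ ^ 2 * ‖F t‖ ^ 2 := by
    rw [← e2, ← integral_prod_swap]
    congr 1
    funext p
    simp only [Prod.fst_swap, Prod.snd_swap]
    rw [← fparsG_neg, neg_sub]
  simp only [fpars_ft]
  rw [fpars_id hu hε]
  have i0 : Integrable (fun p : ℝ × ℝ => (⟪ρ p.1 • F p.1, ρ p.2 • F p.2⟫_ℂ).re *
      fparsG ε (p.1 - p.2)) (volume.prod volume) := by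
    refine (fpars_int_inner hu hu).re.mul_bdd (c := √(Real.pi / ε))
      ((fparsG_cont ε).comp continuous_sub).aestronglyMeasurable
      (Eventually.of_forall fun p => ?_)
    rw [Real.norm_eq_abs, abs_of_nonneg (fparsG_nonneg _ _)]
    exact fparsG_le hε _
  have key := integral_mono i0 ((i1.add i2).div_const 2) fun p => by
    have a1 : (⟪ρ p.1 • F p.1, ρ p.2 • F p.2⟫_ℂ).re ≤ ‖ρ p.1‖ * ‖F p.1‖ * (‖ρ p.2‖ * ‖F p.2‖) := by
      rw [← norm_smul, ← norm_smul]
      exact (Complex.re_le_norm _).trans (norm_inner_le_norm _ _)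
    have a2 := mul_le_mul_of_nonneg_right a1 (fparsG_nonneg ε (p.1 - p.2))
    have a3 := mul_nonneg (sq_nonneg (‖ρ p.1‖ * ‖F p.1‖ - ‖ρ p.2‖ * ‖F p.2‖))
      (fparsG_nonneg ε (p.1 - p.2))
    simp only [Pi.add_apply]
    nlinarith
  refine key.trans (le_of_eq ?_)
  simp only [Pi.add_apply]
  rw [integral_div, integral_add i1 i2, e1, e2]
  ring

/-- Substitute `t' = t + 2 √ε x` and use dominated convergence
(bound `‖ρ t‖ D C² 2 √π exp (-x²)`). -/
theorem pars_tendsto (hρ : Integrable ρ) (hρc : Continuous ρ) {D : ℝ} (hD : ∀ t, ‖ρ t‖ ≤ D)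
    (hF : Continuous F) (hC : ∀ t, ‖F t‖ ≤ C) :
    Tendsto (fun ε : ℝ => ∫ s, Real.exp (-ε * s ^ 2) * ‖ft ρ F s‖ ^ 2) (𝓝[>] 0)
      (𝓝 (2 * Real.pi * ∫ t, ‖ρ t‖ ^ 2 * ‖F t‖ ^ 2)) := by

  have hu := fpars_u hρ hF hC
  set u : ℝ → H := fun t => ρ t • F t with hudef
  have huc : Continuous u := hρc.smul hF
  have hD0 : 0 ≤ D := (norm_nonneg _).trans (hD 0)
  have hub : ∀ t, ‖u t‖ ≤ D * C := fun t => by
    rw [hudef, norm_smul]
    exact mul_le_mul (hD t) (hC t) (norm_nonneg _) hD0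
  set w : ℝ → ℝ := fun x => 2 * √Real.pi * Real.exp (-1 * x ^ 2) with hw
  have hwi : Integrable w := (integrable_exp_neg_mul_sq one_pos).const_mul _
  have hwc : Continuous w := by rw [hw]; fun_prop
  have hw0 : ∀ x, 0 ≤ w x := fun x => by rw [hw]; positivity
  have hwI : ∫ x, w x = 2 * Real.pi := by
    rw [hw, integral_const_mul, integral_gaussian, div_one, mul_assoc,
      Real.mul_self_sqrt Real.pi_pos.le]
  have hc : ∀ c : ℝ, Continuous fun p : ℝ × ℝ => (⟪u p.1, u (p.1 + c * p.2)⟫_ℂ).re * w p.2 :=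
    fun c => (Complex.continuous_re.comp ((huc.comp continuous_fst).inner
      (huc.comp (by fun_prop)))).mul (hwc.comp continuous_snd)
  have hb : ∀ (c : ℝ) (p : ℝ × ℝ), ‖(⟪u p.1, u (p.1 + c * p.2)⟫_ℂ).re * w p.2‖ ≤
      ‖u p.1‖ * (D * C) * w p.2 := fun c p => by
    rw [norm_mul, Real.norm_eq_abs, Real.norm_eq_abs, abs_of_nonneg (hw0 _)]
    refine mul_le_mul_of_nonneg_right ((Complex.abs_re_le_norm _).trans
      ((norm_inner_le_norm _ _).trans ?_)) (hw0 _)
    exact mul_le_mul_of_nonneg_left (hub _) (norm_nonneg _)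
  have hbi : Integrable (fun p : ℝ × ℝ => ‖u p.1‖ * (D * C) * w p.2) (volume.prod volume) :=
    (hu.norm.mul_const (D * C)).mul_prod hwi
  have lim := tendsto_integral_filter_of_dominated_convergence (μ := volume.prod volume)
    (l := 𝓝[>] (0 : ℝ))
    (F := fun (ε : ℝ) (p : ℝ × ℝ) => (⟪u p.1, u (p.1 + 2 * √ε * p.2)⟫_ℂ).re * w p.2)
    (f := fun p : ℝ × ℝ => ‖u p.1‖ ^ 2 * w p.2) _
    (Eventually.of_forall fun ε => (hc _).aestronglyMeasurable)
    (Eventually.of_forall fun ε => Eventually.of_forall (hb _)) hbi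
    (Eventually.of_forall fun p => by
      have : Continuous fun ε : ℝ => (⟪u p.1, u (p.1 + 2 * √ε * p.2)⟫_ℂ).re * w p.2 :=
        (Complex.continuous_re.comp (continuous_const.inner (huc.comp (by fun_prop)))).mul
          continuous_const
      have h := (this.tendsto 0).mono_left (nhdsWithin_le_nhds (s := Set.Ioi 0))
      simp only [Real.sqrt_zero, mul_zero, zero_mul, add_zero] at h
      rwa [show (⟪u p.1, u p.1⟫_ℂ).re = ‖u p.1‖ ^ 2 from inner_self_eq_norm_sq (𝕜 := ℂ) _] at h)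
  rw [integral_prod_mul (fun t => ‖u t‖ ^ 2) w, hwI, mul_comm] at lim
  have e0 : (fun t => ‖u t‖ ^ 2) = fun t => ‖ρ t‖ ^ 2 * ‖F t‖ ^ 2 := by
    funext t; rw [hudef, norm_smul, mul_pow]
  rw [e0] at lim
  refine lim.congr' ?_
  filter_upwards [self_mem_nhdsWithin] with ε hε
  have hε : 0 < ε := hε
  simp only [fpars_ft]
  have i0 : Integrable (fun p : ℝ × ℝ => (⟪u p.1, u p.2⟫_ℂ).re *
      fparsG ε (p.1 - p.2)) (volume.prod volume) := by
    refine (fpars_int_inner hu hu).re.mul_bdd (c := √(Real.pi / ε))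
      ((fparsG_cont ε).comp continuous_sub).aestronglyMeasurable
      (Eventually.of_forall fun p => ?_)
    rw [Real.norm_eq_abs, abs_of_nonneg (fparsG_nonneg _ _)]
    exact fparsG_le hε _
  rw [fpars_id hu hε, integral_prod _ i0, integral_prod _ (hbi.mono' (hc _).aestronglyMeasurable
    (Eventually.of_forall (hb _)))]
  congr 1
  funext t
  have hs : 0 < √ε := Real.sqrt_pos.2 hε
  have h1 := Measure.integral_comp_mul_left
    (fun y => (⟪u t, u (t + y)⟫_ℂ).re * fparsG ε (t - (t + y))) (2 * √ε)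
  rw [integral_add_left_eq_self (fun y => (⟪u t, u y⟫_ℂ).re * fparsG ε (t - y)) t,
    abs_of_pos (by positivity), smul_eq_mul, eq_inv_mul_iff_mul_eq₀ (by positivity),
    ← integral_const_mul] at h1
  rw [← h1]
  congr 1
  funext x
  have e : 2 * √ε * fparsG ε (t - (t + 2 * √ε * x)) = w x := by
    have e1 : -(4 * ε)⁻¹ * (t - (t + 2 * √ε * x)) ^ 2 = -1 * x ^ 2 := by
      have : (t - (t + 2 * √ε * x)) ^ 2 = 4 * ε * x ^ 2 := by
        rw [show (t - (t + 2 * √ε * x)) ^ 2 = 4 * √ε ^ 2 * x ^ 2 by ring, Real.sq_sqrt hε.le]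
      rw [this]
      field_simp
    rw [fparsG, e1, hw, Real.sqrt_div' _ hε.le]
    field_simp
  simp only
  rw [← e]
  ring

end Crest.Agent.R078
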