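import Crest.Agent.R078.FLemD
import Crest.Agent.R078.FPars

/-! Row 78, stage (3): narrow band Kraus families. -/

set_option autoImplicit false

open scoped InnerProductSpace ComplexConjugate
open Filter Topology

namespace Crest.Agent.R078

open Crest.Agent.R121 (Mn Bd)
open Crest.Agent.R124 (ex)
open Crest.OpAlg

universe u

variable {H : Type*} [NormedAddCommGroup H] [InnerProductSpace ℂ H] [CompleteSpace H]
open MeasureTheory
open scoped BoundedContinuousFunction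
open Crest.Agent.R084 (smear)

variable {S : ModularDatum H} {B : VN H} {y : Op H} {d : ℝ}

theorem flemk_flow_flow (S : ModularDatum H) (t : ℝ) (x : Op H) :
    S.flow t (S.flow (-t) x) = x := by
  ext ζ
  simp only [R084.flow_apply, neg_neg, R084.wave_wave_neg]

theorem flemk_flow_cm (S : ModularDatum H) (t : ℝ) (x z : Op H) :
    S.flow t (cm x z) = cm (S.flow t x) (S.flow t z) := by
  rw [cm, cm, R084.flow_mul, R084.flow_mul]
  simp only [ModularDatum.flow, mul_sub, sub_mul]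

omit [CompleteSpace H] in
theorem flemk_norm_cm (x z : Op H) (ζ : H) : ‖cm x z ζ‖ = ‖cm z x ζ‖ := by
  simp only [cm, ContinuousLinearMap.sub_apply]
  exact norm_sub_rev _ _

theorem flemk_cm_flow (S : ModularDatum H) (t : ℝ) (x z : Op H) :
    ‖cm z (S.flow t x) S.vac‖ = ‖cm x (S.flow (-t) z) S.vac‖ := by
  conv_lhs => rw [← flemk_flow_flow S t z]
  rw [← flemk_flow_cm, R084.flow_vac, R084.norm_wave_apply, flemk_norm_cm]

omit [InnerProductSpace ℂ H] [CompleteSpace H] in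
theorem flemk_sq (u v : H) : ‖v‖ ^ 2 ≤ 4 / 3 * ‖u‖ ^ 2 + 4 * ‖u - v‖ ^ 2 := by
  have h1 : ‖v‖ ≤ ‖u‖ + ‖u - v‖ := by
    have := norm_sub_le u (u - v)
    rwa [sub_sub_cancel] at this
  have h2 := pow_le_pow_left₀ (norm_nonneg _) h1 2
  nlinarith [sq_nonneg (‖u‖ - 3 * ‖u - v‖)]

theorem Far.flow (hB : Sub S B) (h : Far S.M S.vac d y) (t : ℝ) :
    Far S.M S.vac d (S.flow t y) := by
  intro c hc
  have h1 : c S.vac = S.D.wave t (c S.vac) := by
    conv_lhs => rw [← R084.wave_vac S t]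
    exact congrArg (fun T : Op H => T S.vac) (hB.std.commute_wave_cen hc t).eq
  rw [R084.flow_vac, h1, ← map_sub, R084.norm_wave_apply]
  exact h c hc

/-- Apply `lemD` to `σ_{-t} y` for `t` in a fine finite grid of `[-Λ, Λ]` (`t ↦ σ_t y ξ` is uniformly
continuous there); `Kr.energy_le'` and `Pr.cm_vac` control the passage to nearby `t`
(`‖A‖² ≥ (3/4) ‖A'‖² - 3 ‖A - A'‖²`), and `‖[σ_t a, y] ξ‖ = ‖[a, σ_{-t} y] ξ‖`. -/
theorem lemD_window (hB : Sub S B) (hy : y ∈ B) (hd : 0 < d) (hfar : Far S.M S.vac d y) (Λ : ℝ) :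
    ∃ (σ : Type) (_ : Fintype σ) (a b : σ → Op H), Kr S B 1 a b ∧
      ∀ t ∈ Set.Icc (-Λ) Λ, d ^ 2 / 2 ≤ ∑ i, ‖cm y (S.flow t (a i)) S.vac‖ ^ 2 := by
  have hG : Continuous fun t : ℝ => S.flow (-t) y S.vac :=
    (R084.continuous_flow_apply S y S.vac).comp continuous_neg
  obtain ⟨T, -, hT⟩ := (isCompact_Icc (a := -Λ) (b := Λ)).elim_nhds_subcover
    (fun l => {t | ‖S.flow (-t) y S.vac - S.flow (-l) y S.vac‖ < d / 7}) fun l _ =>
      (isOpen_lt (hG.sub continuous_const).norm continuous_const).mem_nhds (by simpa using hd)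
  obtain ⟨σ, _, a, b, hK, h⟩ := lemD (ι := T) (x := fun l => S.flow (-l) y) hB
    (fun l => hB.flow _ _ hy) hd fun l => Far.flow hB hfar _
  refine ⟨σ, inferInstance, a, b, hK, fun t ht => ?_⟩
  obtain ⟨l, hl, hlt⟩ := Set.mem_iUnion₂.1 (hT ht)
  have h1 := h ⟨l, hl⟩
  have hm : ∀ t, S.flow t y ∈ S.M := fun t => hB.le _ (hB.flow _ _ hy)
  have h2 := hK.energy_le' (S.flow (-t) y S.vac - S.flow (-l) y S.vac)
  have h3 : ∑ i, ‖cm (a i) (S.flow (-l) y) S.vac‖ ^ 2 ≤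
      4 / 3 * ∑ i, ‖cm y (S.flow t (a i)) S.vac‖ ^ 2 +
        4 * ∑ i, ‖a i (S.flow (-t) y S.vac - S.flow (-l) y S.vac) -
          Rm S.J (b i) (S.flow (-t) y S.vac - S.flow (-l) y S.vac)‖ ^ 2 := by
    rw [Finset.mul_sum, Finset.mul_sum, ← Finset.sum_add_distrib]
    refine Finset.sum_le_sum fun i _ => ?_
    rw [flemk_cm_flow S t]
    refine (flemk_sq (cm (a i) (S.flow (-t) y) S.vac) _).trans_eq ?_
    rw [← (hK.pr i).cm_vac hB (hm _), ← (hK.pr i).cm_vac hB (hm _), map_sub, map_sub]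
    congr 3
    abel
  have h4 := pow_le_pow_left₀ (norm_nonneg _) (le_of_lt hlt) 2
  simp only at h1
  nlinarith [sq_nonneg d]

/-- The narrow band component of `a` at frequency `s`. -/
noncomputable def band (S : ModularDatum H) {β : ℝ} (hβ : 0 < β) (r s : ℝ) (a : Op H) : Op H :=
  smear S volume (fun t => gs β r t * ch s t) (integrable_gs_ch hβ r s) a

theorem band_apply {β : ℝ} (hβ : 0 < β) (r s : ℝ) (a : Op H) (ζ : H) :
    band S hβ r s a ζ = ft (gs β r) (fun t => S.flow t a ζ) s := by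
  rfl

theorem star_band {β : ℝ} (hβ : 0 < β) (r s : ℝ) (a : Op H) :
    star (band S hβ r s a) = band S hβ (-r) (-s) (star a) := by
  have h : (fun t => conj (gs β r t * ch s t)) = fun t => gs β (-r) t * ch (-s) t := by
    ext t
    rw [map_mul, conj_gs, conj_ch]
  rw [band, R084.star_smear S _ _ _ (h ▸ integrable_gs_ch hβ (-r) (-s))]
  ext ζ
  simp only [band, R084.smear_apply, map_mul, conj_gs, conj_ch]

theorem norm_band_le {β : ℝ} (hβ : 0 < β) (r s : ℝ) (a : Op H) :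
    ‖band S hβ r s a‖ ≤ (∫ t, ‖gs β r t‖) * ‖a‖ := by
  refine (R084.norm_smear_le S _ _ _ a).trans_eq ?_
  simp only [norm_mul, norm_ch, mul_one]

/-- `‖band s - band s'‖ ≤ ‖a‖ ∫ ‖gs‖ ‖ch s t - ch s' t‖`, dominated convergence. -/
theorem continuous_band {β : ℝ} (hβ : 0 < β) (r : ℝ) (a : Op H) :
    Continuous fun s => band S hβ r s a := by
  refine continuous_iff_continuousAt.2 fun s₀ => tendsto_iff_norm_sub_tendsto_zero.2 ?_
  have hc : Continuous fun s => ∫ t, ‖gs β r t * ch s t - gs β r t * ch s₀ t‖ := by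
    refine continuous_of_dominated (bound := fun t => ‖gs β r t‖ + ‖gs β r t‖)
      (fun s => ((integrable_gs_ch hβ r s).sub (integrable_gs_ch hβ r s₀)).norm.1)
      (fun s => Eventually.of_forall fun t => ?_)
      ((integrable_gs hβ r).norm.add (integrable_gs hβ r).norm) (Eventually.of_forall fun t => ?_)
    · rw [norm_norm]
      refine (norm_sub_le _ _).trans_eq ?_
      simp only [norm_mul, norm_ch, mul_one]
    · unfold ch
      fun_prop
  have h0 := (hc.tendsto s₀).mul_const ‖a‖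
  simp only [sub_self, norm_zero, integral_zero, zero_mul] at h0
  refine squeeze_zero (fun _ => norm_nonneg _) (fun s => ?_) h0
  refine le_of_eq_of_le (congrArg norm ?_) (R084.norm_smear_le S volume _
    ((integrable_gs_ch hβ r s).sub (integrable_gs_ch hβ r s₀)) a)
  ext ζ
  simp only [band, ContinuousLinearMap.sub_apply, R084.smear_apply, Pi.sub_apply, sub_smul]
  rw [integral_sub (R084.integrable_smul_flow S (integrable_gs_ch hβ r s) a ζ)
    (R084.integrable_smul_flow S (integrable_gs_ch hβ r s₀) a ζ)]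

theorem flemk_hat {β : ℝ} (hβ : 0 < β) (s : ℝ) : ∃ f g : ℝ →ᵇ ℂ,
    (∀ u, g u = f u * ((Real.exp (u / 2) : ℝ) : ℂ)) ∧
    (∀ a : Op H, band S hβ 0 s a S.vac = S.D.apply f (a S.vac)) ∧
    ∀ a : Op H, ((Real.exp (s / 2) : ℝ) : ℂ) • band S hβ (1 / 2) s a S.vac =
      S.D.apply g (a S.vac) := by
  obtain ⟨f, hf⟩ := exists_gs_hat hβ 0 s
  obtain ⟨g, hg⟩ := exists_gs_hat hβ (1 / 2) s
  refine ⟨f, ((Real.exp (s / 2) : ℝ) : ℂ) • g, fun u => ?_, fun a => ?_, fun a => ?_⟩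
  · rw [BoundedContinuousFunction.smul_apply, hf, hg, smul_eq_mul, ← Complex.ofReal_mul,
      ← Complex.ofReal_mul]
    congr 1
    have : Real.exp (u / 2) = Real.exp (s / 2) * Real.exp (1 / 2 * (u - s)) := by
      rw [← Real.exp_add]; congr 1; ring
    rw [this, zero_mul, Real.exp_zero]
    ring
  · exact R084.smear_vac S _ _ _ f (fun u => by rw [hf, integral_gs_ch hβ]) a
  · rw [map_smul, ContinuousLinearMap.smul_apply, band,
      R084.smear_vac S _ _ _ g (fun u => by rw [hg, integral_gs_ch hβ]) a]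

/-- `J m⋆ ξ = e^{s/2} (band (1/2) s a) ξ` (`J_star_vac_of_fun`, `integral_gs_ch`). -/
theorem J_star_band {β : ℝ} (hβ : 0 < β) (s : ℝ) {a : Op H} (ha : a ∈ S.M) :
    S.J (star (band S hβ 0 s a) S.vac) =
      ((Real.exp (s / 2) : ℝ) : ℂ) • band S hβ (1 / 2) s a S.vac := by
  obtain ⟨f, g, hfg, hf, hg⟩ := flemk_hat (S := S) hβ s
  rw [hg]
  exact J_star_vac_of_fun (R084.smear_mem S _ _ _ ha) hfg (hf a)

/-- Both sides lie in `S.M` and agree on `ξ` (`Pr.halfExp`). -/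
theorem band_eq_of_pr (hB : Sub S B) {a b : Op H} (h : Pr S B a b) {β : ℝ} (hβ : 0 < β) (s : ℝ) :
    band S hβ 0 s a = ((Real.exp (s / 2) : ℝ) : ℂ) • band S hβ (1 / 2) s b := by
  obtain ⟨f, g, hfg, hf, hg⟩ := flemk_hat (S := S) hβ s
  refine sub_eq_zero.1 (S.separating _ (sub_mem (R084.smear_mem S _ _ _ (hB.le _ h.ma))
    (S.M.toStarSubalgebra.smul_mem (R084.smear_mem S _ _ _ (hB.le _ h.mb)) _)) ?_)
  rw [ContinuousLinearMap.sub_apply, ContinuousLinearMap.smul_apply, hf, hg,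
    h.halfExp hB f g hfg, sub_self]

/-- The quadratic form at a vector. -/
noncomputable def flemk_form (ζ : H) : Op H →L[ℝ] ℝ :=
  Complex.reCLM.comp (((innerSL ℂ ζ).comp (ContinuousLinearMap.apply ℂ H ζ)).restrictScalars ℝ)

theorem flemk_form_le (ζ : H) (T : Op H) : |flemk_form ζ T| ≤ ‖T‖ * ‖ζ‖ ^ 2 := by
  change |(⟪ζ, T ζ⟫_ℂ).re| ≤ _
  refine (Complex.abs_re_le_norm _).trans ((norm_inner_le_norm _ _).trans ?_)
  nlinarith [T.le_opNorm ζ, norm_nonneg ζ]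

theorem flemk_form_sum {ι : Type} [Fintype ι] (m : ι → Op H) (ζ : H) :
    flemk_form ζ (∑ i, star (m i) * m i) = ∑ i, ‖m i ζ‖ ^ 2 := by
  rw [map_sum]
  refine Finset.sum_congr rfl fun i _ => ?_
  change (⟪ζ, star (m i) (m i ζ)⟫_ℂ).re = _
  rw [ContinuousLinearMap.star_eq_adjoint, ContinuousLinearMap.adjoint_inner_right,
    inner_self_eq_norm_sq_to_K]
  norm_cast

theorem flemk_norm_sum {ι : Type} [Fintype ι] {m : ι → Op H} {C : ι → ℝ} (h : ∀ i, ‖m i‖ ≤ C i) :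
    ‖∑ i, star (m i) * m i‖ ≤ ∑ i, C i ^ 2 := by
  refine (norm_sum_le _ _).trans (Finset.sum_le_sum fun i _ => ?_)
  rw [CStarRing.norm_star_mul_self, ← sq]
  exact pow_le_pow_left₀ (norm_nonneg _) (h i) 2

theorem flemk_disc {ι : Type} [Fintype ι] {m n : ι → ℝ → Op H} (hm : ∀ i, Continuous (m i))
    (hn : ∀ i, Continuous (n i)) {Cm Cn : ι → ℝ} (hCm : ∀ i t, ‖m i t‖ ≤ Cm i)
    (hCn : ∀ i t, ‖n i t‖ ≤ Cn i) {p q : ℝ → ℝ} (hp : Continuous p) (hq : Continuous q)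
    {Cp Cq : ℝ} (hCp : ∀ t, ‖p t‖ ≤ Cp) (hCq : ∀ t, ‖q t‖ ≤ Cq) {w : ℝ → ℝ} (hw : Integrable w)
    (hw0 : ∀ t, 0 ≤ w t) {κ : ℝ} (hκ : 0 < κ) :
    ∃ (N : ℕ) (s lam : Fin N → ℝ), (∀ j, 0 ≤ lam j) ∧
      (∀ ζ, ∑ j, lam j * ∑ i, ‖m i (s j) ζ‖ ^ 2 ≤
        (∫ t, w t * ∑ i, ‖m i t ζ‖ ^ 2) + κ * ‖ζ‖ ^ 2) ∧
      (∀ ζ, ∑ j, lam j * ∑ i, ‖n i (s j) ζ‖ ^ 2 ≤
        (∫ t, w t * ∑ i, ‖n i t ζ‖ ^ 2) + κ * ‖ζ‖ ^ 2) ∧
      ∑ j, lam j * p (s j) ≤ (∫ t, w t * p t) + κ ∧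
      (∫ t, w t * q t) - κ ≤ ∑ j, lam j * q (s j) := by
  let Φ : ℝ → (Op H × Op H) × ℝ × ℝ := fun t =>
    ((∑ i, star (m i t) * m i t, ∑ i, star (n i t) * n i t), p t, q t)
  have hΦ : Continuous Φ := by
    refine (Continuous.prodMk ?_ ?_).prodMk (hp.prodMk hq)
    · exact continuous_finset_sum _ fun i _ => (hm i).star.mul (hm i)
    · exact continuous_finset_sum _ fun i _ => (hn i).star.mul (hn i)
  have hC : ∀ t, ‖Φ t‖ ≤ max (max (∑ i, Cm i ^ 2) (∑ i, Cn i ^ 2)) (max Cp Cq) := fun t =>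
    max_le_max (max_le_max (flemk_norm_sum fun i => hCm i t) (flemk_norm_sum fun i => hCn i t))
      (max_le_max (hCp t) (hCq t))
  obtain ⟨N, s, lam, h0, h1⟩ := exists_quadrature hw hw0 hΦ hC hκ
  have hI : Integrable fun t => w t • Φ t :=
    hw.smul_of_top_left (memLp_top_of_bound hΦ.aestronglyMeasurable _ (Eventually.of_forall hC))
  have key : ∀ (L : (Op H × Op H) × ℝ × ℝ →L[ℝ] ℝ) (c : ℝ), 0 ≤ c → (∀ e, |L e| ≤ ‖e‖ * c) →
      |∑ j, lam j * L (Φ (s j)) - ∫ t, w t * L (Φ t)| ≤ κ * c := by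
    intro L c hc hL
    have h2 := (hL _).trans (mul_le_mul_of_nonneg_right h1 hc)
    rw [map_sub, map_sum, ← L.integral_comp_comm hI] at h2
    simpa only [map_smul, smul_eq_mul] using h2
  refine ⟨N, s, lam, h0, fun ζ => ?_, fun ζ => ?_, ?_, ?_⟩
  · have h3 := key ((flemk_form ζ).comp ((ContinuousLinearMap.fst ℝ _ _).comp
      (ContinuousLinearMap.fst ℝ _ _))) (‖ζ‖ ^ 2) (sq_nonneg _) fun e =>
        (flemk_form_le ζ e.1.1).trans (mul_le_mul_of_nonneg_right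
          ((norm_fst_le e.1).trans (norm_fst_le e)) (sq_nonneg _))
    simp only [ContinuousLinearMap.comp_apply, ContinuousLinearMap.coe_fst', Φ,
      flemk_form_sum] at h3
    linarith [(abs_le.1 h3).2]
  · have h3 := key ((flemk_form ζ).comp ((ContinuousLinearMap.snd ℝ _ _).comp
      (ContinuousLinearMap.fst ℝ _ _))) (‖ζ‖ ^ 2) (sq_nonneg _) fun e =>
        (flemk_form_le ζ e.1.2).trans (mul_le_mul_of_nonneg_right
          ((norm_snd_le e.1).trans (norm_fst_le e)) (sq_nonneg _))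
    simp only [ContinuousLinearMap.comp_apply, ContinuousLinearMap.coe_fst',
      ContinuousLinearMap.coe_snd', Φ, flemk_form_sum] at h3
    linarith [(abs_le.1 h3).2]
  · have h3 := key ((ContinuousLinearMap.fst ℝ _ _).comp (ContinuousLinearMap.snd ℝ _ _)) 1
      zero_le_one fun e => by
        rw [mul_one]; exact (norm_fst_le e.2).trans (norm_snd_le e)
    simp only [ContinuousLinearMap.comp_apply, ContinuousLinearMap.coe_fst',
      ContinuousLinearMap.coe_snd', Φ] at h3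
    linarith [(abs_le.1 h3).2]
  · have h3 := key ((ContinuousLinearMap.snd ℝ _ _).comp (ContinuousLinearMap.snd ℝ _ _)) 1
      zero_le_one fun e => by
        rw [mul_one]; exact (norm_snd_le e.2).trans (norm_snd_le e)
    simp only [ContinuousLinearMap.comp_apply, ContinuousLinearMap.coe_snd', Φ] at h3
    linarith [(abs_le.1 h3).1]

theorem flemk_int_sq {ρ : ℝ → ℂ} (hρ2 : Integrable fun t => ‖ρ t‖ ^ 2) {F : ℝ → H}
    (hF : Continuous F) {C : ℝ} (hC : ∀ t, ‖F t‖ ≤ C) :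
    Integrable fun t => ‖ρ t‖ ^ 2 * ‖F t‖ ^ 2 :=
  hρ2.mul_bdd (c := C ^ 2) (hF.norm.pow 2).aestronglyMeasurable (Eventually.of_forall fun t => by
    rw [Real.norm_of_nonneg (sq_nonneg _)]
    exact pow_le_pow_left₀ (norm_nonneg _) (hC t) 2)

theorem flemk_pars_sum {ι : Type} [Fintype ι] {ρ : ℝ → ℂ} (hρ : Integrable ρ)
    (hρ2 : Integrable fun t => ‖ρ t‖ ^ 2) {F : ι → ℝ → H} (hF : ∀ i, Continuous (F i))
    {C : ι → ℝ} (hC : ∀ i t, ‖F i t‖ ≤ C i) {R : ℝ} (hR : ∀ t, ∑ i, ‖F i t‖ ^ 2 ≤ R) {ε : ℝ}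
    (hε : 0 < ε) : ∫ s, Real.exp (-ε * s ^ 2) * ∑ i, ‖ft ρ (F i) s‖ ^ 2 ≤
      2 * Real.pi * ((∫ t, ‖ρ t‖ ^ 2) * R) := by
  simp only [Finset.mul_sum]
  rw [integral_finset_sum _ fun i _ => integrable_ft_sq hρ (hF i) (hC i) hε]
  refine (Finset.sum_le_sum fun i _ => pars_le hρ hρ2 (hF i) (hC i) hε).trans ?_
  rw [← Finset.mul_sum, ← integral_finset_sum _ fun i _ => flemk_int_sq hρ2 (hF i) (hC i),
    ← integral_mul_const]
  refine mul_le_mul_of_nonneg_left (integral_mono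
    (integrable_finset_sum _ fun i _ => flemk_int_sq hρ2 (hF i) (hC i)) (hρ2.mul_const R)
    fun t => ?_) (by positivity)
  simp only [← Finset.mul_sum]
  exact mul_le_mul_of_nonneg_left (hR t) (sq_nonneg _)

theorem flemk_pars_low {ι : Type} [Fintype ι] {β : ℝ} (hβ : 0 < β) {F : ι → ℝ → H}
    (hF : ∀ i, Continuous (F i)) {C : ι → ℝ} (hC : ∀ i t, ‖F i t‖ ≤ C i) {R Λ c : ℝ} (hR0 : 0 ≤ R)
    (hR : ∀ t ∈ Set.Icc (-Λ) Λ, R ≤ ∑ i, ‖F i t‖ ^ 2)
    (hc : c < 2 * Real.pi * ((∫ t in Set.Icc (-Λ) Λ, ‖gs β 0 t‖ ^ 2) * R)) :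
    ∃ ε : ℝ, 0 < ε ∧ c < ∫ s, Real.exp (-ε * s ^ 2) * ∑ i, ‖ft (gs β 0) (F i) s‖ ^ 2 := by
  have hρ := integrable_gs hβ 0
  have hρ2 := integrable_gs_sq hβ 0
  have hD : ∀ t, ‖gs β 0 t‖ ≤ 1 := fun t => by
    rw [norm_gs, ← Real.exp_add, Real.exp_le_one_iff]
    have : 0 ≤ t ^ 2 / (2 * β ^ 2) := by positivity
    rw [neg_div]
    simpa using this
  have h1 := tendsto_finset_sum Finset.univ fun i _ =>
    pars_tendsto hρ (continuous_gs β 0) hD (hF i) (hC i)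
  have hI : Integrable fun t => ∑ i, ‖gs β 0 t‖ ^ 2 * ‖F i t‖ ^ 2 :=
    integrable_finset_sum _ fun i _ => flemk_int_sq hρ2 (hF i) (hC i)
  have h2 : c < ∑ i, 2 * Real.pi * ∫ t, ‖gs β 0 t‖ ^ 2 * ‖F i t‖ ^ 2 := by
    refine hc.trans_le ?_
    rw [← Finset.mul_sum, ← integral_finset_sum _ fun i _ => flemk_int_sq hρ2 (hF i) (hC i),
      ← integral_mul_const]
    refine mul_le_mul_of_nonneg_left ((setIntegral_mono_on (hρ2.mul_const R).integrableOn
      hI.integrableOn measurableSet_Icc fun t ht => ?_).trans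
      (setIntegral_le_integral hI (Eventually.of_forall fun t => ?_))) (by positivity)
    · rw [← Finset.mul_sum]
      exact mul_le_mul_of_nonneg_left (hR t ht) (sq_nonneg _)
    · exact Finset.sum_nonneg fun i _ => by positivity
  obtain ⟨ε, h3, hε⟩ := ((h1.eventually_const_lt h2).and self_mem_nhdsWithin).exists
  refine ⟨ε, hε, h3.trans_eq ?_⟩
  simp only [Finset.mul_sum]
  rw [integral_finset_sum _ fun i _ => integrable_ft_sq hρ (hF i) (hC i) hε]

theorem flemk_ft_sub {ρ ρ' : ℝ → ℂ} (hρ : Integrable ρ) (hρ' : Integrable ρ') {F : ℝ → H}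
    (hF : Continuous F) {C : ℝ} (hC : ∀ t, ‖F t‖ ≤ C) (s : ℝ) :
    ft ρ F s - ft ρ' F s = ft (fun t => ρ t - ρ' t) F s := by
  have h : ∀ {ρ : ℝ → ℂ}, Integrable ρ → Integrable fun t => (ρ t * ch s t) • F t := fun hρ =>
    R084.integrable_smul_of_bound (hρ.mul_bdd (c := 1) (continuous_ch s).aestronglyMeasurable
      (Eventually.of_forall fun t => (norm_ch s t).le)) hF C hC
  rw [ft, ft, ft, ← integral_sub (h hρ) (h hρ')]
  simp only [sub_mul, sub_smul]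

theorem flemk_cm_band {β : ℝ} (hβ : 0 < β) (r s : ℝ) (a : Op H) (ζ : H) :
    cm y (band S hβ r s a) ζ = ft (gs β r) (fun t => cm y (S.flow t a) ζ) s := by
  have h := fun ζ => R084.integrable_smul_flow S (integrable_gs_ch hβ r s) a ζ
  simp only [cm, ContinuousLinearMap.sub_apply, ContinuousLinearMap.mul_apply, band,
    R084.smear_apply, ft, smul_sub]
  rw [← y.integral_comp_comm (h ζ), ← integral_sub (y.integrable_comp (h ζ)) (h _)]
  simp only [map_smul]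

theorem flemk_flow_sum {ι : Type} [Fintype ι] {a : ι → Op H}
    (h : ∀ ζ, ∑ i, ‖a i ζ‖ ^ 2 ≤ ‖ζ‖ ^ 2) (t : ℝ) (ζ : H) :
    ∑ i, ‖S.flow t (a i) ζ‖ ^ 2 ≤ ‖ζ‖ ^ 2 := by
  simp only [R084.flow_apply, R084.norm_wave_apply]
  exact (h _).trans_eq (by rw [R084.norm_wave_apply])

omit [CompleteSpace H] in
theorem flemk_sqrt {l : ℝ} (hl : 0 ≤ l) (v : H) : ‖((√l : ℝ) : ℂ) • v‖ ^ 2 = l * ‖v‖ ^ 2 := by
  rw [norm_smul, mul_pow, Complex.norm_real, Real.norm_eq_abs, sq_abs, Real.sq_sqrt hl]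

/-- Fix `β ≥ 1` with `eventually_gs_sub (1/2)`, `Λ` from `exists_gs_window`, the family of
`lemD_window`, `N = 2π β √π`, `m i s = band 0 s (a i)`, `μ s = e^{s/2}`, weight `N⁻¹ e^{-ε s²}`.
`pars_le` gives (K1) `≤ 1` (`∑ ‖σ_t (a i) ζ‖² ≤ ‖ζ‖²`), (K2) `≤ e^{1/4}` (`band_eq_of_pr`,
`star_band`, `integral_neg_eq_self`), (K3) with `ρ = gs β 0 - gs β (1/2)`, `F t = σ_t (a i) ξ`;
`pars_tendsto` with `F t = [y, σ_t (a i)] ξ` gives (K4) for small `ε`.  Discretise with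
`exists_quadrature` in `Op H × Op H × ℝ × ℝ` for
`Φ s = (∑ m⋆m, ∑ μ⁻² m m⋆, K3 term, K4 term)`; family `√(λ j) • m i (s j)`. -/
theorem lemK_real (hB : Sub S B) (hy : y ∈ B) (hd : 0 < d) (hfar : Far S.M S.vac d y) {η : ℝ}
    (hη : 0 < η) : ∃ (σ : Type) (_ : Fintype σ) (m : σ → Op H) (μ : σ → ℝ),
    (∀ s, m s ∈ B ∧ 0 < μ s) ∧
    (∀ ζ, ∑ s, ‖m s ζ‖ ^ 2 ≤ 3 / 2 * ‖ζ‖ ^ 2) ∧
    (∀ ζ, ∑ s, ‖((μ s)⁻¹ : ℂ) • star (m s) ζ‖ ^ 2 ≤ 3 / 2 * ‖ζ‖ ^ 2) ∧
    ∑ s, ‖m s S.vac - ((μ s)⁻¹ : ℂ) • S.J (star (m s) S.vac)‖ ^ 2 < η ∧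
    d ^ 2 / 4 ≤ ∑ s, ‖cm y (m s) S.vac‖ ^ 2 := by
  obtain ⟨β, hβ1, hβ2⟩ := ((eventually_ge_atTop 1).and
    (eventually_gs_sub (1 / 2) (κ := η / 2) (half_pos hη))).exists
  have hβ : 0 < β := by linarith
  obtain ⟨Λ, -, hΛ⟩ := exists_gs_window hβ (κ := 1 / 4) (by norm_num)
  obtain ⟨σ, _, a, b, hK, hw⟩ := lemD_window hB hy hd hfar Λ
  set N : ℝ := 2 * Real.pi * (β * √Real.pi) with hN
  have hN0 : 0 < N := by positivity
  have hcf := R084.continuous_flow_apply S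
  have hnf := R084.norm_flow_apply_le S
  -- (K4)
  have hc4 : ∀ i, Continuous fun t => cm y (S.flow t (a i)) S.vac := fun i =>
    (y.continuous.comp (hcf (a i) S.vac)).sub (hcf (a i) (y S.vac))
  have hb4 : ∀ i t, ‖cm y (S.flow t (a i)) S.vac‖ ≤
      ‖y‖ * (‖a i‖ * ‖S.vac‖) + ‖a i‖ * ‖y S.vac‖ := fun i t =>
    (norm_sub_le (y (S.flow t (a i) S.vac)) (S.flow t (a i) (y S.vac))).trans (add_le_add
      ((y.le_opNorm _).trans (mul_le_mul_of_nonneg_left (hnf _ _ _) (norm_nonneg _))) (hnf _ _ _))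
  obtain ⟨ε, hε, h4⟩ := flemk_pars_low hβ hc4 hb4 (R := d ^ 2 / 2) (c := N * (5 / 16 * d ^ 2))
    (by positivity) hw (by
      have h1 : 0 < N * d ^ 2 := by positivity
      have h2 := mul_le_mul_of_nonneg_left hΛ (by positivity : 0 ≤ Real.pi * d ^ 2)
      rw [hN] at h1 ⊢
      nlinarith)
  have hρ3 : Integrable fun t => gs β 0 t - gs β (1 / 2) t :=
    (integrable_gs hβ 0).sub (integrable_gs hβ (1 / 2))
  have hwI : Integrable fun s : ℝ => N⁻¹ * Real.exp (-ε * s ^ 2) :=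
    (integrable_exp_neg_mul_sq hε).const_mul _
  have hsq : ∀ {ρ : ℝ → ℂ} {F : σ → ℝ → H} {C : σ → ℝ}, Integrable ρ → (∀ i t, ‖F i t‖ ≤ C i) →
      ∀ s, ‖∑ i, ‖ft ρ (F i) s‖ ^ 2‖ ≤ ∑ i, ((∫ t, ‖ρ t‖) * C i) ^ 2 := fun hρ hC s => by
    rw [Real.norm_of_nonneg (Finset.sum_nonneg fun i _ => sq_nonneg _)]
    exact Finset.sum_le_sum fun i _ => pow_le_pow_left₀ (norm_nonneg _) (norm_ft_le hρ (hC i) s) 2
  obtain ⟨n, s, lam, h0, k1, k2, k3, k4⟩ := flemk_disc (m := fun i s => band S hβ 0 s (a i))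
    (n := fun i s => band S hβ (-(1 / 2)) (-s) (star (b i)))
    (fun i => continuous_band hβ 0 (a i))
    (fun i => (continuous_band hβ _ (star (b i))).comp continuous_neg)
    (fun i t => norm_band_le hβ _ _ _) (fun i t => norm_band_le hβ _ _ _)
    (p := fun s => ∑ i, ‖ft (fun t => gs β 0 t - gs β (1 / 2) t)
      (fun t => S.flow t (a i) S.vac) s‖ ^ 2)
    (q := fun s => ∑ i, ‖ft (gs β 0) (fun t => cm y (S.flow t (a i)) S.vac) s‖ ^ 2)
    (continuous_finset_sum _ fun i _ =>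
      (continuous_ft hρ3 (hcf _ _) fun t => hnf t _ _).norm.pow 2)
    (continuous_finset_sum _ fun i _ =>
      (continuous_ft (integrable_gs hβ 0) (hc4 i) (hb4 i)).norm.pow 2)
    (hsq hρ3 fun i t => hnf t _ _) (hsq (integrable_gs hβ 0) hb4) hwI (fun t => by positivity)
    (κ := min (min (1 / 8) (η / 4)) (d ^ 2 / 16)) (by positivity)
  have hκ1 : min (min (1 / 8) (η / 4)) (d ^ 2 / 16) ≤ 1 / 8 :=
    (min_le_left _ _).trans (min_le_left _ _)
  have hκ2 : min (min (1 / 8) (η / 4)) (d ^ 2 / 16) ≤ η / 4 :=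
    (min_le_left _ _).trans (min_le_right _ _)
  have hκ3 : min (min (1 / 8) (η / 4)) (d ^ 2 / 16) ≤ d ^ 2 / 16 := min_le_right _ _
  simp only [mul_assoc, integral_const_mul] at k1 k2 k3 k4
  have hexp : ∀ s : ℝ, ((Real.exp (s / 2) : ℝ) : ℂ) ≠ 0 := fun s =>
    Complex.ofReal_ne_zero.2 (Real.exp_pos _).ne'
  refine ⟨Fin n × σ, inferInstance, fun p => ((√(lam p.1) : ℝ) : ℂ) • band S hβ 0 (s p.1) (a p.2),
    fun p => Real.exp (s p.1 / 2), fun p => ⟨B.toStarSubalgebra.smul_mem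
      (hB.smear_mem _ (hK.pr p.2).ma) _, Real.exp_pos _⟩, fun ζ => ?_, fun ζ => ?_, ?_, ?_⟩
  · have h1 := flemk_pars_sum (integrable_gs hβ 0) (integrable_gs_sq hβ 0)
      (fun i => hcf (a i) ζ) (fun i t => hnf t _ _) (fun t => flemk_flow_sum hK.col_le t ζ) hε
    rw [integral_gs_sq hβ, zero_pow two_ne_zero, zero_div, Real.exp_zero, mul_one, ← mul_assoc,
      ← hN, ← inv_mul_le_iff₀ hN0] at h1
    simp only [Fintype.sum_prod_type, ContinuousLinearMap.smul_apply, flemk_sqrt (h0 _),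
      ← Finset.mul_sum]
    refine (k1 ζ).trans ?_
    simp only [band_apply]
    nlinarith [sq_nonneg ‖ζ‖]
  · have h1 := flemk_pars_sum (integrable_gs hβ (-(1 / 2))) (integrable_gs_sq hβ (-(1 / 2)))
      (fun i => hcf (star (b i)) ζ) (fun i t => hnf t _ _)
      (fun t => flemk_flow_sum hK.row_le t ζ) hε
    rw [integral_gs_sq hβ, mul_assoc (β * √Real.pi), ← mul_assoc, ← hN, ← inv_mul_le_iff₀ hN0,
      ← integral_neg_eq_self] at h1
    have h2 : Real.exp ((-(1 / 2)) ^ 2 / β ^ 2) ≤ 4 / 3 := by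
      have h3 : (-(1 / 2) : ℝ) ^ 2 / β ^ 2 ≤ 1 / 4 := by
        rw [div_le_iff₀ (by positivity)]
        nlinarith
      refine (Real.exp_le_exp.2 h3).trans ?_
      have h5 := Real.exp_bound_div_one_sub_of_interval (x := 1 / 4) (by norm_num) (by norm_num)
      norm_num at h5 ⊢
      exact h5
    have e : ∀ p : Fin n × σ, ((Real.exp (s p.1 / 2) : ℝ) : ℂ)⁻¹ •
        star (((√(lam p.1) : ℝ) : ℂ) • band S hβ 0 (s p.1) (a p.2)) ζ =
        ((√(lam p.1) : ℝ) : ℂ) • band S hβ (-(1 / 2)) (-s p.1) (star (b p.2)) ζ := fun p => by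
      rw [band_eq_of_pr hB (hK.pr p.2), star_smul, star_smul, star_band, Complex.star_def,
        Complex.conj_ofReal, Complex.conj_ofReal, ContinuousLinearMap.smul_apply,
        ContinuousLinearMap.smul_apply, smul_comm, inv_smul_smul₀ (hexp _)]
    simp only [e, Fintype.sum_prod_type, flemk_sqrt (h0 _), ← Finset.mul_sum]
    refine (k2 ζ).trans ?_
    simp only [band_apply]
    simp only [neg_sq] at h1
    nlinarith [sq_nonneg ‖ζ‖]
  · have h1 := flemk_pars_sum hρ3 (integrable_gs_sub_sq hβ (1 / 2))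
      (fun i => hcf (a i) S.vac) (fun i t => hnf t _ _)
      (fun t => flemk_flow_sum hK.col_le t S.vac) hε
    rw [S.norm_vac, one_pow, mul_one] at h1
    have h2 := h1.trans (mul_le_mul_of_nonneg_left hβ2 (by positivity))
    rw [mul_left_comm, ← hN, mul_comm, ← inv_mul_le_iff₀ hN0] at h2
    have e : ∀ p : Fin n × σ, (((√(lam p.1) : ℝ) : ℂ) • band S hβ 0 (s p.1) (a p.2)) S.vac -
        ((Real.exp (s p.1 / 2) : ℝ) : ℂ)⁻¹ •
          S.J (star (((√(lam p.1) : ℝ) : ℂ) • band S hβ 0 (s p.1) (a p.2)) S.vac) =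
        ((√(lam p.1) : ℝ) : ℂ) • ft (fun t => gs β 0 t - gs β (1 / 2) t)
          (fun t => S.flow t (a p.2) S.vac) (s p.1) := fun p => by
      rw [star_smul, ContinuousLinearMap.smul_apply, ContinuousLinearMap.smul_apply,
        S.J.map_smulₛₗ, J_star_band hβ _ (hB.le _ (hK.pr p.2).ma), Complex.star_def,
        Complex.conj_conj, smul_comm, inv_smul_smul₀ (hexp _), ← smul_sub, band_apply, band_apply,
        flemk_ft_sub (integrable_gs hβ 0) (integrable_gs hβ (1 / 2)) (hcf _ _) fun t => hnf t _ _]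
    simp only [e, Fintype.sum_prod_type, flemk_sqrt (h0 _), ← Finset.mul_sum]
    linarith
  · have e : ∀ p : Fin n × σ, cm y (((√(lam p.1) : ℝ) : ℂ) • band S hβ 0 (s p.1) (a p.2)) S.vac =
        ((√(lam p.1) : ℝ) : ℂ) • ft (gs β 0) (fun t => cm y (S.flow t (a p.2)) S.vac) (s p.1) :=
      fun p => by
        rw [← flemk_cm_band hβ, cm, cm, mul_smul_comm, smul_mul_assoc, ← smul_sub,
          ContinuousLinearMap.smul_apply]
    rw [← lt_inv_mul_iff₀ hN0] at h4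
    simp only [e, Fintype.sum_prod_type, flemk_sqrt (h0 _), ← Finset.mul_sum]
    linarith

/-- Perturb `μ` to rational values. -/
theorem lemK (hB : Sub S B) (hy : y ∈ B) (hd : 0 < d) (hfar : Far S.M S.vac d y) {η : ℝ}
    (hη : 0 < η) : Kfam S B y (d ^ 2 / 4) η fun t => ∃ q : ℚ, t = q := by
  obtain ⟨σ, _, m, μ, h1, h2, h3, h4, h5⟩ := lemK_real hB hy hd hfar hη
  have hc : ContinuousAt (fun ν : σ → ℝ =>
      ∑ s, ‖m s S.vac - ((ν s)⁻¹ : ℂ) • S.J (star (m s) S.vac)‖ ^ 2) μ := by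
    refine tendsto_finset_sum _ fun s _ => ?_
    have h6 : ContinuousAt (fun ν : σ → ℝ => ((ν s : ℂ))⁻¹) μ :=
      (Complex.continuous_ofReal.comp (continuous_apply s)).continuousAt.inv₀
        (Complex.ofReal_ne_zero.2 (h1 s).2.ne')
    exact (continuousAt_const.sub (h6.smul continuousAt_const)).norm.pow 2
  obtain ⟨δ, hδ, h7⟩ := Metric.eventually_nhds_iff.1 (hc.eventually_lt_const h4)
  choose q hq hq' using fun s => exists_rat_btwn (lt_add_of_pos_right (μ s) hδ)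
  refine ⟨σ, inferInstance, m, fun s => q s, fun s => ⟨(h1 s).1, (h1 s).2.trans (hq s), q s, rfl⟩,
    fun ζ => (h2 ζ).trans (by nlinarith [sq_nonneg ‖ζ‖]), fun ζ => ?_,
    (h7 ((dist_pi_lt_iff hδ).2 fun s => ?_)).le, h5⟩
  · refine le_trans (Finset.sum_le_sum fun s _ => ?_)
      ((h3 ζ).trans (by nlinarith [sq_nonneg ‖ζ‖]))
    have h8 := (h1 s).2
    have h9 := hq s
    simp only [norm_smul, norm_inv, Complex.norm_real, Real.norm_of_nonneg h8.le,
      Real.norm_of_nonneg (h8.trans h9).le]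
    have h10 := inv_anti₀ h8 h9.le
    have h11 := inv_pos.2 (h8.trans h9)
    gcongr
  · rw [Real.dist_eq, abs_lt]
    constructor <;> linarith [hq s, hq' s]

/-- Tracial case: `a = b` for exact pairs (`Std.wave_eq_one`, `trJ_of_wave`), take `μ = 1`. -/
theorem lemK_tr (hB : Sub S B) (htr : Tr S.M S.vac) (hy : y ∈ B) (hd : 0 < d)
    (hfar : Far S.M S.vac d y) : Kfam S B y (d ^ 2 / 4) 0 fun t => t = 1 := by
  have hJ := trJ_of_wave (hB.std.wave_eq_one htr)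
  obtain ⟨σ, _, a, b, hK, h⟩ := lemD (ι := Unit) (x := fun _ => y) hB (fun _ => hy) hd
    fun _ => hfar
  have hab : ∀ i, a i = b i := fun i => by
    have ha := hB.le _ (hK.pr i).ma
    have hb := hB.le _ (hK.pr i).mb
    refine sub_eq_zero.1 (S.separating _ (sub_mem ha hb) ?_)
    rw [ContinuousLinearMap.sub_apply, (hK.pr i).vac, hJ.J_vac _ (star_mem hb), star_star, sub_self]
  refine ⟨σ, inferInstance, a, fun _ => 1, fun s => ⟨(hK.pr s).ma, one_pos, rfl⟩,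
    fun ζ => (hK.col_le ζ).trans (by nlinarith [sq_nonneg ‖ζ‖]), fun ζ => ?_, ?_, ?_⟩
  · simp only [Complex.ofReal_one, inv_one, one_smul, hab]
    exact (hK.row_le ζ).trans (by nlinarith [sq_nonneg ‖ζ‖])
  · refine le_of_eq (Finset.sum_eq_zero fun s _ => ?_)
    have h1 := (hK.pr s).vac
    rw [← hab] at h1
    rw [Complex.ofReal_one, inv_one, one_smul, ← h1, sub_self]
    simp
  · simp only [flemk_norm_cm y]
    nlinarith [h (), sq_nonneg d]

end Crest.Agent.R078
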