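import Crest.Agent.R078.Defs

/-! Row 78, stage 5: random signs, fourth moments and truncation. -/

set_option autoImplicit false

open scoped InnerProductSpace

namespace Crest.Agent.R078

open Crest.Agent.R124

variable {H : Type*} [NormedAddCommGroup H] [InnerProductSpace ℂ H] [CompleteSpace H]
variable {J : Type*} [Fintype J] [DecidableEq J] [Nonempty J]

/-- The normalised random sum `n^{-1/2} ∑ ± a j`. -/
noncomputable def rsum {V : Type*} [AddCommGroup V] [Module ℝ V] (a : J → V) (θ : J → Bool) : V :=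
  (√(Fintype.card J : ℝ))⁻¹ • ∑ j, if θ j then a j else -a j

/-- the sign -/
def MSign_s {J : Type*} (θ : J → Bool) (j : J) : ℝ := if θ j then 1 else -1

omit [DecidableEq J] [Nonempty J] in
theorem MSign_eq {V : Type*} [AddCommGroup V] [Module ℝ V] (a : J → V) (θ : J → Bool) :
    rsum a θ = (√(Fintype.card J : ℝ))⁻¹ • ∑ j, MSign_s θ j • a j := by
  unfold rsum MSign_s
  congr 1
  refine Finset.sum_congr rfl fun j _ => ?_
  split_ifs <;> simp

theorem MSign_sq {J : Type*} (θ : J → Bool) (j : J) : MSign_s θ j * MSign_s θ j = 1 := by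
  unfold MSign_s
  split_ifs <;> simp

omit [Nonempty J] in
theorem MSign_flip (i : J) (f : (J → Bool) → ℝ)
    (hf : ∀ θ, f (Function.update θ i (!θ i)) = f θ) :
    ex (fun θ => MSign_s θ i * f θ) = 0 := by
  have hi : Function.Involutive fun θ : J → Bool => Function.update θ i (!θ i) := fun θ => by simp
  have h := Equiv.sum_comp hi.toPerm fun θ => MSign_s θ i * f θ
  have e : ∀ θ : J → Bool, MSign_s (Function.update θ i (!θ i)) i = -MSign_s θ i := fun θ => by
    unfold MSign_s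
    cases h : θ i <;> simp
  simp only [Function.Involutive.coe_toPerm, hf, e, neg_mul, Finset.sum_neg_distrib] at h
  rw [ex_def, show ∑ θ, MSign_s θ i * f θ = 0 by linarith, smul_zero]

omit [Fintype J] [Nonempty J] in
theorem MSign_upd {i j : J} (h : ¬ i = j) (θ : J → Bool) (b : Bool) :
    MSign_s (Function.update θ i b) j = MSign_s θ j := by
  unfold MSign_s
  rw [Function.update_of_ne (Ne.symm h)]

omit [Nonempty J] in
theorem MSign_two (i j : J) :
    ex (fun θ : J → Bool => MSign_s θ i * MSign_s θ j) = if i = j then 1 else 0 := by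
  split_ifs with h
  · subst h
    simp only [MSign_sq, ex_const]
  · exact MSign_flip i _ fun θ => MSign_upd h θ _

omit [Nonempty J] in
theorem MSign_four (i j k l : J) :
    ex (fun θ : J → Bool => MSign_s θ i * MSign_s θ j * (MSign_s θ k * MSign_s θ l)) =
      (if i = j then if k = l then 1 else 0 else 0) + (if i = k then if j = l then 1 else 0 else 0) +
      (if j = k then if i = l then 1 else 0 else 0) -
      2 * (if i = j then if i = k then if i = l then 1 else 0 else 0 else 0) := by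
  by_cases h1 : i = j
  · subst h1
    simp only [MSign_sq, one_mul, MSign_two, if_true]
    ring
  by_cases h2 : i = k
  · subst h2
    rw [ex_congr (g := fun θ => MSign_s θ j * MSign_s θ l) fun θ => by
      linear_combination MSign_s θ j * MSign_s θ l * MSign_sq θ i, MSign_two]
    simp [h1, Ne.symm h1]
  by_cases h3 : i = l
  · subst h3
    rw [ex_congr (g := fun θ => MSign_s θ j * MSign_s θ k) fun θ => by
      linear_combination MSign_s θ j * MSign_s θ k * MSign_sq θ i, MSign_two]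
    simp [h1, h2]
  · simp only [mul_assoc]
    rw [MSign_flip i _ fun θ => by simp only [MSign_upd h1, MSign_upd h2, MSign_upd h3]]
    simp [h1, h2, h3]

omit [CompleteSpace H] in
theorem MSign_inner {ι Ω : Type*} [Fintype ι] [Fintype Ω] (c : ℝ) (s : Ω → ι → ℝ) (v w : ι → H) :
    ex (fun θ => ⟪c • ∑ i, s θ i • v i, c • ∑ i, s θ i • w i⟫_ℂ) =
      (c * c) • ∑ i, ∑ j, ex (fun θ => s θ i * s θ j) • ⟪v i, w j⟫_ℂ := by
  have e : ∀ θ, ⟪c • ∑ i, s θ i • v i, c • ∑ i, s θ i • w i⟫_ℂ =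
      (c * c) • ∑ i, ∑ j, (s θ i * s θ j) • ⟪v i, w j⟫_ℂ := fun θ => by
    rw [inner_smul_left_eq_smul, inner_smul_right_eq_smul, smul_smul, sum_inner]
    simp only [inner_sum, inner_smul_left_eq_smul, inner_smul_right_eq_smul, smul_smul,
      mul_comm (s θ _) (s θ _)]
  simp only [e]
  rw [ex_smul, ex_sum]
  congr 1
  refine Finset.sum_congr rfl fun i _ => (ex_sum _ _).trans (Finset.sum_congr rfl fun j _ => ?_)
  exact ex_smul_const _ _

omit [DecidableEq J] [Nonempty J] in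
theorem MSign_c : (√(Fintype.card J : ℝ))⁻¹ * (√(Fintype.card J : ℝ))⁻¹ = (Fintype.card J : ℝ)⁻¹ := by
  rw [← mul_inv, Real.mul_self_sqrt (Nat.cast_nonneg _)]

theorem rsum_apply (a : J → Op H) (θ : J → Bool) (v : H) :
    rsum a θ v = rsum (fun j => a j v) θ := by
  simp only [MSign_eq, smul_apply, sum_apply]

theorem star_rsum (a : J → Op H) (θ : J → Bool) :
    star (rsum a θ) = rsum (fun j => star (a j)) θ := by
  simp only [MSign_eq, star_smul, star_sum, star_trivial]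

theorem mul_rsum (b : Op H) (a : J → Op H) (θ : J → Bool) :
    b * rsum a θ = rsum (fun j => b * a j) θ := by
  simp only [MSign_eq, mul_smul_comm, Finset.mul_sum]

theorem rsum_mul (b : Op H) (a : J → Op H) (θ : J → Bool) :
    rsum a θ * b = rsum (fun j => a j * b) θ := by
  simp only [MSign_eq, smul_mul_assoc, Finset.sum_mul]

theorem rsum_mem {A : VN H} {a : J → Op H} (ha : ∀ j, a j ∈ A) (θ : J → Bool) : rsum a θ ∈ A := by
  have h : ∀ (c : ℝ) (x : Op H), x ∈ A → c • x ∈ A := fun c x hx =>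
    A.toStarSubalgebra.smul_mem hx (c : ℂ)
  rw [MSign_eq]
  exact h _ _ (sum_mem fun j _ => h _ _ (ha j))

omit [CompleteSpace H] in
theorem ex_inner_rsum (v w : J → H) :
    ex (fun θ => ⟪rsum v θ, rsum w θ⟫_ℂ) = ex fun j => ⟪v j, w j⟫_ℂ := by
  simp only [MSign_eq]
  rw [MSign_inner, MSign_c, ex_def]
  simp [MSign_two]

omit [CompleteSpace H] in
theorem MSign_re (x : H) : (⟪x, x⟫_ℂ).re = ‖x‖ ^ 2 := inner_self_eq_norm_sq (𝕜 := ℂ) x

omit [CompleteSpace H] in
theorem ex_norm_sq_rsum (v : J → H) :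
    ex (fun θ => ‖rsum v θ‖ ^ 2) = ex fun j => ‖v j‖ ^ 2 := by
  have := congrArg Complex.re (ex_inner_rsum v v)
  simpa only [re_ex, MSign_re] using this

/-- Fourth moment. -/
theorem ex_norm_sq_rsum_rsum (a b : J → Op H) (v : H) :
    ex (fun θ => ‖rsum a θ (rsum b θ v)‖ ^ 2) ≤
      ‖ex fun j => a j (b j v)‖ ^ 2 + 2 * ex fun i => ex fun j => ‖a i (b j v)‖ ^ 2 := by
  have e : ∀ θ, rsum a θ (rsum b θ v) = (Fintype.card J : ℝ)⁻¹ •
      ∑ p : J × J, (MSign_s θ p.1 * MSign_s θ p.2) • a p.1 (b p.2 v) := fun θ => by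
    rw [rsum_apply, rsum_apply, ← MSign_c]
    simp only [MSign_eq, ContinuousLinearMap.map_smul_of_tower, map_sum, Fintype.sum_prod_type,
      mul_smul, Finset.smul_sum, smul_comm (MSign_s θ _) (√(Fintype.card J : ℝ))⁻¹]
  have h := congrArg Complex.re (MSign_inner (Fintype.card J : ℝ)⁻¹
    (fun (θ : J → Bool) (p : J × J) => MSign_s θ p.1 * MSign_s θ p.2) (fun p => a p.1 (b p.2 v))
    fun p => a p.1 (b p.2 v))
  simp only [re_ex, MSign_re, ← e, MSign_four] at h
  rw [h, ex_def fun j => a j (b j v), norm_smul, mul_pow, ← MSign_re (H := H), sum_inner]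
  simp only [Fintype.sum_prod_type, add_smul, sub_smul, mul_smul, ite_smul, one_smul, zero_smul,
    Finset.sum_add_distrib, Finset.sum_sub_distrib, Finset.sum_ite_irrel, Finset.sum_const_zero,
    Finset.sum_ite_eq, Finset.mem_univ, if_true, ← Finset.smul_sum, inner_sum, ex_def]
  simp only [Complex.smul_re, Complex.sub_re, Complex.add_re, Complex.re_sum, MSign_re, smul_eq_mul,
    Real.norm_eq_abs, sq_abs]
  have h1 : ∑ i, ∑ j, (⟪a i (b j v), a j (b i v)⟫_ℂ).re ≤ ∑ i, ∑ j, ‖a i (b j v)‖ ^ 2 := by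
    have : ∑ i, ∑ j, (⟪a i (b j v), a j (b i v)⟫_ℂ).re ≤
        ∑ i, ∑ j, (‖a i (b j v)‖ ^ 2 / 2 + ‖a j (b i v)‖ ^ 2 / 2) :=
      Finset.sum_le_sum fun i _ => Finset.sum_le_sum fun j _ => by
        have := re_inner_le_norm (𝕜 := ℂ) (a i (b j v)) (a j (b i v))
        rw [RCLike.re_to_complex] at this
        nlinarith [sq_nonneg (‖a i (b j v)‖ - ‖a j (b i v)‖)]
    simp only [Finset.sum_add_distrib, ← Finset.sum_div] at this
    rw [Finset.sum_comm (f := fun i j => ‖a j (b i v)‖ ^ 2)] at this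
    linarith
  have h2 : 0 ≤ ∑ i, ‖a i (b i v)‖ ^ 2 := by positivity
  have h3 : 0 ≤ (Fintype.card J : ℝ)⁻¹ * (Fintype.card J : ℝ)⁻¹ := by positivity
  nlinarith [mul_le_mul_of_nonneg_left h1 h3, mul_nonneg h3 h2]

theorem MSign_g {L : ℝ} (hL : 0 < L) : ∃ g : ℝ → ℝ, Continuous g ∧ (∀ s, 0 ≤ g s) ∧ (∀ s, g s ≤ 1) ∧
    (∀ s, √s * g s ≤ L) ∧ ∀ s, 1 - g s ≤ L⁻¹ * √s := by
  let g : ℝ → ℝ := fun s => L / max L √s
  have hm : ∀ s : ℝ, 0 < max L √s := fun s => lt_max_of_lt_left hL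
  have gc : Continuous g := continuous_const.div (by fun_prop) fun s => (hm s).ne'
  have g0 : ∀ s, 0 ≤ g s := fun s => div_nonneg hL.le (hm s).le
  have g1 : ∀ s, g s ≤ 1 := fun s => (div_le_one (hm s)).2 (le_max_left _ _)
  have g2 : ∀ s, √s * g s ≤ L := fun s => by
    rw [← mul_div_assoc, div_le_iff₀ (hm s), mul_comm]
    exact mul_le_mul_of_nonneg_left (le_max_right _ _) hL.le
  have g3 : ∀ s, 1 - g s ≤ L⁻¹ * √s := fun s => by
    rcases le_total L √s with c | c
    · have : 1 ≤ L⁻¹ * √s := by rwa [le_inv_mul_iff₀ hL, mul_one]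
      linarith [g0 s]
    · have : g s = 1 := by simp only [g, max_eq_left c, div_self hL.ne']
      rw [this, sub_self]; positivity
  exact ⟨g, gc, g0, g1, g2, g3⟩

theorem MSign_le {A B : Op H} (h : star A * A ≤ star B * B) (v : H) : ‖A v‖ ≤ ‖B v‖ := by
  have e : ∀ A : Op H, (⟪v, (star A * A) v⟫_ℂ).re = ‖A v‖ ^ 2 := fun A => by
    rw [← MSign_re, ContinuousLinearMap.star_eq_adjoint, ← ContinuousLinearMap.adjoint_inner_right]
    rfl
  have := ((ContinuousLinearMap.le_def _ _).1 h).re_inner_nonneg_right v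
  rw [sub_apply, inner_sub_right, RCLike.re_to_complex, Complex.sub_re, e, e] at this
  exact (abs_le_of_sq_le_sq' (by linarith) (norm_nonneg _)).2

/-- Truncation at level `L`. -/
theorem exists_trunc (X : Op H) {L : ℝ} (hL : 0 < L) : ∃ f : Op H,
    (∀ A : VN H, X ∈ A → f ∈ A) ∧ (∀ T, Commute (star X * X) T → Commute f T) ∧ ‖X * f‖ ≤ L ∧
    (∀ v, ‖(X * f) v‖ ≤ ‖X v‖) ∧ (∀ v, ‖star (X * f) v‖ ≤ ‖star X v‖) ∧
    (∀ v, ‖(X - X * f) v‖ ≤ L⁻¹ * ‖star X (X v)‖) ∧
    (∀ v, ‖star (X - X * f) v‖ ≤ L⁻¹ * ‖X (star X v)‖) := by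
  have hP : 0 ≤ star X * X := star_mul_self_nonneg X
  have hS : IsSelfAdjoint (star X * X) := IsSelfAdjoint.star_mul_self X
  set P := star X * X with hPd
  obtain ⟨g, gc, g0, g1, g2, g3⟩ := MSign_g hL
  have n1 : ∀ h : ℝ → ℝ, Continuous h → star (cfc h P) * cfc h P = cfc (fun s => h s ^ 2) P :=
    fun h hh => by
      rw [(cfc_predicate h P : IsSelfAdjoint _).star_eq, ← cfc_mul h h P]
      simp only [sq]
  have n2 : ∀ h : ℝ → ℝ, Continuous h →
      star (X * cfc h P) * (X * cfc h P) = cfc (fun s => (√s * h s) ^ 2) P := fun h hh => by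
    rw [star_mul, (cfc_predicate h P : IsSelfAdjoint _).star_eq, mul_assoc, ← mul_assoc (star X),
      ← hPd]
    conv_lhs => rw [show P * cfc h P = cfc (fun s => s * h s) P by
      rw [cfc_mul (fun s => s) h P, cfc_id' ℝ P]]
    rw [← cfc_mul h _ P]
    refine cfc_congr fun s hs => ?_
    rw [mul_pow, Real.sq_sqrt (spectrum_nonneg_of_nonneg hP hs)]
    ring
  have mo : ∀ (A B : Op H) (h k : ℝ → ℝ), Continuous h → Continuous k →
      star A * A = cfc (fun s => h s ^ 2) P → star B * B = cfc (fun s => k s ^ 2) P →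
      (∀ s, 0 ≤ s → 0 ≤ h s ∧ h s ≤ k s) → ∀ v, ‖A v‖ ≤ ‖B v‖ := fun A B h k hh hk hA hB hhk v => by
    refine MSign_le ?_ v
    rw [hA, hB]
    exact cfc_mono fun s hs => pow_le_pow_left₀ (hhk s (spectrum_nonneg_of_nonneg hP hs)).1
      (hhk s (spectrum_nonneg_of_nonneg hP hs)).2 2
  have c1 : ∀ c : ℝ, cfc (fun _ : ℝ => c) P = c • (1 : Op H) := fun c => by
    rw [cfc_const c P, Algebra.algebraMap_eq_smul_one]
  have e1 : X - X * cfc g P = X * cfc (fun s => 1 - g s) P := by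
    rw [cfc_sub _ _ P, c1, one_smul, mul_sub, mul_one]
  have e2 : cfc (fun s : ℝ => L⁻¹ * s) P = L⁻¹ • P := by rw [cfc_const_mul _ _ P, cfc_id' ℝ P]
  have hi : 0 ≤ L⁻¹ := by positivity
  refine ⟨cfc g P, fun A hA => ?_, fun T hT => hT.cfc_real g, ?_, fun v => ?_, fun v => ?_,
    fun v => ?_, fun v => ?_⟩
  · have : IsClosed (A.toStarSubalgebra : Set (Op H)) := by
      change IsClosed (A : Set (Op H))
      rw [← A.centralizer_centralizer]
      exact Set.isClosed_centralizer _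
    exact cfc_mem (𝕜' := ℂ) (s := A.toStarSubalgebra) g (mul_mem (star_mem hA) hA)
  · refine ContinuousLinearMap.opNorm_le_bound _ hL.le fun v => ?_
    refine (mo _ _ _ (fun _ => L) (by fun_prop) (by fun_prop) (n2 g gc) (n1 _ (by fun_prop))
      (fun s _ => ⟨mul_nonneg (Real.sqrt_nonneg s) (g0 s), g2 s⟩) v).trans_eq ?_
    rw [c1, smul_apply, norm_smul, Real.norm_of_nonneg hL.le]
    rfl
  · refine (mo _ _ _ _ (by fun_prop) (by fun_prop) (n2 g gc) (n2 (fun _ => 1) (by fun_prop))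
      (fun s _ => ⟨mul_nonneg (Real.sqrt_nonneg s) (g0 s),
        mul_le_mul_of_nonneg_left (g1 s) (Real.sqrt_nonneg s)⟩) v).trans_eq ?_
    rw [c1, one_smul, mul_one]
  · rw [star_mul, (cfc_predicate g P : IsSelfAdjoint _).star_eq]
    refine (mo _ _ _ (fun _ => 1) gc (by fun_prop) (n1 g gc) (n1 _ (by fun_prop))
      (fun s _ => ⟨g0 s, g1 s⟩) (star X v)).trans_eq ?_
    rw [c1, one_smul]
    rfl
  · rw [e1]
    refine (mo _ _ _ (fun s => L⁻¹ * s) (by fun_prop) (by fun_prop) (n2 _ (by fun_prop))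
      (n1 _ (by fun_prop)) (fun s hs => ⟨mul_nonneg (Real.sqrt_nonneg s) (sub_nonneg.2 (g1 s)),
        (mul_le_mul_of_nonneg_left (g3 s) (Real.sqrt_nonneg s)).trans_eq (by
          rw [mul_left_comm, Real.mul_self_sqrt hs])⟩) v).trans_eq ?_
    rw [e2, smul_apply, norm_smul, Real.norm_of_nonneg hi]
    rfl
  · rw [e1, star_mul, (cfc_predicate _ P : IsSelfAdjoint _).star_eq]
    refine (mo _ _ (fun s => 1 - g s) _ (by fun_prop) (by fun_prop) (n1 _ (by fun_prop))
      (n2 (fun _ => L⁻¹) (by fun_prop))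
      (fun s _ => ⟨sub_nonneg.2 (g1 s), (g3 s).trans_eq (mul_comm _ _)⟩) (star X v)).trans_eq ?_
    rw [c1, mul_smul_comm, mul_one, smul_apply, norm_smul, Real.norm_of_nonneg hi]

end Crest.Agent.R078
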