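import Crest.Agent.R078.FDefs
import Crest.Agent.R078.MSign

/-! Row 78, stage (3): vacuum moments of the random Hamiltonian. -/

set_option autoImplicit false

open scoped InnerProductSpace ComplexConjugate
open Filter Topology

namespace Crest.Agent.R078

open Crest.Agent.R121 (Mn Bd)
open Crest.Agent.R124 (ex)
open Crest.OpAlg

universe u

variable {H : Type*} [NormedAddCommGroup H] [InnerProductSpace ℂ H] [CompleteSpace H]

variable {σ : Type} [Fintype σ] [DecidableEq σ]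

/-- Independent sites `c s` with vacuum projections `e s`. -/
structure Sites (c e : σ → Op H) (μ : σ → ℝ) : Prop where
  μ_pos : ∀ s, 0 < μ s
  c_sq : ∀ s, c s * c s = 0
  c_car : ∀ s, star (c s) * c s + c s * star (c s) = 1
  e_proj : ∀ s, IsStarProjection (e s)
  e_cc_e : ∀ s, e s * (star (c s) * c s) * e s = ((μ s ^ 2 / (1 + μ s ^ 2) : ℝ) : ℂ) • e s
  e_c_e : ∀ s, e s * c s * e s = 0
  c_c : ∀ s t, s ≠ t → Commute (c s) (c t) ∧ Commute (c s) (star (c t))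
  c_e : ∀ s t, s ≠ t → Commute (c s) (e t)

/-- `x` commutes with the sites. -/
def SCom (c e : σ → Op H) (x : Op H) : Prop :=
  ∀ t, Commute x (c t) ∧ Commute x (star (c t)) ∧ Commute x (e t)

/-- One term of the Hamiltonian. -/
noncomputable def hterm (c m : Op H) (μ : ℝ) : Op H :=
  ((√(1 + (μ ^ 2)⁻¹) : ℝ) : ℂ) • (m * c + star (m * c))

/-- The Hamiltonian with signs `θ`. -/
noncomputable def ham (c m : σ → Op H) (μ : σ → ℝ) (θ : σ → Bool) : Op H :=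
  ∑ s, MSign_s θ s • hterm (c s) (m s) (μ s)

variable {c e m : σ → Op H} {μ : σ → ℝ} {η : H}

theorem FMom_sl (x : Op H) (a b : H) : ⟪star x a, b⟫_ℂ = ⟪a, x b⟫_ℂ := by
  rw [ContinuousLinearMap.star_eq_adjoint, ContinuousLinearMap.adjoint_inner_left]

theorem FMom_sr (x : Op H) (a b : H) : ⟪a, star x b⟫_ℂ = ⟪x a, b⟫_ℂ := by
  rw [ContinuousLinearMap.star_eq_adjoint, ContinuousLinearMap.adjoint_inner_right]

theorem FMom_star_h (c m : Op H) (μ : ℝ) : star (hterm c m μ) = hterm c m μ := by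
  unfold hterm
  rw [star_smul, star_add, star_star, add_comm (star (m * c)), Complex.star_def,
    Complex.conj_ofReal]

omit [Fintype σ] [DecidableEq σ] in
theorem FMom_norm_c (h : Sites c e μ) (s : σ) : ‖c s‖ ≤ 1 := by
  refine ContinuousLinearMap.opNorm_le_bound _ zero_le_one fun ζ => ?_
  have h1 : ⟪ζ, ζ⟫_ℂ = ⟪c s ζ, c s ζ⟫_ℂ + ⟪star (c s) ζ, star (c s) ζ⟫_ℂ := by
    rw [← FMom_sr, FMom_sl, ← inner_add_right]
    exact congrArg (fun T : Op H => ⟪ζ, T ζ⟫_ℂ) (h.c_car s).symm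
  have h2 := congrArg Complex.re h1
  simp only [Complex.add_re, MSign_re] at h2
  rw [one_mul]
  exact (pow_le_pow_iff_left₀ (norm_nonneg _) (norm_nonneg _) two_ne_zero).1
    (by nlinarith [sq_nonneg ‖star (c s) ζ‖])

omit [Fintype σ] [DecidableEq σ] in
theorem FMom_norm_h (h : Sites c e μ) (s : σ) (x : Op H) :
    ‖hterm (c s) x (μ s)‖ ≤ 2 * √(1 + (μ s ^ 2)⁻¹) * ‖x‖ := by
  unfold hterm
  rw [norm_smul, Complex.norm_real, Real.norm_eq_abs, abs_of_nonneg (Real.sqrt_nonneg _)]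
  have h1 : ‖x * c s‖ ≤ ‖x‖ := (norm_mul_le _ _).trans
    (mul_le_of_le_one_right (norm_nonneg _) (FMom_norm_c h s))
  have h2 := norm_add_le (x * c s) (star (x * c s))
  rw [norm_star] at h2
  have h3 := Real.sqrt_nonneg (1 + (μ s ^ 2)⁻¹)
  nlinarith

omit [DecidableEq σ] in
theorem star_ham (c m : σ → Op H) (μ : σ → ℝ) (θ : σ → Bool) :
    star (ham c m μ θ) = ham c m μ θ := by
  unfold ham
  simp only [star_sum, star_smul, star_trivial, FMom_star_h]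

omit [DecidableEq σ] in
theorem norm_ham_le (h : Sites c e μ) (m : σ → Op H) (θ : σ → Bool) :
    ‖ham c m μ θ‖ ≤ ∑ s, 2 * √(1 + (μ s ^ 2)⁻¹) * ‖m s‖ := by
  unfold ham
  refine (norm_sum_le _ _).trans (Finset.sum_le_sum fun s _ => ?_)
  have : ‖MSign_s θ s‖ = 1 := by
    unfold MSign_s
    split_ifs <;> simp
  rw [norm_smul, this, one_mul]
  exact FMom_norm_h h s _

/-- Orthogonality of the signs (`MSign_two`). -/
theorem ex_norm_sq_sum (v : σ → H) :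
    ex (fun θ : σ → Bool => ‖∑ s, MSign_s θ s • v s‖ ^ 2) = ∑ s, ‖v s‖ ^ 2 := by
  have h := congrArg Complex.re (MSign_inner 1 (fun (θ : σ → Bool) s => MSign_s θ s) v v)
  simp only [one_smul, mul_one, R124.re_ex, MSign_re, MSign_two, ite_smul, zero_smul,
    Finset.sum_ite_eq, Finset.mem_univ, if_true, Complex.re_sum] at h
  exact h

omit [Fintype σ] [DecidableEq σ] in
theorem FMom_V (h : Sites c e μ) (s : σ) {u u' w w' : H} (hu : e s u = u) (hu' : e s u' = u')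
    (hw : e s w = w) (hw' : e s w' = w') :
    ⟪c s u + star (c s) w, c s u' + star (c s) w'⟫_ℂ =
      ((μ s ^ 2 / (1 + μ s ^ 2) : ℝ) : ℂ) * ⟪u, u'⟫_ℂ +
        (1 - ((μ s ^ 2 / (1 + μ s ^ 2) : ℝ) : ℂ)) * ⟪w, w'⟫_ℂ := by
  have k : ∀ a b : H, e s a = a → e s b = b →
      ⟪c s a, c s b⟫_ℂ = ((μ s ^ 2 / (1 + μ s ^ 2) : ℝ) : ℂ) * ⟪a, b⟫_ℂ := by
    intro a b ha hb
    have h1 := congrArg (fun T : Op H => ⟪a, T b⟫_ℂ) (h.e_cc_e s)
    simp only [mul_apply_eq_comp, smul_apply, hb,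
      inner_smul_right] at h1
    rw [← h1, ← (h.e_proj s).isSelfAdjoint.star_eq, FMom_sr, ha, FMom_sr]
  have k2 : ⟪star (c s) w, star (c s) w'⟫_ℂ = ⟪w, w'⟫_ℂ - ⟪c s w, c s w'⟫_ℂ := by
    rw [eq_sub_iff_add_eq, add_comm, ← FMom_sr (c s), FMom_sl, ← inner_add_right]
    exact congrArg (fun T : Op H => ⟪w, T w'⟫_ℂ) (h.c_car s)
  have z : ∀ a : H, c s (c s a) = 0 := fun a => congrArg (fun T : Op H => T a) (h.c_sq s)
  rw [inner_add_left, inner_add_right, inner_add_right, k2, k _ _ hu hu', k _ _ hw hw', FMom_sr,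
    FMom_sl, z, z, inner_zero_left, inner_zero_right]
  ring

omit [Fintype σ] [DecidableEq σ] in
theorem FMom_star (h : Sites c e μ) {x : Op H} (hx : SCom c e x) : SCom c e (star x) := by
  intro t
  refine ⟨?_, ?_, ?_⟩
  · simpa using (hx t).2.1.star_star
  · exact (hx t).1.star_star
  · have := (hx t).2.2.star_star
    rwa [(h.e_proj t).isSelfAdjoint.star_eq] at this

omit [Fintype σ] [DecidableEq σ] in
theorem FMom_cm {x y : Op H} (hx : SCom c e x) (hy : SCom c e y) : SCom c e (cm x y) := by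
  intro t
  unfold cm
  exact ⟨((hx t).1.mul_left (hy t).1).sub_left ((hy t).1.mul_left (hx t).1),
    ((hx t).2.1.mul_left (hy t).2.1).sub_left ((hy t).2.1.mul_left (hx t).2.1),
    ((hx t).2.2.mul_left (hy t).2.2).sub_left ((hy t).2.2.mul_left (hx t).2.2)⟩

omit [CompleteSpace H] in
theorem FMom_vac {x f : Op H} (h : Commute x f) {ζ : H} (hζ : f ζ = ζ) : f (x ζ) = x ζ := by
  have := congrArg (fun T : Op H => T ζ) h.eq
  simp only [mul_apply_eq_comp, hζ] at this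
  exact this.symm

theorem FMom_alpha {t : ℝ} (ht : 0 < t) :
    ((√(1 + (t ^ 2)⁻¹) : ℝ) : ℂ) * ((√(1 + (t ^ 2)⁻¹) : ℝ) : ℂ) = 1 + ((t : ℂ) ^ 2)⁻¹ := by
  rw [← Complex.ofReal_mul, Real.mul_self_sqrt (by positivity)]
  push_cast
  rfl

omit [Fintype σ] [DecidableEq σ] in
theorem FMom_W (h : Sites c e μ) (s : σ) {u u' w w' : H} (hu : e s u = u) (hu' : e s u' = u')
    (hw : e s w = w) (hw' : e s w' = w') :
    ⟪((√(1 + (μ s ^ 2)⁻¹) : ℝ) : ℂ) • (c s u + star (c s) w),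
      ((√(1 + (μ s ^ 2)⁻¹) : ℝ) : ℂ) • (c s u' + star (c s) w')⟫_ℂ =
      ⟪u, u'⟫_ℂ + ⟪((μ s)⁻¹ : ℂ) • w, ((μ s)⁻¹ : ℂ) • w'⟫_ℂ := by
  rw [inner_smul_left, inner_smul_right, Complex.conj_ofReal, ← mul_assoc, FMom_alpha (h.μ_pos s),
    FMom_V h s hu hu' hw hw', inner_smul_left, inner_smul_right, map_inv₀, Complex.conj_ofReal]
  have h1 : (μ s : ℂ) ≠ 0 := Complex.ofReal_ne_zero.2 (h.μ_pos s).ne'
  have h2 : (1 + (μ s : ℂ) ^ 2) ≠ 0 := by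
    have : (0 : ℝ) < 1 + μ s ^ 2 := by positivity
    exact_mod_cast this.ne'
  push_cast
  field_simp
  ring

/-- `[y, h s] η = α ([y, m] c η + c⋆ [y, m⋆] η)`, the two terms are orthogonal (`c² = 0`), and
`α² ‖c [y, m] η‖² = ‖[y, m] η‖²` on the vacuum. -/
theorem ham_second (h : Sites c e μ) (hm : ∀ s, SCom c e (m s)) {y : Op H} (hy : SCom c e y)
    (hη : ∀ s, e s η = η) :
    ∑ s, ‖cm y (m s) η‖ ^ 2 ≤ ex fun θ : σ → Bool => ‖cm y (ham c m μ θ) η‖ ^ 2 := by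
  have e1 : ∀ θ : σ → Bool, cm y (ham c m μ θ) η =
      ∑ s, MSign_s θ s • cm y (hterm (c s) (m s) (μ s)) η := by
    intro θ
    simp only [cm, ham, Finset.mul_sum, Finset.sum_mul, mul_smul_comm, smul_mul_assoc,
      ← Finset.sum_sub_distrib, ← smul_sub, sum_apply,
      smul_apply]
  simp only [e1]
  rw [ex_norm_sq_sum]
  refine Finset.sum_le_sum fun s _ => ?_
  have e2 : cm y (hterm (c s) (m s) (μ s)) = ((√(1 + (μ s ^ 2)⁻¹) : ℝ) : ℂ) •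
      (c s * cm y (m s) + star (c s) * cm y (star (m s))) := by
    have a1 : c s * y = y * c s := (hy s).1.eq.symm
    have a2 : star (c s) * y = y * star (c s) := (hy s).2.1.eq.symm
    unfold cm hterm
    rw [mul_smul_comm, smul_mul_assoc, ← smul_sub, star_mul, (hm s s).1.eq]
    congr 1
    simp only [mul_sub, mul_add, add_mul, ← mul_assoc, a1, a2]
    abel
  have v1 : e s (cm y (m s) η) = cm y (m s) η := FMom_vac (FMom_cm hy (hm s) s).2.2 (hη s)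
  have v2 : e s (cm y (star (m s)) η) = cm y (star (m s)) η :=
    FMom_vac (FMom_cm hy (FMom_star h (hm s)) s).2.2 (hη s)
  have k := congrArg Complex.re (FMom_W h s v1 v1 v2 v2)
  simp only [Complex.add_re, MSign_re] at k
  rw [e2]
  simp only [smul_apply, add_apply,
    mul_apply_eq_comp]
  rw [k]
  exact le_add_of_nonneg_right (sq_nonneg _)

/-- `g = m⋆ m + μ⁻² m m⋆` -/
noncomputable def FMom_g (m : Op H) (μ : ℝ) : Op H :=
  star m * m + star (((μ : ℂ)⁻¹) • star m) * (((μ : ℂ)⁻¹) • star m)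

omit [Fintype σ] [DecidableEq σ] in
theorem FMom_K0 (h : Sites c e μ) (s : σ) {x : Op H} (hx : SCom c e x) {u u' : H}
    (hu : e s u = u) (hu' : e s u' = u') :
    ⟪hterm (c s) x (μ s) u, hterm (c s) x (μ s) u'⟫_ℂ =
      ⟪x u, x u'⟫_ℂ + ⟪((μ s)⁻¹ : ℂ) • star x u, ((μ s)⁻¹ : ℂ) • star x u'⟫_ℂ := by
  rw [← FMom_W h s (FMom_vac (hx s).2.2 hu) (FMom_vac (hx s).2.2 hu')
    (FMom_vac (FMom_star h hx s).2.2 hu) (FMom_vac (FMom_star h hx s).2.2 hu')]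
  unfold hterm
  rw [star_mul, (hx s).1.eq]
  rfl

omit [Fintype σ] [DecidableEq σ] in
theorem FMom_K (h : Sites c e μ) (s : σ) {x : Op H} (hx : SCom c e x) {u u' : H}
    (hu : e s u = u) (hu' : e s u' = u') :
    ⟪hterm (c s) x (μ s) u, hterm (c s) x (μ s) u'⟫_ℂ = ⟪u, FMom_g x (μ s) u'⟫_ℂ := by
  rw [FMom_K0 h s hx hu hu', FMom_g, add_apply, inner_add_right,
    mul_apply_eq_comp, mul_apply_eq_comp, FMom_sr, FMom_sr]
  rfl

theorem FMom_star_g (m : Op H) (μ : ℝ) : star (FMom_g m μ) = FMom_g m μ := by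
  unfold FMom_g
  simp only [star_add, star_mul, star_star]

omit [Fintype σ] [DecidableEq σ] in
theorem FMom_g_e (h : Sites c e μ) {x : Op H} (hx : SCom c e x) (r : ℝ) (t : σ) :
    Commute (FMom_g x r) (e t) := by
  have a1 := (hx t).2.2
  have a2 := (FMom_star h hx t).2.2
  unfold FMom_g
  rw [star_smul, star_star]
  exact (a2.mul_left a1).add_left ((a1.smul_left _).mul_left (a2.smul_left _))

omit [Fintype σ] [DecidableEq σ] in
theorem FMom_h_e (h : Sites c e μ) {x : Op H} (hx : SCom c e x) {s t : σ} (hst : s ≠ t) :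
    Commute (hterm (c s) x (μ s)) (e t) := by
  have a1 : Commute (x * c s) (e t) := (hx t).2.2.mul_left (h.c_e s t hst)
  have a2 := a1.star_star
  rw [(h.e_proj t).isSelfAdjoint.star_eq] at a2
  exact (a1.add_left a2).smul_left _

omit [DecidableEq σ] in
theorem FMom_cs (a : σ → Op H) {C : ℝ} (hC : 0 ≤ C) (h : ∀ ζ, ∑ s, ‖a s ζ‖ ^ 2 ≤ C * ‖ζ‖ ^ 2)
    (η : H) : ‖∑ s, star (a s) (a s η)‖ ≤ C * ‖η‖ := by
  obtain ⟨ζ, hζ⟩ : ∃ ζ, ζ = ∑ s, star (a s) (a s η) := ⟨_, rfl⟩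
  rw [← hζ]
  have h1 : ‖ζ‖ ^ 2 = ∑ s, (⟪a s ζ, a s η⟫_ℂ).re := by
    rw [← MSign_re, ← Complex.re_sum]
    congr 1
    conv_lhs => rw [show ⟪ζ, ζ⟫_ℂ = ⟪ζ, ∑ s, star (a s) (a s η)⟫_ℂ by rw [← hζ]]
    rw [inner_sum]
    simp only [FMom_sr]
  have h2 : ∑ s, (⟪a s ζ, a s η⟫_ℂ).re ≤ ∑ s, ‖a s ζ‖ * ‖a s η‖ :=
    Finset.sum_le_sum fun s _ => re_inner_le_norm (𝕜 := ℂ) _ _
  have h3 := Real.sum_mul_le_sqrt_mul_sqrt Finset.univ (fun s => ‖a s ζ‖) fun s => ‖a s η‖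
  have h4 : ∀ v : H, √(∑ s, ‖a s v‖ ^ 2) ≤ √C * ‖v‖ := fun v => by
    rw [Real.sqrt_le_iff, mul_pow, Real.sq_sqrt hC]
    exact ⟨by positivity, h v⟩
  have h5 : √(∑ s, ‖a s ζ‖ ^ 2) * √(∑ s, ‖a s η‖ ^ 2) ≤ √C * ‖ζ‖ * (√C * ‖η‖) :=
    mul_le_mul (h4 ζ) (h4 η) (Real.sqrt_nonneg _) (by positivity)
  have h6 : √C * ‖ζ‖ * (√C * ‖η‖) = ‖ζ‖ * (C * ‖η‖) := by
    rw [mul_mul_mul_comm, Real.mul_self_sqrt hC]; ring
  rcases (norm_nonneg ζ).eq_or_lt with h0 | h0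
  · rw [← h0]; positivity
  · refine le_of_mul_le_mul_left ?_ h0
    rw [← sq]
    linarith

theorem FMom_four (a : σ → Op H) (v : H) :
    ex (fun θ : σ → Bool => ‖(∑ s, MSign_s θ s • a s) ((∑ s, MSign_s θ s • a s) v)‖ ^ 2) ≤
      ∑ i, ∑ j, (⟪a i (a i v), a j (a j v)⟫_ℂ).re + 2 * ∑ i, ∑ j, ‖a i (a j v)‖ ^ 2 -
        2 * ∑ i, ‖a i (a i v)‖ ^ 2 := by
  have e : ∀ θ : σ → Bool, (∑ s, MSign_s θ s • a s) ((∑ s, MSign_s θ s • a s) v) =
      ∑ p : σ × σ, (MSign_s θ p.1 * MSign_s θ p.2) • a p.1 (a p.2 v) := fun θ => by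
    simp only [sum_apply, smul_apply,
      ContinuousLinearMap.map_smul_of_tower, map_sum, Fintype.sum_prod_type, mul_smul]
    rw [Finset.sum_comm]
  have h := congrArg Complex.re (MSign_inner 1
    (fun (θ : σ → Bool) (p : σ × σ) => MSign_s θ p.1 * MSign_s θ p.2) (fun p => a p.1 (a p.2 v))
    fun p => a p.1 (a p.2 v))
  simp only [one_smul, mul_one, R124.re_ex, MSign_re, ← e, MSign_four] at h
  rw [h]
  simp only [Fintype.sum_prod_type, add_smul, sub_smul, mul_smul, ite_smul, one_smul, zero_smul,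
    Finset.sum_add_distrib, Finset.sum_sub_distrib, Finset.sum_ite_irrel, Finset.sum_const_zero,
    Finset.sum_ite_eq, Finset.mem_univ, if_true, ← Finset.smul_sum]
  simp only [Complex.smul_re, Complex.sub_re, Complex.add_re, Complex.re_sum, MSign_re, smul_eq_mul]
  have h1 : ∑ i, ∑ j, (⟪a i (a j v), a j (a i v)⟫_ℂ).re ≤ ∑ i, ∑ j, ‖a i (a j v)‖ ^ 2 := by
    have : ∑ i, ∑ j, (⟪a i (a j v), a j (a i v)⟫_ℂ).re ≤
        ∑ i, ∑ j, (‖a i (a j v)‖ ^ 2 / 2 + ‖a j (a i v)‖ ^ 2 / 2) :=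
      Finset.sum_le_sum fun i _ => Finset.sum_le_sum fun j _ => by
        have := re_inner_le_norm (𝕜 := ℂ) (a i (a j v)) (a j (a i v))
        rw [RCLike.re_to_complex] at this
        nlinarith [sq_nonneg (‖a i (a j v)‖ - ‖a j (a i v)‖)]
    simp only [Finset.sum_add_distrib, ← Finset.sum_div] at this
    rw [Finset.sum_comm (f := fun i j => ‖a j (a i v)‖ ^ 2)] at this
    linarith
  linarith

/-- With `h s = hterm`, `g s = μ⁻² m m⋆ + m⋆ m` one has `e s (h s)² e s = g s e s`, `0 ≤ ∑ g s ≤ 2 C`.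
By `MSign_four` the left side is `∑_{s ≠ t} (⟪h_s² η, h_t² η⟫ + ‖h_t h_s η‖² + ⟪h_t h_s η, h_s h_t η⟫)
+ ∑ ‖h_s² η‖²`.  For `s ≠ t`, `h_s η`, `h_s² η` and `g_s η` are in the range of `e t`, so
`‖h_t h_s η‖² = ⟪h_s η, g_t h_s η⟫` (sum `≤ 2C · 2C`), the third term is bounded by the second, and
`⟪h_s² η, h_t² η⟫ = ⟪g_s η, g_t η⟫` (sum `≤ ‖∑ g η‖² ≤ 4 C²`). -/
theorem ham_fourth (h : Sites c e μ) (hm : ∀ s, SCom c e (m s)) {C : ℝ} (hC : 0 ≤ C)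
    (h1 : ∀ ζ, ∑ s, ‖m s ζ‖ ^ 2 ≤ C * ‖ζ‖ ^ 2)
    (h2 : ∀ ζ, ∑ s, ‖((μ s)⁻¹ : ℂ) • star (m s) ζ‖ ^ 2 ≤ C * ‖ζ‖ ^ 2) (hη : ∀ s, e s η = η) :
    (ex fun θ : σ → Bool => ‖ham c m μ θ (ham c m μ θ η)‖ ^ 2) ≤
      (12 * C ^ 2 + ∑ s, (2 * √(1 + (μ s ^ 2)⁻¹) * ‖m s‖) ^ 4) * ‖η‖ ^ 2 := by
  obtain ⟨a, ha⟩ : ∃ a : σ → Op H, a = fun s => hterm (c s) (m s) (μ s) := ⟨_, rfl⟩
  obtain ⟨g, hg⟩ : ∃ g : σ → Op H, g = fun s => FMom_g (m s) (μ s) := ⟨_, rfl⟩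
  have F := FMom_four a η
  have e0 : ∀ θ : σ → Bool, ham c m μ θ = ∑ s, MSign_s θ s • a s := fun θ => by rw [ha]; rfl
  simp only [e0]
  refine F.trans ?_
  have sa : ∀ s u w, ⟪a s u, w⟫_ℂ = ⟪u, a s w⟫_ℂ := fun s u w => by
    rw [← FMom_sl, ha, FMom_star_h]
  have sg : ∀ s u w, ⟪g s u, w⟫_ℂ = ⟪u, g s w⟫_ℂ := fun s u w => by
    rw [← FMom_sl, hg, FMom_star_g]
  have K : ∀ s u w, e s u = u → e s w = w → ⟪a s u, a s w⟫_ℂ = ⟪u, g s w⟫_ℂ := fun s u w hu hw => by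
    rw [ha, hg]; exact FMom_K h s (hm s) hu hw
  have K0 : ∀ s u, e s u = u →
      ‖a s u‖ ^ 2 = ‖m s u‖ ^ 2 + ‖((μ s)⁻¹ : ℂ) • star (m s) u‖ ^ 2 := fun s u hu => by
    have := congrArg Complex.re (FMom_K0 h s (hm s) hu hu)
    simp only [Complex.add_re, MSign_re] at this
    rw [ha]; exact this
  have va : ∀ s t, s ≠ t → ∀ u, e t u = u → e t (a s u) = a s u := fun s t hst u hu => by
    rw [ha]; exact FMom_vac (FMom_h_e h (hm s) hst) hu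
  have vg : ∀ s t u, e t u = u → e t (g s u) = g s u := fun s t u hu => by
    rw [hg]; exact FMom_vac (FMom_g_e h (hm s) _ t) hu
  -- first sum
  have b1 : ∑ i, ∑ j, (⟪a i (a i η), a j (a j η)⟫_ℂ).re ≤
      ‖∑ i, g i η‖ ^ 2 + ∑ i, ‖a i (a i η)‖ ^ 2 := by
    rw [← MSign_re (∑ i, g i η), sum_inner, Complex.re_sum, ← Finset.sum_add_distrib]
    refine Finset.sum_le_sum fun i _ => ?_
    rw [inner_sum, Complex.re_sum, ← Finset.add_sum_erase _ _ (Finset.mem_univ i),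
      ← Finset.add_sum_erase _ _ (Finset.mem_univ i), MSign_re, MSign_re]
    have : ∑ j ∈ Finset.univ.erase i, (⟪a i (a i η), a j (a j η)⟫_ℂ).re =
        ∑ j ∈ Finset.univ.erase i, (⟪g i η, g j η⟫_ℂ).re := by
      refine Finset.sum_congr rfl fun j hj => ?_
      have hij : i ≠ j := (Finset.ne_of_mem_erase hj).symm
      rw [← sa j, K j _ _ (va i j hij _ (va i j hij _ (hη j))) (hη j), sa i,
        K i _ _ (hη i) (vg j i _ (hη i)), sg i]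
    rw [this]
    nlinarith [sq_nonneg ‖g i η‖]
  have b2 : ‖∑ i, g i η‖ ≤ 2 * C * ‖η‖ := by
    have c1 := FMom_cs m hC h1 η
    have c2 := FMom_cs (fun s => ((μ s)⁻¹ : ℂ) • star (m s)) hC h2 η
    have : ∑ i, g i η = ∑ s, star (m s) (m s η) +
        ∑ s, star (((μ s)⁻¹ : ℂ) • star (m s)) ((((μ s)⁻¹ : ℂ) • star (m s)) η) := by
      rw [← Finset.sum_add_distrib, hg]
      rfl
    rw [this]
    linarith [norm_add_le (∑ s, star (m s) (m s η))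
      (∑ s, star (((μ s)⁻¹ : ℂ) • star (m s)) ((((μ s)⁻¹ : ℂ) • star (m s)) η))]
  have b2' : ‖∑ i, g i η‖ ^ 2 ≤ (2 * C * ‖η‖) ^ 2 := pow_le_pow_left₀ (norm_nonneg _) b2 2
  have b3 : ∑ j, ‖a j η‖ ^ 2 ≤ 2 * C * ‖η‖ ^ 2 := by
    rw [Finset.sum_congr rfl fun j _ => K0 j η (hη j), Finset.sum_add_distrib]
    linarith [h1 η, h2 η]
  have b4 : ∑ i, ∑ j, ‖a i (a j η)‖ ^ 2 ≤
      2 * C * ∑ j, ‖a j η‖ ^ 2 + ∑ i, ‖a i (a i η)‖ ^ 2 := by
    rw [Finset.sum_comm, Finset.mul_sum, ← Finset.sum_add_distrib]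
    refine Finset.sum_le_sum fun j _ => ?_
    rw [← Finset.add_sum_erase _ _ (Finset.mem_univ j)]
    have d1 : ∑ i ∈ Finset.univ.erase j, ‖a i (a j η)‖ ^ 2 ≤
        ∑ i, (‖m i (a j η)‖ ^ 2 + ‖((μ i)⁻¹ : ℂ) • star (m i) (a j η)‖ ^ 2) := by
      rw [Finset.sum_congr rfl fun i hi =>
        K0 i (a j η) (va j i (Finset.ne_of_mem_erase hi).symm _ (hη i))]
      exact Finset.sum_le_sum_of_subset_of_nonneg (Finset.subset_univ _) fun i _ _ => by positivity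
    rw [Finset.sum_add_distrib] at d1
    linarith [h1 (a j η), h2 (a j η)]
  have b5 : ∑ i, ‖a i (a i η)‖ ^ 2 ≤
      (∑ s, (2 * √(1 + (μ s ^ 2)⁻¹) * ‖m s‖) ^ 4) * ‖η‖ ^ 2 := by
    rw [Finset.sum_mul]
    refine Finset.sum_le_sum fun s _ => ?_
    have n1 : ‖a s‖ ≤ 2 * √(1 + (μ s ^ 2)⁻¹) * ‖m s‖ := by rw [ha]; exact FMom_norm_h h s _
    have n2 : ‖a s (a s η)‖ ≤ ‖a s‖ * (‖a s‖ * ‖η‖) :=
      ((a s).le_opNorm _).trans (mul_le_mul_of_nonneg_left ((a s).le_opNorm _) (norm_nonneg _))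
    calc ‖a s (a s η)‖ ^ 2 ≤ (‖a s‖ * (‖a s‖ * ‖η‖)) ^ 2 := pow_le_pow_left₀ (norm_nonneg _) n2 2
      _ = ‖a s‖ ^ 4 * ‖η‖ ^ 2 := by ring
      _ ≤ _ := by gcongr
  have b6 : 2 * C * ∑ j, ‖a j η‖ ^ 2 ≤ 2 * C * (2 * C * ‖η‖ ^ 2) :=
    mul_le_mul_of_nonneg_left b3 (by positivity)
  nlinarith

/-- `(a + a⋆) ξ - J (a + a⋆) ξ = v - J v` with `v = a ξ - J a⋆ ξ`. -/
theorem ham_J {J : H ≃ₗᵢ⋆[ℂ] H} (hJ : ∀ ζ, J (J ζ) = ζ) (c m : σ → Op H) (μ : σ → ℝ) (ξ : H) :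
    (ex fun θ : σ → Bool => ‖ham c m μ θ ξ - J (ham c m μ θ ξ)‖ ^ 2) ≤
      4 * ∑ s, (√(1 + (μ s ^ 2)⁻¹) * ‖(m s * c s) ξ - J (star (m s * c s) ξ)‖) ^ 2 := by
  have Jr : ∀ (r : ℝ) (x : H), J ((r : ℂ) • x) = (r : ℂ) • J x := fun r x => by
    rw [map_smulₛₗ]; simp
  have e1 : ∀ θ : σ → Bool, ham c m μ θ ξ - J (ham c m μ θ ξ) =
      ∑ s, MSign_s θ s • (hterm (c s) (m s) (μ s) ξ - J (hterm (c s) (m s) (μ s) ξ)) := by
    intro θ
    simp only [ham, sum_apply, smul_apply, map_sum,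
      smul_sub, Finset.sum_sub_distrib, ← Complex.coe_smul, Jr]
  simp only [e1]
  rw [ex_norm_sq_sum, Finset.mul_sum]
  refine Finset.sum_le_sum fun s _ => ?_
  obtain ⟨v, hv⟩ : ∃ v, v = (m s * c s) ξ - J (star (m s * c s) ξ) := ⟨_, rfl⟩
  have e2 : hterm (c s) (m s) (μ s) ξ - J (hterm (c s) (m s) (μ s) ξ) =
      ((√(1 + (μ s ^ 2)⁻¹) : ℝ) : ℂ) • (v - J v) := by
    unfold hterm
    rw [smul_apply, Jr, ← smul_sub, hv, add_apply, map_add,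
      map_sub, hJ]
    congr 1
    abel
  rw [e2, ← hv, norm_smul, Complex.norm_real, Real.norm_eq_abs, abs_of_nonneg (Real.sqrt_nonneg _)]
  have n1 : ‖v - J v‖ ≤ 2 * ‖v‖ := by
    have := norm_sub_le v (J v)
    rw [J.norm_map] at this
    linarith
  calc (√(1 + (μ s ^ 2)⁻¹) * ‖v - J v‖) ^ 2 ≤ (√(1 + (μ s ^ 2)⁻¹) * (2 * ‖v‖)) ^ 2 := by gcongr
    _ = _ := by ring

end Crest.Agent.R078
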