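import Crest.Agent.R078.FSite
import Crest.Agent.R078.FMom

/-! Row 78, stage (3): unitaries almost in the centraliser that do not commute with `y`. -/

set_option autoImplicit false

open scoped InnerProductSpace ComplexConjugate
open Filter Topology

namespace Crest.Agent.R078

open Crest.Agent.R121 (Mn Bd)
open Crest.Agent.R124 (ex)
open Crest.OpAlg

universe u

variable {H : Type*} [NormedAddCommGroup H] [InnerProductSpace ℂ H] [CompleteSpace H]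

variable {M : VN H} {r : Prop} {S : ModularDatum H}

lemma FLemU_tendsto (T : Tower M r) (x z : Op H) (ζ : H) :
    Tendsto (fun k => T.Φ k x (T.Φ k z ζ)) atTop (𝓝 (x (z ζ))) := by
  have h1 : Tendsto (fun k => T.Φ k x (T.Φ k z ζ - z ζ)) atTop (𝓝 0) := by
    have h2 := ((tendsto_iff_norm_sub_tendsto_zero.1 (T.Φ_tendsto z ζ)).const_mul ‖x‖)
    rw [mul_zero] at h2
    exact squeeze_zero_norm (fun k => ((T.Φ k x).le_opNorm _).trans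
      (mul_le_mul_of_nonneg_right (T.norm_Φ_le k x) (norm_nonneg _))) h2
  have h3 := h1.add (T.Φ_tendsto x (z ζ))
  simpa only [map_sub, sub_add_cancel, zero_add] using h3

omit [CompleteSpace H] in
lemma FLemU_copies {σ : Type} [Fintype σ] {N : ℕ} (hN : 0 < N) (v : σ → H) :
    ∑ x : σ × Fin N, ‖(((√(N : ℝ))⁻¹ : ℝ) : ℂ) • v x.1‖ ^ 2 = ∑ s, ‖v s‖ ^ 2 := by
  have h0 : (0 : ℝ) < N := by exact_mod_cast hN
  rw [Fintype.sum_prod_type]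
  refine Finset.sum_congr rfl fun s _ => ?_
  simp only [norm_smul, Complex.norm_real, Real.norm_eq_abs, mul_pow, sq_abs, inv_pow,
    Real.sq_sqrt h0.le, Finset.sum_const, Finset.card_univ, Fintype.card_fin, nsmul_eq_mul]
  rw [mul_inv_cancel_left₀ h0.ne']

lemma FLemU_vac {σ : Type} (e : σ → Op H) (he : ∀ s, IsStarProjection (e s))
    (hc : ∀ s t, Commute (e s) (e t)) (ξ : H) (F : Finset σ) :
    ∃ ξ₀ : H, (∀ s ∈ F, e s ξ₀ = ξ₀) ∧ ‖ξ₀‖ ≤ ‖ξ‖ ∧ ‖ξ - ξ₀‖ ≤ ∑ s ∈ F, ‖ξ - e s ξ‖ := by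
  classical
  have hn : ∀ s ζ, ‖e s ζ‖ ≤ ‖ζ‖ := fun s ζ => ((e s).le_opNorm ζ).trans
    (mul_le_of_le_one_left (norm_nonneg _) (he s).norm_le)
  induction F using Finset.induction_on with
  | empty => exact ⟨ξ, by simp, le_rfl, by simp⟩
  | insert a F ha ih =>
    obtain ⟨ξ₀, h1, h2, h3⟩ := ih
    refine ⟨e a ξ₀, fun s hs => ?_, (hn a ξ₀).trans h2, ?_⟩
    · rcases Finset.mem_insert.1 hs with rfl | hs
      · rw [← mul_apply_eq_comp, (he s).isIdempotentElem.eq]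
      · rw [← mul_apply_eq_comp, (hc s a).eq, mul_apply_eq_comp, h1 s hs]
    · rw [Finset.sum_insert ha]
      have h4 := hn a (ξ - ξ₀)
      rw [map_sub] at h4
      linarith [norm_sub_le_norm_sub_add_norm_sub ξ (e a ξ) (e a ξ₀)]

lemma FLemU_skew {h : Op H} (hh : star h = h) (θ : ℝ) :
    star (((θ : ℂ) * Complex.I) • h) = -(((θ : ℂ) * Complex.I) • h) := by
  rw [star_smul, hh, ← neg_smul]
  simp

lemma FLemU_norm (θ : ℝ) : ‖(θ : ℂ) * Complex.I‖ = |θ| := by simp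

lemma FLemU_sq {x a b : ℝ} (hx : 0 ≤ x) (h : x ≤ a + b) : x ^ 2 ≤ 2 * a ^ 2 + 2 * b ^ 2 := by
  nlinarith [sq_nonneg (a - b), pow_le_pow_left₀ hx h 2]

/-- Move the family to a finite level and make it fine.  Replace `m s` by `Φ k (m s)` and `y` by
`Φ k y` with `k` large (`Φ_col`, `Φ_star`, `Φ_comm`, `Φ_tendsto`;
`Φ k y (Φ k m ξ) → y m ξ` since `‖Φ k y‖ ≤ ‖y‖`), then each `m s` by `N` copies of `m s / √N`. -/
theorem kfam_level (T : Tower M r) (hM : S.M = M) {k₀ : ℕ} {p : Set (Op H)}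
    (hp : ∀ s ∈ p, s ∈ T.L k₀ ∧ star s = s) {y : Op H} (hy : y ∈ M) {c₀ η : ℝ} (hc₀ : 0 < c₀)
    (hη : 0 < η) {P : ℝ → Prop} (h : Kfam S (rel M p) y c₀ η P) :
    ∃ (k : ℕ) (y' : Op H) (σ : Type) (_ : Fintype σ) (m : σ → Op H) (μ : σ → ℝ), k₀ ≤ k ∧
      y' ∈ T.L k ∧ ‖y'‖ ≤ ‖y‖ ∧ ‖y S.vac - y' S.vac‖ ≤ η ∧
      (∀ s, m s ∈ T.L k ∧ (∀ x ∈ p, Commute x (m s)) ∧ 0 < μ s ∧ P (μ s)) ∧
      (∀ ζ, ∑ s, ‖m s ζ‖ ^ 2 ≤ 2 * ‖ζ‖ ^ 2) ∧
      (∀ ζ, ∑ s, ‖((μ s)⁻¹ : ℂ) • star (m s) ζ‖ ^ 2 ≤ 2 * ‖ζ‖ ^ 2) ∧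
      ∑ s, ‖m s S.vac - ((μ s)⁻¹ : ℂ) • S.J (star (m s) S.vac)‖ ^ 2 ≤ 2 * η ∧
      c₀ / 2 ≤ ∑ s, ‖cm y' (m s) S.vac‖ ^ 2 ∧
      ∑ s, (2 * √(1 + (μ s ^ 2)⁻¹) * ‖m s‖) ^ 4 ≤ 1 := by
  obtain ⟨σ, _, m, μ, h1, h2, h3, h4, h5⟩ := h
  have hp' : ∀ s ∈ p, star s = s := fun s hs => (hp s hs).2
  have t1 := tendsto_iff_norm_sub_tendsto_zero.1 (T.Φ_tendsto y S.vac)
  have t2 : Tendsto (fun k => ∑ s, ‖T.Φ k (m s) S.vac -
      ((μ s)⁻¹ : ℂ) • S.J (T.Φ k (star (m s)) S.vac)‖ ^ 2) atTop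
      (𝓝 (∑ s, ‖m s S.vac - ((μ s)⁻¹ : ℂ) • S.J (star (m s) S.vac)‖ ^ 2)) :=
    tendsto_finset_sum _ fun s _ => ((T.Φ_tendsto _ _).sub
      (((S.J.continuous.tendsto _).comp (T.Φ_tendsto _ _)).const_smul _)).norm.pow 2
  have t3 : Tendsto (fun k => ∑ s, ‖cm (T.Φ k y) (T.Φ k (m s)) S.vac‖ ^ 2) atTop
      (𝓝 (∑ s, ‖cm y (m s) S.vac‖ ^ 2)) :=
    tendsto_finset_sum _ fun s _ =>
      ((FLemU_tendsto T y (m s) S.vac).sub (FLemU_tendsto T (m s) y S.vac)).norm.pow 2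
  obtain ⟨k, k1, k2, k3, k4⟩ := ((eventually_ge_atTop k₀).and ((t1.eventually (ge_mem_nhds hη)).and
    ((t2.eventually (ge_mem_nhds (show _ < 2 * η by linarith))).and
      (t3.eventually (le_mem_nhds (show c₀ / 2 < _ by linarith)))))).exists
  obtain ⟨N, hN⟩ := exists_nat_gt (∑ s, (2 * √(1 + (μ s ^ 2)⁻¹) * ‖T.Φ k (m s)‖) ^ 4)
  have hN0 : (0 : ℝ) < N := lt_of_le_of_lt (Finset.sum_nonneg fun s _ => by positivity) hN
  have hN1 : 0 < N := by exact_mod_cast hN0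
  have hst : ∀ x : Op H, star ((((√(N : ℝ))⁻¹ : ℝ) : ℂ) • x) =
      (((√(N : ℝ))⁻¹ : ℝ) : ℂ) • star x := fun x => by
    rw [star_smul, Complex.star_def, Complex.conj_ofReal]
  refine ⟨k, T.Φ k y, σ × Fin N, inferInstance,
    fun x => (((√(N : ℝ))⁻¹ : ℝ) : ℂ) • T.Φ k (m x.1), fun x => μ x.1, k1, T.Φ_mem k y hy,
    T.norm_Φ_le k y, by rwa [norm_sub_rev], fun x => ⟨?_, fun s hs => ?_, (h1 x.1).2⟩,
    fun ζ => ?_, fun ζ => ?_, ?_, ?_, ?_⟩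
  · exact (T.L k).toStarSubalgebra.smul_mem (T.Φ_mem k _ ((mem_rel hp').1 (h1 x.1).1).1) _
  · exact (T.Φ_comm k _ s (T.L_mono _ _ k1 s (hp s hs).1)
      (((mem_rel hp').1 (h1 x.1).1).2 s hs).symm).smul_right _
  · exact (FLemU_copies hN1 fun s => T.Φ k (m s) ζ).trans_le (T.Φ_col k σ m 2 h2 ζ)
  · have h6 := T.Φ_col k σ (fun s => ((μ s)⁻¹ : ℂ) • star (m s)) 2 h3 ζ
    refine Eq.trans_le ?_ ((FLemU_copies hN1 _).trans_le h6)
    refine Finset.sum_congr rfl fun x _ => ?_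
    rw [hst, map_smul, T.Φ_star, smul_apply, smul_apply, smul_comm]
  · refine Eq.trans_le ?_ ((FLemU_copies hN1 _).trans_le k3)
    refine Finset.sum_congr rfl fun x _ => ?_
    rw [hst, T.Φ_star, smul_apply, smul_apply, map_smulₛₗ, Complex.conj_ofReal, smul_sub,
      smul_comm]
  · refine k4.trans_eq ((FLemU_copies hN1 _).symm.trans ?_)
    refine Finset.sum_congr rfl fun x _ => ?_
    rw [cm, cm, mul_smul_comm, smul_mul_assoc, ← smul_sub, smul_apply]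
  · rw [Fintype.sum_prod_type]
    have e : ∀ s, ∑ _i : Fin N, (2 * √(1 + (μ s ^ 2)⁻¹) *
        ‖(((√(N : ℝ))⁻¹ : ℝ) : ℂ) • T.Φ k (m s)‖) ^ 4 =
        (N : ℝ)⁻¹ * (2 * √(1 + (μ s ^ 2)⁻¹) * ‖T.Φ k (m s)‖) ^ 4 := fun s => by
      have e1 : (√(N : ℝ)) ^ 4 = N ^ 2 := by
        rw [show 4 = 2 * 2 by rfl, pow_mul, Real.sq_sqrt hN0.le]
      simp only [norm_smul, Complex.norm_real, Real.norm_eq_abs, mul_pow, inv_pow,
        abs_of_nonneg (inv_nonneg.2 (Real.sqrt_nonneg (N : ℝ))), e1, Finset.sum_const,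
        Finset.card_univ, Fintype.card_fin, nsmul_eq_mul]
      field_simp
    simp only [e]
    rw [← Finset.mul_sum, inv_mul_le_iff₀ hN0, mul_one]
    exact hN.le

/-- `U = cay (i θ h)`, `U' = jc J U⋆ = cay (i θ h')` with `h' = jc J h` commuting with `h`;
`cay_sub_cay`. -/
theorem norm_cay_vac_sub (hS : Std S) {h : Op H} (hh : star h = h) (hm : h ∈ S.M) (θ : ℝ) :
    ‖cay (((θ : ℂ) * Complex.I) • h) S.vac - S.J (star (cay (((θ : ℂ) * Complex.I) • h)) S.vac)‖ ≤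
      |θ| * ‖h S.vac - S.J (h S.vac)‖ := by
  have hk := FLemU_skew hh θ
  have hh' : star (jc S.J h) = jc S.J h := by rw [← jc_star S.J_J, hh]
  have hk' := FLemU_skew hh' θ
  have e1 : S.J (star (cay (((θ : ℂ) * Complex.I) • h)) S.vac) =
      cay (((θ : ℂ) * Complex.I) • jc S.J h) S.vac := by
    have e2 : jc S.J (-(((θ : ℂ) * Complex.I) • h)) = ((θ : ℂ) * Complex.I) • jc S.J h := by
      rw [← neg_smul, jc_smul]
      simp
    rw [star_cay hk, ← e2, ← jc_cay S.J_J, jc_apply, J_vac]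
  have hc : Commute (((θ : ℂ) * Complex.I) • h - ((θ : ℂ) * Complex.I) • jc S.J h)
      (((θ : ℂ) * Complex.I) • jc S.J h) :=
    (((commute_of_mem hm (hS.jc_mem h hm)).smul_left _).smul_right _).sub_left (Commute.refl _)
  rw [e1, ← sub_apply, cay_sub_cay hk hk', mul_assoc,
    (commute_inverse (BPolar_commute_A hc)).eq, mul_apply_eq_comp, mul_apply_eq_comp]
  refine (norm_inverse_one_sub_skew_apply hk _).trans
    ((norm_inverse_one_sub_skew_apply hk' _).trans_eq ?_)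
  rw [← smul_sub, smul_apply, norm_smul, FLemU_norm, sub_apply, jc_apply, J_vac]

/-- `norm_cay_sub_apply` and `(a - b)² ≥ a²/2 - b²`. -/
theorem norm_cm_cay_sq {h y : Op H} (hh : star h = h) (θ : ℝ) (ξ : H) :
    θ ^ 2 / 2 * ‖cm y h ξ‖ ^ 2 - θ ^ 4 / 2 * (‖y‖ ^ 2 * ‖h (h ξ)‖ ^ 2 + ‖h (h (y ξ))‖ ^ 2) ≤
      ‖cm y (cay (((θ : ℂ) * Complex.I) • h)) ξ‖ ^ 2 := by
  have hk := FLemU_skew hh θ
  have hE : ∀ ζ, ‖(cay (((θ : ℂ) * Complex.I) • h) - 1 - ((θ : ℂ) * Complex.I) • h) ζ‖ ≤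
      θ ^ 2 * ‖h (h ζ)‖ / 2 := fun ζ => (norm_cay_sub_apply hk ζ).trans_eq (by
    rw [smul_apply, smul_apply, map_smul, norm_smul, norm_smul, FLemU_norm, ← mul_assoc,
      abs_mul_abs_self, sq])
  generalize cay (((θ : ℂ) * Complex.I) • h) = U at hE ⊢
  have e : ((θ : ℂ) * Complex.I) • cm y h ξ = cm y U ξ -
      (y ((U - 1 - ((θ : ℂ) * Complex.I) • h) ξ) - (U - 1 - ((θ : ℂ) * Complex.I) • h) (y ξ)) := by
    simp only [cm, sub_apply, mul_apply_eq_comp, smul_apply, one_apply_eq_self, map_sub, map_smul,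
      smul_sub]
    abel
  have h1 : |θ| * ‖cm y h ξ‖ ≤ ‖cm y U ξ‖ +
      (‖y‖ * (θ ^ 2 * ‖h (h ξ)‖ / 2) + θ ^ 2 * ‖h (h (y ξ))‖ / 2) := by
    rw [← FLemU_norm, ← norm_smul, e]
    refine (norm_sub_le _ _).trans (add_le_add le_rfl ((norm_sub_le _ _).trans (add_le_add ?_ (hE _))))
    exact (y.le_opNorm _).trans (mul_le_mul_of_nonneg_left (hE _) (norm_nonneg _))
  have h2 := FLemU_sq (by positivity) h1
  have h3 := FLemU_sq (by positivity) (le_refl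
    (‖y‖ * (θ ^ 2 * ‖h (h ξ)‖ / 2) + θ ^ 2 * ‖h (h (y ξ))‖ / 2))
  rw [mul_pow, sq_abs] at h2
  nlinarith

/-- Lemma U.  Take the family of `kfam_level` (for a much smaller `η'`), sites `n s ≥ k` from
`Tower.exists_sites` so far out that `Tower.site` holds with tiny `κ` and `ξ₀ = (∏ e (n s)) ξ`
(`Finset.noncommProd`, or the existence of a common vacuum vector by induction) is very close to
`ξ` compared with `norm_ham_le`.  `ham_second`, `ham_fourth` (for `ξ₀` and `y' ξ₀`, constant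
`12 · 4 + 1 = 49`), `norm_cm_cay_sq` with `θ² = c₀ / (1000 R²)` give
`E ‖[y', U] ξ‖² ≥ 2 c₁²`, `ham_J` and `norm_cay_vac_sub` give `E ‖U ξ - J U⋆ ξ‖² ≤ C θ² η'`; choose
signs maximising `‖[y', U] ξ‖² - (4 R² / η²) ‖U ξ - J U⋆ ξ‖²` (`R124.exists_le_ex`). -/
theorem lemU {c₀ R : ℝ} (hc₀ : 0 < c₀) (hR : 0 < R) : ∃ c₁ : ℝ, 0 < c₁ ∧
    ∀ (H : Type u) [NormedAddCommGroup H] [InnerProductSpace ℂ H] [CompleteSpace H] (M : VN H)
      (r : Prop) (T : Tower M r) (S : ModularDatum H) (k₀ : ℕ) (p : Set (Op H)) (y : Op H) (η : ℝ),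
      Std S → S.M = M → (∀ s ∈ p, s ∈ T.L k₀ ∧ star s = s) → y ∈ M → ‖y‖ ≤ R → 0 < η →
      (∀ η' > 0, Kfam S (rel M p) y c₀ η' T.Avail) →
      ∃ (k : ℕ) (U y' : Op H), k₀ ≤ k ∧ U ∈ T.L k ∧ U ∈ unitary (Op H) ∧
        (∀ s ∈ p, Commute s U) ∧ ‖U S.vac - S.J (star U S.vac)‖ ≤ η ∧
        y' ∈ T.L k ∧ ‖y'‖ ≤ R ∧ ‖y S.vac - y' S.vac‖ ≤ η ∧ c₁ ≤ ‖cm y' U S.vac‖ := by
  obtain ⟨θ, hθ0, hθ⟩ : ∃ θ : ℝ, 0 < θ ∧ θ ^ 2 * R ^ 2 = c₀ / 1000 :=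
    ⟨√(c₀ / 1000) / R, by positivity, by
      rw [div_pow, Real.sq_sqrt (by positivity)]; field_simp⟩
  obtain ⟨c₁, hc₁, hc⟩ : ∃ c₁ : ℝ, 0 < c₁ ∧ c₁ ^ 2 = θ ^ 2 * c₀ / 100 :=
    ⟨√(θ ^ 2 * c₀ / 100), by positivity, Real.sq_sqrt (by positivity)⟩
  obtain ⟨ε, hε0, hε1, hε2⟩ : ∃ ε : ℝ, 0 < ε ∧ R ^ 2 * ε ^ 2 ≤ c₀ / 160 ∧
      R ^ 2 * ε ^ 2 ≤ θ ^ 2 * c₀ / 800 := by
    refine ⟨√(min (c₀ / 160) (θ ^ 2 * c₀ / 800)) / R, by positivity, ?_, ?_⟩ <;>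
      rw [div_pow, Real.sq_sqrt (by positivity), mul_div_cancel₀ _ (by positivity)]
    exacts [min_le_left _ _, min_le_right _ _]
  refine ⟨c₁, hc₁, fun H _ _ _ M r T S k₀ p y η hS hM hp hy hyR hη hK => ?_⟩
  classical
  obtain ⟨lam, hlam0, hlam⟩ : ∃ lam : ℝ, 0 < lam ∧ lam * η ^ 2 = 4 * R ^ 2 :=
    ⟨4 * R ^ 2 / η ^ 2, by positivity, by field_simp⟩
  obtain ⟨η', hη0, hη1, hη2⟩ : ∃ η' : ℝ, 0 < η' ∧ η' ≤ η ∧ lam * (72 * θ ^ 2 * η') ≤ c₁ ^ 2 := by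
    refine ⟨min η (c₁ ^ 2 / (lam * (72 * θ ^ 2))), by positivity, min_le_left _ _, ?_⟩
    have := min_le_right η (c₁ ^ 2 / (lam * (72 * θ ^ 2)))
    rw [le_div_iff₀ (by positivity)] at this
    linarith
  obtain ⟨k, y', σ, _, m, μ, hk, hy', hy1, hy2, hm, m1, m2, m3, m4, m5⟩ :=
    kfam_level T hM hp hy hc₀ hη0 (hK η' hη0)
  have hy'R : ‖y'‖ ≤ R := hy1.trans hyR
  obtain ⟨κ, hκ0, hκ⟩ : ∃ κ : ℝ, 0 < κ ∧ Fintype.card σ * κ ^ 2 ≤ η' := by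
    refine ⟨√(η' / (Fintype.card σ + 1)), by positivity, ?_⟩
    rw [Real.sq_sqrt (by positivity), ← mul_div_assoc, div_le_iff₀ (by positivity)]
    nlinarith
  obtain ⟨n, hn, hn'⟩ := T.exists_sites μ (fun s => (hm s).2.2.2)
    (P := fun s n => k ≤ n ∧ ‖T.e n S.vac - S.vac‖ ≤ ε / (Fintype.card σ + 1) ∧ (T.μ n = μ s →
      √(1 + (μ s ^ 2)⁻¹) * ‖(m s * T.c n) S.vac - S.J (star (m s * T.c n) S.vac)‖ ≤
        2 * ‖m s S.vac - ((μ s)⁻¹ : ℂ) • S.J (star (m s) S.vac)‖ + κ))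
    fun s => (eventually_ge_atTop k).and
      (((tendsto_iff_norm_sub_tendsto_zero.1 (T.e_tendsto S.vac)).eventually
        (ge_mem_nhds (by positivity))).and (T.site hS hM (hm s).1 (hm s).2.2.1 hκ0))
  have hsites : Sites (fun s => T.c (n s)) (fun s => T.e (n s)) μ :=
    ⟨fun s => (hm s).2.2.1, fun s => T.c_sq _, fun s => T.c_car _, fun s => T.e_proj _,
      fun s => by rw [← (hn' s).1]; exact T.e_cc_e _, fun s => T.e_c_e _,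
      fun s t hst => T.c_comm_c (hn.ne hst), fun s t hst => T.e_comm_c _ _ (hn.ne hst)⟩
  have hsc : ∀ x ∈ T.L k, SCom (fun s => T.c (n s)) (fun s => T.e (n s)) x := fun x hx t =>
    ⟨T.c_comm _ x (T.L_mono _ _ (hn' t).2.1 x hx), T.cs_comm _ (T.L_mono _ _ (hn' t).2.1 x hx),
      T.e_comm _ x (T.L_mono _ _ (hn' t).2.1 x hx)⟩
  obtain ⟨ξ₀, v1, v2, v3⟩ := FLemU_vac (fun s => T.e (n s)) (fun s => T.e_proj _)
    (fun s t => T.e_comm_e _ _) S.vac Finset.univ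
  replace v1 := fun s => v1 s (Finset.mem_univ s)
  rw [S.norm_vac] at v2
  have v4 : ‖S.vac - ξ₀‖ ≤ ε := by
    refine v3.trans ((Finset.sum_le_card_nsmul _ _ (ε / (Fintype.card σ + 1)) fun s _ => by
      rw [norm_sub_rev]; exact (hn' s).2.2.1).trans ?_)
    rw [Finset.card_univ, nsmul_eq_mul, ← mul_div_assoc, div_le_iff₀ (by positivity)]
    nlinarith
  have v5 : ∀ s, T.e (n s) (y' ξ₀) = y' ξ₀ := fun s => by
    rw [← mul_apply_eq_comp, ← (hsc y' hy' s).2.2.eq, mul_apply_eq_comp, v1 s]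
  -- the level of the Hamiltonian
  obtain ⟨k', hkk, hk'⟩ : ∃ k', k ≤ k' ∧ ∀ s, n s + 1 ≤ k' :=
    ⟨k + Finset.univ.sup n + 1, by omega, fun s => by
      have := Finset.le_sup (f := n) (Finset.mem_univ s); omega⟩
  have hmem : ∀ ω, ham (fun s => T.c (n s)) m μ ω ∈ T.L k' := fun ω => by
    refine sum_mem fun s _ => ?_
    have h1 : m s * T.c (n s) ∈ T.L k' :=
      mul_mem (T.L_mono _ _ hkk _ (hm s).1) (T.L_mono _ _ (hk' s) _ (T.c_mem _))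
    rw [← Complex.coe_smul]
    exact (T.L k').toStarSubalgebra.smul_mem
      ((T.L k').toStarSubalgebra.smul_mem (add_mem h1 (star_mem h1)) _) _
  have hsa := fun ω => star_ham (fun s => T.c (n s)) m μ ω
  obtain ⟨U, hU⟩ : ∃ U : (σ → Bool) → Op H,
      ∀ ω, U ω = cay (((θ : ℂ) * Complex.I) • ham (fun s => T.c (n s)) m μ ω) := ⟨_, fun _ => rfl⟩
  have hUu : ∀ ω, U ω ∈ unitary (Op H) := fun ω => by
    rw [hU]; exact cay_unitary (FLemU_skew (hsa ω) θ)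
  have hcm : ∀ ω ζ, ‖cm y' (U ω) ζ‖ ≤ 2 * R * ‖ζ‖ := fun ω ζ => by
    refine ((cm y' (U ω)).le_opNorm ζ).trans (mul_le_mul_of_nonneg_right
      ((norm_cm_le _ _).trans ?_) (norm_nonneg _))
    have := mul_le_mul hy'R (bpolar0_norm_le (hUu ω)) (norm_nonneg _) hR.le
    linarith
  -- second moment
  have s1 : c₀ / 5 ≤ ∑ s, ‖cm y' (m s) ξ₀‖ ^ 2 := by
    have h1 : ∀ s, ‖cm y' (m s) S.vac‖ ^ 2 ≤ 2 * ‖cm y' (m s) ξ₀‖ ^ 2 +
        (4 * R ^ 2 * ‖m s (S.vac - ξ₀)‖ ^ 2 + 4 * ‖m s (y' (S.vac - ξ₀))‖ ^ 2) := fun s => by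
      have a1 : ‖cm y' (m s) S.vac‖ ≤ ‖cm y' (m s) ξ₀‖ + ‖cm y' (m s) (S.vac - ξ₀)‖ := by
        rw [map_sub]; exact norm_le_norm_add_norm_sub' _ _
      have a2 : ‖cm y' (m s) (S.vac - ξ₀)‖ ≤
          R * ‖m s (S.vac - ξ₀)‖ + ‖m s (y' (S.vac - ξ₀))‖ :=
        (norm_sub_le _ _).trans (add_le_add ((y'.le_opNorm _).trans
          (mul_le_mul_of_nonneg_right hy'R (norm_nonneg _))) le_rfl)
      have a3 := FLemU_sq (norm_nonneg _) a1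
      have a4 := FLemU_sq (norm_nonneg _) a2
      linarith
    have h2 := Finset.sum_le_sum fun s (_ : s ∈ Finset.univ) => h1 s
    rw [Finset.sum_add_distrib, Finset.sum_add_distrib, ← Finset.mul_sum, ← Finset.mul_sum,
      ← Finset.mul_sum] at h2
    have h3 := mul_le_mul_of_nonneg_left (m1 (S.vac - ξ₀)) (sq_nonneg R)
    have h4 := m1 (y' (S.vac - ξ₀))
    have h5 : ‖y' (S.vac - ξ₀)‖ ^ 2 ≤ (R * ε) ^ 2 := pow_le_pow_left₀ (norm_nonneg _)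
      ((y'.le_opNorm _).trans (mul_le_mul hy'R v4 (norm_nonneg _) hR.le)) 2
    have h6 := mul_le_mul_of_nonneg_left (pow_le_pow_left₀ (norm_nonneg _) v4 2) (sq_nonneg R)
    rw [mul_pow] at h5
    linarith
  have s2 := s1.trans (ham_second hsites (fun s => hsc _ (hm s).1) (hsc _ hy') v1)
  have s3 := ham_fourth hsites (fun s => hsc _ (hm s).1) zero_le_two m1 m2 v1
  have s4 := ham_fourth hsites (fun s => hsc _ (hm s).1) zero_le_two m1 m2 v5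
  have n0 : ‖ξ₀‖ ^ 2 ≤ 1 := pow_le_one₀ (norm_nonneg _) v2
  have n1 : ‖y' ξ₀‖ ^ 2 ≤ R ^ 2 := pow_le_pow_left₀ (norm_nonneg _) ((y'.le_opNorm _).trans
    ((mul_le_mul hy'R v2 (norm_nonneg _) hR.le).trans_eq (mul_one R))) 2
  replace s3 := s3.trans (mul_le_mul (show _ ≤ (49 : ℝ) by linarith) n0 (sq_nonneg _) (by norm_num))
  replace s4 := s4.trans (mul_le_mul (show _ ≤ (49 : ℝ) by linarith) n1 (sq_nonneg _) (by norm_num))
  have s5 : 2 * c₁ ^ 2 ≤ ex fun ω => ‖cm y' (U ω) S.vac‖ ^ 2 := by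
    have h1 : ∀ ω, θ ^ 2 / 4 * ‖cm y' (ham (fun s => T.c (n s)) m μ ω) ξ₀‖ ^ 2 -
        (θ ^ 4 / 4 * R ^ 2 * ‖ham (fun s => T.c (n s)) m μ ω (ham (fun s => T.c (n s)) m μ ω ξ₀)‖ ^ 2
        + θ ^ 4 / 4 * ‖ham (fun s => T.c (n s)) m μ ω (ham (fun s => T.c (n s)) m μ ω (y' ξ₀))‖ ^ 2)
        ≤ ‖cm y' (U ω) S.vac‖ ^ 2 + 4 * (R ^ 2 * ε ^ 2) := fun ω => by
      have a0 := norm_cm_cay_sq (y := y') (hsa ω) θ ξ₀
      rw [← hU] at a0
      have a1 : ‖cm y' (U ω) ξ₀‖ ≤ ‖cm y' (U ω) S.vac‖ + 2 * R * ε := by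
        have a2 := (hcm ω (S.vac - ξ₀)).trans (mul_le_mul_of_nonneg_left v4 (by positivity))
        rw [map_sub] at a2
        linarith [norm_le_norm_add_norm_sub (cm y' (U ω) S.vac) (cm y' (U ω) ξ₀)]
      have a3 := FLemU_sq (norm_nonneg _) a1
      have a4 := mul_le_mul_of_nonneg_left (mul_le_mul_of_nonneg_right
        (pow_le_pow_left₀ (norm_nonneg _) hy'R 2) (sq_nonneg
        ‖ham (fun s => T.c (n s)) m μ ω (ham (fun s => T.c (n s)) m μ ω ξ₀)‖))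
        (show 0 ≤ θ ^ 4 by positivity)
      linarith
    have h2 := R124.ex_mono h1
    rw [R124.ex_sub, R124.ex_add, R124.ex_add, R124.ex_mul_left, R124.ex_mul_left,
      R124.ex_mul_left, R124.ex_const] at h2
    have h3 := mul_le_mul_of_nonneg_left s2 (show 0 ≤ θ ^ 2 / 4 by positivity)
    have h4 := mul_le_mul_of_nonneg_left s3 (show 0 ≤ θ ^ 4 / 4 * R ^ 2 by positivity)
    have h5 := mul_le_mul_of_nonneg_left s4 (show 0 ≤ θ ^ 4 / 4 by positivity)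
    have h6 : θ ^ 4 * R ^ 2 = θ ^ 2 * c₀ / 1000 := by
      rw [show θ ^ 4 * R ^ 2 = θ ^ 2 * (θ ^ 2 * R ^ 2) by ring, hθ]; ring
    have h7 : 0 ≤ θ ^ 2 * c₀ := by positivity
    linarith
  have s6 : (ex fun ω => ‖U ω S.vac - S.J (star (U ω) S.vac)‖ ^ 2) ≤ 72 * θ ^ 2 * η' := by
    have h1 : ∀ ω, ‖U ω S.vac - S.J (star (U ω) S.vac)‖ ^ 2 ≤ θ ^ 2 *
        ‖ham (fun s => T.c (n s)) m μ ω S.vac - S.J (ham (fun s => T.c (n s)) m μ ω S.vac)‖ ^ 2 :=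
      fun ω => by
        have a0 := norm_cay_vac_sub hS (hsa ω) (hM ▸ T.L_le _ _ (hmem ω)) θ
        rw [← hU] at a0
        have a1 := pow_le_pow_left₀ (norm_nonneg _) a0 2
        rwa [mul_pow, sq_abs] at a1
    have h2 := R124.ex_mono h1
    rw [R124.ex_mul_left] at h2
    have h3 := ham_J S.J_J (fun s => T.c (n s)) m μ S.vac
    have h4 := Finset.sum_le_sum fun s (_ : s ∈ Finset.univ) =>
      FLemU_sq (by positivity) ((hn' s).2.2.2 (hn' s).1)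
    simp only [mul_pow (2 : ℝ), Finset.sum_add_distrib, ← Finset.mul_sum, Finset.sum_const,
      Finset.card_univ, nsmul_eq_mul] at h4
    have h5 := mul_le_mul_of_nonneg_left (h3.trans (show _ ≤ 72 * η' by linarith)) (sq_nonneg θ)
    linarith
  obtain ⟨ω, hω⟩ := R124.exists_le_ex fun ω =>
    lam * ‖U ω S.vac - S.J (star (U ω) S.vac)‖ ^ 2 - ‖cm y' (U ω) S.vac‖ ^ 2
  rw [R124.ex_sub, R124.ex_mul_left] at hω
  have f1 := mul_le_mul_of_nonneg_left s6 hlam0.le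
  have f2 : 0 ≤ lam * ‖U ω S.vac - S.J (star (U ω) S.vac)‖ ^ 2 := by positivity
  have f3 := pow_le_pow_left₀ (norm_nonneg _) (hcm ω S.vac) 2
  rw [S.norm_vac, mul_one, mul_pow] at f3
  refine ⟨k', U ω, y', hk.trans hkk, ?_, hUu ω, fun s hs => ?_, ?_, T.L_mono _ _ hkk _ hy', hy'R,
    hy2.trans hη1, ?_⟩
  · rw [hU]
    exact cay_mem ((T.L k').toStarSubalgebra.smul_mem (hmem ω) _)
  · rw [hU]
    refine commute_cay (Commute.smul_right (Commute.sum_right _ _ _ fun t _ => ?_) _)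
    have h1 : Commute s (m t * T.c (n t)) := ((hm t).2.1 s hs).mul_right
      (hsc s (T.L_mono _ _ hk s (hp s hs).1) t).1
    have h2 := h1.star_star
    rw [(hp s hs).2] at h2
    exact ((h1.add_right h2).smul_right _).smul_right _
  · refine abs_le_of_sq_le_sq' (le_of_mul_le_mul_left ?_ hlam0) hη.le |>.2
    nlinarith [sq_nonneg c₁]
  · exact abs_le_of_sq_le_sq' (by linarith) (norm_nonneg _) |>.2

end Crest.Agent.R078
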