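import Crest.Agent.R078.FStep

/-! Row 78, stage (3): the inductive limit. -/

set_option autoImplicit false

open scoped InnerProductSpace ComplexConjugate
open Filter Topology

namespace Crest.Agent.R078

open Crest.Agent.R121 (Mn Bd)
open Crest.Agent.R124 (ex)
open Crest.OpAlg

universe u

variable {H : Type*} [NormedAddCommGroup H] [InnerProductSpace ℂ H] [CompleteSpace H]

variable {M : VN H}

/-- The unit ball of `M` is strongly separable: map `x` to `(x (η k))_k ∈ ℕ → H` for a dense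
sequence `η`; subsets of a second countable space are separable. -/
theorem exists_strong_dense [TopologicalSpace.SeparableSpace H] (M : VN H) :
    ∃ x : ℕ → Op H, (∀ i, x i ∈ M ∧ ‖x i‖ ≤ 1) ∧
      ∀ y ∈ M, ‖y‖ ≤ 1 → ∀ (ζ : H) (ε : ℝ), 0 < ε → ∃ i, ‖x i ζ - y ζ‖ < ε := by
  let η := TopologicalSpace.denseSeq H
  have hη : DenseRange η := TopologicalSpace.denseRange_denseSeq H
  have h1 : ∀ k j n : ℕ, ∃ x : Op H, (x ∈ M ∧ ‖x‖ ≤ 1) ∧
      ∀ y ∈ M, ‖y‖ ≤ 1 → ‖y (η k) - η j‖ < 1 / (n + 1) → ‖x (η k) - η j‖ < 1 / (n + 1) := by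
    intro k j n
    by_cases h : ∃ y ∈ M, ‖y‖ ≤ 1 ∧ ‖y (η k) - η j‖ < 1 / (n + 1)
    · obtain ⟨y, hy, h1, h2⟩ := h
      exact ⟨y, ⟨hy, h1⟩, fun _ _ _ _ => h2⟩
    · exact ⟨0, ⟨zero_mem _, by simp⟩, fun y hy h1 h2 => (h ⟨y, hy, h1, h2⟩).elim⟩
  choose x hx hx' using h1
  refine ⟨fun i => x i.unpair.1.unpair.1 i.unpair.1.unpair.2 i.unpair.2, fun i => hx _ _ _,
    fun y hy hy1 ζ ε hε => ?_⟩
  obtain ⟨n, hn⟩ := exists_nat_one_div_lt (show 0 < ε / 4 by positivity)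
  obtain ⟨k, hk⟩ := hη.exists_dist_lt ζ (show 0 < ε / 4 by positivity)
  obtain ⟨j, hj⟩ := hη.exists_dist_lt (y (η k)) (show (0 : ℝ) < 1 / (n + 1) by positivity)
  rw [dist_eq_norm] at hk hj
  refine ⟨Nat.pair (Nat.pair k j) n, ?_⟩
  simp only [Nat.unpair_pair]
  have h2 := hx' k j n y hy hy1 hj
  have h3 : ∀ a : Op H, ‖a‖ ≤ 1 → ‖a (ζ - η k)‖ < ε / 4 := fun a ha =>
    (a.le_opNorm _).trans_lt ((mul_le_of_le_one_left (norm_nonneg _) ha).trans_lt hk)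
  have e : x k j n ζ - y ζ = x k j n (ζ - η k) - y (ζ - η k) +
      ((x k j n (η k) - η j) - (y (η k) - η j)) := by
    rw [map_sub, map_sub]
    abel
  rw [e]
  have h4 := norm_add_le (x k j n (ζ - η k) - y (ζ - η k))
    ((x k j n (η k) - η j) - (y (η k) - η j))
  have h5 := norm_sub_le (x k j n (ζ - η k)) (y (ζ - η k))
  have h6 := norm_sub_le (x k j n (η k) - η j) (y (η k) - η j)
  linarith [h3 _ (hx k j n).2, h3 _ hy1]

theorem exists_radius {ξ : H} (h : CycSep M ξ) (η : ℕ → H) (n : ℕ) : ∃ ρ : ℝ, 0 < ρ ∧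
    ∀ ξ', ‖ξ' - ξ‖ ≤ ρ → ∀ j ≤ n, (∃ a ∈ M, ‖a ξ' - η j‖ ≤ 1 / (n + 1)) ∧
      ∃ b ∈ M.commutant, ‖b ξ' - η j‖ ≤ 1 / (n + 1) := by
  have key : ∀ A : VN H, Cyc A ξ → ∀ ζ, ∀ᶠ ξ' in 𝓝 ξ, ∃ a ∈ A, ‖a ξ' - ζ‖ ≤ 1 / (n + 1) := by
    intro A hA ζ
    obtain ⟨a, ha, h1⟩ := hA.exists_approx ζ (show (0 : ℝ) < 1 / (n + 1) by positivity)
    have hc : Continuous fun ξ' => ‖a ξ' - ζ‖ := by fun_prop
    filter_upwards [hc.continuousAt.eventually_lt continuousAt_const h1] with ξ' h2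
    exact ⟨a, ha, h2.le⟩
  have h1 : ∀ᶠ ξ' in 𝓝 ξ, ∀ j ∈ Set.Iic n, (∃ a ∈ M, ‖a ξ' - η j‖ ≤ 1 / (n + 1)) ∧
      ∃ b ∈ M.commutant, ‖b ξ' - η j‖ ≤ 1 / (n + 1) :=
    (eventually_all_finite (Set.finite_Iic n)).2 fun j _ => (key _ h.2.1 _).and (key _ h.2.2 _)
  obtain ⟨ρ, hρ, h2⟩ := Metric.nhds_basis_closedBall.eventually_iff.1 h1
  exact ⟨ρ, hρ, fun ξ' hξ' => h2 (by rwa [Metric.mem_closedBall, dist_eq_norm])⟩

/-- An almost decreasing nonnegative sequence cannot drop by `c` infinitely often. -/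
theorem not_frequently_drop {f ρ : ℕ → ℝ} (hf : ∀ n, 0 ≤ f n) (hρ : Summable ρ)
    (h : ∀ n, f (n + 1) ≤ f n + ρ n) {c : ℝ} (hc : 0 < c) :
    ¬∃ᶠ n in atTop, f (n + 1) ≤ f n - c := by
  let g : ℕ → ℝ := fun n => f n - ∑ k ∈ Finset.range n, ρ k
  have hg : Antitone g := antitone_nat_of_succ_le fun n => by
    simp only [g, Finset.sum_range_succ]
    linarith [h n]
  have hb : BddBelow (Set.range g) := by
    obtain ⟨B, hB⟩ := hρ.hasSum.tendsto_sum_nat.bddAbove_range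
    refine ⟨-B, ?_⟩
    rintro _ ⟨n, rfl⟩
    have := hB ⟨n, rfl⟩
    simp only [g]
    linarith [hf n]
  have h1 := tendsto_atTop_ciInf hg hb
  have h2 : Tendsto (fun n => g (n + 1) - g n + ρ n) atTop (𝓝 0) := by
    simpa using ((h1.comp (tendsto_add_atTop_nat 1)).sub h1).add hρ.tendsto_atTop_zero
  rw [not_frequently]
  filter_upwards [h2.eventually (lt_mem_nhds (neg_lt_zero.2 hc))] with n hn
  simp only [g, Finset.sum_range_succ] at hn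
  linarith

theorem FLim_choice {α : Type*} (P : ℕ → α → Prop) (R : ℕ → α → α → Prop) (h0 : ∃ a, P 0 a)
    (h : ∀ n a, P n a → ∃ b, P (n + 1) b ∧ R n a b) :
    ∃ f : ℕ → α, ∀ n, P n (f n) ∧ R n (f n) (f (n + 1)) := by
  choose g hg hg' using h
  let F : ∀ n, {a // P n a} := fun n =>
    Nat.rec (motive := fun n => {a // P n a}) ⟨h0.choose, h0.choose_spec⟩
      (fun n a => ⟨g n a.1 a.2, hg n a.1 a.2⟩) n
  exact ⟨fun n => (F n).1, fun n => ⟨(F n).2, hg' n _ (F n).2⟩⟩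

/-- The state of the recursion. -/
structure FLimSt (H : Type*) [NormedAddCommGroup H] [InnerProductSpace ℂ H] where
  k : ℕ
  ξ : H
  X : ℕ → Op H
  Z : ℕ → Op H
  X' : ℕ → Op H
  Z' : ℕ → Op H
  ρ : ℝ

theorem FLim_congr {r : Prop} {T : Tower M r} {n m : ℕ} {ξ : H} {X Z X' Z' Y W Y' W' : ℕ → Op H}
    (h : Stage T n m ξ X Z X' Z')
    (e : ∀ j < n, X j = Y j ∧ Z j = W j ∧ X' j = Y' j ∧ Z' j = W' j) :
    Stage T n m ξ Y W Y' W' where
  cs := h.cs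
  qb j hj := by
    obtain ⟨e1, e2, -, -⟩ := e j hj
    exact e1 ▸ e2 ▸ h.qb j hj
  qb' j hj := by
    obtain ⟨-, -, e1, e2⟩ := e j hj
    exact e1 ▸ e2 ▸ h.qb' j hj
  mem j hj := by
    obtain ⟨e1, e2, -, -⟩ := e j hj
    exact e1 ▸ e2 ▸ h.mem j hj
  mem' j hj := by
    obtain ⟨-, -, e1, e2⟩ := e j hj
    exact e1 ▸ e2 ▸ h.mem' j hj
  qc i hi j hj hij := by
    obtain ⟨e1, e2, -, -⟩ := e j hj
    obtain ⟨e3, e4, -, -⟩ := e i hi
    exact e1 ▸ e2 ▸ e3 ▸ e4 ▸ h.qc i hi j hj hij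
  qc' i hi j hj hij := by
    obtain ⟨-, -, e1, e2⟩ := e j hj
    obtain ⟨-, -, e3, e4⟩ := e i hi
    exact e1 ▸ e2 ▸ e3 ▸ e4 ▸ h.qc' i hi j hj hij
  vac j hj := by
    obtain ⟨e1, e2, e3, e4⟩ := e j hj
    exact e1 ▸ e2 ▸ e3 ▸ e4 ▸ h.vac j hj

/-- The recursion.  State at stage `n`: `(k, ξ, X, Z, X', Z', ρ)` with `Stage T n k ξ X Z X' Z'`,
`tr → ξ = ξ₀`, `0 < ρ`.  At stage `n` let `(i, l) = ((n.unpair.1).unpair)`, apply `step` with
`d = 1 / (l + 1)`, `y = avn X Z n (x i)`, `ε = ρ' = min (ρ / 2) (radius n / 2)`.  The `j`-th qubit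
is constant from stage `j + 1` on. -/
theorem exists_seq {tr : Prop} (T : Tower M (¬tr)) {ξ₀ : H} (h₀ : CycSep M ξ₀)
    (htr : tr → Tr M ξ₀) (x : ℕ → Op H) (hx : ∀ i, x i ∈ M ∧ ‖x i‖ ≤ 1) (η : ℕ → H) :
    ∃ (k : ℕ → ℕ) (ξ : ℕ → H) (X Z X' Z' : ℕ → Op H) (ρ c : ℕ → ℝ),
      (∀ n, Stage T n (k n) (ξ n) X Z X' Z') ∧ (tr → ∀ n, ξ n = ξ₀) ∧
      (∀ n, 0 < ρ n ∧ ρ (n + 1) ≤ ρ n / 2 ∧ ‖ξ (n + 1) - ξ n‖ ≤ ρ n) ∧
      (∀ n ξ', ‖ξ' - ξ n‖ ≤ 2 * ρ n → ∀ j ≤ n, (∃ a ∈ M, ‖a ξ' - η j‖ ≤ 1 / (n + 1)) ∧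
        ∃ b ∈ M.commutant, ‖b ξ' - η j‖ ≤ 1 / (n + 1)) ∧
      (∀ l, 0 < c l) ∧
      ∀ n i l, n.unpair.1 = Nat.pair i l → Far M (ξ n) (1 / (l + 1)) (avn X Z n (x i)) →
        ‖avn X Z (n + 1) (x i) (ξ (n + 1))‖ ^ 2 ≤ ‖avn X Z n (x i) (ξ n)‖ ^ 2 - c l := by
  choose c hc hstep using fun l : ℕ => step (d := 1 / ((l : ℝ) + 1)) (by positivity)
  let Rad : ℕ → H → ℝ → Prop := fun n ξ ρ => ∀ ξ', ‖ξ' - ξ‖ ≤ 2 * ρ → ∀ j ≤ n,
    (∃ a ∈ M, ‖a ξ' - η j‖ ≤ 1 / (n + 1)) ∧ ∃ b ∈ M.commutant, ‖b ξ' - η j‖ ≤ 1 / (n + 1)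
  have hRad : ∀ n ξ, CycSep M ξ → ∀ ρ₀ > 0, ∃ ρ, 0 < ρ ∧ ρ ≤ ρ₀ / 2 ∧ Rad n ξ ρ := by
    intro n ξ hξ ρ₀ hρ₀
    obtain ⟨ρ, hρ, h⟩ := exists_radius hξ η n
    refine ⟨min (ρ₀ / 2) (ρ / 2), by positivity, min_le_left _ _, fun ξ' hξ' => h ξ' ?_⟩
    linarith [min_le_right (ρ₀ / 2) (ρ / 2)]
  obtain ⟨s, hs⟩ := FLim_choice (α := FLimSt H)
    (fun n s => Stage T n s.k s.ξ s.X s.Z s.X' s.Z' ∧ (tr → s.ξ = ξ₀) ∧ 0 < s.ρ ∧ Rad n s.ξ s.ρ)
    (fun n s s' => s'.ρ ≤ s.ρ / 2 ∧ ‖s'.ξ - s.ξ‖ ≤ s.ρ ∧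
      (∀ j < n, s'.X j = s.X j ∧ s'.Z j = s.Z j ∧ s'.X' j = s.X' j ∧ s'.Z' j = s.Z' j) ∧
      ∀ i l, n.unpair.1 = Nat.pair i l → Far M s.ξ (1 / (l + 1)) (avn s.X s.Z n (x i)) →
        ‖avn s'.X s'.Z (n + 1) (x i) s'.ξ‖ ^ 2 ≤ ‖avn s.X s.Z n (x i) s.ξ‖ ^ 2 - c l)
    (by
      obtain ⟨ρ, h1, -, h2⟩ := hRad 0 ξ₀ h₀ 1 one_pos
      exact ⟨⟨0, ξ₀, 0, 0, 0, 0, ρ⟩, ⟨h₀, by simp, by simp, by simp, by simp, by simp, by simp,
        by simp⟩, fun _ => rfl, h1, h2⟩)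
    (by
      rintro n s ⟨h1, h2, h3, -⟩
      have hm : ∀ j < n, s.X j ∈ M ∧ s.Z j ∈ M := fun j hj =>
        ⟨T.L_le _ _ (h1.mem j hj).1, T.L_le _ _ (h1.mem j hj).2⟩
      obtain ⟨k', ξ₁, X₁, Z₁, X₁', Z₁', g1, g2, g3, g4⟩ := hstep n.unpair.1.unpair.2 H M tr T n s.k
        s.ξ s.X s.Z s.X' s.Z' (avn s.X s.Z n (x n.unpair.1.unpair.1)) s.ρ h1
        (fun ht => h2 ht ▸ htr ht) (avn_mem hm (hx _).1) ((norm_avn_le h1.qb _).trans (hx _).2)
        (commute_avn h1.qb h1.qc _) h3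
      obtain ⟨ρ, r1, r2, r3⟩ := hRad (n + 1) ξ₁ g1.cs s.ρ h3
      refine ⟨⟨k', ξ₁, Function.update s.X n X₁, Function.update s.Z n Z₁,
        Function.update s.X' n X₁', Function.update s.Z' n Z₁', ρ⟩, ⟨g1,
        fun ht => (g3 ht).trans (h2 ht), r1, r3⟩, r2, g2, fun j hj => ?_, fun i l hil hfar => ?_⟩
      · simp only [Function.update_of_ne hj.ne, and_self]
      · rw [hil, Nat.unpair_pair] at g4
        have e : avn (Function.update s.X n X₁) (Function.update s.Z n Z₁) (n + 1) (x i) =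
            av X₁ Z₁ (avn s.X s.Z n (x i)) := by
          rw [avn, Function.update_self, Function.update_self, avn_congr (X₁ := s.X) (Z₁ := s.Z)]
          intro j hj
          simp only [Function.update_of_ne hj.ne, and_self]
        simp only [e]
        exact g4 hfar)
  have hconst : ∀ n, ∀ j < n, (s n).X j = (s (j + 1)).X j ∧ (s n).Z j = (s (j + 1)).Z j ∧
      (s n).X' j = (s (j + 1)).X' j ∧ (s n).Z' j = (s (j + 1)).Z' j := by
    intro n j hj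
    induction n, hj using Nat.le_induction with
    | base => exact ⟨rfl, rfl, rfl, rfl⟩
    | succ n hn ih =>
      obtain ⟨a1, a2, a3, a4⟩ := (hs n).2.2.2.1 j hn
      exact ⟨a1.trans ih.1, a2.trans ih.2.1, a3.trans ih.2.2.1, a4.trans ih.2.2.2⟩
  have havn : ∀ n y, avn (fun j => (s (j + 1)).X j) (fun j => (s (j + 1)).Z j) n y =
      avn (s n).X (s n).Z n y := fun n y =>
    avn_congr (fun j hj => ⟨(hconst n j hj).1.symm, (hconst n j hj).2.1.symm⟩) y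
  refine ⟨fun n => (s n).k, fun n => (s n).ξ, fun j => (s (j + 1)).X j, fun j => (s (j + 1)).Z j,
    fun j => (s (j + 1)).X' j, fun j => (s (j + 1)).Z' j, fun n => (s n).ρ, c,
    fun n => FLim_congr (hs n).1.1 (hconst n), fun ht n => (hs n).1.2.1 ht,
    fun n => ⟨(hs n).1.2.2.1, (hs n).2.1, (hs n).2.2.1⟩, fun n => (hs n).1.2.2.2, hc,
    fun n i l hil => ?_⟩
  rw [havn, havn]
  exact (hs n).2.2.2.2 i l hil

/-- Truncation: `c' = c * z` with `1 - z` the central spectral projection of `c⋆c` above `4`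
(`exists_level`); on `1 - z` one has `‖c (1-z) ξ‖ ≥ 2 ‖(1-z) ξ‖` and `‖a (1-z) ξ‖ ≤ ‖(1-z) ξ‖`. -/
theorem exists_cen_bounded {a c : Op H} (ha : a ∈ M) (ha1 : ‖a‖ ≤ 1) (hc : Cen M c) (ξ : H) :
    ∃ c', Cen M c' ∧ ‖c'‖ ≤ 2 ∧ ‖a ξ - c' ξ‖ ≤ ‖a ξ - c ξ‖ := by
  have hh : star (star c * c) = star c * c := by rw [star_mul, star_star]
  obtain ⟨p, hp, h1, h2, h3, -⟩ := exists_level hh 4
  have hpc : Cen M p := bspec_cen_of_comm (hc.star_mem.mul hc) h1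
  have hcc : ∀ ζ, (⟪ζ, (star c * c) ζ⟫_ℂ).re = ‖c ζ‖ ^ 2 := fun ζ => by
    rw [mul_apply_eq_comp, ContinuousLinearMap.star_eq_adjoint,
      ContinuousLinearMap.adjoint_inner_right, inner_self_eq_norm_sq_to_K]
    norm_cast
  have hq := hp.one_sub
  have hpy : ∀ ζ, ‖ζ‖ ^ 2 = ‖p ζ‖ ^ 2 + ‖(1 - p) ζ‖ ^ 2 := fun ζ => by
    have h0 : ⟪p ζ, (1 - p) ζ⟫_ℂ = 0 := by
      rw [bspec_inner_left hp.isSelfAdjoint.star_eq, ← mul_apply_eq_comp, mul_sub, mul_one,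
        hp.isIdempotentElem.eq, sub_self, zero_apply, inner_zero_right]
    have e : ζ = p ζ + (1 - p) ζ := by simp
    conv_lhs => rw [e]
    rw [sq, sq, sq]
    exact norm_add_sq_eq_norm_sq_add_norm_sq_of_inner_eq_zero _ _ h0
  refine ⟨c * (1 - p), hc.mul (cen_one.sub hpc), ?_, ?_⟩
  · refine ContinuousLinearMap.opNorm_le_bound _ zero_le_two fun ζ => ?_
    have h4 := h3 ζ
    rw [hcc] at h4
    have h5 := bspec_proj_norm_apply hq ζ
    rw [mul_apply_eq_comp]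
    refine (abs_le_of_sq_le_sq' ?_ (by positivity)).2
    nlinarith [norm_nonneg ((1 - p) ζ)]
  · have hap : ∀ ζ, p (a ζ) = a (p ζ) := fun ζ => by
      rw [← mul_apply_eq_comp, ← (hpc.commute ha).eq, mul_apply_eq_comp]
    have hcp : ∀ ζ, p (c ζ) = c (p ζ) := fun ζ => by
      rw [← mul_apply_eq_comp, ← (hpc.commute hc.1).eq, mul_apply_eq_comp]
    have e1 : p (a ξ - (c * (1 - p)) ξ) = a (p ξ) := by
      rw [map_sub, mul_apply_eq_comp, hap, hcp, ← mul_apply_eq_comp p, mul_sub, mul_one,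
        hp.isIdempotentElem.eq, sub_self, zero_apply, map_zero, sub_zero]
    have e2 : (1 - p) (a ξ - (c * (1 - p)) ξ) = (1 - p) (a ξ - c ξ) := by
      simp only [sub_apply, one_apply_eq_self, map_sub, mul_apply_eq_comp, hcp,
        bspec_proj_apply hp]
      abel
    have e3 : p (a ξ - c ξ) = a (p ξ) - c (p ξ) := by rw [map_sub, hap, hcp]
    have h4 := h2 ξ
    rw [hcc] at h4
    have h5 : 2 * ‖p ξ‖ ≤ ‖c (p ξ)‖ := by
      refine (abs_le_of_sq_le_sq' ?_ (norm_nonneg _)).2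
      linarith
    have h6 : ‖a (p ξ)‖ ≤ ‖p ξ‖ :=
      (a.le_opNorm _).trans (mul_le_of_le_one_left (norm_nonneg _) ha1)
    have h7 := norm_sub_norm_le (c (p ξ)) (a (p ξ))
    rw [norm_sub_rev] at h7
    refine (abs_le_of_sq_le_sq' ?_ (norm_nonneg _)).2
    rw [hpy (a ξ - _), hpy (a ξ - c ξ), e1, e2, e3]
    gcongr
    linarith

/-- The limit `ξ∞` is cyclic and separating, the relations pass to the limit, `exists_frame`,
`framed_of_irr`.  Irreducibility: for `y ∈ M`, `‖y‖ ≤ 1`, commuting with all qubits,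
`‖avn n (x i) ξ∞ - y ξ∞‖ ≤ ‖(x i - y) ξ∞‖` (`avn_eq`, `avn_sub`, `norm_avn_vac_le`); by
`not_frequently_drop` for `f n = ‖avn n (x i) (ξ n)‖²` (`f (n+1) ≤ f n + 2 ρ n`) there are
arbitrarily large `n` and central `c` with `‖avn n (x i) (ξ n) - c (ξ n)‖ < 1 / (l + 1)`, and
`‖c‖ ≤ 2` by `exists_cen_bounded`, so `ξ n` can be replaced by `ξ∞`.  Then `cen_of_approx`. -/
theorem exists_framed [TopologicalSpace.SeparableSpace H] {tr : Prop} (T : Tower M (¬tr)) {ξ₀ : H}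
    (h₀ : CycSep M ξ₀) (htr : tr → Tr M ξ₀) : ∃ ξ F, Framed M ξ F ∧ (tr → Tr M ξ) := by
  obtain ⟨x, hx, hdense⟩ := exists_strong_dense M
  have hη : DenseRange (TopologicalSpace.denseSeq H) := TopologicalSpace.denseRange_denseSeq H
  obtain ⟨k, ξ, X, Z, X', Z', ρ, c, hst, hξ₀, hρ, hrad, hc, hdrop⟩ :=
    exists_seq T h₀ htr x hx (TopologicalSpace.denseSeq H)
  have hgeo : ∀ n m, ρ (n + m) ≤ 2 * ρ n / 2 / 2 ^ m := fun n m => by
    induction m with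
    | zero => simp
    | succ m ih =>
      refine (hρ (n + m)).2.1.trans ?_
      rw [pow_succ, ← div_div]
      gcongr
  have hd : ∀ n m, dist (ξ (n + m)) (ξ (n + (m + 1))) ≤ 2 * ρ n / 2 / 2 ^ m := fun n m => by
    rw [dist_comm, dist_eq_norm]
    exact (hρ (n + m)).2.2.trans (hgeo n m)
  obtain ⟨ζ, hζ⟩ := cauchySeq_tendsto_of_complete
    (cauchySeq_of_le_geometric_two (f := ξ) (C := 2 * ρ 0) fun m => by simpa using hd 0 m)
  have hclose : ∀ n, ‖ζ - ξ n‖ ≤ 2 * ρ n := fun n => by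
    have := dist_le_of_le_geometric_two_of_tendsto₀ (f := fun m => ξ (n + m)) (hd n)
      (a := ζ) ((hζ.comp (tendsto_add_atTop_nat n)).congr fun m => by simp [add_comm])
    rwa [dist_comm, dist_eq_norm] at this
  have hsum : Summable ρ := Summable.of_nonneg_of_le (fun n => (hρ n).1.le)
    (fun n => by simpa using hgeo 0 n) (summable_geometric_two' (2 * ρ 0))
  have hcyc : ∀ A : VN H, (∀ n, ∀ j ≤ n, ∃ a ∈ A,
      ‖a ζ - TopologicalSpace.denseSeq H j‖ ≤ 1 / (n + 1)) → Cyc A ζ := by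
    intro A hA
    refine Metric.dense_iff.2 fun v ε hε => ?_
    obtain ⟨j, hj⟩ := hη.exists_dist_lt v (half_pos hε)
    obtain ⟨n, hn⟩ := exists_nat_one_div_lt (half_pos hε)
    obtain ⟨a, ha, h1⟩ := hA (max n j) j (le_max_right _ _)
    refine ⟨a ζ, ?_, ⟨a, ha⟩, rfl⟩
    have h2 : (1 : ℝ) / ((max n j : ℕ) + 1) ≤ 1 / (n + 1) := by
      gcongr
      exact le_max_left _ _
    rw [Metric.mem_ball]
    have := dist_triangle_right (a ζ) v (TopologicalSpace.denseSeq H j)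
    rw [dist_eq_norm (a ζ) (TopologicalSpace.denseSeq H j)] at this
    linarith
  have cs : CycSep M ζ := by
    refine ⟨tendsto_nhds_unique hζ.norm ?_, hcyc _ fun n j hj => (hrad n ζ (hclose n) j hj).1,
      hcyc _ fun n j hj => (hrad n ζ (hclose n) j hj).2⟩
    simp only [(hst _).cs.1]
    exact tendsto_const_nhds
  have hq : ∀ j, QB (X j) (Z j) := fun j => (hst (j + 1)).qb j j.lt_succ_self
  have hq' : ∀ j, QB (X' j) (Z' j) := fun j => (hst (j + 1)).qb' j j.lt_succ_self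
  have hm : ∀ j, X j ∈ M ∧ Z j ∈ M := fun j =>
    ⟨T.L_le _ _ ((hst (j + 1)).mem j j.lt_succ_self).1,
      T.L_le _ _ ((hst (j + 1)).mem j j.lt_succ_self).2⟩
  have hm' : ∀ j, X' j ∈ M.commutant ∧ Z' j ∈ M.commutant := fun j =>
    (hst (j + 1)).mem' j j.lt_succ_self
  have hlim : ∀ (a b : Op H) (j : ℕ), (∀ n, j < n → a (ξ n) = b (ξ n)) → a ζ = b ζ := by
    intro a b j h
    refine tendsto_nhds_unique ((a.continuous.tendsto _).comp hζ)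
      (((b.continuous.tendsto _).comp hζ).congr' ?_)
    filter_upwards [eventually_gt_atTop j] with n hn
    exact (h n hn).symm
  have hv : ∀ j, X j ζ = X' j ζ ∧ Z j ζ = Z' j ζ := fun j =>
    ⟨hlim _ _ j fun n hn => ((hst n).vac j hn).1, hlim _ _ j fun n hn => ((hst n).vac j hn).2⟩
  obtain ⟨F, f1, f2, f3, f4, f5⟩ := exists_frame hq hq'
    (fun i j hij => (hst (max i j + 1)).qc i (by omega) j (by omega) hij)
    (fun i j hij => (hst (max i j + 1)).qc' i (by omega) j (by omega) hij) hm hm' hv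
  have key : ∀ y ∈ M, ‖y‖ ≤ 1 → (∀ j, Commute y (X j) ∧ Commute y (Z j)) → y ∈ M.commutant := by
    intro y hy hy1 hyc
    refine cen_of_approx cs hy fun ε hε => ?_
    have hε3 : 0 < ε / 3 := by positivity
    obtain ⟨i, hi⟩ := hdense y hy hy1 ζ _ hε3
    obtain ⟨l, hl⟩ := exists_nat_one_div_lt hε3
    have hA : ∀ n, avn X Z n (x i) ∈ M := fun n => avn_mem (fun j _ => hm j) (hx i).1
    have hA1 : ∀ n, ‖avn X Z n (x i)‖ ≤ 1 := fun n =>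
      (norm_avn_le (fun j _ => hq j) _).trans (hx i).2
    have hA2 : ∀ n v, ‖avn X Z n (x i) v‖ ≤ ‖v‖ := fun n v =>
      (ContinuousLinearMap.le_opNorm _ _).trans (mul_le_of_le_one_left (norm_nonneg _) (hA1 n))
    have h1 := not_frequently_drop (f := fun n => ‖avn X Z n (x i) (ξ n)‖ ^ 2)
      (ρ := fun n => 2 * ρ n) (fun n => sq_nonneg _) (hsum.mul_left 2) (fun n => by
        obtain ⟨v1, v2⟩ := (hst (n + 1)).vac n n.lt_succ_self
        have a1 := norm_av_vac_sq_le (hq n) (hq' n) (hm n).1 (hm n).2 (hm' n).1 (hm' n).2 v1 v2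
          (hA n)
        have a2 := hA2 n (ξ (n + 1))
        have a3 := hA2 n (ξ n)
        have a4 := (hA2 n (ξ (n + 1) - ξ n)).trans (hρ n).2.2
        rw [(hst _).cs.1] at a2 a3
        rw [map_sub] at a4
        have a5 := norm_sub_norm_le (avn X Z n (x i) (ξ (n + 1))) (avn X Z n (x i) (ξ n))
        simp only [avn]
        nlinarith [sq_nonneg ‖cm (X n) (avn X Z n (x i)) (ξ (n + 1))‖,
          norm_nonneg (avn X Z n (x i) (ξ (n + 1))), norm_nonneg (avn X Z n (x i) (ξ n)),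
          (hρ n).1]) (hc l)
    rw [not_frequently] at h1
    have h2 : ∀ᶠ n in atTop, ρ n < ε / 18 :=
      hsum.tendsto_atTop_zero.eventually (gt_mem_nhds (by positivity))
    obtain ⟨N, hN⟩ := eventually_atTop.1 (h1.and h2)
    obtain ⟨h3, h4⟩ := hN (Nat.pair (Nat.pair i l) N) (Nat.right_le_pair _ _)
    set n := Nat.pair (Nat.pair i l) N
    have h5 : ¬Far M (ξ n) (1 / (l + 1)) (avn X Z n (x i)) := fun hf =>
      h3 (hdrop n i l (by simp only [n, Nat.unpair_pair]) hf)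
    simp only [Far, not_forall, not_le] at h5
    obtain ⟨c₀, hc₀, h6⟩ := h5
    obtain ⟨c', hc', h7, h8⟩ := exists_cen_bounded (hA n) (hA1 n) hc₀ (ξ n)
    refine ⟨c', hc', ?_⟩
    have h9 : ‖avn X Z n (x i) ζ - y ζ‖ ≤ ‖x i ζ - y ζ‖ := by
      have := norm_avn_vac_le (n := n) (fun j _ => hq j) (fun j _ => hq' j) (fun j _ => hm j)
        (fun j _ => hm' j) (fun j _ => hv j) (sub_mem (hx i).1 hy)
      rwa [avn_sub, avn_eq (fun j _ => hq j) fun j _ => hyc j] at this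
    have h10 := (hA2 n _).trans (hclose n)
    have h11 : ‖c' (ζ - ξ n)‖ ≤ 2 * (2 * ρ n) :=
      (c'.le_opNorm _).trans (mul_le_mul h7 (hclose n) (norm_nonneg _) zero_le_two)
    have e : y ζ - c' ζ = (avn X Z n (x i) (ξ n) - c' (ξ n) + (avn X Z n (x i) (ζ - ξ n) -
        c' (ζ - ξ n))) - (avn X Z n (x i) ζ - y ζ) := by
      rw [map_sub, map_sub]
      abel
    rw [e]
    refine (norm_sub_le _ _).trans_lt ?_
    have h12 := norm_add_le (avn X Z n (x i) (ξ n) - c' (ξ n)) (avn X Z n (x i) (ζ - ξ n) -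
        c' (ζ - ξ n))
    have h13 := norm_sub_le (avn X Z n (x i) (ζ - ξ n)) (c' (ζ - ξ n))
    linarith
  refine ⟨ζ, F, framed_of_irr cs f1 f2 f3 fun y hy hyc => ?_, fun ht => ?_⟩
  · have hpos : 0 < ‖y‖ + 1 := by positivity
    have hne : ((‖y‖ + 1 : ℝ) : ℂ) ≠ 0 := Complex.ofReal_ne_zero.2 hpos.ne'
    have h1 := key ((((‖y‖ + 1 : ℝ) : ℂ))⁻¹ • y) (TT.vn_smul_mem M _ hy) (by
      rw [norm_smul, norm_inv, Complex.norm_real, Real.norm_of_nonneg hpos.le,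
        inv_mul_le_one₀ hpos]
      linarith) fun j => ⟨(f4 j ▸ hyc _).smul_left _, (f5 j ▸ hyc _).smul_left _⟩
    have h2 := TT.vn_smul_mem _ ((‖y‖ + 1 : ℝ) : ℂ) h1
    rwa [smul_inv_smul₀ hne] at h2
  · have : ζ = ξ₀ := tendsto_nhds_unique hζ (by
      simp only [funext (hξ₀ ht)]
      exact tendsto_const_nhds)
    exact this ▸ htr ht

end Crest.Agent.R078
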