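import Crest.Agent.R078.FLemU
import Crest.Agent.R078.FLemK

/-! Row 78, stage (3): adding one qubit. -/

set_option autoImplicit false

open scoped InnerProductSpace ComplexConjugate
open Filter Topology

namespace Crest.Agent.R078

open Crest.Agent.R121 (Mn Bd)
open Crest.Agent.R124 (ex)
open Crest.OpAlg

universe u

variable {H : Type*} [NormedAddCommGroup H] [InnerProductSpace ℂ H] [CompleteSpace H]

variable {M : VN H} {r : Prop} {S : ModularDatum H}

/-- The spectral projection `(1 + A) / 2` of a symmetry. -/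
noncomputable def fstepP (A : Op H) : Op H := (1 / 2 : ℂ) • (1 + A)

omit [CompleteSpace H] in
theorem fstepP_comm {s A : Op H} (h : Commute s A) : Commute s (fstepP A) :=
  ((Commute.one_right s).add_right h).smul_right _

omit [CompleteSpace H] in
theorem fstepP_mul {A : Op H} (h : A * A = 1) : A * fstepP A = fstepP A := by
  rw [fstepP, mul_smul_comm, mul_add, mul_one, h, add_comm]

omit [CompleteSpace H] in
theorem fstepP_norm {A : Op H} (h : ∀ η, ‖A η‖ = ‖η‖) (η : H) : ‖fstepP A η‖ ≤ ‖η‖ := by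
  have e : fstepP A η = (1 / 2 : ℂ) • (η + A η) := rfl
  have := norm_add_le η (A η)
  rw [e, norm_smul]
  rw [h] at this
  simp only [one_div, norm_inv, Complex.norm_ofNat]
  linarith

omit [CompleteSpace H] in
theorem fstepP_sub (A : Op H) (η : H) : ‖fstepP A η - η‖ = ‖A η - η‖ / 2 := by
  have e : fstepP A η - η = (1 / 2 : ℂ) • (A η - η) := by
    change (1 / 2 : ℂ) • (η + A η) - η = _
    module
  rw [e, norm_smul]
  simp only [one_div, norm_inv, Complex.norm_ofNat]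
  ring

theorem fstep_iso {X : Op H} (h : X ∈ unitary (Op H)) (η : H) : ‖X η‖ = ‖η‖ :=
  ContinuousLinearMap.norm_map_of_mem_unitary h η

omit [CompleteSpace H] in
theorem fstep_jc_neg (J : H ≃ₗᵢ⋆[ℂ] H) (x : Op H) : jc J (-x) = -jc J x := by
  ext η
  simp

theorem fstep_jc {J : H ≃ₗᵢ⋆[ℂ] H} (hJ : ∀ η, J (J η) = η) {X Z : Op H} (h : QB X Z) :
    QB (jc J X) (jc J Z) :=
  ⟨by rw [← jc_star hJ, h.sX], by rw [← jc_star hJ, h.sZ], by rw [← jc_mul hJ, h.XX, jc_one hJ],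
    by rw [← jc_mul hJ, h.ZZ, jc_one hJ],
    by rw [← jc_mul hJ, h.anti, fstep_jc_neg, jc_mul hJ]⟩

theorem fstep_mul_jc (hS : Std S) {x g : Op H} (hx : x ∈ S.M) (hg : g ∈ S.M) :
    x * jc S.J x * (g * jc S.J g) = x * g * jc S.J (x * g) := by
  rw [jc_mul S.J_J]
  simp only [mul_assoc]
  rw [← mul_assoc g, (commute_of_mem hg (hS.jc_mem x hx)).eq, mul_assoc]

/-- The new vector `ξ₁ = v / ‖v‖`, `v = (1/4) ∑ g J g J ξ = P_X P_Z ξ`, `P_X = (1 + X X') / 2`,
`X' = jc J X`.  `J v = v`.  Separating for `M`: if `x v = 0` then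
`0 = ⟪v, x⋆ J x⋆ J ξ⟫ = (1/4) ∑ ⟪ξ, (g⋆x⋆) J (g⋆x⋆) J ξ⟫`, all terms are `≥ 0` and the term `g = 1`
forces `x = 0` (`inner_vac_mul_jc`); separating for `M'` by `J`; `cyc_of_sep`.
`‖v - ξ‖ ≤ (‖X ξ - X' ξ‖ + ‖Z ξ - Z' ξ‖) / 2`, and `‖v/‖v‖ - ξ‖ ≤ 2 ‖v - ξ‖`. -/
theorem exists_new_vac (hS : Std S) {X Z : Op H} (h : QB X Z) (hX : X ∈ S.M) (hZ : Z ∈ S.M) :
    ∃ ξ₁, CycSep S.M ξ₁ ∧ X ξ₁ = jc S.J X ξ₁ ∧ Z ξ₁ = jc S.J Z ξ₁ ∧
      ‖ξ₁ - S.vac‖ ≤ ‖X S.vac - S.J (X S.vac)‖ + ‖Z S.vac - S.J (Z S.vac)‖ ∧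
      ∀ s ∈ S.M, star s = s → Commute s X → Commute s Z → s S.vac = jc S.J s S.vac →
        s ξ₁ = jc S.J s ξ₁ := by
  have h' := fstep_jc S.J_J h
  have hX' := hS.jc_mem X hX
  have hZ' := hS.jc_mem Z hZ
  have sq : ∀ {g : Op H}, g ∈ S.M → g * g = 1 → g * jc S.J g * (g * jc S.J g) = 1 := by
    intro g hg e
    rw [fstep_mul_jc hS hg hg, e, jc_one S.J_J, mul_one]
  have hAB : Commute (Z * jc S.J Z) (X * jc S.J X) := by
    rw [Commute, SemiconjBy, fstep_mul_jc hS hZ hX, fstep_mul_jc hS hX hZ, h.anti, fstep_jc_neg,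
      neg_mul_neg]
  obtain ⟨v, hv⟩ : ∃ v, v = fstepP (X * jc S.J X) (fstepP (Z * jc S.J Z) S.vac) := ⟨_, rfl⟩
  have hv4 : v = (1 / 4 : ℂ) • ((1 * jc S.J 1) S.vac + (X * jc S.J X) S.vac +
      (Z * jc S.J Z) S.vac + (X * Z * jc S.J (X * Z)) S.vac) := by
    rw [hv, ← fstep_mul_jc hS hX hZ, jc_one S.J_J, mul_one]
    simp only [fstepP, smul_apply, add_apply,
      one_apply_eq_self, map_smul, map_add, mul_apply_eq_comp]
    module
  have hJ : S.J v = v := by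
    have key : ∀ {g : Op H}, g ∈ S.M → S.J ((g * jc S.J g) S.vac) = (g * jc S.J g) S.vac := by
      intro g hg
      conv_rhs => rw [(commute_of_mem hg (hS.jc_mem g hg)).eq]
      simp only [mul_apply_eq_comp, jc_apply, J_vac]
    rw [hv4, map_smulₛₗ, map_add, map_add, map_add, key (one_mem _), key hX, key hZ,
      key (mul_mem hX hZ), map_div₀, map_one, map_ofNat]
  have sep : ∀ x ∈ S.M, x v = 0 → x = 0 := by
    intro x hx h0
    have e : (x * jc S.J x) v = 0 := by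
      rw [(commute_of_mem hx (hS.jc_mem x hx)).eq, mul_apply_eq_comp, h0, map_zero]
    rw [hv4, map_smul, smul_eq_zero, map_add, map_add, map_add] at e
    simp only [← mul_apply_eq_comp] at e
    rw [fstep_mul_jc hS hx (one_mem _), fstep_mul_jc hS hx hX, fstep_mul_jc hS hx hZ,
      fstep_mul_jc hS hx (mul_mem hX hZ), mul_one] at e
    have e1 := congrArg (fun η => (⟪S.vac, η⟫_ℂ).re) (e.resolve_left (by norm_num))
    simp only [inner_add_right, Complex.add_re, inner_zero_right, Complex.zero_re,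
      mul_apply_eq_comp _ (jc S.J _)] at e1
    obtain ⟨a1, a2, a3⟩ := inner_vac_mul_jc hx
    have b1 := (inner_vac_mul_jc (mul_mem hx hX)).1
    have b2 := (inner_vac_mul_jc (mul_mem hx hZ)).1
    have b3 := (inner_vac_mul_jc (mul_mem hx (mul_mem hX hZ))).1
    exact a3 (Complex.ext (by rw [Complex.zero_re]; linarith) a2)
  have hv0 : v ≠ 0 := by
    intro h0
    have h1 := sep 1 (one_mem _) (by rw [h0, map_zero])
    have h2 : S.vac = 0 := by simpa using congrArg (fun T : Op H => T S.vac) h1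
    have := S.norm_vac
    rw [h2, norm_zero] at this
    exact zero_ne_one this
  have hn : 0 < ‖v‖ := norm_pos_iff.2 hv0
  have hc : ((‖v‖⁻¹ : ℝ) : ℂ) ≠ 0 := Complex.ofReal_ne_zero.2 (inv_pos.2 hn).ne'
  have fix : ∀ {g : Op H}, g * g = 1 → (g * jc S.J g) v = v → g v = jc S.J g v := by
    intro g e e'
    conv_lhs => rw [← e', ← mul_apply_eq_comp, ← mul_assoc, e, one_mul]
  have near : ∀ {g : Op H}, g ∈ unitary (Op H) → g * g = 1 →
      ‖(g * jc S.J g) S.vac - S.vac‖ = ‖g S.vac - S.J (g S.vac)‖ := by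
    intro g hg e
    rw [← fstep_iso hg, map_sub, ← mul_apply_eq_comp, ← mul_assoc, e, one_mul, jc_apply,
      J_vac, norm_sub_rev]
  refine ⟨((‖v‖⁻¹ : ℝ) : ℂ) • v, ⟨?_, cyc_of_sep fun y hy h0 => ?_, cyc_of_sep fun y hy h0 => ?_⟩,
    ?_, ?_, ?_, fun s hs _ sX sZ e => ?_⟩
  · rw [norm_smul, Complex.norm_real, Real.norm_of_nonneg (inv_pos.2 hn).le,
      inv_mul_cancel₀ hn.ne']
  · rw [map_smul, smul_eq_zero] at h0
    have := sep _ (hS.jc_mem' y hy) (by rw [jc_apply, hJ, h0.resolve_left hc, map_zero])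
    rw [← jc_jc S.J_J y, this, jc_zero]
  · rw [map_smul, smul_eq_zero] at h0
    rw [VonNeumannAlgebra.commutant_commutant] at hy
    exact sep y hy (h0.resolve_left hc)
  · rw [map_smul, map_smul, fix h.XX]
    rw [hv, ← mul_apply_eq_comp, fstepP_mul (sq hX h.XX)]
  · rw [map_smul, map_smul, fix h.ZZ]
    rw [hv, ← mul_apply_eq_comp, (fstepP_comm hAB).eq, mul_apply_eq_comp,
      ← mul_apply_eq_comp (Z * jc S.J Z), fstepP_mul (sq hZ h.ZZ)]
  · have a1 : ‖v - S.vac‖ ≤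
        (‖X S.vac - S.J (X S.vac)‖ + ‖Z S.vac - S.J (Z S.vac)‖) / 2 := by
      have b1 := fstepP_norm (fstep_iso (mul_mem h.unitary_X h'.unitary_X))
        (fstepP (Z * jc S.J Z) S.vac - S.vac)
      have b2 := norm_sub_le_norm_sub_add_norm_sub v (fstepP (X * jc S.J X) S.vac) S.vac
      rw [map_sub, ← hv, fstepP_sub, near h.unitary_Z h.ZZ] at b1
      rw [fstepP_sub, near h.unitary_X h.XX] at b2
      linarith
    have a2 : ‖((‖v‖⁻¹ : ℝ) : ℂ) • v - v‖ ≤ ‖v - S.vac‖ := by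
      have e : ((‖v‖⁻¹ : ℝ) : ℂ) • v - v = ((‖v‖⁻¹ - 1 : ℝ) : ℂ) • v := by
        push_cast
        rw [sub_smul, one_smul]
      have e2 : |‖v‖⁻¹ - 1| * ‖v‖ = |‖v‖ - ‖S.vac‖| := by
        rw [S.norm_vac, abs_sub_comm ‖v‖, ← abs_of_pos hn, ← abs_mul, abs_of_pos hn, sub_mul,
          inv_mul_cancel₀ hn.ne', one_mul]
      rw [e, norm_smul, Complex.norm_real, Real.norm_eq_abs, e2]
      exact abs_norm_sub_norm_le _ _
    linarith [norm_sub_le_norm_sub_add_norm_sub (((‖v‖⁻¹ : ℝ) : ℂ) • v) v S.vac]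
  · have hs' := hS.jc_mem s hs
    have c1 := fstepP_comm (sX.mul_right (commute_of_mem hs hX'))
    have c2 := fstepP_comm (sZ.mul_right (commute_of_mem hs hZ'))
    have c3 := fstepP_comm ((commute_of_mem hX hs').symm.mul_right (BTr_comm S.J_J sX))
    have c4 := fstepP_comm ((commute_of_mem hZ hs').symm.mul_right (BTr_comm S.J_J sZ))
    have key : ∀ {t A B : Op H}, Commute t A → Commute t B → t (A (B S.vac)) = A (B (t S.vac)) := by
      intro t A B a b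
      simp only [← mul_apply_eq_comp]
      rw [← mul_assoc, a.eq, mul_assoc, b.eq]
    rw [map_smul, map_smul, hv, key c1 c2, key c3 c4, e]

theorem QB.jc {J : H ≃ₗᵢ⋆[ℂ] H} (hJ : ∀ η, J (J η) = η) {X Z : Op H} (h : QB X Z) :
    QB (jc J X) (jc J Z) := by
  exact fstep_jc hJ h

/-- `X = a + a⋆` with `a = U⋆ c`, `Z = 1 - 2 c⋆c`. -/
theorem qb_of_site {U c : Op H} (hU : U ∈ unitary (Op H)) (h1 : c * c = 0)
    (h2 : star c * c + c * star c = 1) (h3 : Commute U c) (h4 : Commute U (star c)) :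
    QB (star U * c + star (star U * c)) (1 - (2 : ℂ) • (star c * c)) := by
  have hU1 : star U * U = 1 := hU.1
  have hU2 : U * star U = 1 := hU.2
  have h5 : Commute (star U) c := by simpa using h4.star_star
  have h6 : Commute (star U) (star c) := h3.star_star
  obtain ⟨a, ha⟩ : ∃ a, a = star U * c := ⟨_, rfl⟩
  have a1 : a * a = 0 := by
    rw [ha, mul_assoc, ← mul_assoc c, ← h5.eq, mul_assoc, h1, mul_zero, mul_zero]
  have a2 : star a * a = star c * c := by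
    rw [ha, star_mul, star_star, mul_assoc, ← mul_assoc U, hU2, one_mul]
  have a3 : a * star a = 1 - star a * a := by
    rw [a2, ← h2, add_sub_cancel_left, ha, star_mul, star_star, mul_assoc, ← mul_assoc c,
      ← (h3.mul_right h4).eq, ← mul_assoc, hU1, one_mul]
  have a4 : star a * star a = 0 := by rw [← star_mul, a1, star_zero]
  have b1 : star a * a * a = 0 := by rw [mul_assoc, a1, mul_zero]
  have b2 : star a * a * star a = star a := by
    rw [mul_assoc, a3, mul_sub, mul_one, ← mul_assoc, a4, zero_mul, sub_zero]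
  have b3 : a * (star a * a) = a := by rw [← mul_assoc, a3, sub_mul, one_mul, b1, sub_zero]
  have b4 : star a * (star a * a) = 0 := by rw [← mul_assoc, a4, zero_mul]
  rw [← ha, ← a2]
  refine ⟨by rw [star_add, star_star, add_comm], by simp, ?_, ?_, ?_⟩
  · rw [add_mul, mul_add, mul_add, a1, a3, a4]
    abel
  · simp only [sub_mul, mul_sub, one_mul, mul_one, smul_mul_assoc, mul_smul_comm]
    rw [← mul_assoc, b2]
    module
  · simp only [sub_mul, mul_sub, one_mul, mul_one, smul_mul_assoc, mul_smul_comm, mul_add, add_mul,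
      b1, b2, b3, b4]
    module

/-- The new qubit at a far site `n ≥ k` with `μ n = 1` (`Tower.site` for `m = U⋆`, `t = 1`,
`Tower.site_num`).  `[y', X] = [y', U] c⋆ + [y', U⋆] c` with orthogonal terms and
`‖c⋆ [y', U] e ξ‖² = ‖[y', U] e ξ‖² / 2`. -/
theorem exists_qubit (T : Tower M r) (hS : Std S) (hM : S.M = M) {k : ℕ} {U y : Op H}
    (hU : U ∈ T.L k) (hU' : U ∈ unitary (Op H)) (hy : y ∈ T.L k) {η : ℝ} (hη : 0 < η)
    (hJ : ‖U S.vac - S.J (star U S.vac)‖ ≤ η) : ∃ (k' : ℕ) (X Z : Op H), k ≤ k' ∧ QB X Z ∧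
      X ∈ T.L k' ∧ Z ∈ T.L k' ∧
      (∀ s ∈ T.L k, Commute s U → Commute s X ∧ Commute s Z) ∧
      ‖X S.vac - S.J (X S.vac)‖ ≤ 4 * η ∧ ‖Z S.vac - S.J (Z S.vac)‖ ≤ η ∧
      ‖cm y U S.vac‖ / 2 - η ≤ ‖cm y X S.vac‖ := by
  have hs : star U ∈ T.L k := star_mem hU
  obtain ⟨n, h1, ⟨⟨h2, h3⟩, h4⟩, hk⟩ := ((frequently_atTop.2 T.one).and_eventually
    ((((T.site hS hM hs one_pos (half_pos hη)).and (T.site_num hS hM (half_pos hη))).and
      (Metric.tendsto_nhds.1 (T.e_tendsto (cm y U S.vac)) _ (half_pos hη))).and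
        (eventually_ge_atTop k))).exists
  have cc : ∀ s ∈ T.L k, Commute s (T.c n) ∧ Commute s (star (T.c n)) := fun s hs =>
    ⟨T.c_comm n s (T.L_mono k n hk s hs), T.cs_comm n (T.L_mono k n hk s hs)⟩
  have hc := T.c_mem n
  have ha : star U * T.c n ∈ T.L (n + 1) := mul_mem (T.L_mono k _ (by omega) _ hs) hc
  refine ⟨n + 1, _, _, by omega, qb_of_site hU' (T.c_sq n) (T.c_car n) (cc U hU).1 (cc U hU).2,
    add_mem ha (star_mem ha), sub_mem (one_mem _)
      ((T.L (n + 1)).toStarSubalgebra.smul_mem (mul_mem (star_mem hc) hc) _),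
    fun s hs' e => ?_, ?_, ?_, ?_⟩
  · have e' : Commute s (star U) := by
      have hU1 : star U * U = 1 := hU'.1
      have hU2 : U * star U = 1 := hU'.2
      calc s * star U = star U * U * s * star U := by rw [hU1, one_mul]
        _ = star U * s := by rw [mul_assoc (star U), ← e.eq, mul_assoc, mul_assoc, hU2, mul_one]
    rw [star_mul, star_star]
    exact ⟨(e'.mul_right (cc s hs').1).add_right ((cc s hs').2.mul_right e),
      (Commute.one_right s).sub_right (((cc s hs').2.mul_right (cc s hs').1).smul_right _)⟩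
  · have b := h2 h1
    obtain ⟨a, ha⟩ : ∃ a, a = star U * T.c n := ⟨_, rfl⟩
    rw [← ha] at b ⊢
    have flip : ∀ ζ ζ' : H, ‖ζ - S.J ζ'‖ = ‖ζ' - S.J ζ‖ := fun ζ ζ' => by
      rw [← S.J.norm_map, map_sub, S.J_J, norm_sub_rev]
    have e : (a + star a) S.vac - S.J ((a + star a) S.vac) =
        (a S.vac - S.J (star a S.vac)) + (star a S.vac - S.J (a S.vac)) := by
      simp only [add_apply, map_add]
      abel
    have s2 : 5 / 4 ≤ √(1 + ((1 : ℝ) ^ 2)⁻¹) := Real.le_sqrt_of_sq_le (by norm_num)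
    have b1 := mul_le_mul_of_nonneg_right s2 (norm_nonneg (a S.vac - S.J (star a S.vac)))
    simp only [Complex.ofReal_one, inv_one, one_smul, star_star] at b
    rw [flip (star U S.vac)] at b
    rw [e]
    refine (norm_add_le _ _).trans ?_
    rw [flip (star a S.vac)]
    linarith
  · have e : (1 - (2 : ℂ) • (star (T.c n) * T.c n)) S.vac -
        S.J ((1 - (2 : ℂ) • (star (T.c n) * T.c n)) S.vac) = -((2 : ℂ) •
          ((star (T.c n) * T.c n) S.vac - S.J ((star (T.c n) * T.c n) S.vac))) := by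
      simp only [sub_apply, one_apply_eq_self,
        smul_apply, map_sub, map_smulₛₗ, J_vac, map_ofNat]
      module
    rw [e, norm_neg, norm_smul, Complex.norm_ofNat]
    linarith
  · obtain ⟨c, hc⟩ : ∃ c, c = T.c n := ⟨_, rfl⟩
    have n1 : ‖c‖ ≤ 1 := hc ▸ T.norm_c n
    have n2 : ‖star c‖ ≤ 1 := by rwa [norm_star]
    have q := T.norm_cs_e n (cm y U S.vac)
    have c0 := T.c_sq n
    have c1 := T.c_car n
    have y1 := (cc y hy).1
    have y2 := (cc y hy).2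
    have u1 := (cc _ hs).1
    rw [← hc] at q c0 c1 y1 y2 u1 ⊢
    have e : star c * c * cm y (star U * c + star (star U * c)) = star c * cm y U := by
      have d1 : c * cm y (star U * c) = 0 := by
        rw [cm, mul_sub, ← mul_assoc c y, ← y1.eq, mul_assoc y, ← mul_assoc c (star U), ← u1.eq,
          mul_assoc _ c c, c0, ← mul_assoc c, ← mul_assoc c, ← u1.eq, mul_assoc _ c c, c0]
        simp
      have d2 : cm y (star c * U) = star c * cm y U := by
        rw [cm, cm, ← mul_assoc, y2.eq, mul_sub, mul_assoc, mul_assoc]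
      have d3 : star c * c * star c = star c := by
        rw [mul_assoc, eq_sub_of_add_eq' c1, mul_sub, mul_one, ← mul_assoc, ← star_mul, c0]
        simp
      have d4 : ∀ a b : Op H, cm y (a + b) = cm y a + cm y b := fun a b => by
        simp only [cm, mul_add, add_mul]
        abel
      rw [star_mul, star_star, d4, mul_add, mul_assoc, d1, d2, ← mul_assoc, d3, mul_zero, zero_add]
    obtain ⟨ζ, hζ⟩ : ∃ ζ, ζ = cm y U S.vac := ⟨_, rfl⟩
    have b1 : ‖star c ζ‖ ≤ ‖cm y (star U * c + star (star U * c)) S.vac‖ := by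
      rw [hζ, ← mul_apply_eq_comp, ← e, mul_apply_eq_comp]
      exact ((star c * c).le_opNorm _).trans (mul_le_of_le_one_left (norm_nonneg _)
        ((norm_mul_le _ _).trans (mul_le_one₀ n2 (norm_nonneg _) n1)))
    rw [← hζ] at h4 q ⊢
    rw [dist_eq_norm] at h4
    have b2 : ‖T.e n ζ‖ / 2 ≤ ‖star c (T.e n ζ)‖ := by
      refine le_of_sq_le_sq ?_ (norm_nonneg _)
      rw [q, h1]
      nlinarith [sq_nonneg ‖T.e n ζ‖]
    have b3 : ‖star c (T.e n ζ) - star c ζ‖ ≤ ‖T.e n ζ - ζ‖ := by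
      rw [← map_sub]
      exact ((star c).le_opNorm _).trans (mul_le_of_le_one_left (norm_nonneg _) n2)
    have b4 := abs_le.1 (abs_norm_sub_norm_le (star c (T.e n ζ)) (star c ζ))
    have b5 := abs_le.1 (abs_norm_sub_norm_le (T.e n ζ) ζ)
    linarith [b4.2, b5.1]

/-- Bookkeeping: `X' j = jc J (X j)` for `j < n` by `Std.centraliser`. -/
theorem Stage.succ {T : Tower M r} {n k k' : ℕ} {X Z X' Z' : ℕ → Op H} (hS : Std S) (hM : S.M = M)
    (h : Stage T n k S.vac X Z X' Z') (hk : k ≤ k') {X₁ Z₁ : Op H} (hq : QB X₁ Z₁)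
    (hX : X₁ ∈ T.L k') (hZ : Z₁ ∈ T.L k')
    (hc : ∀ s ∈ qset X Z n, Commute s X₁ ∧ Commute s Z₁) :
    ∃ ξ₁, Stage T (n + 1) k' ξ₁ (Function.update X n X₁) (Function.update Z n Z₁)
        (Function.update X' n (jc S.J X₁)) (Function.update Z' n (jc S.J Z₁)) ∧
      ‖ξ₁ - S.vac‖ ≤ ‖X₁ S.vac - S.J (X₁ S.vac)‖ + ‖Z₁ S.vac - S.J (Z₁ S.vac)‖ := by
  subst hM
  have hX1 := T.L_le _ _ hX
  have hZ1 := T.L_le _ _ hZ
  obtain ⟨ξ₁, h1, h2, h3, h4, h5⟩ := exists_new_vac hS hq hX1 hZ1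
  have eX : ∀ j < n, X' j = jc S.J (X j) := fun j hj => by
    have := (hS.centraliser (T.L_le _ _ (h.mem j hj).1) (h.mem' j hj).1 (h.vac j hj).1
      (by rw [(h.qb j hj).sX, (h.qb' j hj).sX, (h.vac j hj).1])).1
    rw [← this, (h.qb j hj).sX]
  have eZ : ∀ j < n, Z' j = jc S.J (Z j) := fun j hj => by
    have := (hS.centraliser (T.L_le _ _ (h.mem j hj).2) (h.mem' j hj).2 (h.vac j hj).2
      (by rw [(h.qb j hj).sZ, (h.qb' j hj).sZ, (h.vac j hj).2])).1
    rw [← this, (h.qb j hj).sZ]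
  have cX := fun j (hj : j < n) => hc (X j) ⟨j, hj, Or.inl rfl⟩
  have cZ := fun j (hj : j < n) => hc (Z j) ⟨j, hj, Or.inr rfl⟩
  have cs : ∀ {j}, j < n + 1 → j = n ∨ (j ≠ n ∧ j < n) := fun hj => by omega
  refine ⟨ξ₁, ⟨h1, fun j hj => ?_, fun j hj => ?_, fun j hj => ?_, fun j hj => ?_,
    fun i hi j hj hij => ?_, fun i hi j hj hij => ?_, fun j hj => ?_⟩, h4⟩
  · rcases cs hj with rfl | ⟨a, b⟩
    · simpa only [Function.update_self] using hq
    · simpa only [Function.update_of_ne a] using h.qb j b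
  · rcases cs hj with rfl | ⟨a, b⟩
    · simpa only [Function.update_self] using hq.jc S.J_J
    · simpa only [Function.update_of_ne a] using h.qb' j b
  · rcases cs hj with rfl | ⟨a, b⟩
    · simpa only [Function.update_self] using And.intro hX hZ
    · simpa only [Function.update_of_ne a] using
        And.intro (T.L_mono _ _ hk _ (h.mem j b).1) (T.L_mono _ _ hk _ (h.mem j b).2)
  · rcases cs hj with rfl | ⟨a, b⟩
    · simpa only [Function.update_self] using And.intro (hS.jc_mem _ hX1) (hS.jc_mem _ hZ1)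
    · simpa only [Function.update_of_ne a] using h.mem' j b
  · rcases cs hi with rfl | ⟨a, b⟩ <;> rcases cs hj with rfl | ⟨a', b'⟩
    · exact absurd rfl hij
    · simp only [Function.update_self, Function.update_of_ne a']
      exact ⟨(cX j b').1.symm, (cZ j b').1.symm, (cX j b').2.symm, (cZ j b').2.symm⟩
    · simp only [Function.update_self, Function.update_of_ne a]
      exact ⟨(cX i b).1, (cX i b).2, (cZ i b).1, (cZ i b).2⟩
    · simpa only [Function.update_of_ne a, Function.update_of_ne a'] using h.qc i b j b' hij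
  · rcases cs hi with rfl | ⟨a, b⟩ <;> rcases cs hj with rfl | ⟨a', b'⟩
    · exact absurd rfl hij
    · simp only [Function.update_self, Function.update_of_ne a', eX j b', eZ j b']
      exact ⟨BTr_comm S.J_J (cX j b').1.symm, BTr_comm S.J_J (cZ j b').1.symm,
        BTr_comm S.J_J (cX j b').2.symm, BTr_comm S.J_J (cZ j b').2.symm⟩
    · simp only [Function.update_self, Function.update_of_ne a, eX i b, eZ i b]
      exact ⟨BTr_comm S.J_J (cX i b).1, BTr_comm S.J_J (cX i b).2, BTr_comm S.J_J (cZ i b).1,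
        BTr_comm S.J_J (cZ i b).2⟩
    · simpa only [Function.update_of_ne a, Function.update_of_ne a'] using h.qc' i b j b' hij
  · rcases cs hj with rfl | ⟨a, b⟩
    · simpa only [Function.update_self] using And.intro h2 h3
    · simp only [Function.update_of_ne a, eX j b, eZ j b]
      exact ⟨h5 _ (T.L_le _ _ (h.mem j b).1) (h.qb j b).sX (cX j b).1 (cX j b).2
          (by rw [← eX j b, (h.vac j b).1]),
        h5 _ (T.L_le _ _ (h.mem j b).2) (h.qb j b).sZ (cZ j b).1 (cZ j b).2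
          (by rw [← eZ j b, (h.vac j b).2])⟩

theorem fstep_kfam {B : VN H} {y : Op H} {c₀ η η' : ℝ} {P P' : ℝ → Prop} (h : Kfam S B y c₀ η P)
    (hη : η ≤ η') (hP : ∀ t, 0 < t → P t → P' t) : Kfam S B y c₀ η' P' := by
  obtain ⟨σ, _, m, μ, h1, h2, h3, h4, h5⟩ := h
  exact ⟨σ, inferInstance, m, μ, fun s => ⟨(h1 s).1, (h1 s).2.1, hP _ (h1 s).2.1 (h1 s).2.2⟩, h2, h3,
    h4.trans hη, h5⟩

/-- stability of the commutator bound -/
theorem fstep_cm {X X' y y' : Op H} {ξ ξ₁ : H} {η : ℝ} (hX : X ∈ unitary (Op H))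
    (hX' : X' ∈ unitary (Op H)) (c : Commute y X') (c' : Commute y' X') (hv : X ξ₁ = X' ξ₁)
    (hy : ‖y‖ ≤ 1) (hy' : ‖y'‖ ≤ 1) (h1 : ‖ξ₁ - ξ‖ ≤ 5 * η) (h2 : ‖y ξ - y' ξ‖ ≤ η) :
    ‖cm y' X ξ‖ - 32 * η ≤ ‖cm X y ξ₁‖ := by
  have key : ∀ {z : Op H}, Commute z X' → cm X z ξ₁ = X (z ξ₁) - X' (z ξ₁) := by
    intro z hz
    rw [cm, sub_apply, mul_apply_eq_comp,
      mul_apply_eq_comp, hv, ← mul_apply_eq_comp z, hz.eq,
      mul_apply_eq_comp]
  have le : ∀ {z : Op H}, ‖z‖ ≤ 1 → ∀ ζ, ‖z ζ‖ ≤ ‖ζ‖ := fun hz ζ =>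
    (ContinuousLinearMap.le_opNorm _ _).trans (mul_le_of_le_one_left (norm_nonneg _) hz)
  have a1 : ‖y ξ₁ - y' ξ₁‖ ≤ 11 * η := by
    have e : y ξ₁ - y' ξ₁ = y (ξ₁ - ξ) + (y ξ - y' ξ) - y' (ξ₁ - ξ) := by
      simp only [map_sub]
      abel
    rw [e]
    refine (norm_sub_le _ _).trans ?_
    linarith [norm_add_le (y (ξ₁ - ξ)) (y ξ - y' ξ), le hy (ξ₁ - ξ), le hy' (ξ₁ - ξ)]
  have e : cm y' X ξ = -cm X y ξ₁ + (X (y ξ₁ - y' ξ₁) - X' (y ξ₁ - y' ξ₁)) +
      (X (y' (ξ₁ - ξ)) - y' (X (ξ₁ - ξ))) := by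
    have := key c'
    rw [key c]
    simp only [cm, sub_apply, mul_apply_eq_comp, map_sub] at this ⊢
    rw [sub_right_inj.1 this]
    abel
  have a2 := norm_sub_le (X (y ξ₁ - y' ξ₁)) (X' (y ξ₁ - y' ξ₁))
  have a3 := norm_sub_le (X (y' (ξ₁ - ξ))) (y' (X (ξ₁ - ξ)))
  have a4 := le hy' (X (ξ₁ - ξ))
  have a5 := le hy' (ξ₁ - ξ)
  rw [fstep_iso hX, fstep_iso hX'] at a2
  rw [fstep_iso hX] at a3 a4
  have a6 := norm_add₃_le (a := -cm X y ξ₁) (b := X (y ξ₁ - y' ξ₁) - X' (y ξ₁ - y' ξ₁))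
    (c := X (y' (ξ₁ - ξ)) - y' (X (ξ₁ - ξ)))
  rw [← e, norm_neg] at a6
  linarith

/-- One step.  `S` from `exists_std`.  If `y` is far from the centre: `Stage.sub`, `lemK` or
`lemK_tr` (`by_cases tr`; `Tower.one`, `Tower.rat`), `lemU`; otherwise `U = 1`, `y' = 0`.  Then
`exists_qubit`, `Stage.succ`, `norm_av_vac_sq_le` at `ξ₁`, where
`[X₁, y] ξ₁ = (X₁ - X₁') y ξ₁` is close to `[X₁, y'] ξ₁` and to `[X₁, y'] ξ`.  In the tracial case
`J X₁ ξ = X₁ ξ` exactly (`Std.wave_eq_one`, `trJ_of_wave`), so `ξ₁ = ξ`. -/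
theorem step {d : ℝ} (hd : 0 < d) : ∃ c : ℝ, 0 < c ∧
    ∀ (H : Type u) [NormedAddCommGroup H] [InnerProductSpace ℂ H] [CompleteSpace H] (M : VN H)
      (tr : Prop) (T : Tower M (¬tr)) (n k : ℕ) (ξ : H) (X Z X' Z' : ℕ → Op H) (y : Op H) (ε : ℝ),
      Stage T n k ξ X Z X' Z' → (tr → Tr M ξ) → y ∈ M → ‖y‖ ≤ 1 →
      (∀ j < n, Commute y (X j) ∧ Commute y (Z j)) → 0 < ε →
      ∃ (k' : ℕ) (ξ₁ : H) (X₁ Z₁ X₁' Z₁' : Op H),
        Stage T (n + 1) k' ξ₁ (Function.update X n X₁) (Function.update Z n Z₁)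
          (Function.update X' n X₁') (Function.update Z' n Z₁') ∧
        ‖ξ₁ - ξ‖ ≤ ε ∧ (tr → ξ₁ = ξ) ∧
        (Far M ξ d y → ‖av X₁ Z₁ y ξ₁‖ ^ 2 ≤ ‖y ξ‖ ^ 2 - c) := by
  obtain ⟨c₁, hc₁, hU⟩ := lemU.{u} (c₀ := d ^ 2 / 4) (R := 1) (by positivity) one_pos
  refine ⟨c₁ ^ 2 / 128, by positivity, ?_⟩
  intro H _ _ _ M tr T n k ξ X Z X' Z' y ε h htr hy hy1 hc hε
  obtain ⟨S, rfl, rfl, hS⟩ := exists_std h.cs
  obtain ⟨η, hη, η1, η2, η3, η4⟩ : ∃ η : ℝ, 0 < η ∧ η ≤ ε / 5 ∧ η ≤ 1 ∧ η ≤ c₁ / 132 ∧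
      η ≤ c₁ ^ 2 / 128 / 35 :=
    ⟨min (min (ε / 5) 1) (min (c₁ / 132) (c₁ ^ 2 / 128 / 35)), by positivity,
      (min_le_left _ _).trans (min_le_left _ _), (min_le_left _ _).trans (min_le_right _ _),
      (min_le_right _ _).trans (min_le_left _ _), (min_le_right _ _).trans (min_le_right _ _)⟩
  have hp : ∀ s ∈ qset X Z n, s ∈ T.L k ∧ star s = s := by
    rintro s ⟨j, hj, rfl | rfl⟩
    · exact ⟨(h.mem j hj).1, (h.qb j hj).sX⟩
    · exact ⟨(h.mem j hj).2, (h.qb j hj).sZ⟩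
  obtain ⟨k₁, U, y', hk, u1, u2, u3, u4, u5, u6, u7⟩ : ∃ (k₁ : ℕ) (U y' : Op H), k ≤ k₁ ∧
      U ∈ T.L k₁ ∧ U ∈ unitary (Op H) ∧ (∀ s ∈ qset X Z n, Commute s U) ∧
      ‖U S.vac - S.J (star U S.vac)‖ ≤ η ∧ y' ∈ T.L k₁ ∧ ‖y'‖ ≤ 1 ∧
      (Far S.M S.vac d y → ‖y S.vac - y' S.vac‖ ≤ η ∧ c₁ ≤ ‖cm y' U S.vac‖) := by
    by_cases hfar : Far S.M S.vac d y
    · have hB := h.sub hS rfl
      have hyB : y ∈ rel S.M (qset X Z n) := (mem_rel fun s hs => (hp s hs).2).2 ⟨hy, by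
        rintro s ⟨j, hj, rfl | rfl⟩
        · exact (hc j hj).1
        · exact (hc j hj).2⟩
      obtain ⟨k₁, U, y', a1, a2, a3, a4, a5, a6, a7, a8, a9⟩ := hU H S.M _ T S k _ y η hS rfl hp hy
        hy1 hη fun η' hη' => by
          by_cases t : tr
          · exact fstep_kfam (lemK_tr hB (htr t) hyB hd hfar) hη'.le fun _ _ e => e ▸ T.one
          · refine fstep_kfam (lemK hB hyB hd hfar hη') le_rfl ?_
            rintro _ e ⟨q, rfl⟩
            exact T.rat t q (by exact_mod_cast e)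
      exact ⟨k₁, U, y', a1, a2, a3, a4, a5, a6, a7, fun _ => ⟨a8, a9⟩⟩
    · exact ⟨k, 1, 0, le_rfl, one_mem _, one_mem _, fun s _ => Commute.one_right s,
        by simpa [J_vac] using hη.le, zero_mem _, by simp, fun a => absurd a hfar⟩
  obtain ⟨k', X₁, Z₁, hk', hq, hX, hZ, b1, b2, b3, b4⟩ := exists_qubit T hS rfl u1 u2 u5 hη u4
  obtain ⟨ξ₁, hst, hn⟩ := h.succ hS rfl (hk.trans hk') hq hX hZ fun s hs =>
    b1 s (T.L_mono _ _ hk s (hp s hs).1) (u3 s hs)
  have hX1 := T.L_le _ _ hX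
  have hZ1 := T.L_le _ _ hZ
  have hn5 : ‖ξ₁ - S.vac‖ ≤ 5 * η := by linarith
  refine ⟨k', ξ₁, X₁, Z₁, _, _, hst, by linarith, fun t => ?_, fun hfar => ?_⟩
  · have hJ := trJ_of_wave (hS.wave_eq_one (htr t))
    rw [hJ.J_vac _ hX1, hJ.J_vac _ hZ1, hq.sX, hq.sZ, sub_self, sub_self, norm_zero, add_zero] at hn
    exact sub_eq_zero.1 (norm_le_zero_iff.1 hn)
  · obtain ⟨v1, v2⟩ := u7 hfar
    have hq' := hq.jc S.J_J
    have hv := hst.vac n (Nat.lt_succ_self n)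
    simp only [Function.update_self] at hv
    have d1 := norm_av_vac_sq_le hq hq' hX1 hZ1 (hS.jc_mem _ hX1) (hS.jc_mem _ hZ1) hv.1 hv.2 hy
    have d2 := fstep_cm hq.unitary_X hq'.unitary_X (commute_of_mem hy (hS.jc_mem _ hX1))
      (commute_of_mem (T.L_le _ _ u5) (hS.jc_mem _ hX1)) hv.1 hy1 u6 hn5 v1
    have d3 : (c₁ / 4) ^ 2 ≤ ‖cm X₁ y ξ₁‖ ^ 2 := pow_le_pow_left₀ (by positivity) (by linarith) 2
    have d4 : ‖y S.vac‖ ≤ 1 := by
      have := (y.le_opNorm S.vac).trans (mul_le_of_le_one_left (norm_nonneg _) hy1)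
      rwa [S.norm_vac] at this
    have d5 : ‖y ξ₁‖ ≤ ‖y S.vac‖ + 5 * η := by
      have := (y.le_opNorm (ξ₁ - S.vac)).trans (mul_le_of_le_one_left (norm_nonneg _) hy1)
      rw [map_sub] at this
      linarith [(abs_le.1 (abs_norm_sub_norm_le (y ξ₁) (y S.vac))).2]
    have d6 := pow_le_pow_left₀ (norm_nonneg _) d5 2
    nlinarith

end Crest.Agent.R078
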