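import Crest.Agent.R078.AAmp
import Crest.Agent.R078.BBasic2
import Crest.Agent.R078X.Slice

/-! Row 78, stage (3): position projections, sub-legs, slice maps and site matrices in
`ℓ²(Γ) ⊗ H`. -/

set_option autoImplicit false

open scoped InnerProductSpace ComplexConjugate
open Filter Topology

namespace Crest.Agent.R078

open Crest.Agent.R078X

variable {H : Type*} [NormedAddCommGroup H] [InnerProductSpace ℂ H] [CompleteSpace H]
variable {K : Type*} [NormedAddCommGroup K] [InnerProductSpace ℂ K] [CompleteSpace K]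

theorem ftw_ind {Γ : Type*} (s : Set Γ) (g : Γ) : ‖s.indicator (fun _ => (1 : ℂ)) g‖ ≤ 1 :=
  (norm_indicator_le_norm_self _ _).trans norm_one.le

/-! ### Slice maps -/

section slice

variable {Γ : Type*} [Group Γ] (G : Leg Γ K)

/-- The slice map of a leg as a linear map. -/
noncomputable def ftwΦ : Op K →ₗ[ℂ] Op K where
  toFun := slPhi G 1
  map_add' := slPhi_add G (IsStarProjection.one _)
  map_smul' c x := by
    refine G.res.ext fun g => ?_
    rw [RingHom.id_apply, smul_mul_assoc, slPhi_mul_f G (IsStarProjection.one _),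
      slPhi_mul_f G (IsStarProjection.one _)]
    simp only [slT, smul_mul_assoc, mul_smul_comm]

theorem ftwΦ_f (x : Op K) (g : Γ) : Commute (ftwΦ G x) (G.f g) :=
  slPhi_comm_f G (IsStarProjection.one _) x g

theorem ftwΦ_lam (x : Op K) (g : Γ) : Commute (ftwΦ G x) (G.lam g) :=
  slPhi_comm_lam G (IsStarProjection.one _) x g

theorem ftwΦ_star (x : Op K) : ftwΦ G (star x) = star (ftwΦ G x) :=
  (slPhi_star G (IsStarProjection.one _) x).symm

theorem ftwΦ_norm (x : Op K) : ‖ftwΦ G x‖ ≤ ‖x‖ := by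
  have := slPhi_norm G (IsStarProjection.one _) x
  rwa [mul_one] at this

theorem ftwΦ_mul (x : Op K) : ftwΦ G x * G.f 1 = G.f 1 * x * G.f 1 := by
  have := slPhi_mul_f G (IsStarProjection.one _) x 1
  simp only [slT, inv_one, map_one, one_mul, mul_one] at this
  rw [mul_assoc]
  exact this

theorem ftwΦ_comm {s x : Op K} (h1 : Commute s (G.f 1)) (h2 : ∀ g, Commute s (G.lam g))
    (h : Commute s x) : Commute s (ftwΦ G x) :=
  G.res.commute_bsum (slT_blk G (IsStarProjection.one _) x) (G.commute_f h1 h2) fun g =>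
    (h2 g).mul_right (h1.mul_right ((Commute.one_right s).mul_right
      (h.mul_right ((Commute.one_right s).mul_right (h1.mul_right (h2 _))))))

theorem ftwΦ_col {σ : Type*} [Fintype σ] (x : σ → Op K) (C : ℝ)
    (h : ∀ ζ, ∑ i, ‖x i ζ‖ ^ 2 ≤ C * ‖ζ‖ ^ 2) (ξ : K) :
    ∑ i, ‖ftwΦ G (x i) ξ‖ ^ 2 ≤ C * ‖ξ‖ ^ 2 := by
  refine hasSum_le (fun g => ?_) (hasSum_sum fun s _ => G.res.hasSum_sq (ftwΦ G (x s) ξ))
    ((G.res.hasSum_sq ξ).mul_left C)
  have h2 : ∀ s, ‖G.f g (ftwΦ G (x s) ξ)‖ ≤ ‖x s ((G.f 1 * G.lam g⁻¹) ξ)‖ := by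
    intro s
    have e : G.f g (ftwΦ G (x s) ξ) = G.lam g (G.f 1 (x s ((G.f 1 * G.lam g⁻¹) ξ))) :=
      congrArg (fun T : Op K => T ξ) (f_mul_slPhi G (IsStarProjection.one _) (x s) g)
    rw [e]
    exact (sl_norm_app (rep_norm_le G.star_lam _) _).trans (sl_norm_app (G.res.norm_le_one _) _)
  refine (Finset.sum_le_sum fun s _ => pow_le_pow_left₀ (norm_nonneg _) (h2 s) 2).trans
    ((h _).trans_eq ?_)
  rw [G.norm_f_lam, inv_inv]

end slice

namespace Amp

/-! ### Position projections -/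

section pr

variable {Γ : Type*} [Group Γ] (A : Amp Γ H K)

/-- The projection onto the positions in `s`. -/
noncomputable def pr (s : Set Γ) : Op K := dg A.L.f (s.indicator fun _ => 1)

theorem pr_e' (s : Set Γ) (g : Γ) (η : H) :
    A.pr s (A.e g η) = s.indicator (fun _ => (1 : ℂ)) g • A.e g η := by
  have h := congrArg (fun T : Op K => T (A.e g η)) (A.L.res.dg_mul (ftw_ind s) g)
  simpa only [pr, mul_apply_eq_comp, A.f_e, smul_apply] using h

theorem pr_e {s : Set Γ} {g : Γ} (h : g ∈ s) (η : H) : A.pr s (A.e g η) = A.e g η := by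
  rw [pr_e', Set.indicator_of_mem h, one_smul]

theorem pr_e_not {s : Set Γ} {g : Γ} (h : g ∉ s) (η : H) : A.pr s (A.e g η) = 0 := by
  rw [pr_e', Set.indicator_of_notMem h, zero_smul]

theorem pr_mul (s t : Set Γ) : A.pr s * A.pr t = A.pr (s ∩ t) := by
  refine A.op_ext fun g η => ?_
  rw [mul_apply_eq_comp]
  by_cases h : g ∈ t
  · rw [A.pr_e h]
    by_cases h' : g ∈ s
    · rw [A.pr_e h', A.pr_e (Set.mem_inter h' h)]
    · rw [A.pr_e_not h', A.pr_e_not fun a => h' a.1]
  · rw [A.pr_e_not h, map_zero, A.pr_e_not fun a => h a.2]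

theorem pr_empty : A.pr ∅ = 0 := A.op_ext fun g η => A.pr_e_not (Set.notMem_empty g) η

theorem pr_proj (s : Set Γ) : IsStarProjection (A.pr s) := by
  refine ⟨by rw [IsIdempotentElem, pr_mul, Set.inter_self], ?_⟩
  rw [IsSelfAdjoint, pr, A.L.res.star_dg (ftw_ind s)]
  congr 1
  funext g
  by_cases h : g ∈ s <;> simp [h]

theorem pr_comm (s t : Set Γ) : Commute (A.pr s) (A.pr t) := by
  rw [Commute, SemiconjBy, pr_mul, pr_mul, Set.inter_comm]

theorem ι_pr (x : Op H) (s : Set Γ) : Commute (A.ι x) (A.pr s) :=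
  A.L.res.commute_dg (ftw_ind s) (A.com x).f

theorem lam_pr (g : Γ) {s t : Set Γ} (h : ∀ x, x ∈ s ↔ g * x ∈ t) :
    A.L.lam g * A.pr s = A.pr t * A.L.lam g := by
  refine A.op_ext fun x η => ?_
  rw [mul_apply_eq_comp, mul_apply_eq_comp, lam_e]
  by_cases hx : x ∈ s
  · rw [A.pr_e hx, A.pr_e ((h x).1 hx), lam_e]
  · rw [A.pr_e_not hx, A.pr_e_not (mt (h x).2 hx), map_zero]

theorem res_pr {Γ' : Type*} (π : Γ → Γ') : Res fun g => A.pr (π ⁻¹' {g}) := by
  refine ⟨fun g => A.pr_proj _, fun i j hij => ?_, fun ξ => ?_⟩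
  · rw [pr_mul, ← A.pr_empty]
    congr 1
    exact Set.eq_empty_of_forall_notMem fun x hx => hij (hx.1.symm.trans hx.2)
  · convert (A.hasSum_e ξ).tsum_fiberwise π using 2 with g
    refine (HasSum.tsum_eq (hasSum_subtype_iff_indicator
      (f := fun x => A.e x (A.co x ξ)) |>.2 ?_)).symm
    convert (A.hasSum_e ξ).mapL (A.pr (π ⁻¹' {g})) using 2 with x
    by_cases hx : x ∈ π ⁻¹' {g}
    · rw [A.pr_e hx, Set.indicator_of_mem hx]
    · rw [A.pr_e_not hx, Set.indicator_of_notMem hx]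

theorem commute_pr {Γ' : Type*} (π : Γ → Γ') {x : Op K} (hx : ∀ g, Commute x (A.pr (π ⁻¹' {g})))
    (t : Set Γ') : Commute x (A.pr (π ⁻¹' t)) := by
  have e : A.pr (π ⁻¹' t) = dg (fun g => A.pr (π ⁻¹' {g})) (t.indicator fun _ => 1) := by
    refine (A.res_pr π).ext fun g => ?_
    rw [(A.res_pr π).dg_mul (ftw_ind t), pr_mul, ← Set.preimage_inter]
    by_cases h : g ∈ t
    · rw [Set.inter_eq_right.2 (Set.singleton_subset_iff.2 h), Set.indicator_of_mem h, one_smul]
    · rw [Set.inter_singleton_eq_empty.2 h, Set.indicator_of_notMem h, zero_smul,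
        Set.preimage_empty, pr_empty]
  rw [e]
  exact (A.res_pr π).commute_dg (ftw_ind t) hx

theorem tendsto_strong {α : Type*} {l : Filter α} {T : α → Op K} {S : Op K} {C : ℝ}
    (hb : ∀ a, ‖T a‖ ≤ C) (h : ∀ g η, Tendsto (fun a => T a (A.e g η)) l (𝓝 (S (A.e g η))))
    (ξ : K) : Tendsto (fun a => T a ξ) l (𝓝 (S ξ)) := by
  refine amp_tendsto_of_dense (F := fun a ξ => T a ξ) (G := fun ξ => S ξ) (C := C)
    S.continuous (Eventually.of_forall fun a ξ ζ => ?_) A.induction_on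
    (by simpa using tendsto_const_nhds) (fun ξ ζ h1 h2 => ?_) h ξ
  · rw [dist_eq_norm, dist_eq_norm, ← map_sub]
    exact (T a).le_of_opNorm_le (hb a) _
  · simpa only [map_add] using h1.add h2

end pr

/-- The leg of a direct factor of a commutative group. -/
noncomputable def subLeg {Γ Γ' : Type*} [CommGroup Γ] [CommGroup Γ'] (A : Amp Γ H K) (s : Γ' →* Γ)
    (π : Γ →* Γ') (h : ∀ g, π (s g) = g) : Leg Γ' K where
  f g := A.pr (π ⁻¹' {g})
  lam := A.L.lam.comp s
  rho := (A.L.lam.comp s).comp invMonoidHom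
  res := A.res_pr π
  star_lam g := by simp [A.L.star_lam]
  star_rho g := by simp [A.L.star_lam]
  lam_f g x := A.lam_pr _ fun y => by simp [h]
  rho_f g x := A.lam_pr _ fun y => by simp [h, mul_comm x]
  lam_rho g g' := (Commute.all _ _).map A.L.lam
  fix g := by simp [← map_mul]

end Amp

/-! ### Sites -/

/-- Configurations. -/
abbrev TG := ℕ →₀ Fin 4

namespace Amp

open Multiplicative (ofAdd toAdd)

variable (A : Amp (Multiplicative TG) H K)

/-- The projection onto the configurations vanishing at `n`. -/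
noncomputable def vac (n : ℕ) : Op K := A.pr {g | toAdd g n = 0}

/-- Matrix units at the site `n`. -/
noncomputable def unit (n : ℕ) (i j : Fin 4) : Op K :=
  A.L.lam (ofAdd (Finsupp.single n i)) * A.vac n * A.L.lam (ofAdd (Finsupp.single n (-j)))

theorem unit_e (n : ℕ) (i j : Fin 4) (a : TG) (η : H) : A.unit n i j (A.e (ofAdd a) η) =
    if j = a n then A.e (ofAdd (a.update n i)) η else 0 := by
  rw [unit, mul_apply_eq_comp, mul_apply_eq_comp, lam_e, ← ofAdd_add, vac]
  split_ifs with h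
  · rw [A.pr_e (by simp [h]), lam_e, ← ofAdd_add]
    congr 3
    ext k
    by_cases e : k = n
    · simp [e, h]
    · simp [e, Finsupp.update_apply]
  · rw [A.pr_e_not (by simpa [neg_add_eq_zero] using h), map_zero]

theorem star_unit (n : ℕ) (i j : Fin 4) : star (A.unit n i j) = A.unit n j i := by
  simp only [unit, vac, star_mul, A.L.star_lam, (A.pr_proj _).isSelfAdjoint.star_eq, mul_assoc,
    ← ofAdd_neg, ← Finsupp.single_neg, neg_neg]

/-- A `4 × 4` matrix acting at the site `n`. -/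
noncomputable def matL (n : ℕ) : Matrix (Fin 4) (Fin 4) ℂ →ₗ[ℂ] Op K where
  toFun C := ∑ i, ∑ j, C i j • A.unit n i j
  map_add' C D := by simp only [Matrix.add_apply, add_smul, Finset.sum_add_distrib]
  map_smul' c C := by
    simp only [Matrix.smul_apply, smul_eq_mul, RingHom.id_apply, Finset.smul_sum, smul_smul]

theorem matL_e (n : ℕ) (C : Matrix (Fin 4) (Fin 4) ℂ) (a : TG) (η : H) :
    A.matL n C (A.e (ofAdd a) η) = ∑ i, C i (a n) • A.e (ofAdd (a.update n i)) η := by
  change (∑ i, ∑ j, C i j • A.unit n i j) _ = _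
  simp only [FunLike.coe_sum, Finset.sum_apply, smul_apply, unit_e, smul_ite, smul_zero,
    Finset.sum_ite_eq', Finset.mem_univ, if_true]

theorem ftw_update (a : TG) (n : ℕ) (i j : Fin 4) : (a.update n i).update n j = a.update n j := by
  ext k
  simp only [Finsupp.update_apply]
  split_ifs <;> rfl

/-- A `4 × 4` matrix acting at the site `n`. -/
noncomputable def mat (n : ℕ) : Matrix (Fin 4) (Fin 4) ℂ →⋆ₐ[ℂ] Op K where
  toAlgHom := AlgHom.ofLinearMap (A.matL n)
    (A.op_ext fun g η => by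
      rw [← ofAdd_toAdd g, matL_e]
      simp [Matrix.one_apply])
    (fun C D => A.op_ext fun g η => by
      rw [← ofAdd_toAdd g, mul_apply_eq_comp]
      simp only [matL_e, map_sum, map_smul, ftw_update, Finsupp.update_apply, if_true,
        Matrix.mul_apply, Finset.sum_smul, Finset.smul_sum, smul_smul]
      rw [Finset.sum_comm]
      simp only [mul_comm])
  map_star' C := by
    change ∑ i, ∑ j, (star C) i j • A.unit n i j = star (∑ i, ∑ j, C i j • A.unit n i j)
    rw [Finset.sum_comm]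
    simp only [star_sum, star_smul, star_unit, Matrix.star_apply]

theorem mat_e (n : ℕ) (C : Matrix (Fin 4) (Fin 4) ℂ) (a : TG) (η : H) :
    A.mat n C (A.e (ofAdd a) η) = ∑ i, C i (a n) • A.e (ofAdd (a.update n i)) η :=
  A.matL_e n C a η

theorem commute_mat {x : Op K} {n : ℕ} (h1 : Commute x (A.vac n))
    (h2 : ∀ i, Commute x (A.L.lam (ofAdd (Finsupp.single n i)))) (C : Matrix (Fin 4) (Fin 4) ℂ) :
    Commute x (A.mat n C) :=
  Commute.sum_right _ _ _ fun i _ => Commute.sum_right _ _ _ fun j _ =>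
    (((h2 i).mul_right h1).mul_right (h2 _)).smul_right _

theorem ι_mat (x : Op H) (n : ℕ) (C : Matrix (Fin 4) (Fin 4) ℂ) : Commute (A.ι x) (A.mat n C) :=
  A.commute_mat (A.ι_pr x _) (fun _ => (A.com x).lam _) C

theorem lam_mat {a : TG} {n : ℕ} (h : a n = 0) (C : Matrix (Fin 4) (Fin 4) ℂ) :
    Commute (A.L.lam (ofAdd a)) (A.mat n C) :=
  A.commute_mat (A.lam_pr _ fun x => by simp [h]) (fun _ => (Commute.all _ _).map A.L.lam) C

theorem pr_mat {s : Set (Multiplicative TG)} {n : ℕ}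
    (h : ∀ i x, x ∈ s ↔ ofAdd (Finsupp.single n i) * x ∈ s) (C : Matrix (Fin 4) (Fin 4) ℂ) :
    Commute (A.pr s) (A.mat n C) :=
  A.commute_mat (A.pr_comm _ _) (fun i => (show Commute _ _ from A.lam_pr _ (h i)).symm) C

theorem mat_mat {l n : ℕ} (h : l ≠ n) (C D : Matrix (Fin 4) (Fin 4) ℂ) :
    Commute (A.mat l C) (A.mat n D) :=
  A.commute_mat (A.pr_mat (fun i x => by simp [h.symm]) C).symm
    (fun i => (A.lam_mat (by simp [h]) C).symm) D

theorem mat_vac (n : ℕ) : A.mat n (Matrix.single 0 0 1) = A.vac n := by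
  change ∑ i, ∑ j, (Matrix.single 0 0 1 : Matrix (Fin 4) (Fin 4) ℂ) i j • A.unit n i j = _
  simp [Matrix.single_apply, ite_and, unit]

theorem vac_V (n : ℕ) (η : H) : A.vac n (A.V η) = A.V η := by
  rw [← e_one]
  exact A.pr_e (by simp) η

theorem tendsto_vac (ζ : K) : Tendsto (fun n => A.vac n ζ) atTop (𝓝 ζ) := by
  refine A.tendsto_strong (S := 1) (fun n => (A.pr_proj _).norm_le) (fun g η => ?_) ζ
  refine tendsto_const_nhds.congr' ?_
  filter_upwards [eventually_gt_atTop ((toAdd g).support.sup id)] with n hn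
  have : toAdd g n = 0 := Finsupp.notMem_support_iff.1 fun h => (Finset.le_sup (f := id) h).not_gt hn
  exact (A.pr_e (s := {g | toAdd g n = 0}) this η).symm

/-- Cyclic vectors of the tensor product. -/
theorem cyc_V {M : VN H} {B : VN K} {ξ : H} (hξ : Cyc M ξ) (hM : ∀ x ∈ M, A.ι x ∈ B)
    (hB : ∀ n i, ∃ D : Matrix (Fin 4) (Fin 4) ℂ, A.mat n D ∈ B ∧
      ∀ k, D k 0 = if k = i then 1 else 0) : Cyc B (A.V ξ) := by
  have key : ∀ a : TG, ∃ u ∈ B, ∀ η, u (A.V η) = A.e (ofAdd a) η := by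
    intro a
    induction a using Finsupp.induction with
    | zero => exact ⟨1, one_mem _, fun η => by rw [ofAdd_zero, e_one]; rfl⟩
    | single_add n i a hn _ ih =>
      obtain ⟨u, hu, e⟩ := ih
      obtain ⟨D, hD, e'⟩ := hB n i
      refine ⟨A.mat n D * u, mul_mem hD hu, fun η => ?_⟩
      have h0 : a n = 0 := Finsupp.notMem_support_iff.1 hn
      rw [mul_apply_eq_comp, e, mat_e, h0]
      simp only [e', ite_smul, one_smul, zero_smul, Finset.sum_ite_eq', Finset.mem_univ, if_true]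
      congr 3
      ext k
      by_cases h : k = n
      · simp [h, h0]
      · simp [h, Finsupp.update_apply]
  refine A.induction_on isClosed_closure (subset_closure ⟨⟨0, zero_mem _⟩, rfl⟩)
    (fun ζ ζ' h h' => ?_) fun g η => ?_
  · refine map_mem_closure₂ continuous_add h h' ?_
    rintro _ ⟨a, rfl⟩ _ ⟨b, rfl⟩
    exact ⟨⟨a.1 + b.1, add_mem a.2 b.2⟩, rfl⟩
  · refine map_mem_closure (A.e g).continuous (hξ η) ?_
    rintro _ ⟨x, rfl⟩
    obtain ⟨u, hu, e⟩ := key (toAdd g)
    refine ⟨⟨u * A.ι x, mul_mem hu (hM _ x.2)⟩, ?_⟩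
    simp only [mul_apply_eq_comp, A.ι_V, e, ofAdd_toAdd]

/-! ### Tails -/

/-- The configurations vanishing below `m`. -/
def _root_.Crest.Agent.R078.tlG (m : ℕ) : AddSubgroup TG where
  carrier := {a | ∀ i < m, a i = 0}
  zero_mem' _ _ := rfl
  add_mem' ha hb i hi := by simp [ha i hi, hb i hi]
  neg_mem' ha i hi := by simp [ha i hi]

/-- The tail of a configuration. -/
noncomputable def _root_.Crest.Agent.R078.tlπ (m : ℕ) : TG →+ tlG m :=
  (Finsupp.filterAddHom (m ≤ ·)).codRestrict (tlG m) fun a i hi =>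
    Finsupp.filter_apply_neg _ a hi.not_ge

theorem _root_.Crest.Agent.R078.tlπ_apply (m : ℕ) (a : TG) (i : ℕ) :
    (tlπ m a : TG) i = if m ≤ i then a i else 0 := Finsupp.filter_apply _ a i

theorem _root_.Crest.Agent.R078.tlπ_eq_zero {m : ℕ} {a : TG} :
    tlπ m a = 0 ↔ ∀ i, m ≤ i → a i = 0 := by
  rw [Subtype.ext_iff, Finsupp.ext_iff]
  simp [tlπ_apply]

/-- The leg of the sites `≥ m`. -/
noncomputable def tail (m : ℕ) : Leg (Multiplicative (tlG m)) K :=
  A.subLeg (tlG m).subtype.toMultiplicative (tlπ m).toMultiplicative fun g => by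
    refine toAdd.injective (Subtype.ext (Finsupp.ext fun i => ?_))
    refine (tlπ_apply m _ i).trans ?_
    split_ifs with h
    · rfl
    · exact ((toAdd g).2 i (not_le.1 h)).symm

theorem tail_f (m : ℕ) : (A.tail m).f 1 = A.pr {g | ∀ i, m ≤ i → toAdd g i = 0} :=
  congrArg A.pr (Set.ext fun _ => tlπ_eq_zero)

theorem tail_lam (m : ℕ) (g : Multiplicative (tlG m)) :
    (A.tail m).lam g = A.L.lam (ofAdd (toAdd g).1) := rfl

/-- `x` commutes with the sites `≥ m`. -/
def TCom (m : ℕ) (x : Op K) : Prop :=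
  Commute x ((A.tail m).f 1) ∧ ∀ g, Commute x ((A.tail m).lam g)

theorem TCom.pr {m : ℕ} {x : Op K} (h : A.TCom m x) (t : Set TG) :
    Commute x (A.pr {g | (tlπ m (toAdd g) : TG) ∈ t}) :=
  A.commute_pr (tlπ m).toMultiplicative ((A.tail m).commute_f h.1 h.2) {g | (toAdd g).1 ∈ t}

theorem TCom.mono {m n : ℕ} {x : Op K} (h : A.TCom m x) (hmn : m ≤ n) : A.TCom n x := by
  refine ⟨?_, fun g => h.2 (ofAdd ⟨(toAdd g).1, fun i hi => (toAdd g).2 i (hi.trans_le hmn)⟩)⟩
  rw [tail_f]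
  convert h.pr A {a | ∀ i, n ≤ i → a i = 0} using 4 with g
  simp only [Set.mem_ofPred_eq, tlπ_apply]
  exact forall₂_congr fun i hi => by rw [if_pos (hmn.trans hi)]

theorem TCom.vac {n : ℕ} {x : Op K} (h : A.TCom n x) : Commute x (A.vac n) := by
  convert h.pr A {a | a n = 0} using 1
  simp [Amp.vac, tlπ_apply]

theorem TCom.mat {n : ℕ} {x : Op K} (h : A.TCom n x) (C : Matrix (Fin 4) (Fin 4) ℂ) :
    Commute x (A.mat n C) :=
  A.commute_mat (h.vac A) (fun i => h.2 (ofAdd ⟨Finsupp.single n i, fun _ hj =>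
    Finsupp.single_eq_of_ne hj.ne⟩)) C

theorem tcom_ι (m : ℕ) (x : Op H) : A.TCom m (A.ι x) :=
  ⟨A.ι_pr x _, fun _ => (A.com x).lam _⟩

theorem tcom_mat {m n : ℕ} (h : n < m) (C : Matrix (Fin 4) (Fin 4) ℂ) : A.TCom m (A.mat n C) := by
  refine ⟨?_, fun g => (A.lam_mat ((toAdd g).2 n h) C).symm⟩
  rw [tail_f]
  refine (A.pr_mat (fun i x => ?_) C).symm
  refine forall₂_congr fun k hk => ?_
  simp [(h.trans_le hk).ne']

theorem tcom_Φ (m : ℕ) (x : Op K) : A.TCom m (ftwΦ (A.tail m) x) :=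
  ⟨ftwΦ_f _ x 1, ftwΦ_lam _ x⟩

theorem tail_e (g : Multiplicative TG) (η : H) :
    ∀ᶠ m in atTop, (A.tail m).f 1 (A.e g η) = A.e g η := by
  filter_upwards [eventually_gt_atTop ((toAdd g).support.sup id)] with m hm
  rw [tail_f]
  refine A.pr_e ?_ η
  exact fun i hi => Finsupp.notMem_support_iff.1 fun h =>
    (Finset.le_sup (f := id) h).not_gt (hm.trans_le hi)

theorem tendsto_Φ (x : Op K) (ζ : K) :
    Tendsto (fun m => ftwΦ (A.tail m) x ζ) atTop (𝓝 (x ζ)) := by
  refine A.tendsto_strong (fun m => ftwΦ_norm _ x) (fun g η => ?_) ζ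
  have h := A.tendsto_strong (T := fun m => (A.tail m).f 1) (S := 1)
    (fun m => (A.tail m).res.norm_le_one 1)
    (fun g η => tendsto_const_nhds.congr' ((A.tail_e g η).mono fun m h => h.symm)) (x (A.e g η))
  refine h.congr' ((A.tail_e g η).mono fun m h => ?_)
  have := congrArg (fun T : Op K => T (A.e g η)) (ftwΦ_mul (A.tail m) x)
  simpa only [mul_apply_eq_comp, h] using this.symm

end Amp

end Crest.Agent.R078
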