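import Mathlib

/-! Row 78, stage (3): the `4 × 4` matrices of one site.  The basis is `α |00⟩ + β |11⟩`, `|01⟩`,
`|10⟩`, `β |00⟩ - α |11⟩`. -/

set_option autoImplicit false

namespace Crest.Agent.R078

open Matrix

/-- `4 × 4` matrices. -/
abbrev M4 := Matrix (Fin 4) (Fin 4) ℂ

/-- The annihilator of the first qubit. -/
def m4C (α β : ℝ) : M4 := !![0, 0, α, 0; β, 0, 0, -α; 0, 0, 0, 0; 0, 0, β, 0]

/-- The annihilator of the second qubit. -/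
def m4D (α β : ℝ) : M4 := !![0, α, 0, 0; 0, 0, 0, 0; β, 0, 0, -α; 0, β, 0, 0]

variable {α β μ : ℝ}

theorem star_m4C :
    star (m4C α β) = !![(0 : ℂ), β, 0, 0; 0, 0, 0, 0; α, 0, 0, β; 0, -α, 0, 0] := by
  ext i j
  fin_cases i <;> fin_cases j <;> simp [m4C]

theorem star_m4D :
    star (m4D α β) = !![(0 : ℂ), 0, β, 0; α, 0, 0, β; 0, 0, 0, 0; 0, 0, -α, 0] := by
  ext i j
  fin_cases i <;> fin_cases j <;> simp [m4D]

theorem m4C_sq : m4C α β * m4C α β = 0 := by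
  ext i j
  fin_cases i <;> fin_cases j <;> simp [m4C, mul_comm]

theorem m4D_sq : m4D α β * m4D α β = 0 := by
  ext i j
  fin_cases i <;> fin_cases j <;> simp [m4D, mul_comm]

theorem m4C_car (h : α ^ 2 + β ^ 2 = 1) :
    star (m4C α β) * m4C α β + m4C α β * star (m4C α β) = 1 := by
  have h' : (α : ℂ) * α + β * β = 1 := by rw [← sq, ← sq]; exact_mod_cast h
  have h'' : (β : ℂ) * β + α * α = 1 := by rw [add_comm, h']
  rw [star_m4C]
  ext i j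
  fin_cases i <;> fin_cases j <;> simp [m4C, mul_comm, h', h'']

theorem m4D_car (h : α ^ 2 + β ^ 2 = 1) :
    star (m4D α β) * m4D α β + m4D α β * star (m4D α β) = 1 := by
  have h' : (α : ℂ) * α + β * β = 1 := by rw [← sq, ← sq]; exact_mod_cast h
  have h'' : (β : ℂ) * β + α * α = 1 := by rw [add_comm, h']
  rw [star_m4D]
  ext i j
  fin_cases i <;> fin_cases j <;> simp [m4D, mul_comm, h', h'']

theorem m4_comm : Commute (m4C α β) (m4D α β) := by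
  ext i j
  fin_cases i <;> fin_cases j <;> simp [m4C, m4D, mul_comm]

theorem m4_comm' : Commute (m4C α β) (star (m4D α β)) := by
  rw [star_m4D]
  ext i j
  fin_cases i <;> fin_cases j <;>
    simp [m4C, add_comm]

theorem m4_single : (single 0 0 1 : M4) = !![1, 0, 0, 0; 0, 0, 0, 0; 0, 0, 0, 0; 0, 0, 0, 0] := by
  ext i j
  fin_cases i <;> fin_cases j <;> simp

theorem m4C_vac : m4C α (μ * α) * single 0 0 1 =
    (μ : ℂ) • (star (m4D α (μ * α)) * single 0 0 1 : M4) := by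
  rw [star_m4D, m4_single]
  ext i j
  fin_cases i <;> fin_cases j <;> simp [m4C]

theorem m4C_vac' (h : μ ≠ 0) : star (m4C α (μ * α)) * single 0 0 1 =
    (μ⁻¹ : ℂ) • (m4D α (μ * α) * single 0 0 1 : M4) := by
  have h' : (μ : ℂ) ≠ 0 := Complex.ofReal_ne_zero.2 h
  rw [star_m4C, m4_single]
  ext i j
  fin_cases i <;> fin_cases j <;> simp [m4D, h']

theorem m4C_num : (single 0 0 1 : M4) * (star (m4C α β) * m4C α β) * single 0 0 1 =
    ((β ^ 2 : ℝ) : ℂ) • (single 0 0 1 : M4) := by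
  rw [star_m4C, m4_single]
  ext i j
  fin_cases i <;> fin_cases j <;> simp [m4C, sq]

theorem m4C_mean : (single 0 0 1 : M4) * m4C α β * single 0 0 1 = 0 := by
  rw [m4_single]
  ext i j
  fin_cases i <;> fin_cases j <;> simp [m4C]

theorem m4C_cyc (hα : α ≠ 0) (hβ : β ≠ 0) {B : StarSubalgebra ℂ M4} (h : m4C α β ∈ B) (i : Fin 4) :
    ∃ D ∈ B, ∀ k, D k 0 = if k = i then 1 else 0 := by
  have hα' : (α : ℂ) ≠ 0 := Complex.ofReal_ne_zero.2 hα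
  have hβ' : (β : ℂ) ≠ 0 := Complex.ofReal_ne_zero.2 hβ
  fin_cases i
  · exact ⟨1, one_mem _, fun k => by simp [Matrix.one_apply]⟩
  · exact ⟨_, B.smul_mem h (β : ℂ)⁻¹, fun k => by fin_cases k <;> simp [m4C, hβ']⟩
  · exact ⟨_, B.smul_mem (star_mem h) (α : ℂ)⁻¹, fun k => by
      rw [star_m4C]; fin_cases k <;> simp [hα']⟩
  · refine ⟨_, B.smul_mem (sub_mem (mul_mem h (star_mem h)) (B.smul_mem (one_mem _) (α * α : ℂ)))
      (β * α : ℂ)⁻¹, fun k => ?_⟩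
    rw [star_m4C]
    fin_cases k <;> simp [m4C]
    field_simp

theorem m4D_cyc (hα : α ≠ 0) (hβ : β ≠ 0) {B : StarSubalgebra ℂ M4} (h : m4D α β ∈ B) (i : Fin 4) :
    ∃ D ∈ B, ∀ k, D k 0 = if k = i then 1 else 0 := by
  have hα' : (α : ℂ) ≠ 0 := Complex.ofReal_ne_zero.2 hα
  have hβ' : (β : ℂ) ≠ 0 := Complex.ofReal_ne_zero.2 hβ
  fin_cases i
  · exact ⟨1, one_mem _, fun k => by simp [Matrix.one_apply]⟩
  · exact ⟨_, B.smul_mem (star_mem h) (α : ℂ)⁻¹, fun k => by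
      rw [star_m4D]; fin_cases k <;> simp [hα']⟩
  · exact ⟨_, B.smul_mem h (β : ℂ)⁻¹, fun k => by fin_cases k <;> simp [m4D, hβ']⟩
  · refine ⟨_, B.smul_mem (sub_mem (mul_mem h (star_mem h)) (B.smul_mem (one_mem _) (α * α : ℂ)))
      (β * α : ℂ)⁻¹, fun k => ?_⟩
    rw [star_m4D]
    fin_cases k <;> simp [m4D]
    field_simp

/-- The weights of the sites. -/
theorem exists_weights (tr : Prop) : ∃ μ α : ℕ → ℝ, (∀ n, 0 < μ n) ∧ (∀ n, 0 < α n) ∧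
    (∀ n, α n ^ 2 + (μ n * α n) ^ 2 = 1) ∧ (∀ n, (μ n * α n) ^ 2 = μ n ^ 2 / (1 + μ n ^ 2)) ∧
    (tr → ∀ n, μ n = 1) ∧ (∀ N, ∃ n, N ≤ n ∧ μ n = 1) ∧
    (¬tr → ∀ q : ℚ, 0 < q → ∀ N, ∃ n, N ≤ n ∧ μ n = q) := by
  obtain ⟨μ, h1, h2, h3⟩ : ∃ μ : ℕ → ℝ, (∀ n, 0 < μ n) ∧ (tr → ∀ n, μ n = 1) ∧
      (¬tr → ∀ q : ℚ, 0 < q → ∀ N, ∃ n, N ≤ n ∧ μ n = q) := by
    by_cases t : tr
    · exact ⟨fun _ => 1, fun _ => one_pos, fun _ _ => rfl, fun h => absurd t h⟩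
    obtain ⟨f, hf⟩ := exists_surjective_nat {q : ℚ // 0 < q}
    refine ⟨fun n => (f n.unpair.1).1, fun n => Rat.cast_pos.2 (f _).2, fun h => absurd h t,
      fun _ q hq N => ?_⟩
    obtain ⟨k, hk⟩ := hf ⟨q, hq⟩
    exact ⟨Nat.pair k N, Nat.right_le_pair k N, by simp [hk]⟩
  have e : ∀ n, √(1 + μ n ^ 2)⁻¹ ^ 2 = (1 + μ n ^ 2)⁻¹ := fun n => Real.sq_sqrt (by positivity)
  refine ⟨μ, fun n => √(1 + μ n ^ 2)⁻¹, h1, fun n => Real.sqrt_pos.2 (by positivity), fun n => ?_,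
    fun n => ?_, h2, fun N => ?_, h3⟩
  · rw [mul_pow, e]
    field_simp
  · rw [mul_pow, e, div_eq_mul_inv]
  · by_cases t : tr
    · exact ⟨N, le_rfl, h2 t N⟩
    · simpa using h3 t 1 one_pos N

end Crest.Agent.R078
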