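import Crest.Agent.R078.FQubit
import Crest.Agent.R078.AAmp
import Crest.Agent.R078.BDist
import Crest.Agent.R078.FStep
import Crest.Agent.R078.FTowerAux
import Crest.Agent.R078.FTowerAux2

/-! Row 78, stage (3): tensoring with an infinite tensor product of qubits. -/

set_option autoImplicit false

open scoped InnerProductSpace ComplexConjugate
open Filter Topology

namespace Crest.Agent.R078

open Crest.Agent.R121 (Mn Bd)
open Crest.Agent.R124 (ex)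
open Crest.OpAlg

universe u

variable {H : Type*} [NormedAddCommGroup H] [InnerProductSpace ℂ H] [CompleteSpace H]

theorem ftw_norm_le {c : Op H} (h1 : c * c = 0) (h2 : star c * c + c * star c = 1) : ‖c‖ ≤ 1 := by
  have hp : IsStarProjection (star c * c) := by
    refine ⟨?_, IsSelfAdjoint.star_mul_self c⟩
    rw [IsIdempotentElem, mul_assoc, ← mul_assoc c, eq_sub_of_add_eq' h2, sub_mul, one_mul,
      mul_assoc, h1, mul_zero, sub_zero]
  have := hp.norm_le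
  rw [CStarRing.norm_star_mul_self] at this
  nlinarith [norm_nonneg c]

theorem ftw_of_qb {c T : Op H} (h1 : c * c = 0) (h2 : star c * c + c * star c = 1)
    (hX : Commute T (c + star c)) (hZ : Commute T (1 - (2 : ℂ) • (star c * c))) :
    Commute T c ∧ Commute T (star c) := by
  have e0 : star c * c = (1 / 2 : ℂ) • (1 - (1 - (2 : ℂ) • (star c * c))) := by module
  have hp : Commute T (star c * c) := e0 ▸ ((Commute.one_right T).sub_right hZ).smul_right _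
  have e : (c + star c) * (star c * c) = c := by
    rw [add_mul, ← mul_assoc, ← mul_assoc, ← star_mul, h1, eq_sub_of_add_eq' h2, sub_mul, one_mul,
      mul_assoc, h1]
    simp
  have hc : Commute T c := e ▸ hX.mul_right hp
  exact ⟨hc, by simpa using hX.sub_right hc⟩

namespace Amp

variable {K : Type*} [NormedAddCommGroup K] [InnerProductSpace ℂ K] [CompleteSpace K]
variable (A : Amp (Multiplicative TG) H K) (μ α : ℕ → ℝ)

/-- The annihilators in the algebra. -/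
noncomputable def cc (n : ℕ) : Op K := A.mat n (m4C (α n) (μ n * α n))

/-- The annihilators in the commutant. -/
noncomputable def cd (n : ℕ) : Op K := A.mat n (m4D (α n) (μ n * α n))

/-- `M ⊗ ⨂ M₂`. -/
noncomputable def big (M : VN H) : VN K := cent (A.ι '' M.commutant ∪ Set.range (A.cd μ α))

/-- The finite levels. -/
noncomputable def lev (M : VN H) (m : ℕ) : VN K :=
  cent (((A.big μ α M).commutant : Set (Op K)) ∪ ({(A.tail m).f 1} ∪ Set.range (A.tail m).lam))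

variable {μ α} {M N : VN H} {T : Op K}

theorem mem_big : T ∈ A.big μ α M ↔ (∀ y ∈ M.commutant, Commute T (A.ι y)) ∧
    ∀ n, Commute T (A.cd μ α n) ∧ Commute T (star (A.cd μ α n)) := by
  rw [big, mem_cent]
  refine ⟨fun h => ⟨fun y hy => (h _ (Or.inl ⟨y, hy, rfl⟩)).1, fun n => h _ (Or.inr ⟨n, rfl⟩)⟩, ?_⟩
  rintro h _ (⟨y, hy, rfl⟩ | ⟨n, rfl⟩)
  · exact ⟨h.1 y hy, map_star A.ι y ▸ h.1 _ (star_mem hy)⟩
  · exact h.2 n

theorem mem_lev {m : ℕ} : T ∈ A.lev μ α M m ↔ T ∈ A.big μ α M ∧ A.TCom m T := by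
  rw [lev, mem_cent]
  refine ⟨fun h => ⟨mem_of_commute fun y hy => (h y (Or.inl hy)).1,
    (h _ (Or.inr (Or.inl rfl))).1, fun g => (h _ (Or.inr (Or.inr ⟨g, rfl⟩))).1⟩, ?_⟩
  rintro h y (hy | rfl | ⟨g, rfl⟩)
  · exact ⟨commute_of_mem h.1 hy, commute_of_mem h.1 (star_mem hy)⟩
  · exact ⟨h.2.1, by rw [(A.tail m).res.star_eq]; exact h.2.1⟩
  · exact ⟨h.2.2 g, by rw [(A.tail m).star_lam]; exact h.2.2 _⟩

theorem ι_mem_big {x : Op H} (hx : x ∈ M) : A.ι x ∈ A.big μ α M :=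
  A.mem_big.2 ⟨fun _ hy => (commute_of_mem hx hy).map A.ι, fun n =>
    ⟨A.ι_mat x n _, by rw [cd, ← map_star]; exact A.ι_mat x n _⟩⟩

theorem ι_mem_big' {y : Op H} (hy : y ∈ M.commutant) : A.ι y ∈ (A.big μ α M).commutant :=
  mem_cent_commutant (Or.inl ⟨y, hy, rfl⟩)

theorem cd_mem (n : ℕ) : A.cd μ α n ∈ (A.big μ α M).commutant :=
  mem_cent_commutant (Or.inr ⟨n, rfl⟩)

theorem cc_mem (n : ℕ) : A.cc μ α n ∈ A.big μ α M := by
  refine A.mem_big.2 ⟨fun y _ => (A.ι_mat y n _).symm, fun l => ?_⟩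
  rw [cc, cd, ← map_star]
  by_cases h : n = l
  · subst h
    exact ⟨m4_comm.map _, m4_comm'.map _⟩
  · exact ⟨A.mat_mat h _ _, A.mat_mat h _ _⟩

theorem Φ_mem (m : ℕ) (h : T ∈ A.big μ α M) : ftwΦ (A.tail m) T ∈ A.big μ α M := by
  obtain ⟨h1, h2⟩ := A.mem_big.1 h
  have key : ∀ n C, Commute T (A.mat n C) → Commute (ftwΦ (A.tail m) T) (A.mat n C) := by
    intro n C hC
    rcases lt_or_ge n m with a | a
    · exact (ftwΦ_comm _ (A.tcom_mat a C).1 (A.tcom_mat a C).2 hC.symm).symm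
    · exact ((A.tcom_Φ m T).mono A a).mat A C
  refine A.mem_big.2 ⟨fun y hy =>
    (ftwΦ_comm _ (A.tcom_ι m y).1 (A.tcom_ι m y).2 (h1 y hy).symm).symm, fun n => ?_⟩
  have := h2 n
  rw [cd, ← map_star] at this ⊢
  exact ⟨key _ _ this.1, key _ _ this.2⟩

theorem cc_vac (n : ℕ) : A.cc μ α n * A.vac n = (μ n : ℂ) • (star (A.cd μ α n) * A.vac n) := by
  rw [cc, cd, ← mat_vac, ← map_star, ← map_mul, ← map_mul, ← map_smul, m4C_vac]

theorem cc_vac' {n : ℕ} (h : μ n ≠ 0) :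
    star (A.cc μ α n) * A.vac n = ((μ n)⁻¹ : ℂ) • (A.cd μ α n * A.vac n) := by
  rw [cc, cd, ← mat_vac, ← map_star, ← map_mul, ← map_mul, ← map_smul, m4C_vac' h]

theorem cd_sq (n : ℕ) : A.cd μ α n * A.cd μ α n = 0 := by rw [cd, ← map_mul, m4D_sq, map_zero]

theorem cd_car {n : ℕ} (h : α n ^ 2 + (μ n * α n) ^ 2 = 1) :
    star (A.cd μ α n) * A.cd μ α n + A.cd μ α n * star (A.cd μ α n) = 1 := by
  rw [cd, ← map_star, ← map_mul, ← map_mul, ← map_add, m4D_car h, map_one]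

/-- The tower. -/
noncomputable def tower (M : VN H) {r : Prop} (h1 : ∀ n, 0 < μ n)
    (h3 : ∀ n, α n ^ 2 + (μ n * α n) ^ 2 = 1) (h4 : ∀ n, (μ n * α n) ^ 2 = μ n ^ 2 / (1 + μ n ^ 2))
    (h6 : ∀ N, ∃ n, N ≤ n ∧ μ n = 1) (h7 : r → ∀ q : ℚ, 0 < q → ∀ N, ∃ n, N ≤ n ∧ μ n = q) :
    Tower (A.big μ α M) r where
  L := A.lev μ α M
  L_le _ _ hx := (A.mem_lev.1 hx).1
  L_mono _ _ h _ hx := A.mem_lev.2 ⟨(A.mem_lev.1 hx).1, (A.mem_lev.1 hx).2.mono A h⟩
  Φ m := ftwΦ (A.tail m)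
  Φ_mem m x hx := A.mem_lev.2 ⟨A.Φ_mem m hx, A.tcom_Φ m x⟩
  Φ_comm _ _ _ hs h := ftwΦ_comm _ (A.mem_lev.1 hs).2.1 (A.mem_lev.1 hs).2.2 h
  Φ_star _ x := ftwΦ_star _ x
  Φ_col _ _ _ x C h := ftwΦ_col _ x C h
  Φ_tendsto := A.tendsto_Φ
  c := A.cc μ α
  c' := A.cd μ α
  e := A.vac
  μ := μ
  μ_pos := h1
  c_mem n := A.mem_lev.2 ⟨A.cc_mem n, A.tcom_mat n.lt_succ_self _⟩
  c_comm _ _ hx := (A.mem_lev.1 hx).2.mat A _
  c_sq n := by rw [cc, ← map_mul, m4C_sq, map_zero]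
  c_car n := by rw [cc, ← map_star, ← map_mul, ← map_mul, ← map_add, m4C_car (h3 n), map_one]
  c'_mem := A.cd_mem
  norm_c' n := ftw_norm_le (A.cd_sq n) (A.cd_car (h3 n))
  e_proj _ := A.pr_proj _
  e_comm _ _ hx := (A.mem_lev.1 hx).2.vac A
  e_comm_c n l h := by rw [← mat_vac]; exact A.mat_mat h _ _
  e_comm_e _ _ := A.pr_comm _ _
  e_tendsto := A.tendsto_vac
  c_e := A.cc_vac
  cs_e n := A.cc_vac' (h1 n).ne'
  e_cc_e n := by
    rw [cc, ← mat_vac, ← map_star, ← map_mul, ← map_mul, ← map_mul, m4C_num, map_smul, h4]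
  e_c_e n := by rw [cc, ← mat_vac, ← map_mul, ← map_mul, m4C_mean, map_zero]
  one := h6
  rat := h7

theorem cyc_cc {B : VN K} {ξ : H} (h1 : ∀ n, 0 < μ n) (h2 : ∀ n, 0 < α n) (hξ : Cyc M ξ)
    (hM : ∀ x ∈ M, A.ι x ∈ B) (hB : ∀ n, A.cc μ α n ∈ B) : Cyc B (A.V ξ) :=
  A.cyc_V hξ hM fun n => m4C_cyc (h2 n).ne' (mul_pos (h1 n) (h2 n)).ne'
    (B := B.toStarSubalgebra.comap (A.mat n)) (hB n)

theorem cycSep_big {ξ : H} (h1 : ∀ n, 0 < μ n) (h2 : ∀ n, 0 < α n) (hξ : CycSep M ξ) :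
    CycSep (A.big μ α M) (A.V ξ) :=
  ⟨by rw [A.norm_V, hξ.1], A.cyc_cc h1 h2 hξ.2.1 (fun _ => A.ι_mem_big) A.cc_mem,
    A.cyc_V hξ.2.2 (fun _ => A.ι_mem_big') fun n => m4D_cyc (h2 n).ne' (mul_pos (h1 n) (h2 n)).ne'
      (B := (A.big μ α M).commutant.toStarSubalgebra.comap (A.mat n)) (A.cd_mem n)⟩

theorem tr_big {ξ : H} (h1 : ∀ n, μ n = 1) (h2 : ∀ n, 0 < α n) (hξ : CycSep M ξ) (ht : Tr M ξ) :
    Tr (A.big μ α M) (A.V ξ) := by
  have h0 : ∀ n, 0 < μ n := fun n => h1 n ▸ one_pos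
  obtain ⟨S, hM, hv, hS⟩ := exists_std (A.cycSep_big h0 h2 hξ)
  obtain ⟨J, hJ⟩ := exists_trJ hξ.2.1 ht
  have key : ∀ a ∈ A.big μ α M, ∀ b ∈ (A.big μ α M).commutant, a (A.V ξ) = b (A.V ξ) →
      star a (A.V ξ) = star b (A.V ξ) → a ∈ cent (Set.range S.D.wave) := by
    rw [← hM, ← hv]
    intro a ha b hb e e'
    have h := (hS.centraliser ha hb e e').2
    refine mem_cent.2 ?_
    rintro _ ⟨t, rfl⟩
    exact ⟨h t, by rw [R084.star_wave]; exact h _⟩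
  have hc : Cyc (cent (Set.range S.D.wave)) (A.V ξ) := by
    refine A.cyc_cc h0 h2 hξ.2.1 (fun x hx => key _ (A.ι_mem_big hx) _ (A.ι_mem_big' (hJ.Rm_mem hx))
      ?_ ?_) fun n => key _ (A.cc_mem n) _ (star_mem (A.cd_mem n)) ?_ ?_
    · rw [A.ι_V, A.ι_V, hJ.Rm_vac hx]
    · rw [← map_star, ← map_star, A.ι_V, A.ι_V, star_Rm hJ.J_J, hJ.Rm_vac (star_mem hx)]
    · have := congrArg (fun T : Op K => T (A.V ξ)) (A.cc_vac (μ := μ) (α := α) n)
      simpa only [h1, mul_apply_eq_comp, A.vac_V, Complex.ofReal_one, one_smul] using this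
    · have := congrArg (fun T : Op K => T (A.V ξ)) (A.cc_vac' (μ := μ) (α := α) (h0 n).ne')
      simpa only [h1, mul_apply_eq_comp, A.vac_V, Complex.ofReal_one, inv_one, one_smul, star_star]
        using this
  have hw : ∀ t, S.D.wave t = 1 := fun t => hc.ext fun a ha => by
    rw [← mul_apply_eq_comp, ← (mem_cent.1 ha _ ⟨t, rfl⟩).1.eq, mul_apply_eq_comp, ← hv,
      R084.wave_vac, one_apply_eq_self]
  have := (trJ_of_wave hw).tr
  rwa [hM, hv] at this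

theorem near_big {δ : ℝ} (h3 : ∀ n, α n ^ 2 + (μ n * α n) ^ 2 = 1)
    (h : Near (cent (A.ι '' (M.commutant : Set (Op H)))) (cent (A.ι '' (N.commutant : Set (Op H)))) δ) :
    Near (A.big μ α M) (A.big μ α N) δ := by
  have gen : ∀ {s : Op K} {n : ℕ}, Commute s (A.cd μ α n) → Commute s (star (A.cd μ α n)) →
      Commute s (A.cd μ α n + star (A.cd μ α n)) ∧
        Commute s (1 - (2 : ℂ) • (star (A.cd μ α n) * A.cd μ α n)) := fun a b =>
    ⟨a.add_right b, (Commute.one_right _).sub_right ((b.mul_right a).smul_right _)⟩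
  obtain ⟨w, w1, w2, w3, w4, w5⟩ := exists_pauli (X := fun n => A.cd μ α n + star (A.cd μ α n))
    (Z := fun n => 1 - (2 : ℂ) • (star (A.cd μ α n) * A.cd μ α n))
    (fun n => by
      simpa using qb_of_site (one_mem _) (A.cd_sq n) (A.cd_car (h3 n)) (Commute.one_left _)
        (Commute.one_left _))
    (fun i j hij => by
      have a : ∀ C, Commute (A.mat i C) (A.cd μ α j) ∧ Commute (A.mat i C) (star (A.cd μ α j)) :=
        fun C => ⟨A.mat_mat hij _ _, by rw [cd, ← map_star]; exact A.mat_mat hij _ _⟩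
      simp only [cd.eq_def _ _ _ i]
      rw [← map_star, ← map_add, ← map_mul, ← map_smul, ← map_one (A.mat i), ← map_sub, map_one]
      exact ⟨(gen (a _).1 (a _).2).1, (gen (a _).1 (a _).2).2, (gen (a _).1 (a _).2).1,
        (gen (a _).1 (a _).2).2⟩)
  have hw : PRep w := ⟨w1, fun a b => ⟨_, norm_sg a b, w2 a b⟩⟩
  have e : ∀ M : VN H, A.big μ α M = cent (A.ι '' M.commutant ∪ Set.range w) := by
    intro M
    refine SetLike.ext fun T => ?_
    rw [hw.mem_cent_union, mem_big, mem_cent]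
    refine and_congr ⟨?_, fun h y hy => (h _ ⟨y, hy, rfl⟩).1⟩ ⟨fun h => w5 T fun n =>
      gen (h n).1 (h n).2, fun h n => ftw_of_qb (A.cd_sq n) (A.cd_car (h3 n))
        (w3 n ▸ h _) (w4 n ▸ h _)⟩
    rintro h _ ⟨y, hy, rfl⟩
    exact ⟨h y hy, map_star A.ι y ▸ h _ (star_mem hy)⟩
  rw [e, e]
  refine hw.near_cent_union h fun a y hy => mul_mem (mul_mem ?_ hy) (star_mem ?_) <;>
  · refine mem_cent.2 ?_
    rintro _ ⟨x, -, rfl⟩
    have b : ∀ x, Commute (w a) (A.ι x) := fun x => (w5 _ (fun n => gen (A.ι_mat x n _)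
      (by rw [cd, ← map_star]; exact A.ι_mat x n _)) a).symm
    exact ⟨b x, map_star A.ι x ▸ b _⟩

end Amp

/-- `K = ℓ²(Γ, H)` with `Γ = Multiplicative (ℕ →₀ ZMod 4)` (`exists_amp`); `δ₀` at site `n` is the
vector `ψ = α |00⟩ + β |11⟩`, `α = (1 + μ²)^{-1/2}`, `β = μ α`, `δ₁ = |01⟩`, `δ₂ = |10⟩`,
`δ₃ = β |00⟩ - α |11⟩`.  `e n` = projection onto the configurations vanishing at `n` (`R078X.dg`),
matrix units `E n i j = lam (single n i) * e n * lam (single n (-j))`,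
`c = β E₁₀ + α E₀₂ + β E₃₂ - α E₁₃`, `c' = β E₂₀ + α E₀₁ + β E₃₁ - α E₂₃`.
`M₁ = cent (ι '' M' ∪ range c')`, same for `N₁`; closeness by `near_cent_map` and
`PRep.near_cent_union` for the Pauli group (`exists_pauli`) of `X' = c' + c'⋆`, `Z' = 1 - 2 c'⋆c'`.
`p m` = projection onto the configurations supported in `range m`, `Γ m` = elements vanishing on
`range m`, `Φ m x = bsum (fun g : Γ m => lam g * p m * lam g⁻¹) (fun g => lam g * p m * x * p m * lam g⁻¹)`,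
`L m = cent (M₁' ∪ {p m} ∪ lam '' Γ m)`.  `μ n = 1` if `tr`; otherwise `μ` runs through all positive
rationals infinitely often.  `V ξ` is cyclic for `M₁ ∋ ι x, c n` and for `M₁' ∋ ι y, c' n` (every
`δ_i` is a polynomial in `c, c⋆` applied to `δ₀`; induction on the support).  Tracial case: take `S`
from `exists_std`; by `Std.centraliser` the waves commute with `ι x` (partner `ι (Rm J x)`,
`exists_trJ`) and with `c n`, `(c n)⋆` (partners `(c' n)⋆`, `c' n`), so they fix a total set;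
`trJ_of_wave`. -/
theorem exists_tower : ∃ C : ℝ, 0 ≤ C ∧ ∀ (H : Type u) [NormedAddCommGroup H]
    [InnerProductSpace ℂ H] [CompleteSpace H] [TopologicalSpace.SeparableSpace H] (M N : VN H)
    (ξ : H) (tr : Prop) (δ : ℝ), CycSep M ξ → (tr → Tr M ξ) → 0 ≤ δ → Cl M N δ →
    ∃ (K : Type u) (_ : NormedAddCommGroup K) (_ : InnerProductSpace ℂ K) (_ : CompleteSpace K)
      (M₁ N₁ : VN K) (V : H →L[ℂ] K) (ι : Op H →⋆ₐ[ℂ] Op K),
      TopologicalSpace.SeparableSpace K ∧ Nonempty (Tower M₁ (¬tr)) ∧ CycSep M₁ (V ξ) ∧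
      (tr → Tr M₁ (V ξ)) ∧ Cl M₁ N₁ (C * δ) ∧ (∀ ζ, ‖V ζ‖ = ‖ζ‖) ∧
      (∀ x ζ, ι x (V ζ) = V (x ζ)) ∧ (∀ x ∈ M, ι x ∈ M₁) ∧
      ∀ y ∈ N.commutant, ι y ∈ N₁.commutant := by
  obtain ⟨C, hC, h⟩ := near_cent_map.{u}
  refine ⟨C, hC, fun H _ _ _ _ M N ξ tr δ hξ ht hδ hMN => ?_⟩
  obtain ⟨A⟩ := exists_amp (Multiplicative TG) H
  obtain ⟨μ, α, h1, h2, h3, h4, h5, h6, h7⟩ := exists_weights tr
  have : Countable (Multiplicative TG) := inferInstanceAs (Countable TG)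
  exact ⟨_, inferInstance, inferInstance, inferInstance, A.big μ α M, A.big μ α N, A.V, A.ι,
    A.separable, ⟨A.tower M h1 h3 h4 h6 h7⟩, A.cycSep_big h1 h2 hξ,
    fun t => A.tr_big (h5 t) h2 hξ (ht t),
    ⟨A.near_big h3 (h _ _ A.ι M N δ A.ι_injective hδ hMN.1),
      A.near_big h3 (h _ _ A.ι N M δ A.ι_injective hδ hMN.2)⟩,
    A.norm_V, A.ι_V, fun _ => A.ι_mem_big, fun _ => A.ι_mem_big'⟩

end Crest.Agent.R078
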