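import Crest.Agent.R078.FLim
import Crest.Agent.R078.FTowerEx
import Crest.Agent.R078.BDesc

/-! Row 78, stage (3): reduction to algebras with an irreducible frame. -/

set_option autoImplicit false

open scoped InnerProductSpace ComplexConjugate
open Filter Topology

namespace Crest.Agent.R078

open Crest.Agent.R121 (Mn Bd)
open Crest.Agent.R124 (ex)
open Crest.OpAlg

universe u

variable {H : Type*} [NormedAddCommGroup H] [InnerProductSpace ℂ H] [CompleteSpace H]

theorem good_std (tr : Prop) (h : GoodOn (Cls.frame.{u} tr)) : GoodOn (Cls.std.{u} tr) := by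
  obtain ⟨C, -, hC⟩ := exists_tower.{u}
  refine good_of_desc (C := C) one_pos ?_ h
  rintro H _ _ _ M N δ κ ε ⟨hs, ξ, hξ, htr⟩ hδ - hcl - hε hQ
  obtain ⟨K, _, _, _, M₁, N₁, V, ι, hK, ⟨T⟩, h1, h2, h3, h4, h5, h6, h7⟩ :=
    hC H M N ξ tr δ hξ htr hδ hcl
  exact ns_desc_exact V h4 ι h5 h6 h7 hε (hQ K M₁ N₁ ⟨hK, exists_framed T h1 h2⟩ h3)

end Crest.Agent.R078
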