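import Crest.Agent.R078.FChan

/-! Row 78, stage (3): one-step channels with quadratic budget. -/

set_option autoImplicit false

open scoped InnerProductSpace ComplexConjugate
open Filter Topology

namespace Crest.Agent.R078

open Crest.Agent.R121 (Mn Bd)
open Crest.Agent.R124 (ex)
open Crest.OpAlg

universe u

variable {H : Type*} [NormedAddCommGroup H] [InnerProductSpace ℂ H] [CompleteSpace H]

variable {S : ModularDatum H} {B : VN H}

open MeasureTheory
open Crest.Agent.R084 (smear)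

theorem FOne_Rm_smul (J : H ≃ₗᵢ⋆[ℂ] H) (c : ℂ) (y : Op H) : Rm J (c • y) = c • Rm J y := by
  unfold Rm
  rw [star_smul, jc_smul]
  simp

theorem FOne_flow_add (t : ℝ) (x y : Op H) : S.flow t (x + y) = S.flow t x + S.flow t y := by
  simp only [ModularDatum.flow, mul_add, add_mul]

theorem FOne_sq (x : ℝ) (hx : 0 ≤ x) (y z : Op H) :
    star (((√x : ℝ) : ℂ) • y) * (((√x : ℝ) : ℂ) • z) = x • (star y * z) := by
  rw [star_smul, smul_mul_smul_comm, Complex.star_def, Complex.conj_ofReal, ← Complex.ofReal_mul,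
    Real.mul_self_sqrt hx, Complex.coe_smul]

theorem FOne_sq' (x : ℝ) (hx : 0 ≤ x) (y z : Op H) :
    (((√x : ℝ) : ℂ) • y) * star (((√x : ℝ) : ℂ) • z) = x • (y * star z) := by
  rw [star_smul, smul_mul_smul_comm, Complex.star_def, Complex.conj_ofReal, ← Complex.ofReal_mul,
    Real.mul_self_sqrt hx, Complex.coe_smul]

/-- the smeared operator and its real part -/
theorem FOne_K (hB : Sub S B) {G : Op H} (hG : G ∈ B) (hs : star G = G)
    (hc : Continuous fun t => S.flow t G) : ∃ (ρ : ℝ → ℝ) (K : Op H), Integrable ρ ∧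
      Continuous ρ ∧ (∀ t, 0 < ρ t) ∧ Pr S B K (star K) ∧
      K + star K = (2 : ℝ) • ∫ t, ρ t • S.flow t G := by
  obtain ⟨ρ, f, g, hρ, cρ, pρ, hf, hg, hfg⟩ := exists_kernel
  have hρ' : Integrable fun t => conj (ρ t) := (Complex.conjCLE : ℂ →L[ℝ] ℂ).integrable_comp hρ
  have hn : ∀ t, ‖S.flow t G‖ ≤ ‖G‖ := fun t =>
    ContinuousLinearMap.opNorm_le_bound _ (norm_nonneg _) (R084.norm_flow_apply_le S t G)
  have e : star (smear S volume ρ hρ G) = smear S volume (fun t => conj (ρ t)) hρ' G := by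
    rw [R084.star_smear S volume ρ hρ hρ', hs]
  refine ⟨fun t => (ρ t).re, smear S volume ρ hρ G, hρ.re, Complex.continuous_re.comp cρ, pρ, ?_,
    ?_⟩
  · rw [e]; exact hB.pr_smear hρ hρ' hf hg hfg hG
  · rw [e, smear_eq_integral S hρ hc, smear_eq_integral S hρ' hc,
      ← integral_add (R084.integrable_smul_of_bound hρ hc _ hn)
        (R084.integrable_smul_of_bound hρ' hc _ hn), ← integral_smul]
    congr 1
    funext t
    rw [← add_smul, Complex.add_conj, smul_smul, Complex.coe_smul]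

/-- Let `ρ, f, g` be from `exists_kernel`, `G = a⋆a + b b⋆` (norm continuous flow), `K = smear ρ G`,
so `K⋆ = smear (conj ρ) G`, `Pr K K⋆` (`Sub.pr_smear`, `R084.star_smear`) and
`K + K⋆ = 2 ∫ re ρ t • σ_t G` (`smear_eq_integral`).  Put `q = 1 - (κ/2) K` (`Pr q q⋆`),
`ℰ t = ∑ l, ‖σ_t a (w l) - Rm (σ_t b) (w l)‖²` (continuous, bounded, `ℰ 0 > 0`), `E₀ = ∫ re ρ • ℰ > 0`.
`exists_quadrature` in `Op H × ℝ` for `Φ t = (σ_t G, ℰ t)` with precision `κ` gives nodes `s j`,
weights `λ j`.  Family (index `Option (Fin n ⊕ Fin n)`): `(q, q⋆)`,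
`√(κ λ j) • (σ_{s j} a, σ_{s j} b)`, `√(κ λ j) • (σ_{s j} b⋆, σ_{s j} a⋆)` (`Pr.swap`).  Both
`∑ a⋆a` and `∑ b b⋆` equal `q⋆q + κ ∑ λ j σ_{s j} G = 1 + O(κ²)`; apply `kr_of_approx` and
`Kr.energy_le`: the energy is at least `κ (E₀ - κ) / (1 + O(κ²))`. -/
theorem exists_one_step (hB : Sub S B) {a b : Op H} (h : Pr S B a b)
    (ha : Continuous fun t => S.flow t a) (hb : Continuous fun t => S.flow t b)
    {ι : Type} [Fintype ι] (w : ι → H) (hw : ∃ l, a (w l) ≠ Rm S.J b (w l)) :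
    ∃ E C : ℝ, 0 < E ∧ 0 < C ∧ ∀ᶠ κ in 𝓝[>] (0 : ℝ), ∃ T, Ch S B (C * κ ^ 2) T ∧
      κ * E ≤ ∑ l, (‖w l‖ ^ 2 - (⟪w l, T (w l)⟫_ℂ).re) := by
  classical
  have hGB : star a * a + b * star b ∈ B :=
    add_mem (mul_mem (star_mem h.ma) h.ma) (mul_mem h.mb (star_mem h.mb))
  have hfl : ∀ t, S.flow t (star a * a + b * star b) =
      star (S.flow t a) * S.flow t a + S.flow t b * star (S.flow t b) := fun t => by
    rw [FOne_flow_add, R084.star_flow, R084.star_flow, R084.flow_mul, R084.flow_mul]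
  have hcG : Continuous fun t => S.flow t (star a * a + b * star b) := by
    simp only [hfl]
    exact (ha.star.mul ha).add (hb.mul hb.star)
  obtain ⟨ρ, K, iρ, cρ, pρ, hK, eK⟩ := FOne_K hB hGB (by simp [star_add, star_mul]) hcG
  set G := star a * a + b * star b with hG
  have hn : ∀ t, ‖S.flow t G‖ ≤ ‖G‖ := fun t =>
    ContinuousLinearMap.opNorm_le_bound _ (norm_nonneg _) (R084.norm_flow_apply_le S t G)
  set En : ℝ → ℝ := fun t => ∑ l, ‖S.flow t a (w l) - Rm S.J (S.flow t b) (w l)‖ ^ 2 with hEn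
  have cEn : Continuous En := by
    refine continuous_finsetSum _ fun l _ => (Continuous.norm (Continuous.sub ?_ ?_)).pow 2
    · exact ha.clm_apply continuous_const
    · exact S.J.continuous.comp (hb.star.clm_apply continuous_const)
  have En0 : ∀ t, 0 ≤ En t := fun t => Finset.sum_nonneg fun _ _ => sq_nonneg _
  have bEn : ∀ t, En t ≤ ∑ l, (‖a‖ * ‖w l‖ + ‖star b‖ * ‖w l‖) ^ 2 := fun t => by
    refine Finset.sum_le_sum fun l _ => pow_le_pow_left₀ (norm_nonneg _)
      ((norm_sub_le _ _).trans (add_le_add (R084.norm_flow_apply_le S t a _) ?_)) 2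
    have := R084.norm_flow_apply_le S t (star b) (S.J (w l))
    rw [← R084.star_flow, S.J.norm_map] at this
    rw [Rm, jc_apply, S.J.norm_map]
    exact this
  have pEn : 0 < En 0 := by
    obtain ⟨l, hl⟩ := hw
    refine Finset.sum_pos' (fun _ _ => sq_nonneg _) ⟨l, Finset.mem_univ _, ?_⟩
    have e : ∀ x : Op H, S.flow 0 x = x := fun x => by
      simp [ModularDatum.flow, R084.wave_zero]
    rw [e, e]
    exact pow_pos (norm_pos_iff.2 (sub_ne_zero.2 hl)) 2
  have cΦ : Continuous fun t => (S.flow t G, En t) := hcG.prodMk cEn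
  have bΦ : ∀ t, ‖(S.flow t G, En t)‖ ≤ ‖G‖ + ∑ l, (‖a‖ * ‖w l‖ + ‖star b‖ * ‖w l‖) ^ 2 := by
    intro t
    have h1 := (En0 t).trans (bEn t)
    have h2 := norm_nonneg G
    rw [Prod.norm_def]
    refine max_le ((hn t).trans (by linarith)) ?_
    rw [Real.norm_of_nonneg (En0 t)]
    linarith [bEn t]
  have iΦ : Integrable fun t => ρ t • (S.flow t G, En t) :=
    iρ.smul_bdd _ cΦ.aestronglyMeasurable (Eventually.of_forall bΦ)
  have hE0 : 0 < ∫ t, ρ t * En t :=
    integral_pos_of_integrable_nonneg_nonzero (x := 0) (cρ.mul cEn) iΦ.snd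
      (fun t => mul_nonneg (pρ t).le (En0 t)) (mul_pos (pρ 0) pEn).ne'
  set E0 := ∫ t, ρ t * En t with hE0d
  set D : ℝ := 1 + ‖K‖ ^ 2 / 4 with hD
  have hD1 : 1 ≤ D := by rw [hD]; nlinarith [sq_nonneg ‖K‖]
  refine ⟨E0 / 8, 4 * D, by positivity, by positivity, ?_⟩
  have ev : ∀ᶠ κ in 𝓝[>] (0 : ℝ), κ ∈ Set.Ioo 0 (min (E0 / 2) (1 / (2 * D))) :=
    Ioo_mem_nhdsGT (by positivity)
  filter_upwards [ev] with κ hκ
  have hκ0 := hκ.1
  have hκ1 : κ < E0 / 2 := hκ.2.trans_le (min_le_left _ _)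
  have hκ2 : κ * (2 * D) < 1 := (lt_div_iff₀ (by positivity)).1 (hκ.2.trans_le (min_le_right _ _))
  have hκ3 : D * κ ^ 2 ≤ 1 / 2 := by nlinarith
  obtain ⟨n, s, lam, hl, hq⟩ := exists_quadrature iρ (fun t => (pρ t).le) cΦ bΦ hκ0
  have q1 : ‖∑ j, lam j • S.flow (s j) G - ∫ t, ρ t • S.flow t G‖ ≤ κ := by
    have := (norm_fst_le _).trans hq
    rw [Prod.fst_sub, fst_integral iΦ, Prod.fst_sum] at this
    exact this
  have q2 : E0 - κ ≤ ∑ j, lam j * En (s j) := by
    have := (norm_snd_le _).trans hq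
    rw [Prod.snd_sub, snd_integral iΦ, Prod.snd_sum, Real.norm_eq_abs] at this
    have h2 : |∑ j, lam j * En (s j) - E0| ≤ κ := this
    linarith [(abs_le.1 h2).1]
  set q : Op H := 1 - ((κ / 2 : ℝ) : ℂ) • K with hqd
  have sq' : star q = 1 - ((κ / 2 : ℝ) : ℂ) • star K := by
    rw [hqd, star_sub, star_one, star_smul, Complex.star_def, Complex.conj_ofReal]
  let a' : Option (Fin n ⊕ Fin n) → Op H := fun i => match i with
    | none => q
    | some (Sum.inl j) => ((√(κ * lam j) : ℝ) : ℂ) • S.flow (s j) a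
    | some (Sum.inr j) => ((√(κ * lam j) : ℝ) : ℂ) • star (S.flow (s j) b)
  let b' : Option (Fin n ⊕ Fin n) → Op H := fun i => match i with
    | none => star q
    | some (Sum.inl j) => ((√(κ * lam j) : ℝ) : ℂ) • S.flow (s j) b
    | some (Sum.inr j) => ((√(κ * lam j) : ℝ) : ℂ) • star (S.flow (s j) a)
  have hpr : ∀ i, Pr S B (a' i) (b' i) := by
    rintro (_ | j | j)
    · show Pr S B q (star q)
      rw [sq']
      exact (Pr.one S B).sub (hK.smul _)
    · exact (h.flow hB _).smul _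
    · exact (h.flow hB _).swap.smul _
  have hkl : ∀ j, 0 ≤ κ * lam j := fun j => mul_nonneg hκ0.le (hl j)
  have key : ‖star q * q + ∑ j, (κ * lam j) • S.flow (s j) G - 1‖ ≤ D * κ ^ 2 := by
    have e : star q * q + ∑ j, (κ * lam j) • S.flow (s j) G - 1 =
        κ • (∑ j, lam j • S.flow (s j) G - ∫ t, ρ t • S.flow t G) +
          (κ ^ 2 / 4) • (star K * K) := by
      have e1 : (∫ t, ρ t • S.flow t G) = (1 / 2 : ℝ) • (K + star K) := by
        rw [eK, smul_smul]; norm_num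
      rw [e1, sq', hqd, Complex.coe_smul, Complex.coe_smul, smul_sub, Finset.smul_sum]
      simp only [smul_smul, sub_mul, mul_sub, one_mul, mul_one, smul_mul_assoc, mul_smul_comm]
      module
    rw [e]
    refine (norm_add_le _ _).trans ?_
    rw [norm_smul, norm_smul, Real.norm_of_nonneg hκ0.le, Real.norm_of_nonneg (by positivity),
      CStarRing.norm_star_mul_self, hD]
    nlinarith [mul_le_mul_of_nonneg_left q1 hκ0.le]
  have s1 : ∑ i, star (a' i) * a' i = star q * q + ∑ j, (κ * lam j) • S.flow (s j) G := by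
    rw [Fintype.sum_option, Fintype.sum_sum_type, ← Finset.sum_add_distrib]
    congr 1
    refine Finset.sum_congr rfl fun j _ => ?_
    simp only [a']
    rw [FOne_sq _ (hkl j), FOne_sq _ (hkl j), star_star, hfl, smul_add]
  have s2 : ∑ i, b' i * star (b' i) = star q * q + ∑ j, (κ * lam j) • S.flow (s j) G := by
    rw [Fintype.sum_option, Fintype.sum_sum_type, ← Finset.sum_add_distrib]
    congr 1
    · simp only [b', star_star]
    refine Finset.sum_congr rfl fun j _ => ?_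
    simp only [b']
    rw [FOne_sq' _ (hkl j), FOne_sq' _ (hkl j), star_star, hfl, smul_add, add_comm]
  have kr := kr_of_approx hpr (κ := D * κ ^ 2) (by positivity) hκ3 (s1 ▸ key) (s2 ▸ key)
  refine ⟨_, ⟨_, inferInstance, _, _, by rwa [mul_assoc], rfl⟩, ?_⟩
  have hr : 1 / 2 ≤ ((√(1 + D * κ ^ 2))⁻¹) ^ 2 := by
    rw [inv_pow, Real.sq_sqrt (by positivity), one_div]
    exact inv_anti₀ (by positivity) (by linarith)
  set r : ℝ := (√(1 + D * κ ^ 2))⁻¹ with hrd
  have en : ∀ l, r ^ 2 * ∑ j, κ * lam j *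
      ‖S.flow (s j) a (w l) - Rm S.J (S.flow (s j) b) (w l)‖ ^ 2 ≤
      2 * (‖w l‖ ^ 2 - (⟪w l, chan S (fun i => (r : ℂ) • a' i) (fun i => (r : ℂ) • b' i)
        (w l)⟫_ℂ).re) := by
    intro l
    rw [mul_sub]
    refine le_trans ?_ (kr.energy_le (w l))
    rw [Fintype.sum_option, Fintype.sum_sum_type, Finset.mul_sum]
    refine le_add_of_nonneg_of_le (sq_nonneg _) (le_add_of_le_of_nonneg (le_of_eq ?_)
      (Finset.sum_nonneg fun _ _ => sq_nonneg _))
    refine Finset.sum_congr rfl fun j _ => ?_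
    simp only [a', b', FOne_Rm_smul, smul_apply]
    rw [← smul_sub, ← smul_sub, norm_smul, norm_smul, Complex.norm_real, Complex.norm_real,
      mul_pow, mul_pow, Real.norm_eq_abs, Real.norm_eq_abs, sq_abs, sq_abs, Real.sq_sqrt (hkl j)]
  have en2 := Finset.sum_le_sum fun l (_ : l ∈ Finset.univ) => en l
  rw [← Finset.mul_sum, ← Finset.mul_sum, Finset.sum_comm] at en2
  have e3 : ∑ j, ∑ l, κ * lam j * ‖S.flow (s j) a (w l) - Rm S.J (S.flow (s j) b) (w l)‖ ^ 2 =
      κ * ∑ j, lam j * En (s j) := by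
    rw [Finset.mul_sum]
    refine Finset.sum_congr rfl fun j _ => ?_
    rw [← Finset.mul_sum, mul_assoc]
  rw [e3] at en2
  have e4 : κ * (E0 / 2) ≤ κ * ∑ j, lam j * En (s j) :=
    mul_le_mul_of_nonneg_left (by linarith) hκ0.le
  have e5 : 1 / 2 * (κ * (E0 / 2)) ≤ r ^ 2 * (κ * ∑ j, lam j * En (s j)) :=
    mul_le_mul hr e4 (by positivity) (sq_nonneg _)
  linarith

end Crest.Agent.R078
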