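import Crest.Agent.R078.FKer
import Crest.Agent.R078.BMean

/-! Row 78, stage (3): exact pairs. -/

set_option autoImplicit false

open scoped InnerProductSpace ComplexConjugate
open Filter Topology

namespace Crest.Agent.R078

open Crest.Agent.R121 (Mn Bd)
open Crest.Agent.R124 (ex)
open Crest.OpAlg

universe u

variable {H : Type*} [NormedAddCommGroup H] [InnerProductSpace ℂ H] [CompleteSpace H]
open MeasureTheory LineCalculus
open scoped BoundedContinuousFunction
open Crest.Agent.R084 (smear)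

variable {S : ModularDatum H} {B : VN H} {a b a' b' x : Op H}

theorem Pr.one (S : ModularDatum H) (B : VN H) : Pr S B 1 1 := by
  exact ⟨one_mem _, one_mem _, by simp only [star_one, one_apply_eq_self, J_vac]⟩

theorem Pr.swap (h : Pr S B a b) : Pr S B (star b) (star a) := by
  exact ⟨star_mem h.mb, star_mem h.ma, by rw [star_star, h.vac, S.J_J]⟩

theorem Pr.vac_eq (h : Pr S B a b) : a S.vac = Rm S.J b S.vac := by
  rw [Rm, jc_apply, J_vac, h.vac]

theorem Sub.Rm_mem (hB : Sub S B) (hb : b ∈ B) : Rm S.J b ∈ S.M.commutant := by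
  exact hB.std.jc_mem _ (star_mem (hB.le _ hb))

theorem Pr.mul (hB : Sub S B) (h : Pr S B a b) (h' : Pr S B a' b') :
    Pr S B (a * a') (b * b') := by
  refine ⟨mul_mem h.ma h'.ma, mul_mem h.mb h'.mb, ?_⟩
  have h1 : S.J (star (b * b') S.vac) = Rm S.J (b * b') S.vac := by rw [Rm, jc_apply, J_vac]
  rw [h1, Rm_mul S.J_J, mul_apply_eq_comp, mul_apply_eq_comp, h'.vac_eq, ← h.vac_eq,
    R084.comm_of_mem S.M (hB.le _ h.ma) (hB.Rm_mem h'.mb)]

theorem Pr.smul (h : Pr S B a b) (c : ℂ) : Pr S B (c • a) (c • b) := by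
  refine ⟨B.toStarSubalgebra.smul_mem h.ma c, B.toStarSubalgebra.smul_mem h.mb c, ?_⟩
  rw [star_smul, smul_apply, smul_apply, map_smulₛₗ, h.vac]
  simp

theorem Pr.sub (h : Pr S B a b) (h' : Pr S B a' b') : Pr S B (a - a') (b - b') := by
  refine ⟨sub_mem h.ma h'.ma, sub_mem h.mb h'.mb, ?_⟩
  rw [star_sub, sub_apply, sub_apply, map_sub, h.vac, h'.vac]

theorem Pr.flow (hB : Sub S B) (h : Pr S B a b) (t : ℝ) : Pr S B (S.flow t a) (S.flow t b) := by
  refine ⟨hB.flow t _ h.ma, hB.flow t _ h.mb, ?_⟩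
  rw [R084.star_flow, R084.flow_vac, R084.flow_vac, hB.std.J_wave, h.vac]

theorem Pr.halfExp (hB : Sub S B) (h : Pr S B a b) : S.D.HalfExp (b S.vac) (a S.vac) := by
  rw [h.vac]
  exact R084.halfExp_of_mem S (hB.le _ h.mb)

theorem Sub.Rm_flow (hB : Sub S B) (t : ℝ) (b : Op H) :
    Rm S.J (S.flow t b) = S.flow t (Rm S.J b) := by
  rw [Rm, Rm, R084.star_flow, hB.std.jc_flow]

theorem Pr.cm_vac (hB : Sub S B) (h : Pr S B a b) (hx : x ∈ S.M) :
    a (x S.vac) - Rm S.J b (x S.vac) = cm a x S.vac := by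
  rw [R084.comm_of_mem S.M hx (hB.Rm_mem h.mb), ← h.vac_eq, cm, sub_apply, mul_apply_eq_comp,
    mul_apply_eq_comp]

theorem Sub.smear_mem (hB : Sub S B) {ρ : ℝ → ℂ} (hρ : Integrable ρ) (hx : x ∈ B) :
    smear S volume ρ hρ x ∈ B := by
  refine R084.mem_of_comm _ _ fun c hc y => ?_
  rw [R084.smear_apply, R084.smear_apply,
    ← c.integral_comp_comm (R084.integrable_smul_flow S hρ x y)]
  congr 1
  ext t
  rw [map_smul, R084.comm_of_mem B (hB.flow t x hx) hc]

/-- `R084.smear_vac`, `J_star_vac_of_fun`. -/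
theorem Sub.pr_smear (hB : Sub S B) {ρ₁ ρ₂ : ℝ → ℂ} (h₁ : Integrable ρ₁) (h₂ : Integrable ρ₂)
    {f g : ℝ →ᵇ ℂ} (hf : ∀ u, f u = ∫ t, ρ₁ t * character t u)
    (hg : ∀ u, g u = ∫ t, ρ₂ t * character t u)
    (hfg : ∀ u, f u = g u * ((Real.exp (u / 2) : ℝ) : ℂ)) (hx : x ∈ B) :
    Pr S B (smear S volume ρ₁ h₁ x) (smear S volume ρ₂ h₂ x) := by
  refine ⟨hB.smear_mem h₁ hx, hB.smear_mem h₂ hx, ?_⟩
  rw [R084.smear_vac S volume ρ₁ h₁ f hf, J_star_vac_of_fun (hB.le _ (hB.smear_mem h₂ hx)) hfg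
    (R084.smear_vac S volume ρ₂ h₂ g hg x)]

/-- `σ_t (smear ρ x) = smear (ρ (· - t)) x` and translation is continuous in `L¹`
(`MeasureTheory.Lp.compMeasurePreserving_continuous`, or dominated convergence for Gaussians if you
prefer to add the hypothesis `ρ = c • gs β y`; it is only used below). -/
theorem continuous_flow_smear (S : ModularDatum H) {ρ : ℝ → ℂ} (hρ : Integrable ρ) (x : Op H) :
    Continuous fun t => S.flow t (smear S volume ρ hρ x) := by
  let Ψ : (ℝ →₁[volume] ℂ) → Op H := fun g => smear S volume g (L1.integrable_coeFn g) x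
  have hsub : ∀ g g', Ψ g - Ψ g' = Ψ (g - g') := by
    intro g g'
    ext y
    simp only [Ψ, sub_apply, R084.smear_apply]
    rw [← integral_sub (R084.integrable_smul_flow S (L1.integrable_coeFn g) x y)
      (R084.integrable_smul_flow S (L1.integrable_coeFn g') x y)]
    refine integral_congr_ae ?_
    filter_upwards [Lp.coeFn_sub g g'] with t ht
    rw [ht, Pi.sub_apply, sub_smul]
  have hΨ : Continuous Ψ := by
    refine (LipschitzWith.of_dist_le_mul (K := ‖x‖₊) fun g g' => ?_).continuous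
    rw [dist_eq_norm, dist_eq_norm, hsub, L1.norm_eq_integral_norm (g - g'), mul_comm]
    exact R084.norm_smear_le S volume _ _ x
  let τ : C(ℝ, C(ℝ, ℝ)) := ContinuousMap.curry ⟨fun p : ℝ × ℝ => p.2 - p.1, by fun_prop⟩
  have hτ : ∀ s, MeasurePreserving (τ s) volume volume := fun s => measurePreserving_sub_right volume s
  have hT : Continuous fun s => Lp.compMeasurePreserving (τ s) (hτ s) (hρ.toL1 ρ) :=
    continuous_const.compMeasurePreservingLp τ.continuous hτ ENNReal.one_ne_top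
  refine (hΨ.comp hT).congr fun s => ?_
  ext y
  simp only [Ψ, Function.comp_apply, R084.smear_apply]
  rw [R084.flow_apply, R084.smear_apply,
    ← (S.D.wave s).integral_comp_comm (R084.integrable_smul_flow S hρ x _)]
  have h1 : ∀ᵐ t : ℝ, (Lp.compMeasurePreserving (τ s) (hτ s) (hρ.toL1 ρ) : ℝ → ℂ) t = ρ (t - s) := by
    filter_upwards [Lp.coeFn_compMeasurePreserving (hρ.toL1 ρ) (hτ s),
      (hτ s).quasiMeasurePreserving.ae (hρ.coeFn_toL1)] with t h2 h3
    rw [h2, Function.comp_apply, h3]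
    rfl
  rw [integral_congr_ae (g := fun t => ρ (t - s) • S.flow t x y)
    (by filter_upwards [h1] with t ht; rw [ht]),
    ← integral_add_right_eq_self (fun t => ρ (t - s) • S.flow t x y) s]
  congr 1
  ext t
  simp only [add_sub_cancel_right, map_smul, R084.flow_apply, R084.wave_wave]
  rw [add_comm s t, neg_add]

/-- If the flow of `x` is norm continuous then `smear` is a Bochner integral. -/
theorem smear_eq_integral (S : ModularDatum H) {ρ : ℝ → ℂ} (hρ : Integrable ρ)
    (hx : Continuous fun t => S.flow t x) :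
    smear S volume ρ hρ x = ∫ t, ρ t • S.flow t x := by
  ext y
  rw [R084.smear_apply, ContinuousLinearMap.integral_apply
    (R084.integrable_smul_of_bound hρ hx ‖x‖ fun t =>
      ContinuousLinearMap.opNorm_le_bound _ (norm_nonneg _) (R084.norm_flow_apply_le S t x))]
  rfl

/-- Narrow Gaussians: `a = smear ((β √(2π))⁻¹ gs β 0) x`, `b = smear ((β √(2π))⁻¹ gs β (-1/2)) x`,
`β → 0`; `a ζ - x ζ = ∫ γ_β (t) (σ_t x ζ - x ζ)`. -/
theorem Sub.exists_pr_approx (hB : Sub S B) (hx : x ∈ B) (F : Finset H) {ε : ℝ} (hε : 0 < ε) :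
    ∃ a b, Pr S B a b ∧ (Continuous fun t => S.flow t a) ∧ (Continuous fun t => S.flow t b) ∧
      ∀ ζ ∈ F, ‖a ζ - x ζ‖ < ε := by
  have hpi : 0 < √(2 * Real.pi) := Real.sqrt_pos.2 (by positivity)
  have hch : ∀ t, ch 0 t = 1 := fun t => by simp [ch]
  let A : H → ℝ → H := fun ζ β =>
    ((√(2 * Real.pi) : ℝ) : ℂ)⁻¹ • ∫ s, gs 1 0 s • S.flow (β * s) x ζ
  have hAc : ∀ ζ, Continuous (A ζ) := by
    intro ζ
    refine Continuous.const_smul (continuous_of_dominated
      (bound := fun s => ‖gs 1 0 s‖ * (‖x‖ * ‖ζ‖)) (fun β => ?_) (fun β => ?_)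
      ((integrable_gs one_pos 0).norm.mul_const _) (Eventually.of_forall fun s => ?_)) _
    · exact ((continuous_gs 1 0).smul ((R084.continuous_flow_apply S x ζ).comp
        (continuous_const.mul continuous_id))).aestronglyMeasurable
    · refine Eventually.of_forall fun s => ?_
      rw [norm_smul]
      exact mul_le_mul_of_nonneg_left (R084.norm_flow_apply_le S _ x ζ) (norm_nonneg _)
    · exact ((R084.continuous_flow_apply S x ζ).comp (continuous_id.mul continuous_const)).const_smul _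
  have hA0 : ∀ ζ, A ζ 0 = x ζ := by
    intro ζ
    have h1 := integral_gs_ch (β := 1) one_pos 0 0 0
    simp only [hch, mul_one, R084.character_apply, mul_zero, Complex.ofReal_zero, Complex.exp_zero,
      sub_zero, Real.exp_zero, one_mul, ne_eq, OfNat.ofNat_ne_zero, not_false_eq_true, zero_pow,
      zero_div, neg_zero] at h1
    simp only [A, zero_mul, R084.flow_apply, neg_zero, R084.wave_zero, one_apply_eq_self]
    rw [integral_smul_const, h1, smul_smul, inv_mul_cancel₀ (Complex.ofReal_ne_zero.2 hpi.ne'),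
      one_smul]
  have hev : ∀ᶠ β in 𝓝 (0 : ℝ), ∀ ζ ∈ F, ‖A ζ β - x ζ‖ < ε := by
    refine (eventually_all_finset F).2 fun ζ _ => ?_
    have h1 := (hAc ζ).tendsto 0
    rw [hA0] at h1
    filter_upwards [Metric.tendsto_nhds.1 h1 ε hε] with β hβ
    rwa [dist_eq_norm] at hβ
  obtain ⟨β, hβF, hβ⟩ := ((hev.filter_mono nhdsWithin_le_nhds).and
    (self_mem_nhdsWithin (a := (0 : ℝ)) (s := Set.Ioi 0))).exists
  have hβ : 0 < β := hβ
  set c : ℂ := ((β * √(2 * Real.pi) : ℝ) : ℂ)⁻¹ with hc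
  have h₁ : Integrable fun t => c * gs β 0 t := (integrable_gs hβ 0).const_mul c
  have h₂ : Integrable fun t => c * gs β (-1 / 2) t := (integrable_gs hβ _).const_mul c
  obtain ⟨f, hf⟩ := exists_gs_hat hβ 0 0
  obtain ⟨g, hg⟩ := exists_gs_hat hβ (-1 / 2) 0
  have hint : ∀ y u, ∫ t, c * gs β y t * character t u =
      c * ∫ t, gs β y t * ch 0 t * character t u := by
    intro y u
    rw [← integral_const_mul]
    simp only [hch, mul_one, mul_assoc]
  refine ⟨smear S volume _ h₁ x, smear S volume _ h₂ x,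
    hB.pr_smear h₁ h₂ (f := c • f) (g := c • g) (fun u => ?_) (fun u => ?_) (fun u => ?_) hx,
    continuous_flow_smear S h₁ x, continuous_flow_smear S h₂ x, fun ζ hζ => ?_⟩
  · rw [hint, integral_gs_ch hβ, ← hf u]
    rfl
  · rw [hint, integral_gs_ch hβ, ← hg u]
    rfl
  · change c * f u = c * g u * _
    rw [hf, hg, mul_assoc c, ← Complex.ofReal_mul]
    congr 2
    have : Real.exp (-1 / 2 * (u - 0)) * Real.exp (u / 2) = Real.exp (0 * (u - 0)) := by
      rw [← Real.exp_add]
      congr 1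
      ring
    rw [← this]
    ring
  · have h1 : smear S volume _ h₁ x ζ = A ζ β := by
      have h2 := Measure.integral_comp_mul_left (fun t => gs β 0 t • S.flow t x ζ) β
      have h3 : ∀ s, gs β 0 (β * s) = gs 1 0 s := by
        intro s
        have : (β : ℂ) ≠ 0 := Complex.ofReal_ne_zero.2 hβ.ne'
        simp only [gs]
        congr 1
        push_cast
        field_simp
        ring
      simp only [h3] at h2
      simp only [A, R084.smear_apply, h2, mul_smul]
      rw [integral_smul, abs_of_pos (inv_pos.2 hβ), ← Complex.coe_smul, smul_smul, hc]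
      congr 1
      push_cast
      rw [mul_inv, mul_comm]
    rw [h1]
    exact hβF ζ hζ

/-- An element of `B` with zero energy for all analytic pairs is central. -/
theorem Sub.cen_of_energy (hB : Sub S B) {z : Op H} (hz : z ∈ B)
    (h : ∀ a b, Pr S B a b → (Continuous fun t => S.flow t a) →
      (Continuous fun t => S.flow t b) → a (z S.vac) = Rm S.J b (z S.vac)) : Cen S.M z := by
  classical
  have hzM := hB.le z hz
  refine ⟨hzM, hB.cen z hz fun x hx => cm_eq_zero.1 ?_⟩
  have hxM := hB.le x hx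
  refine S.separating _ (sub_mem (mul_mem hxM hzM) (mul_mem hzM hxM)) ?_
  refine norm_le_zero_iff.1 (le_of_forall_pos_le_add fun ε hε => ?_)
  have hK : 0 < 1 + ‖z‖ := by positivity
  obtain ⟨a, b, hab, ha, hb, hF⟩ := hB.exists_pr_approx hx {S.vac, z S.vac} (div_pos hε hK)
  have h1 := hab.cm_vac hB hzM
  rw [h a b hab ha hb, sub_self, cm, sub_apply, mul_apply_eq_comp, mul_apply_eq_comp, eq_comm,
    sub_eq_zero] at h1
  have h2 := hF S.vac (by simp)
  have h3 := hF (z S.vac) (by simp)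
  have h4 : cm x z S.vac = z (a S.vac - x S.vac) - (a (z S.vac) - x (z S.vac)) := by
    rw [cm, sub_apply, mul_apply_eq_comp, mul_apply_eq_comp, map_sub, h1]
    abel
  have h5 : ‖z (a S.vac - x S.vac)‖ ≤ ‖z‖ * (ε / (1 + ‖z‖)) :=
    (z.le_opNorm _).trans (mul_le_mul_of_nonneg_left h2.le (norm_nonneg _))
  have h6 : (1 + ‖z‖) * (ε / (1 + ‖z‖)) = ε := mul_div_cancel₀ _ hK.ne'
  change ‖cm x z S.vac‖ ≤ _
  rw [h4]
  refine (norm_sub_le _ _).trans ?_
  linarith

end Crest.Agent.R078
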