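import Crest.Agent.R078.FDefs

/-! Row 78, stage (3): qubits and frames. -/

set_option autoImplicit false

open scoped InnerProductSpace ComplexConjugate
open Filter Topology

namespace Crest.Agent.R078

open Crest.Agent.R121 (Mn Bd)
open Crest.Agent.R124 (ex)
open Crest.OpAlg

universe u

variable {H : Type*} [NormedAddCommGroup H] [InnerProductSpace ℂ H] [CompleteSpace H]

variable {M : VN H} {X Z X' Z' y : Op H} {ξ : H}

theorem mem_rel {p : Set (Op H)} (hp : ∀ s ∈ p, star s = s) {x : Op H} :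
    x ∈ rel M p ↔ x ∈ M ∧ ∀ s ∈ p, Commute x s := by
  rw [rel, mem_cent]
  constructor
  · intro h
    exact ⟨mem_of_commute fun y hy => (h y (Or.inl hy)).1, fun s hs => (h s (Or.inr hs)).1⟩
  · rintro ⟨hx, h⟩ s (hs | hs)
    · exact ⟨commute_of_mem hx hs, commute_of_mem hx (star_mem hs)⟩
    · exact ⟨h s hs, by rw [hp s hs]; exact h s hs⟩

theorem QB.unitary_X (h : QB X Z) : X ∈ unitary (Op H) := by
  constructor <;> rw [h.sX, h.XX]

theorem QB.unitary_Z (h : QB X Z) : Z ∈ unitary (Op H) := by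
  constructor <;> rw [h.sZ, h.ZZ]

theorem QB.swap (h : QB X Z) : QB Z X := by
  exact ⟨h.sZ, h.sX, h.ZZ, h.XX, by rw [h.anti, neg_neg]⟩

theorem QB.XX' (h : QB X Z) (t : Op H) : X * (X * t) = t := by rw [← mul_assoc, h.XX, one_mul]

theorem QB.ZZ' (h : QB X Z) (t : Op H) : Z * (Z * t) = t := by rw [← mul_assoc, h.ZZ, one_mul]

theorem QB.anti' (h : QB X Z) (t : Op H) : Z * (X * t) = -(X * (Z * t)) := by
  rw [← mul_assoc, h.anti, neg_mul, mul_assoc]

theorem av_mem (hX : X ∈ M) (hZ : Z ∈ M) (hy : y ∈ M) : av X Z y ∈ M := by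
  exact M.toStarSubalgebra.smul_mem (add_mem (add_mem (add_mem hy (mul_mem (mul_mem hX hy) hX))
    (mul_mem (mul_mem hZ hy) hZ)) (mul_mem (mul_mem (mul_mem hX hZ) hy) (mul_mem hZ hX))) _

theorem QB.norm_av_le (h : QB X Z) (y : Op H) : ‖av X Z y‖ ≤ ‖y‖ := by
  have key : ∀ U ∈ unitary (Op H), ∀ V ∈ unitary (Op H), ‖U * y * V‖ = ‖y‖ := fun U hU V hV => by
    rw [CStarRing.norm_mul_mem_unitary _ hV, CStarRing.norm_mem_unitary_mul _ hU]
  have h1 := key X h.unitary_X X h.unitary_X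
  have h2 := key Z h.unitary_Z Z h.unitary_Z
  have h3 := key _ (mul_mem h.unitary_X h.unitary_Z) _ (mul_mem h.unitary_Z h.unitary_X)
  have h4 := norm_add_le (y + X * y * X + Z * y * Z) (X * Z * y * (Z * X))
  have h5 := norm_add_le (y + X * y * X) (Z * y * Z)
  have h6 := norm_add_le y (X * y * X)
  rw [av, norm_smul]
  have : ‖(1 / 4 : ℂ)‖ = 1 / 4 := by simp
  rw [this]
  linarith

theorem QB.commute_av (h : QB X Z) (y : Op H) : Commute (av X Z y) X ∧ Commute (av X Z y) Z := by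
  constructor
  · simp only [Commute, SemiconjBy, av, mul_add, add_mul, mul_assoc, smul_mul_assoc, mul_smul_comm, h.XX, h.ZZ, h.anti, h.XX', h.ZZ', h.anti',
      mul_neg, neg_mul, neg_neg, mul_one, one_mul]
    module
  · simp only [Commute, SemiconjBy, av, mul_add, add_mul, mul_assoc, smul_mul_assoc, mul_smul_comm, h.XX, h.ZZ, h.anti, h.XX', h.ZZ', h.anti',
      mul_neg, neg_mul, neg_neg, mul_one, one_mul]
    module

theorem QB.av_eq (h : QB X Z) (hX : Commute y X) (hZ : Commute y Z) : av X Z y = y := by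
  have e1 : X * y * X = y := by rw [← hX.eq, mul_assoc, h.XX, mul_one]
  have e2 : Z * y * Z = y := by rw [← hZ.eq, mul_assoc, h.ZZ, mul_one]
  have e3 : X * Z * y * (Z * X) = y := by
    rw [mul_assoc X Z y, ← mul_assoc, mul_assoc X, e2, e1]
  rw [av, e1, e2, e3]
  module

theorem commute_av {s : Op H} (hX : Commute s X) (hZ : Commute s Z) (hy : Commute s y) :
    Commute s (av X Z y) := by
  exact (((hy.add_right ((hX.mul_right hy).mul_right hX)).add_right
    ((hZ.mul_right hy).mul_right hZ)).add_right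
      (((hX.mul_right hZ).mul_right hy).mul_right (hZ.mul_right hX))).smul_right _

theorem av_sub (X Z x y : Op H) : av X Z (x - y) = av X Z x - av X Z y := by
  simp only [av, mul_sub, sub_mul]
  module

/-- Fourier expansion with respect to one qubit. -/
theorem QB.expand (h : QB X Z) (y : Op H) :
    y = av X Z y + X * av X Z (X * y) + Z * av X Z (Z * y) + X * Z * av X Z (Z * X * y) := by
  simp only [av, mul_add, add_mul, mul_assoc, smul_mul_assoc, mul_smul_comm, h.XX, h.ZZ, h.anti, h.XX', h.ZZ', h.anti',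
      mul_neg, neg_mul, neg_neg, mul_one, one_mul]
  module

/-- `av y ξ = P_X P_Z (y ξ)` with the commuting projections `P_X = (1 + X X') / 2`,
`P_Z = (1 + Z Z') / 2`, and `‖η‖² - ‖P_X η‖² = ‖(X - X') η‖² / 4`. -/
theorem norm_av_vac_sq_le (h : QB X Z) (h' : QB X' Z') (hX : X ∈ M) (hZ : Z ∈ M)
    (hX' : X' ∈ M.commutant) (hZ' : Z' ∈ M.commutant) (vX : X ξ = X' ξ) (vZ : Z ξ = Z' ξ)
    (hy : y ∈ M) : ‖av X Z y ξ‖ ^ 2 ≤ ‖y ξ‖ ^ 2 - ‖cm X y ξ‖ ^ 2 / 4 := by
  have cm : ∀ {a b : Op H}, a ∈ M → b ∈ M.commutant → ∀ η, a (b η) = b (a η) :=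
    fun ha hb η => congrArg (fun T : Op H => T η) (commute_of_mem ha hb).eq
  have un : ∀ {U : Op H}, U ∈ unitary (Op H) → ∀ η, ‖U η‖ = ‖η‖ := fun hU η =>
    ContinuousLinearMap.norm_map_of_mem_unitary hU η
  set η := y ξ with hη
  have aZX : ∀ ζ, Z (X ζ) = -X (Z ζ) := fun ζ => congrArg (fun T : Op H => T ζ) h.anti
  have aZX' : ∀ ζ, Z' (X' ζ) = -X' (Z' ζ) := fun ζ => congrArg (fun T : Op H => T ζ) h'.anti
  have aXX : ∀ ζ, X (X ζ) = ζ := fun ζ => congrArg (fun T : Op H => T ζ) h.XX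
  have e1 : X (y (X ξ)) = X (X' η) := by rw [vX, cm hy hX']
  have e2 : Z (y (Z ξ)) = Z (Z' η) := by rw [vZ, cm hy hZ']
  have e3 : X (Z (y (Z (X ξ)))) = Z (Z' (X (X' η))) := by
    rw [vX, cm hZ hX', vZ, cm hy hX', cm hy hZ', ← cm hX hZ', aZX, aZX']
    simp only [map_neg, neg_neg, hη]
  set ζ := η + X (X' η) with hζ
  have e4 : av X Z y ξ = (1 / 4 : ℂ) • (ζ + Z (Z' ζ)) := by
    simp only [av, smul_apply, add_apply, mul_apply_eq_comp, e1, e2, e3, hζ, map_add, ← hη]
    congr 1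
    abel
  have n1 : ‖av X Z y ξ‖ ≤ ‖ζ‖ / 2 := by
    rw [e4, norm_smul]
    have : ‖(1 / 4 : ℂ)‖ = 1 / 4 := by simp
    rw [this]
    have h1 := norm_add_le ζ (Z (Z' ζ))
    rw [un h.unitary_Z, un h'.unitary_Z] at h1
    linarith
  have n2 : ‖R078.cm X y ξ‖ = ‖η - X (X' η)‖ := by
    rw [← un h.unitary_X (η - X (X' η)), map_sub, aXX]
    simp only [R078.cm, sub_apply, mul_apply_eq_comp]
    rw [vX, cm hy hX']
  have n3 := parallelogram_law_with_norm ℂ η (X (X' η))
  rw [un h.unitary_X, un h'.unitary_X, ← hζ] at n3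
  have n4 := pow_le_pow_left₀ (norm_nonneg _) n1 2
  rw [n2]
  nlinarith

section seq

variable {X Z X' Z' : ℕ → Op H} {n : ℕ}

theorem avn_mem (h : ∀ j < n, X j ∈ M ∧ Z j ∈ M) (hy : y ∈ M) : avn X Z n y ∈ M := by
  induction n with
  | zero => exact hy
  | succ n ih =>
    exact av_mem (h n n.lt_succ_self).1 (h n n.lt_succ_self).2
      (ih fun j hj => h j (hj.trans n.lt_succ_self))

theorem norm_avn_le (h : ∀ j < n, QB (X j) (Z j)) (y : Op H) : ‖avn X Z n y‖ ≤ ‖y‖ := by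
  induction n with
  | zero => exact le_rfl
  | succ n ih =>
    exact ((h n n.lt_succ_self).norm_av_le _).trans (ih fun j hj => h j (hj.trans n.lt_succ_self))

theorem avn_congr {X₁ Z₁ : ℕ → Op H} (h : ∀ j < n, X j = X₁ j ∧ Z j = Z₁ j) (y : Op H) :
    avn X Z n y = avn X₁ Z₁ n y := by
  induction n with
  | zero => rfl
  | succ n ih =>
    rw [avn, avn, ih fun j hj => h j (hj.trans n.lt_succ_self), (h n n.lt_succ_self).1,
      (h n n.lt_succ_self).2]

theorem avn_sub (x y : Op H) : avn X Z n (x - y) = avn X Z n x - avn X Z n y := by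
  induction n with
  | zero => rfl
  | succ n ih => rw [avn, avn, avn, ih, av_sub]

theorem avn_eq (h : ∀ j < n, QB (X j) (Z j)) (hy : ∀ j < n, Commute y (X j) ∧ Commute y (Z j)) :
    avn X Z n y = y := by
  induction n with
  | zero => rfl
  | succ n ih =>
    rw [avn, ih (fun j hj => h j (hj.trans n.lt_succ_self))
      (fun j hj => hy j (hj.trans n.lt_succ_self))]
    exact (h n n.lt_succ_self).av_eq (hy n n.lt_succ_self).1 (hy n n.lt_succ_self).2

theorem commute_avn (h : ∀ j < n, QB (X j) (Z j))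
    (hc : ∀ i < n, ∀ j < n, i ≠ j → QC (X i) (Z i) (X j) (Z j)) (y : Op H) :
    ∀ j < n, Commute (avn X Z n y) (X j) ∧ Commute (avn X Z n y) (Z j) := by
  induction n with
  | zero => intro j hj; omega
  | succ n ih =>
    intro j hj
    rw [avn]
    rcases Nat.lt_succ_iff_lt_or_eq.1 hj with hjn | rfl
    · have i1 := ih (fun j hj => h j (hj.trans n.lt_succ_self))
        (fun i hi j hj => hc i (hi.trans n.lt_succ_self) j (hj.trans n.lt_succ_self)) j hjn
      have q := hc j hj n n.lt_succ_self hjn.ne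
      exact ⟨(commute_av q.XX q.XZ i1.1.symm).symm, (commute_av q.ZX q.ZZ i1.2.symm).symm⟩
    · exact (h j hj).commute_av _

theorem norm_avn_vac_le (h : ∀ j < n, QB (X j) (Z j)) (h' : ∀ j < n, QB (X' j) (Z' j))
    (hm : ∀ j < n, X j ∈ M ∧ Z j ∈ M) (hm' : ∀ j < n, X' j ∈ M.commutant ∧ Z' j ∈ M.commutant)
    (hv : ∀ j < n, X j ξ = X' j ξ ∧ Z j ξ = Z' j ξ) (hy : y ∈ M) :
    ‖avn X Z n y ξ‖ ≤ ‖y ξ‖ := by
  induction n with
  | zero => exact le_rfl
  | succ n ih =>
    have l := n.lt_succ_self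
    have i1 := ih (fun j hj => h j (hj.trans l)) (fun j hj => h' j (hj.trans l))
      (fun j hj => hm j (hj.trans l)) (fun j hj => hm' j (hj.trans l))
      (fun j hj => hv j (hj.trans l))
    have i2 := norm_av_vac_sq_le (h n l) (h' n l) (hm n l).1 (hm n l).2 (hm' n l).1 (hm' n l).2
      (hv n l).1 (hv n l).2 (avn_mem (n := n) (fun j hj => hm j (hj.trans l)) hy)
    rw [avn]
    refine le_trans (le_of_pow_le_pow_left₀ two_ne_zero (norm_nonneg _) (i2.trans ?_)) i1
    have := sq_nonneg ‖cm (X n) (avn X Z n y) ξ‖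
    linarith

theorem FQubit_qset_star (h : ∀ j < n, QB (X j) (Z j)) : ∀ s ∈ qset X Z n, star s = s := by
  rintro s ⟨j, hj, rfl | rfl⟩
  · exact (h j hj).sX
  · exact (h j hj).sZ

/-- The centre of the relative commutant of finitely many qubits is central (induction on `n`
with `QB.expand`). -/
theorem rel_qset_cen (h : ∀ j < n, QB (X j) (Z j)) (hm : ∀ j < n, X j ∈ M ∧ Z j ∈ M)
    (hc : ∀ i < n, ∀ j < n, i ≠ j → QC (X i) (Z i) (X j) (Z j)) {z : Op H}
    (hz : z ∈ rel M (qset X Z n)) (hz' : ∀ a ∈ rel M (qset X Z n), Commute a z) :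
    z ∈ M.commutant := by
  have hs := FQubit_qset_star h
  rw [mem_rel hs] at hz
  have key : ∀ d k, k + d = n → ∀ a ∈ M, (∀ j < k, Commute a (X j) ∧ Commute a (Z j)) →
      Commute a z := by
    intro d
    induction d with
    | zero =>
      intro k hk a ha hj
      refine hz' a ((mem_rel hs).2 ⟨ha, ?_⟩)
      rintro s ⟨j, hjn, rfl | rfl⟩
      · exact (hj j (by omega)).1
      · exact (hj j (by omega)).2
    | succ d ih =>
      intro k hk a ha hj
      have hkn : k < n := by omega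
      have zX : Commute (X k) z := (hz.2 _ ⟨k, hkn, Or.inl rfl⟩).symm
      have zZ : Commute (Z k) z := (hz.2 _ ⟨k, hkn, Or.inr rfl⟩).symm
      have step : ∀ b ∈ M, (∀ j < k, Commute b (X j) ∧ Commute b (Z j)) →
          Commute (av (X k) (Z k) b) z := by
        intro b hb hbj
        refine ih (k + 1) (by omega) _ (av_mem (hm k hkn).1 (hm k hkn).2 hb) fun j hjk => ?_
        rcases Nat.lt_succ_iff_lt_or_eq.1 hjk with hjk | rfl
        · have q := hc j (by omega) k hkn hjk.ne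
          exact ⟨(commute_av q.XX q.XZ (hbj j hjk).1.symm).symm,
            (commute_av q.ZX q.ZZ (hbj j hjk).2.symm).symm⟩
        · exact (h j hkn).commute_av _
      have q : ∀ j < k, QC (X k) (Z k) (X j) (Z j) := fun j hjk =>
        hc k hkn j (by omega) hjk.ne'
      rw [(h k hkn).expand a]
      refine (((step a ha hj).add_left (zX.mul_left (step _ (mul_mem (hm k hkn).1 ha)
        fun j hjk => ⟨(q j hjk).XX.mul_left (hj j hjk).1, (q j hjk).XZ.mul_left (hj j hjk).2⟩))).add_left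
        (zZ.mul_left (step _ (mul_mem (hm k hkn).2 ha)
        fun j hjk => ⟨(q j hjk).ZX.mul_left (hj j hjk).1, (q j hjk).ZZ.mul_left (hj j hjk).2⟩))).add_left
        ((zX.mul_left zZ).mul_left (step _ (mul_mem (mul_mem (hm k hkn).2 (hm k hkn).1) ha)
        fun j hjk => ⟨((q j hjk).ZX.mul_left (q j hjk).XX).mul_left (hj j hjk).1,
          ((q j hjk).ZZ.mul_left (q j hjk).XZ).mul_left (hj j hjk).2⟩))
  exact mem_comm.2 fun a ha => key n 0 (by omega) a ha fun j hj => absurd hj (by omega)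

/-- One-site Pauli operators. -/
noncomputable def FQubit_p (X Z : Op H) (x : ZMod 2 × ZMod 2) : Op H :=
  (if x.1 = 0 then 1 else X) * (if x.2 = 0 then 1 else Z)

/-- Ordered products of Pauli operators. -/
noncomputable def FQubit_W (X Z : ℕ → Op H) (a : Gam) : ℕ → Op H
  | 0 => 1
  | N + 1 => FQubit_W X Z a N * FQubit_p (X N) (Z N) (a N)

theorem FQubit_p_zero (X Z : Op H) : FQubit_p X Z 0 = 1 := by simp [FQubit_p]

theorem FQubit_p_commute {X Z T : Op H} (hX : Commute T X) (hZ : Commute T Z)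
    (x : ZMod 2 × ZMod 2) : Commute T (FQubit_p X Z x) := by
  unfold FQubit_p
  refine Commute.mul_right ?_ ?_ <;> split_ifs
  exacts [Commute.one_right _, hX, Commute.one_right _, hZ]

theorem FQubit_p_unitary {X Z : Op H} (h : QB X Z) (x : ZMod 2 × ZMod 2) :
    FQubit_p X Z x ∈ unitary (Op H) := by
  unfold FQubit_p
  refine mul_mem ?_ ?_ <;> split_ifs
  exacts [one_mem _, h.unitary_X, one_mem _, h.unitary_Z]

theorem FQubit_p_mul {X Z : Op H} (h : QB X Z) (x y : ZMod 2 × ZMod 2) :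
    FQubit_p X Z x * FQubit_p X Z y =
      (if x.2 * y.1 = 0 then (1 : ℂ) else -1) • FQubit_p X Z (x + y) := by
  have z2 : ∀ t : ZMod 2, t = 0 ∨ t = 1 := by decide
  have h11 : (1 + 1 : ZMod 2) = 0 := by decide
  obtain ⟨x1, x2⟩ := x
  obtain ⟨y1, y2⟩ := y
  rcases z2 x1 with rfl | rfl <;> rcases z2 x2 with rfl | rfl <;> rcases z2 y1 with rfl | rfl <;>
    rcases z2 y2 with rfl | rfl <;>
    simp [FQubit_p, h11, mul_assoc, h.XX, h.ZZ, h.anti, h.XX', h.ZZ', h.anti']

theorem FQubit_W_commute {T : Op H} (a : Gam) (N : ℕ)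
    (hT : ∀ j < N, Commute T (X j) ∧ Commute T (Z j)) : Commute T (FQubit_W X Z a N) := by
  induction N with
  | zero => exact Commute.one_right _
  | succ N ih =>
    exact (ih fun j hj => hT j (hj.trans N.lt_succ_self)).mul_right
      (FQubit_p_commute (hT N N.lt_succ_self).1 (hT N N.lt_succ_self).2 _)

theorem FQubit_W_unitary (h : ∀ j, QB (X j) (Z j)) (a : Gam) (N : ℕ) :
    FQubit_W X Z a N ∈ unitary (Op H) := by
  induction N with
  | zero => exact one_mem _
  | succ N ih => exact mul_mem ih (FQubit_p_unitary (h N) _)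

theorem FQubit_W_one {a : Gam} {N : ℕ} (h : ∀ m < N, a m = 0) : FQubit_W X Z a N = 1 := by
  induction N with
  | zero => rfl
  | succ N ih =>
    rw [FQubit_W, ih fun m hm => h m (hm.trans N.lt_succ_self), h N N.lt_succ_self, FQubit_p_zero,
      mul_one]

theorem FQubit_W_stable {a : Gam} {N N' : ℕ} (h : ∀ m, N ≤ m → a m = 0) (hN : N ≤ N') :
    FQubit_W X Z a N' = FQubit_W X Z a N := by
  induction N', hN using Nat.le_induction with
  | base => rfl
  | succ k hk ih => rw [FQubit_W, ih, h k hk, FQubit_p_zero, mul_one]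

theorem FQubit_W_mul (h : ∀ j, QB (X j) (Z j))
    (hc : ∀ i j, i ≠ j → QC (X i) (Z i) (X j) (Z j)) (a b : Gam) (N : ℕ) :
    FQubit_W X Z a N * FQubit_W X Z b N =
      (if ∑ n ∈ Finset.range N, (a n).2 * (b n).1 = 0 then (1 : ℂ) else -1) •
        FQubit_W X Z (a + b) N := by
  induction N with
  | zero => simp [FQubit_W]
  | succ N ih =>
    have c : Commute (FQubit_p (X N) (Z N) (a N)) (FQubit_W X Z b N) :=
      FQubit_W_commute b N fun j hj => by
        have q := hc j N hj.ne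
        exact ⟨(FQubit_p_commute q.XX q.XZ _).symm, (FQubit_p_commute q.ZX q.ZZ _).symm⟩
    rw [FQubit_W, FQubit_W, FQubit_W, Finset.sum_range_succ, BFrame0_chi, mul_assoc,
      ← mul_assoc (FQubit_p (X N) (Z N) (a N)), c.eq, mul_assoc, ← mul_assoc, ih,
      FQubit_p_mul (h N), smul_mul_smul_comm, Finsupp.add_apply]

/-- `w a = ∏ n, X n ^ (a n).1 * Z n ^ (a n).2` (`Finset.noncommProd` over `range N` for large `N`,
or recursion on `N` and `w a := W (bound of a.support) a`). -/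
theorem exists_pauli (h : ∀ j, QB (X j) (Z j))
    (hc : ∀ i j, i ≠ j → QC (X i) (Z i) (X j) (Z j)) : ∃ w : Gam → Op H,
    (∀ a, w a ∈ unitary (Op H)) ∧ (∀ a b, w a * w b = sg a b • w (a + b)) ∧
    (∀ n, w (gX n) = X n) ∧ (∀ n, w (gZ n) = Z n) ∧
    ∀ T, (∀ n, Commute T (X n) ∧ Commute T (Z n)) → ∀ a, Commute T (w a) := by
  have bd : ∀ a : Gam, ∀ m, a.support.sup (· + 1) ≤ m → a m = 0 := by
    intro a m hm
    by_contra h0
    have := Finset.le_sup (f := (· + 1)) (Finsupp.mem_support_iff.2 h0)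
    omega
  have hw : ∀ (a : Gam) (N : ℕ), (∀ m, N ≤ m → a m = 0) →
      FQubit_W X Z a (a.support.sup (· + 1)) = FQubit_W X Z a N := by
    intro a N hN
    rw [← FQubit_W_stable (bd a) (le_max_left _ N), FQubit_W_stable hN (le_max_right _ N)]
  refine ⟨fun a => FQubit_W X Z a (a.support.sup (· + 1)), fun a => FQubit_W_unitary h a _,
    fun a b => ?_, fun n => ?_, fun n => ?_, fun T hT a => FQubit_W_commute a _ fun j _ => hT j⟩
  · obtain ⟨N, hN⟩ : ∃ N, ∀ m, N ≤ m → a m = 0 ∧ b m = 0 :=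
      ⟨max (a.support.sup (· + 1)) (b.support.sup (· + 1)), fun m hm =>
        ⟨bd a m ((le_max_left _ _).trans hm), bd b m ((le_max_right _ _).trans hm)⟩⟩
    simp only
    rw [hw a N fun m hm => (hN m hm).1, hw b N fun m hm => (hN m hm).2,
      hw (a + b) N fun m hm => by rw [Finsupp.add_apply, (hN m hm).1, (hN m hm).2, add_zero],
      FQubit_W_mul h hc, sg, BFrame0_beta_eq a b (s := Finset.range N) fun m hm => by
        rw [Finset.mem_range]
        by_contra hlt
        exact Finsupp.mem_support_iff.1 hm (hN m (not_lt.1 hlt)).1]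
  · simp only
    rw [hw (gX n) (n + 1) fun m hm => Finsupp.single_eq_of_ne (by omega), FQubit_W,
      FQubit_W_one (a := gX n) (N := n) fun m hm => Finsupp.single_eq_of_ne (by omega), gX, Finsupp.single_eq_same]
    simp [FQubit_p]
  · simp only
    rw [hw (gZ n) (n + 1) fun m hm => Finsupp.single_eq_of_ne (by omega), FQubit_W,
      FQubit_W_one (a := gZ n) (N := n) fun m hm => Finsupp.single_eq_of_ne (by omega), gZ, Finsupp.single_eq_same]
    simp [FQubit_p]

/-- `w` from `(X, Z)`; `w' a = w₁ (gflip a)` with `w₁` from `(Z', X')`. -/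
theorem exists_frame (h : ∀ j, QB (X j) (Z j)) (h' : ∀ j, QB (X' j) (Z' j))
    (hc : ∀ i j, i ≠ j → QC (X i) (Z i) (X j) (Z j))
    (hc' : ∀ i j, i ≠ j → QC (X' i) (Z' i) (X' j) (Z' j))
    (hm : ∀ j, X j ∈ M ∧ Z j ∈ M) (hm' : ∀ j, X' j ∈ M.commutant ∧ Z' j ∈ M.commutant)
    (hv : ∀ j, X j ξ = X' j ξ ∧ Z j ξ = Z' j ξ) : ∃ F : Frame H,
    (∀ a, F.w a ∈ M) ∧ (∀ a, F.w' a ∈ M.commutant) ∧ (∀ a, F.w a ξ = F.w' a ξ) ∧
    (∀ n, F.w (gX n) = X n) ∧ ∀ n, F.w (gZ n) = Z n := by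
  obtain ⟨w, w1, w2, w3, w4, w5⟩ := exists_pauli h hc
  obtain ⟨v, v1, v2, v3, v4, v5⟩ := exists_pauli (X := Z') (Z := X') (fun j => (h' j).swap)
    fun i j hij => ⟨(hc' i j hij).ZZ, (hc' i j hij).ZX, (hc' i j hij).XZ, (hc' i j hij).XX⟩
  have mw : ∀ a, w a ∈ M := fun a => mem_of_commute fun y hy =>
    (w5 y (fun n => ⟨(commute_of_mem (hm n).1 hy).symm, (commute_of_mem (hm n).2 hy).symm⟩) a).symm
  have mv : ∀ a, v a ∈ M.commutant := fun a => mem_comm.2 fun x hx =>
    v5 x (fun n => ⟨commute_of_mem hx (hm' n).2, commute_of_mem hx (hm' n).1⟩) a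
  let F : Frame H :=
    { w := w
      w' := fun a => v (gflip a)
      w_mem := w1
      w'_mem := fun a => v1 _
      w_mul := w2
      w'_mul := fun a b => by rw [v2, sg, sg, beta_gflip, gflip_add, add_comm]
      comm := fun a b => commute_of_mem (mw a) (mv _) }
  have hadd : ∀ a b, F.w a ξ = F.w' a ξ → F.w b ξ = F.w' b ξ →
      F.w (a + b) ξ = F.w' (a + b) ξ := by
    intro a b ha hb
    have e1 : F.w (a + b) = sg a b • (F.w a * F.w b) := by
      rw [F.w_mul, smul_smul, sg_mul_self, one_smul]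
    have e2 : F.w' (a + b) = sg a b • (F.w' b * F.w' a) := by
      rw [F.w'_mul, smul_smul, sg_mul_self, one_smul]
    rw [e1, e2, smul_apply, smul_apply, mul_apply_eq_comp, mul_apply_eq_comp, hb, ← ha]
    exact congrArg (fun T : Op H => sg a b • T ξ) (F.comm a b).eq
  have h0 : F.w 0 ξ = F.w' 0 ξ := by rw [F.w_zero, F.w'_zero]
  have hX : ∀ n, F.w (gX n) ξ = F.w' (gX n) ξ := fun n => by
    have : gflip (gX n) = gZ n := Finsupp.mapRange_single
    show w (gX n) ξ = v (gflip (gX n)) ξ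
    rw [this, w3, v4, (hv n).1]
  have hZ : ∀ n, F.w (gZ n) ξ = F.w' (gZ n) ξ := fun n => by
    have : gflip (gZ n) = gX n := Finsupp.mapRange_single
    show w (gZ n) ξ = v (gflip (gZ n)) ξ
    rw [this, w4, v3, (hv n).2]
  refine ⟨F, mw, fun a => mv _, fun a => ?_, w3, w4⟩
  induction a using Finsupp.induction_linear with
  | zero => exact h0
  | add a b ha hb => exact hadd a b ha hb
  | single n x =>
    have z2 : ∀ x : ZMod 2 × ZMod 2, x = 0 ∨ x = (1, 0) ∨ x = (0, 1) ∨ x = (1, 0) + (0, 1) := by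
      decide
    rcases z2 x with rfl | rfl | rfl | rfl
    · rw [Finsupp.single_zero]; exact h0
    · exact hX n
    · exact hZ n
    · rw [Finsupp.single_add]; exact hadd _ _ (hX n) (hZ n)

end seq

/-- `irr'` follows from `irr` by Tomita's theorem (`exists_std`, `Std.centraliser`, `Std.jc_cen`). -/
theorem framed_of_irr {F : Frame H} (cs : CycSep M ξ) (h1 : ∀ a, F.w a ∈ M)
    (h2 : ∀ a, F.w' a ∈ M.commutant) (h3 : ∀ a, F.w a ξ = F.w' a ξ)
    (irr : ∀ x ∈ M, (∀ a, Commute x (F.w a)) → x ∈ M.commutant) : Framed M ξ F := by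
  refine ⟨cs, h1, h2, h3, irr, fun y hy hc => ?_⟩
  obtain ⟨S, rfl, rfl, hS⟩ := exists_std cs
  have xM := hS.jc_mem' y hy
  have xc : jc S.J y ∈ S.M.commutant := irr _ xM fun a => by
    have e := (hS.centraliser (h1 a) (h2 a) (h3 a) (by
      rw [F.star_w, F.star_w', smul_apply, smul_apply, h3 a])).1
    have c := BTr_comm S.J_J (hc a)
    rw [← e, jc_jc S.J_J, F.star_w] at c
    have c2 := c.smul_right (sg a a)
    rwa [smul_smul, sg_mul_self, one_smul] at c2
  have e := congrArg (jc S.J) (hS.jc_cen ⟨xM, xc⟩)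
  rw [jc_jc S.J_J, jc_jc S.J_J] at e
  rw [← e]
  exact star_mem xM

/-- If `c k ξ → x ξ` with central `c k` then `(c k)⋆ ξ` is Cauchy (normality) with limit `x⋆ ξ`, and
`⟪y ξ, x a ξ⟫ = lim ⟪y (c k)⋆ ξ, a ξ⟫ = ⟪y ξ, a x ξ⟫` for `y ∈ M'`, `a ∈ M`. -/
theorem cen_of_approx (cs : CycSep M ξ) {x : Op H} (hx : x ∈ M)
    (h : ∀ ε > 0, ∃ c, Cen M c ∧ ‖x ξ - c ξ‖ < ε) : x ∈ M.commutant := by
  obtain ⟨S, rfl, rfl, hS⟩ := exists_std cs
  have cm : ∀ {a b : Op H}, a ∈ S.M → b ∈ S.M.commutant → ∀ η, a (b η) = b (a η) :=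
    fun ha hb η => congrArg (fun T : Op H => T η) (commute_of_mem ha hb).eq
  have key : ∀ y ∈ S.M.commutant, ∀ a ∈ S.M,
      ⟪y S.vac, a (x S.vac)⟫_ℂ = ⟪y (S.J (x S.vac)), a S.vac⟫_ℂ := by
    intro y hy a ha
    have hcl : IsClosed {η : H | ⟪y S.vac, a η⟫_ℂ = ⟪y (S.J η), a S.vac⟫_ℂ} :=
      isClosed_eq (continuous_const.inner a.continuous)
        ((y.continuous.comp S.J.continuous).inner continuous_const)
    refine hcl.closure_subset (Metric.mem_closure_iff.2 fun ε hε => ?_)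
    obtain ⟨c, hc, hlt⟩ := h ε hε
    refine ⟨c S.vac, ?_, by rwa [dist_eq_norm]⟩
    have e : S.J (c S.vac) = star c S.vac := by
      have := congrArg (fun T : Op H => S.J (T S.vac)) (hS.jc_cen hc)
      simp only [jc_apply, J_vac, S.J_J] at this
      exact this.symm
    show ⟪y S.vac, a (c S.vac)⟫_ℂ = ⟪y (S.J (c S.vac)), a S.vac⟫_ℂ
    rw [e, cm ha hc.2, ← BTr_adj, cm (star_mem hc.1) hy]
  have e : S.J (x S.vac) = star x S.vac := by
    refine cs.2.2.eq_of_inner fun y hy => ?_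
    have k := key (star y) (star_mem hy) 1 (one_mem _)
    simp only [one_apply_eq_self] at k
    rw [BTr_adj y (S.J _), BTr_adj y, ← cm hx hy, ← BTr_adj x] at k
    rw [← inner_conj_symm, ← k, inner_conj_symm]
  refine mem_comm.2 fun a ha => ?_
  have : a * x - x * a = 0 := by
    refine cs.2.2.sep (sub_mem (mul_mem ha hx) (mul_mem hx ha)) ?_
    rw [sub_apply, sub_eq_zero]
    refine cs.2.2.eq_of_inner fun y hy => ?_
    rw [mul_apply_eq_comp, mul_apply_eq_comp, key y hy a ha, e, ← cm (star_mem hx) hy, BTr_adj]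
  exact sub_eq_zero.1 this

theorem Stage.sub {r : Prop} {T : Tower M r} {n m : ℕ} {X Z X' Z' : ℕ → Op H}
    {S : ModularDatum H} (hS : Std S) (hM : S.M = M) (h : Stage T n m S.vac X Z X' Z') :
    Sub S (rel M (qset X Z n)) := by
  subst hM
  have hs := FQubit_qset_star h.qb
  have hm : ∀ j < n, X j ∈ S.M ∧ Z j ∈ S.M := fun j hj =>
    ⟨T.L_le m _ (h.mem j hj).1, T.L_le m _ (h.mem j hj).2⟩
  refine ⟨hS, fun x hx => ((mem_rel hs).1 hx).1, fun t x hx => ?_,
    fun z hz hz' => rel_qset_cen h.qb hm h.qc hz hz'⟩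
  rw [mem_rel hs] at hx ⊢
  refine ⟨S.flow_mem t x hx.1, fun s hs' => ?_⟩
  have hw : ∀ t, Commute s (S.D.wave t) := by
    obtain ⟨j, hj, rfl | rfl⟩ := hs'
    · exact (hS.centraliser (hm j hj).1 (h.mem' j hj).1 (h.vac j hj).1 (by
        rw [(h.qb j hj).sX, (h.qb' j hj).sX, (h.vac j hj).1])).2
    · exact (hS.centraliser (hm j hj).2 (h.mem' j hj).2 (h.vac j hj).2 (by
        rw [(h.qb j hj).sZ, (h.qb' j hj).sZ, (h.vac j hj).2])).2
  exact (((hw t).mul_right (hx.2 s hs').symm).mul_right (hw (-t))).symm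

end Crest.Agent.R078
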