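import Crest.Agent.R078.FQubit

/-! Row 78, stage (3): far away sites of a tower. -/

set_option autoImplicit false

open scoped InnerProductSpace ComplexConjugate
open Filter Topology

namespace Crest.Agent.R078

open Crest.Agent.R121 (Mn Bd)
open Crest.Agent.R124 (ex)
open Crest.OpAlg

universe u

variable {H : Type*} [NormedAddCommGroup H] [InnerProductSpace ℂ H] [CompleteSpace H]

variable {M : VN H} {r : Prop} (T : Tower M r) {S : ModularDatum H}

theorem Tower.c_mem_M (n : ℕ) : T.c n ∈ M := T.L_le _ _ (T.c_mem n)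

theorem FSite_re_inner (x : Op H) (η : H) : (⟪η, (star x * x) η⟫_ℂ).re = ‖x η‖ ^ 2 := by
  rw [mul_apply_eq_comp, ← inner_conj_symm, bpolar0_inner, inner_self_eq_norm_sq_to_K]
  simp [← Complex.ofReal_pow]

theorem FSite_sq {x e : Op H} (he : IsStarProjection e) {a : ℝ}
    (h : e * (star x * x) * e = (a : ℂ) • e) (ζ : H) : ‖x (e ζ)‖ ^ 2 = a * ‖e ζ‖ ^ 2 := by
  have h1 : star (x * e) * (x * e) = (a : ℂ) • (star e * e) := by
    rw [star_mul, he.isSelfAdjoint.star_eq, he.isIdempotentElem.eq, ← h]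
    simp only [mul_assoc]
  rw [← mul_apply_eq_comp, ← FSite_re_inner, h1, smul_apply, inner_smul_right,
    Complex.re_ofReal_mul, FSite_re_inner]

theorem FSite_le {t x y z : ℝ} (ht : 0 < t) (hy : 0 ≤ y) (hyz : y ≤ z)
    (h : x ^ 2 = 1 / (1 + t ^ 2) * y ^ 2) : √(1 + (t ^ 2)⁻¹) * x ≤ t⁻¹ * z := by
  refine le_trans (abs_le_of_sq_le_sq' (le_of_eq ?_) (by positivity : 0 ≤ t⁻¹ * y)).2 (by gcongr)
  rw [mul_pow, Real.sq_sqrt (by positivity), h]
  field_simp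
  ring

omit [CompleteSpace H] in
theorem FSite_err {x e : Op H} (hx : ‖x‖ ≤ 1) (ζ : H) : ‖x ζ - x (e ζ)‖ ≤ ‖ζ - e ζ‖ := by
  rw [← map_sub]
  exact (x.le_of_opNorm_le hx _).trans_eq (one_mul _)

theorem Tower.FSite_tendsto (ζ : H) : Tendsto (fun n => ‖ζ - T.e n ζ‖) atTop (𝓝 0) := by
  simpa using ((T.e_tendsto ζ).const_sub ζ).norm

theorem Tower.norm_c (n : ℕ) : ‖T.c n‖ ≤ 1 := by
  refine ContinuousLinearMap.opNorm_le_bound _ zero_le_one fun ζ => ?_
  have h1 := FSite_re_inner (T.c n) ζ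
  have h2 := FSite_re_inner (star (T.c n)) ζ
  have h3 := FSite_re_inner (1 : Op H) ζ
  rw [star_star] at h2
  rw [mul_one, star_one, one_apply_eq_self] at h3
  have h4 := congrArg (fun x : Op H => (⟪ζ, x ζ⟫_ℂ).re) (T.c_car n)
  simp only [add_apply, inner_add_right, Complex.add_re, h1, h2, h3, one_apply_eq_self] at h4
  rw [one_mul]
  exact (abs_le_of_sq_le_sq' (by nlinarith [sq_nonneg ‖star (T.c n) ζ‖]) (norm_nonneg ζ)).2

theorem Tower.cs_comm (n : ℕ) {x : Op H} (hx : x ∈ T.L n) : Commute x (star (T.c n)) := by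
  simpa using (T.c_comm n _ (star_mem hx)).star_star

theorem Tower.c_comm_c {n l : ℕ} (h : l ≠ n) :
    Commute (T.c l) (T.c n) ∧ Commute (T.c l) (star (T.c n)) := by
  rcases h.lt_or_gt with h | h
  · have := T.L_mono _ _ h _ (T.c_mem l)
    exact ⟨T.c_comm n _ this, T.cs_comm n this⟩
  · have := T.L_mono _ _ h _ (T.c_mem n)
    exact ⟨(T.c_comm l _ this).symm, (T.c_comm l _ (star_mem this)).symm⟩

theorem Tower.norm_Φ_le (m : ℕ) (x : Op H) : ‖T.Φ m x‖ ≤ ‖x‖ := by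
  refine ContinuousLinearMap.opNorm_le_bound _ (norm_nonneg _) fun ζ => ?_
  have := T.Φ_col m Unit (fun _ => x) (‖x‖ ^ 2) (fun ζ => by
    rw [Fintype.sum_unique, ← mul_pow]
    exact pow_le_pow_left₀ (norm_nonneg _) (x.le_opNorm ζ) 2) ζ
  rw [Fintype.sum_unique, ← mul_pow] at this
  exact (abs_le_of_sq_le_sq' this (by positivity)).2

theorem Tower.e_ccs_e (n : ℕ) :
    T.e n * (T.c n * star (T.c n)) * T.e n = ((1 / (1 + T.μ n ^ 2) : ℝ) : ℂ) • T.e n := by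
  have h : (1 / (1 + T.μ n ^ 2) : ℝ) = 1 - T.μ n ^ 2 / (1 + T.μ n ^ 2) := by
    field_simp
    ring
  rw [eq_sub_of_add_eq' (T.c_car n), mul_sub, sub_mul, T.e_cc_e, mul_one,
    (T.e_proj n).isIdempotentElem.eq, h, Complex.ofReal_sub, sub_smul, Complex.ofReal_one, one_smul]

theorem Tower.norm_c_e (n : ℕ) (ζ : H) :
    ‖T.c n (T.e n ζ)‖ ^ 2 = T.μ n ^ 2 / (1 + T.μ n ^ 2) * ‖T.e n ζ‖ ^ 2 :=
  FSite_sq (T.e_proj n) (T.e_cc_e n) ζ

theorem Tower.norm_cs_e (n : ℕ) (ζ : H) :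
    ‖star (T.c n) (T.e n ζ)‖ ^ 2 = 1 / (1 + T.μ n ^ 2) * ‖T.e n ζ‖ ^ 2 :=
  FSite_sq (T.e_proj n) (by rw [star_star, T.e_ccs_e]) ζ

/-- Finitely many available values occur at distinct sites satisfying any eventual property. -/
theorem Tower.exists_sites {σ : Type} [Fintype σ] (μ : σ → ℝ) (hμ : ∀ s, T.Avail (μ s))
    {P : σ → ℕ → Prop} (hP : ∀ s, ∀ᶠ n in atTop, P s n) :
    ∃ n : σ → ℕ, Function.Injective n ∧ ∀ s, T.μ (n s) = μ s ∧ P s (n s) := by
  classical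
  have key : ∀ F : Finset σ, ∃ n : σ → ℕ, Set.InjOn n F ∧ ∀ s ∈ F, T.μ (n s) = μ s ∧ P s (n s) := by
    intro F
    induction F using Finset.induction_on with
    | empty => exact ⟨0, by simp, by simp⟩
    | insert a F ha ih =>
      obtain ⟨n, h1, h2⟩ := ih
      obtain ⟨N, hN⟩ := eventually_atTop.1 (hP a)
      obtain ⟨l, h3, h4⟩ := hμ a (max N (F.sup n + 1))
      have h5 : ∀ s ∈ F, Function.update n a l s = n s := fun s hs =>
        Function.update_of_ne (ne_of_mem_of_not_mem hs ha) _ _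
      refine ⟨Function.update n a l, ?_, ?_⟩
      · rw [Finset.coe_insert, Set.injOn_insert (by simpa using ha)]
        refine ⟨h1.congr fun s hs => (h5 s hs).symm, ?_⟩
        rintro ⟨s, hs, h6⟩
        rw [h5 s hs, Function.update_self] at h6
        have := Finset.le_sup (f := n) (Finset.mem_coe.1 hs)
        omega
      · rw [Finset.forall_mem_insert, Function.update_self]
        exact ⟨⟨h4, hN l (by omega)⟩, fun s hs => (h5 s hs).symm ▸ h2 s hs⟩
  obtain ⟨n, h1, h2⟩ := key Finset.univ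
  exact ⟨n, by simpa using h1, fun s => h2 s (Finset.mem_univ s)⟩

/-- `Std.eig` with `μ = 1`, `a = m c`, `b = c'⋆ m'`, `m' = Rm J m`.  Up to errors `O(‖ζ - e n ζ‖)` for
the finitely many vectors `ζ` involved (`e_tendsto`; norms of `c`, `c'` are `≤ 1`):
`a ξ - b ξ ≈ c'⋆ (t m ξ - m' ξ)`, `a⋆ ξ - b⋆ ξ ≈ c⋆ (m⋆ ξ - t m'⋆ ξ)`
(`b⋆ ξ = m'⋆ c' ξ ≈ t m'⋆ c⋆ ξ`), `‖c'⋆ e ζ‖ = t⁻¹ ‖c e ζ‖ = (1 + t²)^{-1/2} ‖e ζ‖ = ‖c⋆ e ζ‖`, and
`‖m⋆ ξ - t J m ξ‖ = ‖J m⋆ ξ - t m ξ‖`; `√(1 + t⁻²) (1 + t²)^{-1/2} = t⁻¹`. -/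
theorem Tower.site (hS : Std S) (hM : S.M = M) {k : ℕ} {m : Op H} (hm : m ∈ T.L k) {t κ : ℝ}
    (ht : 0 < t) (hκ : 0 < κ) : ∀ᶠ n in atTop, T.μ n = t →
      √(1 + (t ^ 2)⁻¹) * ‖(m * T.c n) S.vac - S.J (star (m * T.c n) S.vac)‖ ≤
        2 * ‖m S.vac - (t⁻¹ : ℂ) • S.J (star m S.vac)‖ + κ := by
  subst hM
  have hmM := T.L_le k m hm
  have hm' : jc S.J m ∈ S.M.commutant := hS.jc_mem m hmM
  have v1 : jc S.J m S.vac = S.J (m S.vac) := by rw [jc_apply, J_vac]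
  have v2 : star (jc S.J m) S.vac = S.J (star m S.vac) := by
    rw [← jc_star S.J_J, jc_apply, J_vac]
  have ht' : (t : ℂ) ≠ 0 := Complex.ofReal_ne_zero.2 ht.ne'
  have n1 : ‖(t : ℂ) • m S.vac - S.J (star m S.vac)‖ =
      t * ‖m S.vac - (t⁻¹ : ℂ) • S.J (star m S.vac)‖ := by
    rw [← smul_inv_smul₀ ht' (S.J (star m S.vac)), ← smul_sub, norm_smul, Complex.norm_real,
      Real.norm_of_nonneg ht.le, smul_inv_smul₀ ht']
  have n2 : ‖star m S.vac - (t : ℂ) • S.J (m S.vac)‖ =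
      ‖(t : ℂ) • m S.vac - S.J (star m S.vac)‖ := by
    rw [← S.J.norm_map, map_sub, map_smulₛₗ, S.J_J, Complex.conj_ofReal, norm_sub_rev]
  have lim := ((((T.FSite_tendsto (m S.vac)).add (T.FSite_tendsto (S.J (star m S.vac)))).add
    ((T.FSite_tendsto S.vac).const_mul (‖m‖ * (1 + t)))).add
    (T.FSite_tendsto (star m S.vac - (t : ℂ) • S.J (m S.vac)))).const_mul √(1 + (t ^ 2)⁻¹)
  simp only [mul_zero, add_zero] at lim
  filter_upwards [lim.eventually (ge_mem_nhds hκ), eventually_ge_atTop k] with n h1 hn hμ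
  have hmn := T.L_mono _ _ hn _ hm
  have hc := T.norm_c n
  have hcs : ‖star (T.c n)‖ ≤ 1 := by rwa [norm_star]
  have hc' := T.norm_c' n
  have hcs' : ‖star (T.c' n)‖ ≤ 1 := by rwa [norm_star]
  have ce : ∀ ζ, T.c n (T.e n ζ) = (t : ℂ) • star (T.c' n) (T.e n ζ) := fun ζ => by
    rw [← mul_apply_eq_comp, T.c_e, hμ]; rfl
  have cse : ∀ ζ, T.c' n (T.e n ζ) = (t : ℂ) • star (T.c n) (T.e n ζ) := fun ζ => by
    rw [← mul_apply_eq_comp (star _), T.cs_e, hμ, smul_apply, smul_inv_smul₀ ht']; rfl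
  have ne : ∀ ζ, ‖T.e n ζ‖ ≤ ‖ζ‖ := bspec_proj_norm_apply (T.e_proj n)
  have b1 : ∀ ζ, √(1 + (t ^ 2)⁻¹) * ‖star (T.c' n) (T.e n ζ)‖ ≤ t⁻¹ * ‖ζ‖ := fun ζ => by
    refine FSite_le ht (norm_nonneg _) (ne ζ) ?_
    have := T.norm_c_e n ζ
    rw [ce, hμ, norm_smul, Complex.norm_real, Real.norm_of_nonneg ht.le, mul_pow] at this
    refine mul_left_cancel₀ (pow_pos ht 2).ne' (this.trans ?_)
    ring
  have b2 : ∀ ζ, √(1 + (t ^ 2)⁻¹) * ‖star (T.c n) (T.e n ζ)‖ ≤ t⁻¹ * ‖ζ‖ := fun ζ =>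
    FSite_le ht (norm_nonneg _) (ne ζ) (hμ ▸ T.norm_cs_e n ζ)
  have h2 := hS.eig (mul_mem hmM (T.c_mem_M n))
    (mul_mem (star_mem (T.c'_mem n)) (star_mem hm')) one_pos
  rw [Complex.ofReal_one, one_smul, one_smul, one_smul, norm_sub_rev] at h2
  have h3 : ‖(m * T.c n) S.vac - (star (T.c' n) * star (jc S.J m)) S.vac‖ ≤
      ‖star (T.c' n) (T.e n ((t : ℂ) • m S.vac - S.J (star m S.vac)))‖ +
        (‖m S.vac - T.e n (m S.vac)‖ + ‖S.J (star m S.vac) - T.e n (S.J (star m S.vac))‖) := by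
    have e : (m * T.c n) S.vac - (star (T.c' n) * star (jc S.J m)) S.vac =
        star (T.c' n) (T.e n ((t : ℂ) • m S.vac - S.J (star m S.vac))) +
          ((T.c n (m S.vac) - T.c n (T.e n (m S.vac))) - (star (T.c' n) (S.J (star m S.vac)) -
            star (T.c' n) (T.e n (S.J (star m S.vac))))) := by
      rw [(T.c_comm n m hmn).eq, mul_apply_eq_comp, mul_apply_eq_comp, v2, ce]
      simp only [map_sub, map_smul]
      abel
    rw [e]
    exact (norm_add_le _ _).trans (add_le_add le_rfl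
      ((norm_sub_le _ _).trans (add_le_add (FSite_err hc _) (FSite_err hcs' _))))
  have h4 : ‖star (m * T.c n) S.vac - star (star (T.c' n) * star (jc S.J m)) S.vac‖ ≤
      ‖star (T.c n) (T.e n (star m S.vac - (t : ℂ) • S.J (m S.vac)))‖ +
        (‖(star m S.vac - (t : ℂ) • S.J (m S.vac)) - T.e n (star m S.vac - (t : ℂ) • S.J (m S.vac))‖ +
          ‖m‖ * (1 + t) * ‖S.vac - T.e n S.vac‖) := by
    have e0 : star (T.c n) (S.J (m S.vac)) = jc S.J m (star (T.c n) S.vac) := by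
      rw [← v1, ← mul_apply_eq_comp, (commute_of_mem (star_mem (T.c_mem_M n)) hm').eq,
        mul_apply_eq_comp]
    have e : star (m * T.c n) S.vac - star (star (T.c' n) * star (jc S.J m)) S.vac =
        star (T.c n) (T.e n (star m S.vac - (t : ℂ) • S.J (m S.vac))) +
          ((star (T.c n) (star m S.vac - (t : ℂ) • S.J (m S.vac)) -
            star (T.c n) (T.e n (star m S.vac - (t : ℂ) • S.J (m S.vac)))) +
          jc S.J m ((t : ℂ) • (star (T.c n) S.vac - star (T.c n) (T.e n S.vac)) -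
            (T.c' n S.vac - T.c' n (T.e n S.vac)))) := by
      rw [star_mul, star_mul, star_star, star_star, mul_apply_eq_comp, mul_apply_eq_comp, cse]
      simp only [map_sub, map_smul, smul_sub, e0]
      abel
    rw [e]
    refine (norm_add_le _ _).trans (add_le_add le_rfl ((norm_add_le _ _).trans
      (add_le_add (FSite_err hcs _) (((jc S.J m).le_opNorm _).trans ?_))))
    rw [norm_jc, mul_assoc]
    refine mul_le_mul_of_nonneg_left ((norm_sub_le _ _).trans ?_) (norm_nonneg _)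
    rw [norm_smul, Complex.norm_real, Real.norm_of_nonneg ht.le]
    linarith [mul_le_mul_of_nonneg_left (FSite_err (e := T.e n) hcs S.vac) ht.le,
      FSite_err (e := T.e n) hc' S.vac]
  have b3 := b1 ((t : ℂ) • m S.vac - S.J (star m S.vac))
  have b4 := b2 (star m S.vac - (t : ℂ) • S.J (m S.vac))
  rw [n2] at b4
  rw [n1, inv_mul_cancel_left₀ ht.ne'] at b3 b4
  have h5 := mul_le_mul_of_nonneg_left (h2.trans (add_le_add h4 h3))
    (Real.sqrt_nonneg (1 + (t ^ 2)⁻¹))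
  linarith

/-- `c⋆ c e = c'⋆ c' e`-type identity: `c⋆ c e = μ c'⋆ c⋆ e = c'⋆ c' e`; `Std.eig` with `μ = 1`. -/
theorem Tower.site_num (hS : Std S) (hM : S.M = M) {κ : ℝ} (hκ : 0 < κ) : ∀ᶠ n in atTop,
    ‖(star (T.c n) * T.c n) S.vac - S.J ((star (T.c n) * T.c n) S.vac)‖ ≤ κ := by
  subst hM
  have lim := (T.FSite_tendsto S.vac).const_mul 4
  rw [mul_zero] at lim
  filter_upwards [lim.eventually (ge_mem_nhds hκ)] with n h1
  have hc := T.c_mem_M n
  have hc' := T.c'_mem n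
  have h2 := hS.eig (mul_mem (star_mem hc) hc) (mul_mem (star_mem hc') hc') one_pos
  rw [Complex.ofReal_one, one_smul, one_smul, one_smul, norm_sub_rev, star_mul, star_mul, star_star,
    star_star] at h2
  have e : star (T.c n) * T.c n * T.e n = star (T.c' n) * T.c' n * T.e n := by
    rw [mul_assoc, T.c_e, mul_smul_comm, ← mul_assoc,
      (commute_of_mem (star_mem hc) (star_mem hc')).eq, mul_assoc, T.cs_e, mul_smul_comm,
      smul_inv_smul₀ (Complex.ofReal_ne_zero.2 (T.μ_pos n).ne'), mul_assoc]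
  have n1 : ∀ x : Op H, ‖x‖ ≤ 1 → ‖star x * x‖ ≤ 1 := fun x hx => by
    rw [CStarRing.norm_star_mul_self]
    exact mul_le_one₀ hx (norm_nonneg _) hx
  have h3 := FSite_err (e := T.e n) (n1 _ (T.norm_c n)) S.vac
  have h4 := FSite_err (e := T.e n) (n1 _ (T.norm_c' n)) S.vac
  rw [← mul_apply_eq_comp _ (T.e n), e] at h3
  rw [← mul_apply_eq_comp _ (T.e n), norm_sub_rev] at h4
  linarith [norm_sub_le_norm_sub_add_norm_sub ((star (T.c n) * T.c n) S.vac)
    ((star (T.c' n) * T.c' n * T.e n) S.vac) ((star (T.c' n) * T.c' n) S.vac)]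

end Crest.Agent.R078
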