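import Crest.Agent.R078.BFrame
import Crest.Agent.R078.BDist

/-! Row 78, stage 5: rigidity of bimodule maps and the dichotomy. -/

set_option autoImplicit false

open scoped InnerProductSpace
open Filter Topology

namespace Crest.Agent.R078

universe u

section aux

variable {H : Type*} [NormedAddCommGroup H] [InnerProductSpace ℂ H] [CompleteSpace H]

omit [CompleteSpace H] in
theorem MA_norm_le {T : Op H} {c : ℝ} (hc : 0 ≤ c)
    (h : ∀ η ζ, ‖⟪η, T ζ⟫_ℂ‖ ≤ c * ((‖η‖ ^ 2 + ‖ζ‖ ^ 2) / 2)) : ‖T‖ ≤ c := by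
  refine T.opNorm_le_bound hc fun ζ => ?_
  rcases (norm_nonneg (T ζ)).eq_or_lt with h0 | h0
  · rw [← h0]; positivity
  have hζ : 0 < ‖ζ‖ := norm_pos_iff.2 (by rintro rfl; simp at h0)
  have h1 := h (((‖ζ‖ / ‖T ζ‖ : ℝ) : ℂ) • T ζ) ζ
  rw [inner_smul_left, norm_mul, norm_smul, Complex.conj_ofReal, Complex.norm_real,
    Real.norm_of_nonneg (by positivity), inner_self_eq_norm_sq_to_K, norm_pow, RCLike.norm_ofReal,
    abs_norm, div_mul_cancel₀ _ h0.ne'] at h1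
  have h2 : ‖ζ‖ / ‖T ζ‖ * ‖T ζ‖ ^ 2 = ‖ζ‖ * ‖T ζ‖ := by field_simp
  rw [h2] at h1
  exact le_of_mul_le_mul_left (by linarith) hζ

omit [CompleteSpace H] in
theorem MA_polar {T : Op H} {c : ℝ} (hc : 0 ≤ c) (h : ∀ η, ‖⟪η, T η⟫_ℂ‖ ≤ c * ‖η‖ ^ 2) :
    ‖T‖ ≤ 2 * c := by
  refine MA_norm_le (by positivity) fun η ζ => ?_
  have h' : ∀ η, ‖⟪T η, η⟫_ℂ‖ ≤ c * ‖η‖ ^ 2 := fun η => by rw [norm_inner_symm]; exact h η
  have e := inner_map_polarization (T : H →ₗ[ℂ] H) η ζ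
  simp only [ContinuousLinearMap.coe_coe] at e
  rw [norm_inner_symm, e, norm_div]
  have p1 := parallelogram_law_with_norm ℂ η ζ
  have p2 := parallelogram_law_with_norm ℂ η (Complex.I • ζ)
  rw [norm_smul, Complex.norm_I, one_mul] at p2
  have a1 := h' (η + ζ)
  have a2 := h' (η - ζ)
  have a3 : ‖Complex.I * ⟪T (η + Complex.I • ζ), η + Complex.I • ζ⟫_ℂ‖ ≤
      c * ‖η + Complex.I • ζ‖ ^ 2 := by
    rw [norm_mul, Complex.norm_I, one_mul]; exact h' _
  have a4 : ‖Complex.I * ⟪T (η - Complex.I • ζ), η - Complex.I • ζ⟫_ℂ‖ ≤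
      c * ‖η - Complex.I • ζ‖ ^ 2 := by
    rw [norm_mul, Complex.norm_I, one_mul]; exact h' _
  have a5 := (norm_sub_le _ _).trans
    (add_le_add ((norm_add_le _ _).trans (add_le_add ((norm_sub_le _ _).trans (add_le_add a1 a2)) a3))
      a4)
  rw [Complex.norm_ofNat, div_le_iff₀ (by norm_num)]
  refine a5.trans_eq ?_
  linear_combination c * p1 + c * p2

theorem MA_re_inner (x : Op H) (η : H) : (⟪η, (star x * x) η⟫_ℂ).re = ‖x η‖ ^ 2 := by
  rw [mul_apply_eq_comp, ← inner_conj_symm, bpolar0_inner, inner_self_eq_norm_sq_to_K]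
  simp [← Complex.ofReal_pow]

theorem MA_inner_le (x r : Op H) (η ζ : H) :
    ‖⟪η, (star x * r * x) ζ⟫_ℂ‖ ≤ ‖r‖ * ((‖x η‖ ^ 2 + ‖x ζ‖ ^ 2) / 2) := by
  rw [mul_apply_eq_comp, mul_apply_eq_comp, norm_inner_symm, bpolar0_inner]
  have h1 := norm_inner_le_norm (𝕜 := ℂ) (r (x ζ)) (x η)
  have h2 := mul_le_mul_of_nonneg_right (r.le_opNorm (x ζ)) (norm_nonneg (x η))
  have h3 := mul_nonneg (norm_nonneg r) (sq_nonneg (‖x η‖ - ‖x ζ‖))
  nlinarith

variable {G : Type*} [AddCommGroup G] {w : G → Op H}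

theorem MA_avg_re (hw : PRep w) (x : Op H) (η : H) : (⟪η, avg w (star x * x) η⟫_ℂ).re =
    (invM G fun a => ((‖x (star (w a) η)‖ ^ 2 : ℝ) : ℂ)).re := by
  rw [avg, inner_wm (hw.bd _), (invM G).re_eq (bd_inner (hw.bd _) η η)]
  simp only [BMean_inner, MA_re_inner]

theorem MA_est (hw : PRep w) (x r : Op H) (η ζ : H) :
    ‖⟪η, avg w (star x * r * x) ζ⟫_ℂ‖ ≤
      ‖r‖ * (((⟪η, avg w (star x * x) η⟫_ℂ).re + (⟪ζ, avg w (star x * x) ζ⟫_ℂ).re) / 2) := by
  have hb : ∀ (a : G) (η : H), ‖x (star (w a) η)‖ ^ 2 ≤ (‖x‖ * ‖η‖) ^ 2 := fun a η => by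
    have := x.le_opNorm (star (w a) η)
    rw [bpolar0_norm (Unitary.star_mem (hw.mem a))] at this
    gcongr
  rw [MA_avg_re hw, MA_avg_re hw, avg, inner_wm (hw.bd _)]
  refine (mn_norm_le (invM G)
    (g := fun a => ‖r‖ * ((‖x (star (w a) η)‖ ^ 2 + ‖x (star (w a) ζ)‖ ^ 2) / 2))
    ⟨‖r‖ * (((‖x‖ * ‖η‖) ^ 2 + (‖x‖ * ‖ζ‖) ^ 2) / 2), fun a => ?_⟩ fun a => ?_).trans_eq ?_
  · rw [Real.norm_of_nonneg (by positivity)]
    exact mul_le_mul_of_nonneg_left (by linarith [hb a η, hb a ζ]) (norm_nonneg r)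
  · refine le_trans (le_of_eq ?_) (MA_inner_le x r (star (w a) η) (star (w a) ζ))
    rw [bpolar0_inner]
    rfl
  · have e : (fun a => ((‖r‖ * ((‖x (star (w a) η)‖ ^ 2 + ‖x (star (w a) ζ)‖ ^ 2) / 2) : ℝ) : ℂ)) =
        fun a => ((‖r‖ / 2 : ℝ) : ℂ) * (((‖x (star (w a) η)‖ ^ 2 : ℝ) : ℂ) +
          ((‖x (star (w a) ζ)‖ ^ 2 : ℝ) : ℂ)) := by
      funext a; push_cast; ring
    rw [e, (invM G).map_mul_left, (invM G).map_add, Complex.re_ofReal_mul, Complex.add_re]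
    ring

theorem MA_split {a s : Op H} (hs : a + star s * s = 1) (η : H) :
    (⟪η, a η⟫_ℂ).re + ‖s η‖ ^ 2 = ‖η‖ ^ 2 := by
  rw [← MA_re_inner, ← Complex.add_re, ← inner_add_right, ← add_apply, hs,
    one_apply_eq_self, inner_self_eq_norm_sq_to_K]
  simp [← Complex.ofReal_pow]

theorem MA_contr (hw : PRep w) {x s : Op H} (hs : avg w (star x * x) + star s * s = 1) (T : Op H) :
    ‖avg w (star x * T * x) + star s * T * s‖ ≤ ‖T‖ := by
  refine MA_norm_le (norm_nonneg _) fun η ζ => ?_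
  rw [add_apply, inner_add_right, ← MA_split hs η, ← MA_split hs ζ]
  refine (norm_add_le _ _).trans ((add_le_add (MA_est hw x T η ζ) (MA_inner_le s T η ζ)).trans_eq ?_)
  ring

theorem MA_contr' (hw : PRep w) {x s : Op H} (hs : avg w (star x * x) + star s * s = 1) (T : Op H) :
    ‖avg w (star x * T * x)‖ ≤ ‖T‖ := by
  refine MA_norm_le (norm_nonneg _) fun η ζ => (MA_est hw x T η ζ).trans ?_
  have h1 := MA_split hs η
  have h2 := MA_split hs ζ
  gcongr <;> nlinarith [sq_nonneg ‖s η‖, sq_nonneg ‖s ζ‖]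

theorem MA_sqrt {A : VN H} {z : Op H} (hz : Cen A z) (hs : star z = z)
    (h0 : ∀ η, 0 ≤ (⟪η, z η⟫_ℂ).re) : ∃ s c : Op H, Cen A s ∧ Cen A c ∧ star s = s ∧ star c = c ∧
      s * c = 1 ∧ c * s = 1 ∧ c * c = 1 + z := by
  have hz0 : 0 ≤ z := (ContinuousLinearMap.nonneg_iff_isPositive z).2
    (ContinuousLinearMap.isPositive_def'.2 ⟨hs, fun η => by
      rw [ContinuousLinearMap.reApplyInnerSelf_apply, inner_re_symm]; exact h0 η⟩)
  have hsa : IsSelfAdjoint z := hs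
  have hsp : ∀ t ∈ spectrum ℝ z, 0 < 1 + t := fun t ht => by
    linarith [spectrum_nonneg_of_nonneg hz0 ht]
  have hc : ContinuousOn (fun t : ℝ => (√(1 + t))⁻¹) (spectrum ℝ z) :=
    ContinuousOn.inv₀ (by fun_prop) fun t ht => (Real.sqrt_pos.2 (hsp t ht)).ne'
  have hsc : cfc (fun t : ℝ => (√(1 + t))⁻¹) z * cfc (fun t : ℝ => √(1 + t)) z = 1 := by
    rw [← cfc_mul _ _ z hc, ← cfc_const_one ℝ z]
    exact cfc_congr fun t ht => inv_mul_cancel₀ (Real.sqrt_pos.2 (hsp t ht)).ne'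
  refine ⟨_, _, ⟨cfc_real_mem _ hz.1, cfc_real_mem _ hz.2⟩, ⟨cfc_real_mem _ hz.1, cfc_real_mem _ hz.2⟩,
    IsSelfAdjoint.cfc.star_eq, IsSelfAdjoint.cfc.star_eq, hsc,
    (cfc_commute_cfc _ _ _).eq.trans hsc, ?_⟩
  have e : 1 + z = cfc (fun t : ℝ => 1 + t) z := by
    rw [cfc_add z _ _, cfc_const_one ℝ z, cfc_id' ℝ z]
  rw [← cfc_mul _ _ z, e]
  exact cfc_congr fun t ht => Real.mul_self_sqrt (hsp t ht).le

theorem MA_avg_cm (hw : PRep w) (x : Op H) {r : Op H} (hr : ∀ a, Commute r (w a)) :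
    avg w (star x * cm r x) = avg w (star x * r * x) - avg w (star x * x) * r := by
  rw [← hw.avg_mul_right hr, ← hw.avg_sub, cm, mul_sub, mul_assoc, mul_assoc]

theorem MA_kappa {K : ℝ} (hK : 0 ≤ K) (hd : ∀ (M : VN H) (T : Op H) (ε : ℝ), 0 ≤ ε →
      (∀ y ∈ M.commutant, ‖cm T y‖ ≤ ε * ‖y‖) → ∃ x ∈ M, ‖T - x‖ ≤ K * ε)
    {A : VN H} {ξ : H} {F : Frame H} {k : Op H} {ε : ℝ} (hF : Framed A ξ F) (hk : F.Bim A k)
    (hε : 0 ≤ ε) (h : ∀ x ∈ A, ∀ y ∈ A.commutant, ‖cm (cm k x) y‖ ≤ ε * ‖x‖ * ‖y‖) {x s : Op H}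
    (hx : x ∈ A) (hs : Cen A s) (h1 : avg F.w (star x * x) + star s * s = 1) :
    ‖avg F.w (star x * cm k x)‖ ≤ 4 * K ^ 2 * ε := by
  have hw := F.prep_w
  have hζ : ‖avg F.w (star x * x)‖ ≤ 1 := by
    have := MA_contr' hw h1 1
    rw [mul_one] at this
    exact this.trans ContinuousLinearMap.norm_id_le
  obtain ⟨m, hm, h2⟩ := hd A (avg F.w (star x * cm k x)) (2 * K * ε) (by positivity) fun y hy => by
    obtain ⟨m', hm', h2⟩ := hd A.commutant (cm k y) (ε * ‖y‖) (by positivity) fun a ha => by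
      rw [VonNeumannAlgebra.commutant_commutant] at ha
      have e : cm (cm k y) a = cm (cm k a) y := by
        have := (commute_of_mem ha hy).eq
        simp only [cm, mul_sub, sub_mul, mul_assoc, this]
        simp only [← mul_assoc, this]
        abel
      rw [e]
      exact (h a ha y hy).trans_eq (by ring)
    have hyw : ∀ a, Commute y (F.w a) := fun a => (commute_of_mem (hF.w_mem a) hy).symm
    have hr : ∀ a, Commute (cm k y - m') (F.w a) := fun a =>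
      (((hk.w a).mul_left (hyw a)).sub_left ((hyw a).mul_left (hk.w a))).sub_left
        (commute_of_mem (hF.w_mem a) hm').symm
    have e : cm (avg F.w (star x * cm k x)) y = avg F.w (star x * cm (cm k y - m') x) := by
      rw [cm, ← hw.avg_mul_right hyw, ← hw.avg_mul_left hyw, ← hw.avg_sub]
      congr 1
      have e1 := (commute_of_mem hx hy).eq
      have e2 := (commute_of_mem (star_mem hx) hy).eq
      have e3 := (commute_of_mem hx hm').eq
      rw [← mul_assoc y, ← e2]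
      simp only [cm, mul_sub, sub_mul, mul_assoc, e1, e3]
      simp only [← mul_assoc y x, ← mul_assoc x y, e1]
      abel
    rw [e, MA_avg_cm hw x hr]
    have h3 := MA_contr' hw h1 (cm k y - m')
    have h4 := (norm_mul_le _ (cm k y - m')).trans (mul_le_of_le_one_left (norm_nonneg _) hζ)
    refine (norm_sub_le _ _).trans ?_
    linarith
  have hz : Cen A (avg F.w m) := hF.E_cen hm
  have h3 := (hw.norm_sub_avg_le (hw.commute_avg (star x * cm k x)) m).trans h2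
  have h4 : ∀ z, Cen A z → ‖k + z + avg F.w (star x * cm k x)‖ ≤ ‖k + z‖ := fun z hz => by
    have hb := hk.add (hF.bim_cen hz)
    have e : cm k x = cm (k + z) x := by
      simp only [cm, add_mul, mul_add, (hz.commute hx).eq]
      abel
    refine le_of_eq_of_le ?_ (MA_contr hw h1 (k + z))
    rw [e, MA_avg_cm hw x hb.w, mul_assoc (star s), (hb.cen s hs).eq, ← mul_assoc,
      eq_sub_of_add_eq' h1, sub_mul, one_mul]
    congr 1
    abel
  generalize avg F.w (star x * cm k x) = κ at *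
  generalize avg F.w m = z at *
  have h5 : ∀ n : ℕ, ‖k + (n : ℂ) • z‖ ≤ ‖k‖ + n * (K * (2 * K * ε)) := fun n => by
    induction n with
    | zero => simp
    | succ n ih =>
      have e : k + ((n + 1 : ℕ) : ℂ) • z = k + (n : ℂ) • z + κ - (κ - z) := by
        push_cast; module
      have := h4 _ (hz.smul n)
      rw [e]
      refine (norm_sub_le _ _).trans ?_
      push_cast
      linarith
  have h6 : ‖z‖ ≤ K * (2 * K * ε) := by
    by_contra! h6
    obtain ⟨n, hn⟩ := exists_nat_gt (2 * ‖k‖ / (‖z‖ - K * (2 * K * ε)))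
    rw [div_lt_iff₀ (by linarith)] at hn
    have h7 := norm_sub_le (k + (n : ℂ) • z) k
    rw [add_sub_cancel_left, norm_smul, Complex.norm_natCast] at h7
    linarith [h5 n]
  have h7 := norm_add_le (κ - z) z
  rw [sub_add_cancel] at h7
  linarith

end aux

/-- (A'): a bimodule map killing `ξ` is controlled by its double commutators. -/
theorem aprime : ∃ C : ℝ, 0 ≤ C ∧ ∀ (H : Type u) [NormedAddCommGroup H] [InnerProductSpace ℂ H]
    [CompleteSpace H] (A : VN H) (ξ : H) (F : Frame H) (k : Op H) (ε : ℝ), Framed A ξ F →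
    F.Bim A k → k ξ = 0 → 0 ≤ ε →
    (∀ x ∈ A, ∀ y ∈ A.commutant, ‖cm (cm k x) y‖ ≤ ε * ‖x‖ * ‖y‖) → ‖k‖ ≤ C * ε := by
  obtain ⟨K, hK, hd⟩ := dist_le.{u}
  refine ⟨8 * K ^ 2, by positivity, fun H _ _ _ A ξ F k ε hF hk hξ hε h => ?_⟩
  have hw := F.prep_w
  have key : ∀ x ∈ A, ‖⟪x ξ, k (x ξ)⟫_ℂ‖ ≤ 4 * K ^ 2 * ε * (1 + ‖x ξ‖ ^ 2) := fun x hx => by
    have hxx : star x * x ∈ A := mul_mem (star_mem hx) hx
    obtain ⟨s, c, hs, hc, s1, c1, e1, e2, e3⟩ := MA_sqrt (hF.E_cen hxx)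
      (by rw [F.E_eq, ← hw.avg_star, star_mul, star_star])
      (hw.avg_nonneg fun η => by rw [MA_re_inner]; positivity)
    have hsw := (hF.bim_cen hs).w
    have h1 : avg F.w (star (x * s) * (x * s)) + star s * s = 1 := by
      rw [star_mul, s1, mul_assoc, hw.avg_mul_left hsw, ← mul_assoc (star x), hw.avg_mul_right hsw,
        ← mul_add, ← F.E_eq, ← add_one_mul, add_comm, ← e3, mul_assoc, e2, mul_one, e1]
    have hxs : x * s ∈ A := mul_mem hx hs.1
    have h2 := MA_kappa hK (hd H) hF hk hε h hxs hs h1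
    have h3 : ⟪c ξ, avg F.w (star (x * s) * cm k (x * s)) (c ξ)⟫_ℂ = ⟪x ξ, k (x ξ)⟫_ℂ := by
      have hxw : ∀ a, Commute (x * s) (F.w' a) := fun a => commute_of_mem hxs (hF.w'_mem a)
      rw [← F.E_eq, cm, F.inner_E (fun a => (commute_of_mem (star_mem hxs) (hF.w'_mem a)).mul_left
        (((hk.w' a).mul_left (hxw a)).sub_left ((hxw a).mul_left (hk.w' a)))) (hF.P_cen_vac hc)
        (hF.P_cen_vac hc), mul_apply_eq_comp, ← inner_conj_symm, bpolar0_inner, inner_conj_symm]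
      have e4 : (x * s) (c ξ) = x ξ := by
        rw [← mul_apply_eq_comp, mul_assoc, e1, mul_one]
      have e5 : k (c ξ) = 0 := by
        rw [← mul_apply_eq_comp, (hk.cen c hc).eq, mul_apply_eq_comp, hξ, map_zero]
      rw [sub_apply, mul_apply_eq_comp k, mul_apply_eq_comp _ k, e4, e5, map_zero, sub_zero]
    have h4 : ‖c ξ‖ ^ 2 = 1 + ‖x ξ‖ ^ 2 := by
      have := hF.inner_E hxx cen_one cen_one
      rw [one_apply_eq_self] at this
      rw [← MA_re_inner, c1, e3, add_apply, inner_add_right, Complex.add_re, this, MA_re_inner,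
        one_apply_eq_self, inner_self_eq_norm_sq_to_K, hF.cs.1]
      simp
    rw [← h3, ← h4]
    exact (BMean1_inner_op_le h2 _ _).trans_eq (by ring)
  have key2 : ∀ x ∈ A, ‖⟪x ξ, k (x ξ)⟫_ℂ‖ ≤ 4 * K ^ 2 * ε * ‖x ξ‖ ^ 2 := fun x hx => by
    by_contra! h1
    obtain ⟨n, hn⟩ := exists_nat_gt
      (4 * K ^ 2 * ε / (‖⟪x ξ, k (x ξ)⟫_ℂ‖ - 4 * K ^ 2 * ε * ‖x ξ‖ ^ 2))
    rw [div_lt_iff₀ (by linarith)] at hn
    have h2 := key _ (A.toStarSubalgebra.smul_mem hx ((n + 1 : ℕ) : ℂ))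
    rw [smul_apply, map_smul, inner_smul_left, inner_smul_right, norm_mul, norm_mul, norm_smul,
      RCLike.norm_conj, Complex.norm_natCast] at h2
    push_cast at h2
    have h3 : (0 : ℝ) ≤ n := n.cast_nonneg
    nlinarith [mul_nonneg (mul_nonneg h3 h3) (sub_nonneg.2 h1.le),
      mul_nonneg h3 (sub_nonneg.2 h1.le)]
  refine (MA_polar (c := 4 * K ^ 2 * ε) (by positivity) fun η => ?_).trans_eq (by ring)
  exact hF.cs.2.1.induction (p := fun η => ‖⟪η, k η⟫_ℂ‖ ≤ 4 * K ^ 2 * ε * ‖η‖ ^ 2)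
    (isClosed_le (by fun_prop) (by fun_prop)) key2 η

/-- An approximate normaliser is either very close to its central symbol or far from it. -/
theorem dichotomy : ∃ C c₀ : ℝ, 0 ≤ C ∧ 0 < c₀ ∧ ∀ (H : Type u) [NormedAddCommGroup H]
    [InnerProductSpace ℂ H] [CompleteSpace H] (A : VN H) (ξ : H) (F : Frame H) (T T' c : Op H)
    (ε : ℝ), Framed A ξ F → F.Bim A T → ‖T‖ ≤ 4 → ‖T'‖ ≤ 4 → 0 ≤ ε → ‖T * T' - 1‖ ≤ ε →
    ‖T' * T - 1‖ ≤ ε → (∀ x ∈ A, ∀ y ∈ A.commutant, ‖cm (T * x * T') y‖ ≤ ε * ‖x‖ * ‖y‖) →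
    Cen A c → c ξ = T ξ → ‖T - c‖ ≤ c₀ → ‖T - c‖ ≤ C * ε := by
  obtain ⟨C, hC, ha⟩ := aprime.{u}
  refine ⟨28 * C, 1 / (32 * C + 1), by positivity, by positivity,
    fun H _ _ _ A ξ F T T' c ε hF hT n1 n2 hε n3 n4 h hc hξ hg => ?_⟩
  rw [le_div_iff₀ (by positivity)] at hg
  have g0 := norm_nonneg (T - c)
  have g1 : ‖T - c‖ ≤ 1 := by nlinarith
  have := ha H A ξ F (T - c) (14 * ε + 16 * ‖T - c‖ ^ 2) hF (hT.sub (hF.bim_cen hc))
    (by rw [sub_apply, hξ, sub_self]) (by positivity) fun x hx y hy => by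
      have e1 : cm (T - c) x = cm T x := by
        simp only [cm, sub_mul, mul_sub, (hc.commute hx).eq]; abel
      have e2 : cm (T - c) y = cm T y := by
        simp only [cm, sub_mul, mul_sub, (hc.commute' hy).eq]; abel
      have e3 : cm (cm T x) y = cm (T * x * T') y * T + (cm T x * T' + x * (T * T' - 1)) * cm T y -
          cm (T * x * (T' * T - 1)) y := by
        have := (commute_of_mem hx hy).eq
        simp only [cm, mul_sub, sub_mul, add_mul, mul_assoc, mul_one, this]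
        simp only [← mul_assoc y x, ← mul_assoc x y, this]
        abel
      rw [e1, e3, ← e1, ← e2]
      have x0 := norm_nonneg x
      have y0 := norm_nonneg y
      have a1 : ‖cm (T * x * T') y * T‖ ≤ ε * ‖x‖ * ‖y‖ * 4 :=
        (norm_mul_le _ _).trans (mul_le_mul (h x hx y hy) n1 (norm_nonneg _) (by positivity))
      have a2 : ‖cm (T - c) x * T' + x * (T * T' - 1)‖ ≤ 2 * ‖T - c‖ * ‖x‖ * 4 + ‖x‖ * ε :=
        (norm_add_le _ _).trans (add_le_add ((norm_mul_le _ _).trans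
          (mul_le_mul (norm_cm_le _ _) n2 (norm_nonneg _) (by positivity)))
          ((norm_mul_le _ _).trans (by gcongr)))
      have a3 := (norm_mul_le _ (cm (T - c) y)).trans
        (mul_le_mul a2 (norm_cm_le _ _) (norm_nonneg _) (by positivity))
      have a4 : ‖T * x * (T' * T - 1)‖ ≤ 4 * ‖x‖ * ε :=
        (norm_mul_le _ _).trans (mul_le_mul ((norm_mul_le _ _).trans (by gcongr)) n4
          (norm_nonneg _) (by positivity))
      have a5 : ‖cm (T * x * (T' * T - 1)) y‖ ≤ 2 * (4 * ‖x‖ * ε) * ‖y‖ :=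
        (norm_cm_le _ _).trans (by gcongr)
      refine ((norm_sub_le _ _).trans (add_le_add ((norm_add_le _ _).trans (add_le_add a1 a3))
        a5)).trans ?_
      nlinarith [mul_nonneg (mul_nonneg (mul_nonneg hε x0) y0) (sub_nonneg.2 g1)]
  nlinarith [mul_nonneg g0 (sub_nonneg.2 hg)]

end Crest.Agent.R078
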