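import Crest.Agent.R078.Defs

/-! Row 78, stage 5: splitting of a form bounded by a sum of two products of norms. -/

set_option autoImplicit false

open scoped InnerProductSpace

namespace Crest.Agent.R078

variable {H : Type*} [NormedAddCommGroup H] [InnerProductSpace ℂ H] [CompleteSpace H]

theorem md_sqrt {A : Type*} [CStarAlgebra A] [PartialOrder A] [StarOrderedRing A] {α : A} (h : 0 ≤ α)
    (hu : IsUnit α) : ∃ a a' : A, IsSelfAdjoint a ∧ IsSelfAdjoint a' ∧ a * a = α ∧ a * a' = 1 ∧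
      a' * a = 1 ∧ 0 ≤ a := by
  obtain ⟨u, hu⟩ := (CFC.isUnit_sqrt_iff α h).2 hu
  have h1 : IsSelfAdjoint (CFC.sqrt α) := .of_nonneg (CFC.sqrt_nonneg α)
  refine ⟨_, ↑u⁻¹, h1, ?_, CFC.sqrt_mul_sqrt_self α h, by rw [← hu]; simp, by rw [← hu]; simp,
    CFC.sqrt_nonneg α⟩
  rw [← hu] at h1
  have : star (↑u⁻¹ : A) * u = 1 := by rw [← h1.star_eq, ← star_mul]; simp
  exact (Units.eq_inv_of_mul_eq_one_right this :)

theorem md_mean {A : Type*} [CStarAlgebra A] [PartialOrder A] [StarOrderedRing A] {α β : A}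
    (h : 0 ≤ α) (hu : IsUnit α) (h' : 0 ≤ β) (hu' : IsUnit β) :
    ∃ ρ : A, 0 ≤ ρ ∧ IsUnit ρ ∧ ρ * α * ρ = β := by
  obtain ⟨a, a', a1, a2, rfl, a4, a5, -⟩ := md_sqrt h hu
  have ua : IsUnit a := ⟨⟨a, a', a4, a5⟩, rfl⟩
  have ua' : IsUnit a' := ⟨⟨a', a, a5, a4⟩, rfl⟩
  obtain ⟨s, s', -, -, s3, s4, s5, s6⟩ := md_sqrt (a1.conjugate_nonneg h') ((ua.mul hu').mul ua)
  refine ⟨a' * s * a', a2.conjugate_nonneg s6, (ua'.mul ⟨⟨s, s', s4, s5⟩, rfl⟩).mul ua', ?_⟩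
  calc a' * s * a' * (a * a) * (a' * s * a') = a' * (s * (a' * a) * (a * a') * s) * a' := by
        noncomm_ring
    _ = (a' * a) * β * (a * a') := by
        rw [show s * (a' * a) * (a * a') * s = a * β * a by rw [a4, a5, mul_one, mul_one, s3]]
        simp only [mul_assoc]
    _ = β := by rw [a4, a5, mul_one, one_mul]

section core

variable {E : Type*} [NormedAddCommGroup E] [InnerProductSpace ℂ E] [FiniteDimensional ℂ E]

open ContinuousLinearMap in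
theorem md_gram {P : E →L[ℂ] H} (hP : Function.Injective P) :
    0 ≤ adjoint P ∘L P ∧ IsUnit (adjoint P ∘L P) := by
  refine ⟨(nonneg_iff_isPositive _).2 (isPositive_adjoint_comp_self P), isUnit_iff_bijective.2 ?_⟩
  have hi : Function.Injective (adjoint P ∘L P) := by
    refine (injective_iff_map_eq_zero _).2 fun x hx => (injective_iff_map_eq_zero _).1 hP x ?_
    rw [← inner_self_eq_zero (𝕜 := ℂ), ← adjoint_inner_right, ← comp_apply, hx, inner_zero_right]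
  exact ⟨hi, (LinearMap.injective_iff_surjective (f := (adjoint P ∘L P : E →ₗ[ℂ] E))).1 hi⟩

open ContinuousLinearMap in
theorem md_contr {P Q : E →L[ℂ] H} (hP : Function.Injective P) (hQ : Function.Injective Q) :
    ∃ (ρ : E →L[ℂ] E) (A : Op H), 0 ≤ ρ ∧ IsUnit ρ ∧ ‖A‖ ≤ 1 ∧ ∀ (x y : E) (d : ℝ), 0 ≤ d →
      ρ y = (d : ℂ) • x → ⟪P x, A (Q y)⟫_ℂ = ((‖P x‖ * ‖Q y‖ : ℝ) : ℂ) := by
  obtain ⟨ρ, r1, r2, r3⟩ := md_mean (md_gram hP).1 (md_gram hP).2 (md_gram hQ).1 (md_gram hQ).2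
  obtain ⟨u, hu⟩ := (md_gram hQ).2
  have hn : ∀ y, ‖P (ρ y)‖ = ‖Q y‖ := fun y => by
    have h1 : ⟪P (ρ y), P (ρ y)⟫_ℂ = ⟪Q y, Q y⟫_ℂ := by
      rw [← adjoint_inner_right Q, ← comp_apply (adjoint Q), ← r3, ContinuousLinearMap.mul_apply, ContinuousLinearMap.mul_apply,
        ← adjoint_inner_left ρ, ← star_eq_adjoint, (IsSelfAdjoint.of_nonneg r1).star_eq, comp_apply,
        adjoint_inner_right]
    rw [inner_self_eq_norm_sq_to_K, inner_self_eq_norm_sq_to_K] at h1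
    exact (pow_left_inj₀ (norm_nonneg _) (norm_nonneg _) two_ne_zero).1 (by exact_mod_cast h1)
  refine ⟨ρ, P ∘L ρ ∘L (↑u⁻¹ : E →L[ℂ] E) ∘L adjoint Q, r1, r2,
    opNorm_le_bound _ zero_le_one fun η => ?_, fun x y d hd h => ?_⟩
  · simp only [comp_apply, hn, one_mul]
    set z := (↑u⁻¹ : E →L[ℂ] E) (adjoint Q η) with hz
    have h1 : ⟪Q z, Q z⟫_ℂ = ⟪Q z, η⟫_ℂ := by
      rw [← adjoint_inner_right Q, ← adjoint_inner_right Q, ← comp_apply (adjoint Q), ← hu, hz,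
        ← ContinuousLinearMap.mul_apply, Units.mul_inv, ContinuousLinearMap.one_apply]
    have h2 := norm_inner_le_norm (𝕜 := ℂ) (Q z) η
    rw [← h1, inner_self_eq_norm_sq_to_K, norm_pow, RCLike.norm_ofReal, abs_norm, sq] at h2
    rcases (norm_nonneg (Q z)).eq_or_lt with h0 | h0
    · rw [← h0]; exact norm_nonneg _
    · exact le_of_mul_le_mul_left h2 h0
  · have e : (↑u⁻¹ : E →L[ℂ] E) (adjoint Q (Q y)) = y := by
      rw [← comp_apply (adjoint Q), ← hu, ← ContinuousLinearMap.mul_apply, Units.inv_mul, ContinuousLinearMap.one_apply]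
    simp only [comp_apply, e]
    rw [← hn, h, map_smul, inner_smul_right, inner_self_eq_norm_sq_to_K, norm_smul, Complex.norm_real,
      Real.norm_of_nonneg hd]
    push_cast
    change _ * (‖P x‖ : ℂ) ^ 2 = _
    ring

open ContinuousLinearMap in
theorem md_diag {ι : Type*} [Fintype ι] (b : OrthonormalBasis ι ℂ E) {ρ₁ ρ₂ : E →L[ℂ] E} (h₁ : 0 ≤ ρ₁)
    (hu : IsUnit ρ₁) (h₂ : 0 ≤ ρ₂) : ∃ (x y : Fin (Module.finrank ℂ E) → E)
      (d : Fin (Module.finrank ℂ E) → ℝ), (∀ k, 0 ≤ d k ∧ ρ₁ (y k) = x k ∧ ρ₂ (y k) = (d k : ℂ) • x k) ∧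
      ∀ S : E →L[ℂ] E, ∑ i, ⟪b i, S (b i)⟫_ℂ = ∑ k, ⟪x k, S (y k)⟫_ℂ := by
  obtain ⟨g, g', g1, g2, rfl, g4, g5, -⟩ := md_sqrt h₁ hu
  have hT := (nonneg_iff_isPositive _).1 (g2.conjugate_nonneg h₂)
  have hS : (g' * ρ₂ * g' : E →L[ℂ] E).toLinearMap.IsSymmetric := hT.isSymmetric
  let e := hS.eigenvectorBasis rfl
  have he : ∀ k, (g' * ρ₂ * g') (e k) = (hS.eigenvalues rfl k : ℂ) • e k := fun k =>
    hS.apply_eigenvectorBasis rfl k
  refine ⟨fun k => g (e k), fun k => g' (e k), hS.eigenvalues rfl, fun k => ⟨?_, ?_, ?_⟩, fun S => ?_⟩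
  · have := hT.re_inner_nonneg_right (e k)
    rw [he, inner_smul_right, inner_self_eq_norm_sq_to_K, e.orthonormal.1 k] at this
    simpa using this
  · rw [← ContinuousLinearMap.mul_apply, mul_assoc, g4, mul_one]
  · rw [← map_smul, ← he, ← ContinuousLinearMap.mul_apply, ← ContinuousLinearMap.mul_apply, ← mul_assoc, ← mul_assoc, g4, one_mul]
  · have h1 := LinearMap.trace_eq_sum_inner (S : E →ₗ[ℂ] E) b
    have h2 := LinearMap.trace_eq_sum_inner ((g : E →ₗ[ℂ] E) * ((S : E →ₗ[ℂ] E) * (g' : E →ₗ[ℂ] E))) e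
    have h3 : (g' : E →ₗ[ℂ] E) * (g : E →ₗ[ℂ] E) = 1 := congrArg ContinuousLinearMap.toLinearMap g5
    rw [LinearMap.trace_mul_comm, mul_assoc, h3, mul_one, h1] at h2
    refine h2.trans (Finset.sum_congr rfl fun k _ => ?_)
    change ⟪e k, g (S (g' (e k)))⟫_ℂ = _
    rw [← adjoint_inner_left, ← star_eq_adjoint, g1.star_eq]

end core

omit [CompleteSpace H] in
theorem md_drop {n : ℕ} (w v : Fin (n + 1) → H) (h : ¬ LinearIndependent ℂ w) :
    ∃ w' v' : Fin n → H, ∀ Z : H →ₗ[ℂ] H, ∑ i, ⟪w i, Z (v i)⟫_ℂ = ∑ i, ⟪w' i, Z (v' i)⟫_ℂ := by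
  obtain ⟨g, hg, j, hj⟩ := Fintype.not_linearIndependent_iff.1 h
  refine ⟨fun i => w (j.succAbove i), fun i => v (j.succAbove i) -
    (starRingEnd ℂ) (g (j.succAbove i) / g j) • v j, fun Z => ?_⟩
  have h1 := congrArg (fun x => ⟪x, Z (v j)⟫_ℂ) hg
  simp only [Fin.sum_univ_succAbove _ j, inner_add_left, sum_inner, inner_smul_left,
    inner_zero_left] at h1
  have hj' : (starRingEnd ℂ) (g j) ≠ 0 := by simpa using hj
  simp only [Fin.sum_univ_succAbove _ j, map_sub, map_smul, inner_sub_right, inner_smul_right,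
    Finset.sum_sub_distrib, map_div₀, div_mul_eq_mul_div, ← Finset.sum_div]
  field_simp
  linear_combination h1

theorem md_indep {n : ℕ} (w v : Fin n → H) : ∃ (m : ℕ) (w' v' : Fin m → H), LinearIndependent ℂ w' ∧
    LinearIndependent ℂ v' ∧ ∀ Z : Op H, ∑ i, ⟪w i, Z (v i)⟫_ℂ = ∑ i, ⟪w' i, Z (v' i)⟫_ℂ := by
  induction n with
  | zero => exact ⟨0, w, v, linearIndependent_empty_type, linearIndependent_empty_type, fun _ => rfl⟩
  | succ n ih =>
    by_cases hw : LinearIndependent ℂ w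
    · by_cases hv : LinearIndependent ℂ v
      · exact ⟨_, w, v, hw, hv, fun _ => rfl⟩
      · obtain ⟨v', w', h⟩ := md_drop v w hv
        obtain ⟨m, w'', v'', h1, h2, h3⟩ := ih w' v'
        refine ⟨m, w'', v'', h1, h2, fun Z => Eq.trans ?_ (h3 Z)⟩
        have := congrArg (starRingEnd ℂ) (h (ContinuousLinearMap.adjoint Z : H →L[ℂ] H))
        simpa only [map_sum, inner_conj_symm, ContinuousLinearMap.coe_coe,
          ContinuousLinearMap.adjoint_inner_left] using this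
    · obtain ⟨w', v', h⟩ := md_drop w v hw
      obtain ⟨m, w'', v'', h1, h2, h3⟩ := ih w' v'
      exact ⟨m, w'', v'', h1, h2, fun Z => (h Z).trans (h3 Z)⟩

theorem md_adj (U A V : Op H) (w v : H) : ⟪U w, A (V v)⟫_ℂ = ⟪w, (star U * A * V) v⟫_ℂ := by
  rw [ContinuousLinearMap.mul_apply, ContinuousLinearMap.mul_apply, ContinuousLinearMap.star_eq_adjoint,
    ContinuousLinearMap.adjoint_inner_right]

omit [CompleteSpace H] in
theorem md_inner_le (T : Op H) (η ξ : H) : ‖⟪η, T ξ⟫_ℂ‖ ≤ ‖η‖ * ‖ξ‖ * ‖T‖ :=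
  (norm_inner_le_norm _ _).trans ((mul_le_mul_of_nonneg_left (T.le_opNorm ξ) (norm_nonneg _)).trans
    (le_of_eq (by ring)))

/-- The vector functionals. -/
noncomputable def mdEv (w v : H) : StrongDual ℂ (Op H) :=
  (innerSL ℂ w).comp (ContinuousLinearMap.apply ℂ H v)

omit [CompleteSpace H] in
@[simp] theorem mdEv_apply (w v : H) (A : Op H) : mdEv w v A = ⟪w, A v⟫_ℂ := rfl

theorem md_riesz (φ : StrongDual ℂ (Op H) →L[ℂ] ℂ) :
    ∃ A : Op H, ‖A‖ ≤ ‖φ‖ ∧ ∀ w v, ⟪w, A v⟫_ℂ = φ (mdEv w v) := by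
  let B : H →ₗ⋆[ℂ] H →ₗ[ℂ] ℂ := LinearMap.mk₂'ₛₗ (starRingEnd ℂ) (RingHom.id ℂ)
    (fun w v => φ (mdEv w v))
    (fun w w' v => by rw [← map_add]; congr 1; ext A; simp)
    (fun c w v => by rw [← map_smul]; congr 1; ext A; simp [mul_comm])
    (fun w v v' => by rw [← map_add]; congr 1; ext A; simp)
    (fun c w v => by rw [← map_smul]; congr 1; ext A; simp)
  have hB : ∀ w v, ‖B w v‖ ≤ ‖φ‖ * ‖w‖ * ‖v‖ := fun w v => by
    rw [mul_assoc]
    exact φ.le_of_opNorm_le_of_le le_rfl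
      (ContinuousLinearMap.opNorm_le_bound _ (by positivity) fun A => md_inner_le A w v)
  refine ⟨ContinuousLinearMap.adjoint
    (InnerProductSpace.continuousLinearMapOfBilin (B.mkContinuous₂ _ hB)), ?_, fun w v => ?_⟩
  · rw [LinearIsometryEquiv.norm_map]
    refine ContinuousLinearMap.opNorm_le_bound _ φ.opNorm_nonneg fun w => ?_
    rw [InnerProductSpace.continuousLinearMapOfBilin, ContinuousLinearMap.comp_apply]
    exact ((InnerProductSpace.toDual ℂ H).symm.norm_map _).trans_le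
      (ContinuousLinearMap.opNorm_le_bound _ (by positivity) (hB w))
  · rw [ContinuousLinearMap.adjoint_inner_right,
      InnerProductSpace.continuousLinearMapOfBilin_apply, LinearMap.mkContinuous₂_apply]
    rfl

/-- One representation of a finite tensor is optimal for two nuclear norms at once. -/
theorem decomp_finite {Y U₁ V₁ U₂ V₂ : Op H} (hU₁ : Function.Injective U₁)
    (hV₁ : Function.Injective V₁) (hU₂ : Function.Injective U₂) (hV₂ : Function.Injective V₂)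
    {c : ℝ} (hc : 0 ≤ c)
    (h : ∀ w v, ‖⟪w, Y v⟫_ℂ‖ ≤ c * (‖U₁ w‖ * ‖V₁ v‖ + ‖U₂ w‖ * ‖V₂ v‖))
    {n : ℕ} (w v : Fin n → H) :
    ∃ A B : Op H, ‖A‖ ≤ 1 ∧ ‖B‖ ≤ 1 ∧ ‖∑ i, ⟪w i, Y (v i)⟫_ℂ‖ ≤
      c * (‖∑ i, ⟪U₁ (w i), A (V₁ (v i))⟫_ℂ‖ + ‖∑ i, ⟪U₂ (w i), B (V₂ (v i))⟫_ℂ‖) := by
  obtain ⟨m, w', v', hw, hv, e⟩ := md_indep w v
  let b := EuclideanSpace.basisFun (Fin m) ℂ
  let W := LinearMap.toContinuousLinearMap (b.toBasis.constr ℂ w')
  let V := LinearMap.toContinuousLinearMap (b.toBasis.constr ℂ v')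
  have hW : Function.Injective W := b.toBasis.injective_constr_of_linearIndependent hw
  have hV : Function.Injective V := b.toBasis.injective_constr_of_linearIndependent hv
  obtain ⟨ρ₁, A, a1, a2, a3, a4⟩ := md_contr (P := U₁ ∘L W) (Q := V₁ ∘L V) (hU₁.comp hW) (hV₁.comp hV)
  obtain ⟨ρ₂, B, b1, -, b3, b4⟩ := md_contr (P := U₂ ∘L W) (Q := V₂ ∘L V) (hU₂.comp hW) (hV₂.comp hV)
  obtain ⟨x, y, d, hd, e2⟩ := md_diag b a1 a2 b1
  have e3 : ∀ Z : Op H, ∑ i, ⟪w i, Z (v i)⟫_ℂ = ∑ k, ⟪W (x k), Z (V (y k))⟫_ℂ := fun Z => by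
    have := e2 (ContinuousLinearMap.adjoint W ∘L Z ∘L V)
    simp only [ContinuousLinearMap.comp_apply, ContinuousLinearMap.adjoint_inner_right] at this
    rw [e, ← this]
    refine Finset.sum_congr rfl fun i _ => ?_
    rw [show W (b i) = w' i from b.toBasis.constr_basis ℂ w' i,
      show V (b i) = v' i from b.toBasis.constr_basis ℂ v' i]
  refine ⟨A, B, a3, b3, ?_⟩
  simp only [md_adj, e3]
  simp only [← md_adj]
  have f1 : ∀ k, ⟪U₁ (W (x k)), A (V₁ (V (y k)))⟫_ℂ = ((‖U₁ (W (x k))‖ * ‖V₁ (V (y k))‖ : ℝ) : ℂ) :=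
    fun k => a4 (x k) (y k) 1 zero_le_one (by simpa using (hd k).2.1)
  have f2 : ∀ k, ⟪U₂ (W (x k)), B (V₂ (V (y k)))⟫_ℂ = ((‖U₂ (W (x k))‖ * ‖V₂ (V (y k))‖ : ℝ) : ℂ) :=
    fun k => b4 (x k) (y k) (d k) (hd k).1 (hd k).2.2
  simp only [f1, f2, ← Complex.ofReal_sum, Complex.norm_real]
  refine (norm_sum_le _ _).trans ((Finset.sum_le_sum fun k _ => h _ _).trans ?_)
  rw [← Finset.mul_sum, Finset.sum_add_distrib]
  exact mul_le_mul_of_nonneg_left (add_le_add (Real.le_norm_self _) (Real.le_norm_self _)) hc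

theorem decomp {Y U₁ V₁ U₂ V₂ : Op H} (hU₁ : Function.Injective U₁)
    (hV₁ : Function.Injective V₁) (hU₂ : Function.Injective U₂) (hV₂ : Function.Injective V₂)
    {c : ℝ} (hc : 0 ≤ c)
    (h : ∀ w v, ‖⟪w, Y v⟫_ℂ‖ ≤ c * (‖U₁ w‖ * ‖V₁ v‖ + ‖U₂ w‖ * ‖V₂ v‖)) :
    ∃ A B : Op H, ‖A‖ ≤ 2 * c ∧ ‖B‖ ≤ 2 * c ∧ Y = star U₁ * A * V₁ + star U₂ * B * V₂ := by
  let j : (H × H →₀ ℂ) →ₗ[ℂ] StrongDual ℂ (Op H) × StrongDual ℂ (Op H) :=
    Finsupp.linearCombination ℂ fun p => (mdEv (U₁ p.1) (V₁ p.2), mdEv (U₂ p.1) (V₂ p.2))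
  let β : (H × H →₀ ℂ) →ₗ[ℂ] ℂ := Finsupp.linearCombination ℂ fun p => ⟪p.1, Y p.2⟫_ℂ
  have hb : ∀ t, ‖β t‖ ≤ 2 * c * ‖j t‖ := fun t => by
    let e := t.support.equivFin.symm
    obtain ⟨A, B, hA, hB, h1⟩ := decomp_finite hU₁ hV₁ hU₂ hV₂ hc h (fun i => (e i).1.1)
      (fun i => t (e i) • (e i).1.2)
    have key : ∀ F : H × H → ℂ, ∑ i, t (e i) * F (e i) = ∑ p ∈ t.support, t p * F p := fun F =>
      (e.sum_comp fun p => t p * F p).trans (Finset.sum_coe_sort _ fun p => t p * F p)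
    simp only [map_smul, inner_smul_right] at h1
    rw [key fun p => ⟪p.1, Y p.2⟫_ℂ, key fun p => ⟪U₁ p.1, A (V₁ p.2)⟫_ℂ,
      key fun p => ⟪U₂ p.1, B (V₂ p.2)⟫_ℂ] at h1
    have e1 : ∑ p ∈ t.support, t p * ⟪U₁ p.1, A (V₁ p.2)⟫_ℂ = (j t).1 A := by
      simp [j, Finsupp.linearCombination_apply, Finsupp.sum, Prod.fst_sum]
    have e2 : ∑ p ∈ t.support, t p * ⟪U₂ p.1, B (V₂ p.2)⟫_ℂ = (j t).2 B := by
      simp [j, Finsupp.linearCombination_apply, Finsupp.sum, Prod.snd_sum]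
    rw [e1, e2] at h1
    have a1 := (j t).1.le_of_opNorm_le_of_le (norm_fst_le (j t)) hA
    have a2 := (j t).2.le_of_opNorm_le_of_le (norm_snd_le (j t)) hB
    refine le_trans (le_of_eq ?_) (h1.trans (by nlinarith))
    simp [β, Finsupp.linearCombination_apply, Finsupp.sum]
  obtain ⟨φ, hφ, hn⟩ := exists_extension_norm_eq _ (β.compLeftInverse j)
  have hφ1 : ‖φ‖ ≤ 2 * c := by
    rw [hn]
    refine ContinuousLinearMap.opNorm_le_bound _ (by positivity) ?_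
    rintro ⟨_, t, rfl⟩
    rw [LinearMap.compLeftInverse_apply_of_bdd _ _ ⟨_, hb⟩ t _ rfl]
    exact hb t
  obtain ⟨A, hA, hA'⟩ := md_riesz (φ.comp (ContinuousLinearMap.inl ℂ _ _))
  obtain ⟨B, hB, hB'⟩ := md_riesz (φ.comp (ContinuousLinearMap.inr ℂ _ _))
  refine ⟨A, B, hA.trans (ContinuousLinearMap.opNorm_le_bound _ (by positivity) fun f => ?_),
    hB.trans (ContinuousLinearMap.opNorm_le_bound _ (by positivity) fun f => ?_),
    ContinuousLinearMap.ext fun v => ext_inner_left ℂ fun w => ?_⟩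
  · exact φ.le_of_opNorm_le_of_le hφ1 (by simp)
  · exact φ.le_of_opNorm_le_of_le hφ1 (by simp)
  · have h1 := hφ ⟨j (Finsupp.single (w, v) 1), _, rfl⟩
    rw [LinearMap.compLeftInverse_apply_of_bdd _ _ ⟨_, hb⟩ _ _ rfl] at h1
    rw [ContinuousLinearMap.add_apply, inner_add_right, ← md_adj, ← md_adj, hA', hB',
      ContinuousLinearMap.comp_apply, ContinuousLinearMap.comp_apply, ← map_add]
    simpa [j, β] using h1.symm

end Crest.Agent.R078
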