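import Crest.Agent.R078.MMain1
import Crest.Agent.R078.CMain

/-! Row 78, stage 5: alignment of the modular groups and of the conjugations. -/

set_option autoImplicit false

open scoped InnerProductSpace Topology BoundedContinuousFunction

namespace Crest.Agent.R078

open Crest.OpAlg Crest.OpAlg.LineCalculus Crest.Agent.R084 Filter Set Complex
open Crest.Agent.TT hiding jc jc_apply Cyc Std
open Crest.Agent.R121 (Bd)

variable {H : Type*} [NormedAddCommGroup H] [InnerProductSpace ℂ H] [CompleteSpace H]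
variable {ξ : H} {D D' : LineCalculus H}

/-- Close one-parameter groups are conjugate. -/
lemma exists_wave_conj {r : ℝ} (hr : r < 1) (h : ∀ t, ‖D.wave t * D'.wave (-t) - 1‖ ≤ r)
    (hv : ∀ t, D.wave t ξ = ξ) (hv' : ∀ t, D'.wave t ξ = ξ) : ∃ v ∈ unitary (Op H),
      ‖v - 1‖ ≤ 2 * r ∧ v ξ = ξ ∧ ∀ t, D.wave t * v = v * D'.wave t := by
  have bd : Bd fun t => D.wave t * D'.wave (-t) :=
    ⟨1, fun t => norm_uni_le (mul_mem (wave_uni _ _) (wave_uni _ _))⟩
  have bd' : Bd fun t => star (D.wave t * D'.wave (-t)) :=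
    ⟨1, fun t => norm_uni_le (Unitary.star_mem (mul_mem (wave_uni _ _) (wave_uni _ _)))⟩
  set V := wm (invM ℝ) fun t => D.wave t * D'.wave (-t) with hV
  have h1 : ‖1 - V‖ ≤ r := by rw [norm_sub_rev]; exact norm_wm_sub_le h
  have h2 := h1.trans_lt hr
  have hu := isUnit_of_near_unitary (one_mem _) h2
  refine ⟨polar V, polar_unitary hu, ?_, polar_apply_eq ?_ ?_ hu, fun s =>
    polar_intertwine (wave_uni _ _) (wave_uni _ _) ?_⟩
  · rw [norm_sub_rev]; exact (norm_unitary_sub_polar (one_mem _) h2).trans (by gcongr)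
  · simp only [hV, wm_apply bd, mul_apply_eq_comp, hv, hv', vm_const]
  · rw [hV, star_wm bd, wm_apply bd']
    simp only [star_mul, star_wave, mul_apply_eq_comp, hv, hv', vm_const]
  · rw [hV, mul_wm bd, ← wm_shift (invM_inv ℝ) bd s, wm_mul ⟨_, fun t => bd.choose_spec (t + s)⟩]
    congr 1 with t : 1
    rw [mul_assoc, ← wave_add, ← mul_assoc, ← wave_add, add_comm s]
    congr 2; ring

universe u

theorem good_sit_flow (hQ : GoodOn Cls.flow.{u}) : GoodOn (Cls.sit.{u} False) := by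
  obtain ⟨C, δ₀, hC, hδ₀, h⟩ := wave_close.{u}
  refine good_of_conj (C := 2 * C) (δ₀ := min δ₀ (1 / (C + 1))) (by positivity) ?_ hQ
  rintro H _ _ _ M N δ ⟨hsep, ξ, F, hS, -⟩ hδ hδ₁ hcl
  obtain ⟨D, J, hM⟩ := exists_mod hS.fM.cs
  obtain ⟨D', J', hN⟩ := exists_mod hS.fN.cs
  have h1 : δ * (C + 1) ≤ 1 := (le_div_iff₀ (by positivity)).1 (hδ₁.trans (min_le_right _ _))
  obtain ⟨v, hv, h2, h3, h4⟩ := exists_wave_conj (r := C * δ) (by nlinarith)
    (h H N M ξ F D' D J' J δ hS.symm hN hM hδ (hδ₁.trans (min_le_left _ _)) hcl.symm) hM.wave_vac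
    hN.wave_vac
  refine ⟨v, hv, h2.trans_eq (by ring), hsep, ξ, D, hS.fM.cs,
    (h3 ▸ hS.fN.cs.conj_unitary hv :).2.2, hM.flow_mem, fun t y hy => ?_, hM.wave_vac,
    fun x hx y hy => ?_⟩
  · obtain ⟨x, hx, rfl⟩ := (mem_conjVN hv).1 hy
    convert conj_mem_conjVN hv (hN.flow_mem t x hx) using 1
    have := congrArg star (h4 t)
    simp only [star_mul, star_wave] at this
    simp only [← mul_assoc, h4]
    simp only [mul_assoc, this]
  · rw [app_injective D rhoF_ne (((halfExp_iff D).1 hy).trans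
      ((halfExp_iff D).1 (hM.halfExp hx)).symm), J.norm_map]

theorem good_sit_False (hQ : GoodOn (Cls.std.{u} True)) : GoodOn (Cls.sit.{u} False) :=
  good_sit_flow (good_flow hQ)

theorem good_sit_True (hQ : GoodOn Cls.tsit.{u}) : GoodOn (Cls.sit.{u} True) := by
  obtain ⟨C, δ₀, hC, hδ₀, h⟩ := wave_close.{u}
  refine good_of_conj (C := 1600) (δ₀ := min δ₀ (1 / (C + 1600))) (by positivity) ?_ hQ
  rintro H _ _ _ M N δ ⟨hsep, ξ, F, hS, ht⟩ hδ hδ₁ hcl
  obtain ⟨D, J, hM⟩ := exists_mod hS.fM.cs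
  obtain ⟨D', J', hN⟩ := exists_mod hS.fN.cs
  have h1 : δ * (C + 1600) ≤ 1 := (le_div_iff₀ (by positivity)).1 (hδ₁.trans (min_le_right _ _))
  have w := hM.wave_eq_one (ht trivial)
  have w' (t : ℝ) : D'.wave t = 1 := by
    obtain ⟨v, hv, -, -, h4⟩ := exists_wave_conj (r := C * δ) (by nlinarith)
      (h H N M ξ F D' D J' J δ hS.symm hN hM hδ (hδ₁.trans (min_le_left _ _)) hcl.symm) hM.wave_vac
      hN.wave_vac
    rw [← one_mul (D'.wave t), ← Unitary.star_mul_self_of_mem hv, mul_assoc, ← h4, w, one_mul]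
  obtain ⟨W, U, -, -, hW, hU, e⟩ := hS.symm.exists_sol hN hM hδ hcl.2
  simp only [(Mod.rho_eq_one w).1, (Mod.rho_eq_one w).2, (Mod.rho_eq_one w').1,
    (Mod.rho_eq_one w').2, one_mul, mul_one] at e
  set T := (1 / 2 : ℂ) • (1 + jj J J') with hT
  have h2 : ‖1 - T‖ ≤ 800 * δ := by
    have : 1 - T = (1 / 2 : ℂ) • ((U - jj J J') - (W - 1)) := by rw [hT, e]; module
    rw [this, norm_smul]
    refine (mul_le_mul_of_nonneg_left (norm_sub_le_of_le hU hW) (norm_nonneg _)).trans_eq ?_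
    simp; ring
  have h3 : ‖1 - T‖ < 1 := h2.trans_lt (by nlinarith)
  have hu := isUnit_of_near_unitary (one_mem _) h3
  have hv := polar_unitary hu
  have hξ : polar T ξ = ξ := polar_apply_eq
    (by simp only [hT, smul_apply, add_apply, one_apply_eq_self, jj_apply, hM.J_vac, hN.J_vac]
        module)
    (by rw [hT, star_smul, star_add, star_one, star_jj hM.J_J hN.J_J]
        simp only [smul_apply, add_apply, one_apply_eq_self, jj_apply, hM.J_vac, hN.J_vac]
        simp only [star_div₀, star_one, star_ofNat]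
        module) hu
  have hξ' : star (polar T) ξ = ξ := by
    rw [← hξ, ← mul_apply_eq_comp (star _), Unitary.star_mul_self_of_mem hv, hξ]; rfl
  have hJ := polar_J hM.J_J hN.J_J (T := T) fun η => by
    simp [hT, LinearIsometryEquiv.map_smulₛₗ, hM.J_J, hN.J_J, add_comm, map_ofNat]
  refine ⟨polar T, hv, ?_, hsep, ξ, F, J, hS.conj_right hv ((Frame.Bim.one.add
    (hS.bim_iff.2 (hS.symm.bim_jj hN hM))).smul _).polar hξ, hM.J_J, fun x hx => hM.J_eq w hx,
    fun y hy => ?_⟩
  · rw [norm_sub_rev]; exact (norm_unitary_sub_polar (one_mem _) h3).trans (by linarith)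
  · obtain ⟨x, hx, rfl⟩ := (mem_conjVN hv).1 hy
    simp only [star_mul, star_star, mul_apply_eq_comp, hξ', hJ, hN.J_eq w' hx]

end Crest.Agent.R078
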