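import Crest.Agent.R078.MStrip
import Crest.Agent.R078.MA

/-! Row 78, stage 5: approximate normalisers, three lines and the continuity argument. -/

set_option autoImplicit false

open scoped InnerProductSpace Topology

namespace Crest.Agent.R078

open Filter Set Complex

variable {H : Type*} [NormedAddCommGroup H] [InnerProductSpace ℂ H] [CompleteSpace H]
variable {A : VN H} {ξ : H} {F : Frame H} {ε η r : ℝ} {u a T T' : Op H}

/-- Unitaries that almost normalise `A`. -/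
structure AN (A : VN H) (ε : ℝ) (u : Op H) : Prop where
  uni : u ∈ unitary (Op H)
  cm_le : ∀ x ∈ A, ∀ y ∈ A.commutant, ‖cm (u * x * star u) y‖ ≤ ε * ‖x‖ * ‖y‖

lemma norm_cm_conj (hu : u ∈ unitary (Op H)) (x y : Op H) :
    ‖cm (u * x * star u) y‖ = ‖cm x (star u * y * u)‖ := by
  rw [← BMean_norm hu (cm x _)]
  congr 1
  have h := Unitary.mul_star_self_of_mem hu
  calc _ = u * x * star u * y * (u * star u) - (u * star u) * y * (u * x * star u) := by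
        rw [h, mul_one, one_mul, cm]
    _ = _ := by rw [cm]; noncomm_ring

omit [CompleteSpace H] in
lemma norm_cm_comm (x y : Op H) : ‖cm x y‖ = ‖cm y x‖ := norm_sub_rev _ _

lemma norm_uni_le (hu : u ∈ unitary (Op H)) : ‖u‖ ≤ 1 := bpolar0_norm_le hu

lemma AN.star (h : AN A ε u) : AN A.commutant ε (star u) :=
  ⟨Unitary.star_mem h.uni, fun y hy x hx => by
    rw [A.commutant_commutant] at hx
    rw [star_star, norm_cm_comm, ← norm_cm_conj h.uni, mul_right_comm]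
    exact h.cm_le x hx y hy⟩

lemma AN.mul_right (h : AN A ε u) (ha : a ∈ unitary (Op H))
    (hA : ∀ x ∈ A, a * x * Star.star a ∈ A) : AN A ε (u * a) :=
  ⟨mul_mem h.uni ha, fun x hx y hy => by
    have := h.cm_le _ (hA x hx) y hy
    rw [BMean_norm ha] at this
    simpa only [star_mul, mul_assoc] using this⟩

lemma AN.mul_left (h : AN A ε u) (ha : a ∈ unitary (Op H))
    (hA : ∀ y ∈ A.commutant, Star.star a * y * a ∈ A.commutant) : AN A ε (a * u) :=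
  ⟨mul_mem ha h.uni, fun x hx y hy => by
    have := h.cm_le x hx _ (hA y hy)
    have e := BMean_norm (Unitary.star_mem ha) y
    rw [star_star] at e
    rw [e, ← norm_cm_conj ha] at this
    simpa only [star_mul, mul_assoc] using this⟩

lemma AN.jc {J : H ≃ₗᵢ⋆[ℂ] H} (h : AN A.commutant ε u) (hJ : ∀ η, J (J η) = η)
    (h1 : ∀ x ∈ A, jc J x ∈ A.commutant) (h2 : ∀ y ∈ A.commutant, jc J y ∈ A) :
    AN A ε (jc J u) :=
  ⟨jc_unitary hJ h.uni, fun x hx y hy => by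
    have := h.cm_le _ (h1 x hx) (R078.jc J y) (by rw [A.commutant_commutant]; exact h2 y hy)
    rw [norm_jc, norm_jc, ← norm_jc (J := J), cm, jc_sub] at this
    simpa only [jc_mul hJ, jc_jc hJ, jc_star hJ, cm] using this⟩

omit [CompleteSpace H] in
lemma norm_mul_sub_mul {X Y p q : Op H} (hX : ‖X - p‖ ≤ η) (hY : ‖Y - q‖ ≤ η) (hp : ‖p‖ ≤ 1)
    (hq : ‖q‖ ≤ 1) (hη : η ≤ 1) (e : Op H) : ‖X * e * Y - p * e * q‖ ≤ 3 * η * ‖e‖ := by
  have h0 : 0 ≤ η := (norm_nonneg _).trans hX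
  have hY' : ‖Y‖ ≤ 2 := (norm_le_norm_add_norm_sub' Y q).trans (by linarith)
  calc _ = ‖(X - p) * e * Y + p * e * (Y - q)‖ := by congr 1; noncomm_ring
    _ ≤ η * ‖e‖ * 2 + 1 * ‖e‖ * η := norm_add_le_of_le
      (norm_mul_le_of_le (norm_mul_le_of_le hX le_rfl) hY')
      (norm_mul_le_of_le (norm_mul_le_of_le hp le_rfl) hY)
    _ = _ := by ring

/-- The hypotheses of the dichotomy. -/
structure App (A : VN H) (ε : ℝ) (T T' : Op H) : Prop where
  le : ‖T‖ ≤ 4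
  le' : ‖T'‖ ≤ 4
  mul : ‖T * T' - 1‖ ≤ ε
  mul' : ‖T' * T - 1‖ ≤ ε
  cm_le : ∀ x ∈ A, ∀ y ∈ A.commutant, ‖cm (T * x * T') y‖ ≤ ε * ‖x‖ * ‖y‖

lemma AN.app (h : AN A η u) (hT : ‖T - u‖ ≤ η) (hT' : ‖T' - Star.star u‖ ≤ η) (hη : η ≤ 1) :
    App A (7 * η) T T' := by
  have h0 : 0 ≤ η := (norm_nonneg _).trans hT
  have hu := norm_uni_le h.uni
  have hu' := norm_uni_le (Unitary.star_mem h.uni)
  have h1 : ‖(1 : Op H)‖ ≤ 1 := ContinuousLinearMap.norm_id_le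
  refine ⟨(norm_le_norm_add_norm_sub' T u).trans (by linarith),
    (norm_le_norm_add_norm_sub' T' (Star.star u)).trans (by linarith), ?_, ?_,
    fun x hx y hy => ?_⟩
  · have := norm_mul_sub_mul hT hT' hu hu' hη 1
    rw [mul_one, mul_one, Unitary.mul_star_self_of_mem h.uni] at this
    nlinarith
  · have := norm_mul_sub_mul hT' hT hu' hu hη 1
    rw [mul_one, mul_one, Unitary.star_mul_self_of_mem h.uni] at this
    nlinarith
  · calc _ = ‖cm (u * x * Star.star u) y + cm (T * x * T' - u * x * Star.star u) y‖ := by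
          congr 1; simp only [cm]; noncomm_ring
      _ ≤ η * ‖x‖ * ‖y‖ + 2 * (3 * η * ‖x‖) * ‖y‖ := norm_add_le_of_le (h.cm_le x hx y hy)
          ((norm_cm_le _ _).trans (by gcongr; exact norm_mul_sub_mul hT hT' hu hu' hη x))
      _ = _ := by ring

lemma StrAn.app {b : ℝ} {G G' : ℂ → Op H} (hb : 0 < b) (hG : StrAn b G) (hG' : StrAn b G')
    (h0 : ∀ s : ℝ, App A ε (G (I * s)) (G' (I * s)))
    (h1 : ∀ s : ℝ, App A ε (G (b + I * s)) (G' (b + I * s))) {z : ℂ} (hz : z ∈ cS b) :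
    App A ε (G z) (G' z) :=
  ⟨hG.norm_le hb (fun s => (h0 s).le) (fun s => (h1 s).le) hz,
    hG'.norm_le hb (fun s => (h0 s).le') (fun s => (h1 s).le') hz,
    ((hG.mul hG').sub (.const 1)).norm_le hb (fun s => (h0 s).mul) (fun s => (h1 s).mul) hz,
    ((hG'.mul hG).sub (.const 1)).norm_le hb (fun s => (h0 s).mul') (fun s => (h1 s).mul') hz,
    fun x hx y hy => ((((hG.mul (.const x)).mul hG').mul (.const y)).sub ((StrAn.const y).mul
      ((hG.mul (.const x)).mul hG'))).norm_le hb (fun s => (h0 s).cm_le x hx y hy)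
        (fun s => (h1 s).cm_le x hx y hy) hz⟩

omit [CompleteSpace H] in
lemma StrAn.commute {b : ℝ} {G : ℂ → Op H} (hb : 0 < b) (hG : StrAn b G)
    (h0 : ∀ s : ℝ, Commute (G (I * s)) a) (h1 : ∀ s : ℝ, Commute (G (b + I * s)) a) {z : ℂ}
    (hz : z ∈ cS b) : Commute (G z) a :=
  sub_eq_zero.1 (norm_le_zero_iff.1 (((hG.mul (.const a)).sub ((StrAn.const a).mul hG)).norm_le hb
    (fun s => by simp [(h0 s).eq]) (fun s => by simp [(h1 s).eq]) hz))

lemma StrAn.bim {b : ℝ} {G : ℂ → Op H} (hb : 0 < b) (hG : StrAn b G)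
    (h0 : ∀ s : ℝ, F.Bim A (G (I * s))) (h1 : ∀ s : ℝ, F.Bim A (G (b + I * s))) {z : ℂ}
    (hz : z ∈ cS b) : F.Bim A (G z) :=
  ⟨fun g => hG.commute hb (fun s => (h0 s).w g) (fun s => (h1 s).w g) hz,
    fun g => hG.commute hb (fun s => (h0 s).w' g) (fun s => (h1 s).w' g) hz,
    fun c hc => hG.commute hb (fun s => (h0 s).cen c hc) (fun s => (h1 s).cen c hc) hz⟩

/-- `T` is within `r` of its central symbol. -/
def Dv (A : VN H) (ξ : H) (T : Op H) (r : ℝ) : Prop :=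
  ∀ y ∈ A, ‖T (y ξ) - y (T ξ)‖ ≤ r * ‖y ξ‖

lemma Dv.mono {r' : ℝ} (h : Dv A ξ T r) (hr : r ≤ r') : Dv A ξ T r' :=
  fun y hy => (h y hy).trans (by gcongr)

lemma dv_eq {c y : Op H} (hc : Cen A c) (h : c ξ = T ξ) (hy : y ∈ A) :
    T (y ξ) - y (T ξ) = (T - c) (y ξ) := by
  rw [← h, ← mul_apply_eq_comp y, (hc.commute hy).eq]; rfl

lemma dv_of_symbol {c : Op H} (hc : Cen A c) (h : c ξ = T ξ) (hr : ‖T - c‖ ≤ r) : Dv A ξ T r :=
  fun y hy => by rw [dv_eq hc h hy]; exact (T - c).le_of_opNorm_le hr _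

lemma Dv.norm_le {c : Op H} (h : Dv A ξ T r) (hξ : Cyc A ξ) (hr : 0 ≤ r) (hc : Cen A c)
    (e : c ξ = T ξ) : ‖T - c‖ ≤ r :=
  hξ.norm_le hr fun y hy => by rw [← dv_eq hc e hy]; exact h y hy

lemma Dv.of_near (h : Dv A ξ T r) (hF : Framed A ξ F) (hT : F.Bim A T) (hT' : F.Bim A T')
    (hη : ‖T' - T‖ ≤ η) : Dv A ξ T' (r + 2 * η) := fun y hy => by
  obtain ⟨c, hc, h1, h2, -⟩ := hF.exists_symbol (hT'.sub hT)
  have := dv_of_symbol hc h2 (norm_sub_le_of_le hη (h1.trans hη)) y hy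
  calc _ = ‖T (y ξ) - y (T ξ) + ((T' - T) (y ξ) - y ((T' - T) ξ))‖ := by
        simp only [sub_apply, map_sub]; congr 1; abel
    _ ≤ _ := norm_add_le_of_le (h y hy) this
    _ = _ := by ring

universe v

theorem dv_dichotomy : ∃ C c₀ : ℝ, 0 ≤ C ∧ 0 < c₀ ∧ ∀ (H : Type v) [NormedAddCommGroup H]
    [InnerProductSpace ℂ H] [CompleteSpace H] (A : VN H) (ξ : H) (F : Frame H) (T T' : Op H)
    (ε : ℝ), Framed A ξ F → F.Bim A T → App A ε T T' → Dv A ξ T c₀ → Dv A ξ T (C * ε) := by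
  obtain ⟨C, c₀, hC, hc₀, h⟩ := dichotomy.{v}
  refine ⟨C, c₀, hC, hc₀, fun H _ _ _ A ξ F T T' ε hF hT ha hd => ?_⟩
  obtain ⟨c, hc, -, h2, -⟩ := hF.exists_symbol hT
  exact dv_of_symbol hc h2 (h H A ξ F T T' c ε hF hT ha.le ha.le' ((norm_nonneg _).trans ha.mul)
    ha.mul ha.mul' ha.cm_le hc h2 (hd.norm_le hF.cs.2.1 hc₀.le hc h2))

lemma dv_path {C c₀ : ℝ} {T : ℝ → Op H} (hF : Framed A ξ F) (hc : C < c₀) (cont : Continuous T)
    (bim : ∀ t, F.Bim A (T t)) (h : ∀ t, Dv A ξ (T t) c₀ → Dv A ξ (T t) C)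
    (h0 : Dv A ξ (T 0) c₀) (t : ℝ) : Dv A ξ (T t) C := by
  have clo : IsClopen {t : ℝ | Dv A ξ (T t) C} := by
    constructor
    · simp only [Dv, ofPred_forall]
      exact isClosed_iInter fun y => isClosed_iInter fun _ =>
        isClosed_le (by fun_prop) continuous_const
    · refine isOpen_iff_eventually.2 fun t ht => ?_
      filter_upwards [Metric.tendsto_nhds.1 (cont.tendsto t) ((c₀ - C) / 2) (by linarith)] with t' h'
      rw [dist_eq_norm] at h'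
      exact h _ ((Dv.of_near ht hF (bim t) (bim t') h'.le).mono (by linarith))
  exact (clo.eq_univ ⟨0, h _ h0⟩).ge (mem_univ t)

lemma StrAn.dv {b : ℝ} {G : ℂ → Op H} (hb : 0 < b) (hG : StrAn b G)
    (h : ∀ s ∈ Ioo 0 b, Dv A ξ (G (s : ℝ)) r) : Dv A ξ (G 0) r := fun y hy => by
  have hc : ContinuousOn (fun z => ‖G z (y ξ) - y (G z ξ)‖) (cS b) :=
    ((hG.cont _).sub (y.continuous.comp_continuousOn (hG.cont _))).norm
  have hm : MapsTo (fun s : ℝ => (s : ℂ)) (Icc 0 b) (cS b) := fun s hs => hs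
  exact ContinuousWithinAt.closure_le (s := Ioo (0 : ℝ) b) (x := 0)
    (f := fun s : ℝ => ‖G s (y ξ) - y (G s ξ)‖)
    (by rw [closure_Ioo hb.ne]; exact ⟨le_rfl, hb.le⟩)
    (((hc.comp continuous_ofReal.continuousOn hm) 0 ⟨le_rfl, hb.le⟩).mono Ioo_subset_Icc_self)
    continuousWithinAt_const (fun s hs => h s hs y hy)

/-- The continuity argument. -/
theorem dv_cocycle : ∃ C c₁ : ℝ, 0 ≤ C ∧ 0 < c₁ ∧ ∀ (H : Type v) [NormedAddCommGroup H]
    [InnerProductSpace ℂ H] [CompleteSpace H] (A : VN H) (ξ : H) (F : Frame H)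
    (G G' : ℂ → Op H) (u₀ u₁ : ℝ → ℝ → Op H) (b η : ℝ), Framed A ξ F → 0 < b → η ≤ c₁ →
    StrAn b G → StrAn b G' → (∀ z ∈ cS b, F.Bim A (G z)) → (∀ z ∈ cS b, F.Bim A (G' z)) →
    (∀ s t : ℝ, ‖G (I * s) * G' (I * t) - u₀ s t‖ ≤ η) →
    (∀ s t : ℝ, ‖G (b + I * s) * G' (b + I * t) - u₁ s t‖ ≤ η) →
    (∀ s t, AN A η (u₀ s t) ∧ star (u₀ s t) = u₀ t s ∧ u₀ s s = 1) →
    (∀ s t, AN A η (u₁ s t) ∧ star (u₁ s t) = u₁ t s ∧ u₁ s s = 1) →
    ∀ t : ℝ, Dv A ξ (G (I * t) * G' 0) (C * η) := by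
  obtain ⟨C, c₀, hC, hc₀, h⟩ := dv_dichotomy.{v}
  refine ⟨7 * C, min 1 (c₀ / (14 * C + 2)), by positivity, by positivity,
    fun H _ _ _ A ξ F G G' u₀ u₁ b η hF hb hη hG hG' bG bG' h0 h1 a0 a1 t => ?_⟩
  have hη1 : η ≤ 1 := hη.trans (min_le_left _ _)
  have hη0 : 0 ≤ η := (norm_nonneg _).trans (h0 0 0)
  have hη2 : η * (14 * C + 2) ≤ c₀ := (le_div_iff₀ (by positivity)).1 (hη.trans (min_le_right _ _))
  have e0 (s t : ℝ) : I * s + I * t = I * ((s + t : ℝ) : ℂ) := by push_cast; ring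
  have app (t : ℝ) {z : ℂ} (hz : z ∈ cS b) :
      App A (7 * η) (G (z + I * t) * G' z) (G z * G' (z + I * t)) := by
    refine StrAn.app hb ((hG.shift t).mul hG') (hG.mul (hG'.shift t)) (fun s => ?_) (fun s => ?_) hz
    · rw [e0]
      exact (a0 (s + t) s).1.app (h0 _ _) (by rw [(a0 _ _).2.1]; exact h0 _ _) hη1
    · rw [add_assoc, e0]
      exact (a1 (s + t) s).1.app (h1 _ _) (by rw [(a1 _ _).2.1]; exact h1 _ _) hη1
  have one {z : ℂ} (hz : z ∈ cS b) : ‖G z * G' z - 1‖ ≤ η :=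
    ((hG.mul hG').sub (.const 1)).norm_le hb (fun s => by rw [← (a0 s s).2.2]; exact h0 s s)
      (fun s => by rw [← (a1 s s).2.2]; exact h1 s s) hz
  have := ((hG.shift t).mul hG').dv (A := A) (ξ := ξ) (r := C * (7 * η)) hb fun s hs => by
    have hz : (s : ℂ) ∈ cS b := ⟨hs.1.le, hs.2.le⟩
    have bim (t : ℝ) : F.Bim A (G (s + I * t) * G' s) :=
      (bG _ (by simpa using hz)).mul (bG' _ hz)
    refine dv_path (T := fun t : ℝ => G (s + I * t) * G' s) (c₀ := c₀) hF (by nlinarith)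
      ((hG.continuous_line hs).mul continuous_const) bim
      (fun t => h H A ξ F _ _ _ hF (bim t) (app t hz)) ?_ t
    exact (Dv.of_near (T := 1) (r := 0) (η := η) (fun y _ => by simp) hF .one (bim 0)
      (by simpa using one hz)).mono (by nlinarith)
  rw [zero_add] at this
  exact this.mono (le_of_eq (by ring))

end Crest.Agent.R078
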