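import Crest.Agent.R078.MStrip
import Crest.Agent.R078.MDecomp

/-! Row 78, stage 5: modular data, symmetries, and the passage from the commutator inequality to
an intertwining relation. -/

set_option autoImplicit false

open scoped InnerProductSpace BoundedContinuousFunction Topology

namespace Crest.Agent.R078

open Crest.OpAlg Crest.OpAlg.LineCalculus Crest.Agent.R084 Filter Set
open Crest.Agent.TT hiding jc jc_apply Cyc Std

variable {H : Type*} [NormedAddCommGroup H] [InnerProductSpace ℂ H] [CompleteSpace H]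

/-- Modular data of `(A, ξ)`. -/
structure Mod (A : VN H) (ξ : H) (D : LineCalculus H) (J : H ≃ₗᵢ⋆[ℂ] H) : Prop where
  std : TT.Std (saK A ξ) D J
  jc_mem : ∀ x ∈ A, jc J x ∈ A.commutant
  jc_mem' : ∀ y ∈ A.commutant, jc J y ∈ A
  flow_mem : ∀ t, ∀ x ∈ A, D.wave t * x * D.wave (-t) ∈ A
  wave_vac : ∀ t, D.wave t ξ = ξ

omit [CompleteSpace H] in
lemma jc_eq (J : H ≃ₗᵢ⋆[ℂ] H) (a : Op H) : jc J a = TT.jc J a := rfl

theorem exists_mod {A : VN H} {ξ : H} (h : CycSep A ξ) : ∃ D J, Mod A ξ D J := by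
  obtain ⟨S, rfl, rfl, h1, h2, h3⟩ := exists_modularDatum A ξ h.1 h.2.1 (by
    have := TT.Cyc.sep_commutant (M := A.commutant) h.2.2
    rwa [A.commutant_commutant] at this)
  exact ⟨S.D, S.J, h3, h1, h2, S.flow_mem, wave_vac S⟩

/-- The product of two conjugations. -/
noncomputable def jj (J J' : H ≃ₗᵢ⋆[ℂ] H) : Op H where
  toFun x := J (J' x)
  map_add' x y := by simp
  map_smul' c x := by simp [LinearIsometryEquiv.map_smulₛₗ]
  cont := by fun_prop

omit [CompleteSpace H] in
@[simp] lemma jj_apply (J J' : H ≃ₗᵢ⋆[ℂ] H) (x : H) : jj J J' x = J (J' x) := rfl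

lemma halfExp_rho_tau (D : LineCalculus H) (v : H) :
    D.HalfExp (D.apply rhoF v) (D.apply tauF v) := (halfExp_iff D).2 (app_comm _ _ _ _)

namespace Mod

variable {A : VN H} {ξ : H} {D : LineCalculus H} {J : H ≃ₗᵢ⋆[ℂ] H}

lemma J_J (h : Mod A ξ D J) (x : H) : J (J x) = x := h.std.J_J x

lemma J_vac (h : Mod A ξ D J) : J ξ = ξ := TT.J_vac h.std

lemma star_jc (h : Mod A ξ D J) (a : Op H) : star (jc J a) = jc J (star a) := h.std.star_jc a

lemma jc_jc (h : Mod A ξ D J) (a : Op H) : jc J (jc J a) = a := h.std.jc_jc a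

lemma jc_mul (h : Mod A ξ D J) (a b : Op H) : jc J (a * b) = jc J a * jc J b := by
  ext x; simp [h.J_J]

lemma J_wave (h : Mod A ξ D J) (t : ℝ) (x : H) : J (D.wave t x) = D.wave t (J x) := by
  rw [LineCalculus.wave, h.std.J_app]
  congr 2
  ext u
  simp only [BoundedContinuousFunction.star_apply, negF_apply, character_apply, Complex.star_def,
    ← Complex.exp_conj]
  simp

lemma halfExp (h : Mod A ξ D J) {a : Op H} (ha : a ∈ A) : D.HalfExp (a ξ) (J (star a ξ)) :=
  halfExp_orb h.std ha

/-- A closed property of the pairs `(a ξ, a⋆ ξ)` passes to the graph. -/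
lemma graph_induction (h : Mod A ξ D J) {P : H × H → Prop} (hP : IsClosed {p | P p})
    (ih : ∀ a ∈ A, P (a ξ, star a ξ)) (v : H) : P (D.apply rhoF v, J (D.apply tauF v)) := by
  have : (D.apply rhoF v, J (D.apply tauF v)) ∈ {p : H × H | D.HalfExp p.1 (J p.2)} := by
    simpa only [mem_ofPred_eq, h.J_J] using halfExp_rho_tau D v
  rw [← tomita_std h.std] at this
  exact closure_minimal (by rintro _ ⟨a, rfl⟩; exact ih a a.2) hP this

lemma sol_of_vac (h : Mod A ξ D J) {w w' : Op H} (hw : w ∈ A) (hw' : w' ∈ A.commutant)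
    (hv : star w ξ = w' ξ) :
    D.apply rhoF * jc J w' * D.apply tauF = D.apply tauF * w * D.apply rhoF := by
  ext v
  refine h.graph_induction (P := fun p => D.apply rhoF (J (w' p.2)) = D.apply tauF (w p.1))
    (isClosed_eq (by fun_prop) (by fun_prop)) (fun a ha => ?_) v
  have := (halfExp_iff D).1 (h.halfExp (mul_mem hw ha))
  rwa [star_mul, mul_apply_eq_comp, mul_apply_eq_comp, hv,
    ← comm_of_mem A (star_mem ha) hw'] at this

/-- Elements of the centraliser commute with the modular operator. -/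
theorem commute_of_vac (h : Mod A ξ D J) {w w' : Op H} (hw : w ∈ A) (hw' : w' ∈ A.commutant)
    (h1 : w ξ = w' ξ) (h2 : star w ξ = star w' ξ) :
    (∀ f, Commute (D.apply f) w) ∧ jc J w = star w' := by
  have a1 := h.sol_of_vac hw (star_mem hw') h2
  have a2 := h.sol_of_vac (star_mem hw) hw' (by rw [star_star, h1])
  have a3 := tau_of_rho a1
  have a4 := congrArg star a2
  simp only [star_mul, ← map_star, star_rhoF, star_tauF, star_star, h.star_jc] at a4
  have hd := app_denseRange D rhoF_ne
  have a5 : D.apply rhoF * w * D.apply (2 - rhoF) = D.apply (2 - rhoF) * w * D.apply rhoF := by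
    rw [← a3]
    ext v
    refine hd.induction_on v (isClosed_eq (by fun_prop) (by fun_prop)) fun v => ?_
    have := congrArg (fun T : Op H => T (D.apply tauF v)) a4
    simp only [mul_apply_eq_comp] at this ⊢
    rw [app_comm D tauF rhoF, this, ← app_mul_apply, ← app_mul_apply, tauF_mul_tauF, mul_comm]
  have a6 : w * D.apply rhoF = D.apply rhoF * w := by
    rw [map_sub, map_ofNat] at a5
    have : (2 : ℂ) • (w * D.apply rhoF) = (2 : ℂ) • (D.apply rhoF * w) := by
      rw [two_smul, two_smul]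
      linear_combination (norm := noncomm_ring) -a5
    exact smul_right_injective _ two_ne_zero this
  have a7 : ∀ f, Commute (D.apply f) w := fun f => ContinuousLinearMap.ext fun v =>
    (inter_lin D D w (fun x => congrArg (fun T : Op H => T x) a6) f v).symm
  refine ⟨a7, ?_⟩
  have a8 : jc J (star w') = w := by
    ext v
    refine (app_denseRange D tauF_ne).induction_on v (isClosed_eq (by fun_prop) (by fun_prop))
      fun v => app_injective D rhoF_ne ?_
    have := congrArg (fun T : Op H => T v) a1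
    simp only [mul_apply_eq_comp] at this
    rw [this, ← mul_apply_eq_comp w, ← mul_apply_eq_comp w, ← (a7 _).eq, ← (a7 _).eq,
      mul_apply_eq_comp, mul_apply_eq_comp, app_comm]
  rw [← a8, h.jc_jc]

lemma flow_mem' (h : Mod A ξ D J) (t : ℝ) {y : Op H} (hy : y ∈ A.commutant) :
    D.wave t * y * D.wave (-t) ∈ A.commutant := by
  have := h.jc_mem _ (h.flow_mem t _ (h.jc_mem' y hy))
  convert this using 1
  ext v
  simp [h.J_wave, h.J_J]

/-- A trace vector has trivial modular group. -/
theorem wave_eq_one (h : Mod A ξ D J) (ht : Tr A ξ) (t : ℝ) : D.wave t = 1 := by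
  have a1 : ∀ v, ‖D.apply tauF v‖ = ‖D.apply rhoF v‖ := fun v => by
    simpa using h.graph_induction (P := fun p => ‖p.2‖ = ‖p.1‖)
      (isClosed_eq (by fun_prop) (by fun_prop)) ht v
  have a2 : D.apply (tauF * tauF) = D.apply (rhoF * rhoF) := by
    rw [← sub_eq_zero, ← ContinuousLinearMap.coe_inj, ContinuousLinearMap.toLinearMap_zero,
      ← inner_map_self_eq_zero]
    intro v
    simp only [ContinuousLinearMap.coe_coe, sub_apply, inner_sub_left, app_mul_apply]
    rw [inner_app_left, inner_app_left D rhoF, star_tauF, star_rhoF, inner_self_eq_norm_sq_to_K,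
      inner_self_eq_norm_sq_to_K, a1, sub_self]
  have a3 : ∀ v, D.apply rhoF v = v := fun v => by
    have := congrArg (fun T : Op H => T v) a2
    simp only [tauF_mul_tauF, app_mul_apply] at this
    have := app_injective D rhoF_ne this
    rw [app_two_sub, sub_eq_iff_eq_add, ← two_smul ℂ] at this
    exact (smul_right_injective H two_ne_zero this).symm
  ext v
  by_cases h0 : ξ = 0
  · have hv : ∀ v : H, v = 0 := fun v => by
      have := h.graph_induction (P := fun p => p.1 = 0)
        (isClosed_eq (by fun_prop) continuous_const) (fun a _ => by simp [h0]) v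
      rwa [a3] at this
    exact (hv _).trans (hv _).symm
  have := inter_lin D D ((ContinuousLinearMap.toSpanSingleton ℂ v).comp
    ((‖ξ‖ ^ 2 : ℂ)⁻¹ • innerSL ℂ ξ)) (fun x => by rw [a3, a3]) (character t) ξ
  have e : ((ContinuousLinearMap.toSpanSingleton ℂ v).comp
      ((‖ξ‖ ^ 2 : ℂ)⁻¹ • innerSL ℂ ξ)) ξ = v := by
    have : (‖ξ‖ : ℂ) ≠ 0 := by simpa using h0
    simp [inner_self_eq_norm_sq_to_K, this]
  rw [show D.apply (character t) ξ = ξ from h.wave_vac t, e] at this
  exact this.symm

lemma rho_eq_one (hw : ∀ t, D.wave t = 1) : D.apply rhoF = 1 ∧ D.apply tauF = 1 := by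
  have a1 : ∀ v, D.apply rhoF v = D.apply tauF v := fun v => (halfExp_iff D).1
    (halfExp_of_entire' D (G := fun _ => v) (differentiable_const _) fun t => by rw [hw]; rfl)
  have a3 : ∀ v, D.apply rhoF v = v := fun v => by
    have : D.apply rhoF (D.apply (2 - rhoF) v) = D.apply rhoF (D.apply rhoF v) := by
      rw [← app_mul_apply, ← tauF_mul_tauF, app_mul_apply, ← a1, ← a1]
    have := app_injective D rhoF_ne this
    rw [app_two_sub, sub_eq_iff_eq_add, ← two_smul ℂ] at this
    exact (smul_right_injective H two_ne_zero this).symm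
  exact ⟨ContinuousLinearMap.ext a3, ContinuousLinearMap.ext fun v => (a1 v).symm.trans (a3 v)⟩

lemma J_eq (h : Mod A ξ D J) (hw : ∀ t, D.wave t = 1) {a : Op H} (ha : a ∈ A) :
    J (a ξ) = star a ξ := by
  have := (halfExp_iff D).1 (h.halfExp ha)
  rw [(rho_eq_one hw).1, (rho_eq_one hw).2, one_apply_eq_self, one_apply_eq_self] at this
  rw [← this, h.J_J]

end Mod

/-- The commutator inequality gives an approximate intertwiner of the Tomita operators. -/
theorem exists_sol {M N : VN H} {ξ : H} {D D' : LineCalculus H} {J J' : H ≃ₗᵢ⋆[ℂ] H}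
    (hM : Mod M ξ D J) (hN : Mod N ξ D' J') {c : ℝ} (hc : 0 ≤ c)
    (h : ∀ x ∈ M, ∀ y ∈ N.commutant, ‖⟪ξ, cm x y ξ⟫_ℂ‖ ≤
      c * (‖star x ξ‖ * ‖y ξ‖ + ‖x ξ‖ * ‖star y ξ‖)) :
    ∃ W U : Op H, ‖W - 1‖ ≤ 2 * c ∧ ‖U - jj J' J‖ ≤ 2 * c ∧
      D'.apply rhoF * U * D.apply tauF = D'.apply tauF * W * D.apply rhoF := by
  obtain ⟨A, B, hA, hB, e⟩ := decomp
    (Y := D'.apply rhoF * jj J' J * D.apply tauF - D'.apply tauF * D.apply rhoF)
    (app_injective D' rhoF_ne) (app_injective D tauF_ne) (app_injective D' tauF_ne)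
    (app_injective D rhoF_ne) hc fun w v => by
    have := hM.graph_induction (P := fun p => ‖⟪p.2, J' (D'.apply rhoF w)⟫_ℂ -
        ⟪J' (J' (D'.apply tauF w)), p.1⟫_ℂ‖ ≤ c * (‖p.2‖ * ‖D'.apply rhoF w‖ +
          ‖p.1‖ * ‖J' (D'.apply tauF w)‖)) (isClosed_le (by fun_prop) (by fun_prop))
      (fun x hx => hN.graph_induction (P := fun p => ‖⟪star x ξ, J' p.1⟫_ℂ - ⟪J' p.2, x ξ⟫_ℂ‖ ≤
        c * (‖star x ξ‖ * ‖p.1‖ + ‖x ξ‖ * ‖p.2‖)) (isClosed_le (by fun_prop) (by fun_prop))
        (fun y hy => ?_) w) v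
    · simp only [hN.J_J, LinearIsometryEquiv.norm_map] at this
      rw [hN.std.inner_J'] at this
      simp only [sub_apply, mul_apply_eq_comp, inner_sub_right, jj_apply]
      rw [inner_app_right, inner_app_right D' tauF, star_rhoF, star_tauF, mul_comm ‖_‖,
        mul_comm ‖D'.apply tauF w‖]
      exact this
    · have := h x hx _ (hN.jc_mem y hy)
      simp only [cm, hN.star_jc, jc_apply, hN.J_vac, LinearIsometryEquiv.norm_map, sub_apply,
        mul_apply_eq_comp, inner_sub_right] at this
      rw [← inner_star_left x, ← jc_apply J' y, ← inner_star_left, hN.star_jc, jc_apply,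
        hN.J_vac] at this
      exact this
  refine ⟨1 + B, jj J' J - A, by simpa using hB, by simpa using hA, ?_⟩
  rw [← map_star, ← map_star, star_rhoF, star_tauF] at e
  linear_combination (norm := noncomm_ring) e

end Crest.Agent.R078
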