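import Crest.Agent.R078.MP0

/-! Row 78, stage 5: the commutator inequality (P). -/

set_option autoImplicit false

open scoped InnerProductSpace
open Filter Topology

namespace Crest.Agent.R078

open Crest.Agent.R124 (ex)

variable {H : Type*} [NormedAddCommGroup H] [InnerProductSpace ℂ H] [CompleteSpace H]
variable {A M N : VN H} {ξ : H} {F : Frame H}

theorem MP_ev (h : Framed A ξ F) {P Q : Op H} (hP : P ∈ A) (hQ : Q ∈ A) {v w : H} {τ σ s ε : ℝ}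
    (hs : τ * ‖F.E P v‖ ^ 2 + σ * (⟪w, F.E Q w⟫_ℂ).re ≤ 3 * s ^ 2) (h0 : 0 ≤ s) (hε : 0 < ε) :
    ∀ᶠ m in atTop, τ * ‖F.EF m P v‖ ^ 2 + σ * (⟪w, F.EF m Q w⟫_ℂ).re ≤ (2 * s + ε) ^ 2 := by
  have h1 := (((h.tendsto_EF hP v).norm.pow 2).const_mul τ).add
    (((Complex.continuous_re.tendsto _).comp
      ((tendsto_const_nhds (x := w)).inner (𝕜 := ℂ) (h.tendsto_EF hQ w))).const_mul σ)
  exact h1.eventually (eventually_le_nhds (hs.trans_lt (by nlinarith)))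

/-- The limit `m → ∞`, `ε → 0` of `stage_bound` with `L = 8`. -/
theorem ineqP_lim (h : Sit M N ξ F) {d K : ℝ} (hd0 : 0 ≤ d) (hK0 : 0 ≤ K)
    (hd : ∀ x ∈ M, ∀ y ∈ N.commutant, ‖cm x y‖ ≤ d * ‖x‖ * ‖y‖)
    (hK : ∀ x ∈ M, ∀ y ∈ N.commutant, ‖⟪ξ, cm x y ξ⟫_ℂ‖ ≤
      K * (‖star x ξ‖ * ‖y ξ‖ + ‖x ξ‖ * ‖star y ξ‖))
    {x y : Op H} (hx : x ∈ M) (hy : y ∈ N.commutant) (l l' : ℕ) :
    √((1 / 2) ^ l * (1 / 2) ^ l') * ‖⟪ξ, cm x y ξ⟫_ℂ‖ ≤
      64 * d * √((1 / 2) ^ l * ‖x ξ‖ ^ 2 + (1 / 2) ^ l' * ‖star x ξ‖ ^ 2) *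
        √((1 / 2) ^ l * ‖y ξ‖ ^ 2 + (1 / 2) ^ l' * ‖star y ξ‖ ^ 2) +
      √((1 / 2) ^ l * (1 / 2) ^ l') * (K / 2) *
        (‖star x ξ‖ * ‖y ξ‖ + ‖x ξ‖ * ‖star y ξ‖) := by
  set τ : ℝ := (1 / 2) ^ l
  set σ : ℝ := (1 / 2) ^ l'
  have hτ : 0 < τ := by positivity
  have hσ : 0 < σ := by positivity
  have key : ∀ ε : ℝ, 0 < ε → τ * σ * ‖⟪ξ, cm x y ξ⟫_ℂ‖ ≤
      d * 8 ^ 2 * √(τ * σ) * √(τ * ‖x ξ‖ ^ 2 + σ * ‖star x ξ‖ ^ 2 + ε) *
        √(τ * ‖y ξ‖ ^ 2 + σ * ‖star y ξ‖ ^ 2 + ε) +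
      K * (τ * σ) * 8⁻¹ * ((2 * ‖star x ξ‖ + ε) * ‖y ξ‖ + (2 * ‖x ξ‖ + ε) * ‖star y ξ‖ +
        ‖star x ξ‖ * (2 * ‖y ξ‖ + ε) + ‖x ξ‖ * (2 * ‖star y ξ‖ + ε)) := fun ε hε => by
    obtain ⟨X, hX, c, hc, sc, rfl, nc, a1, a2⟩ := h.fM.exists_normal hx hτ.le hσ.le hε
    obtain ⟨Y, hY, c', hc', sc', rfl, nc', a3, a4⟩ := h.fN.swap.exists_normal hy hτ.le hσ.le hε
    have hcB : Cen N.commutant c := Cen.commutant.2 ((h.cen c).1 hc)
    have hcA' : Cen M c' := (h.cen c').2 (Cen.commutant.1 hc')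
    have e1 : ∀ X ∈ M, ∀ Y ∈ N.commutant,
        ⟪ξ, cm (X * c) (Y * c') ξ⟫_ℂ = ⟪c ξ, cm X Y (c' ξ)⟫_ℂ := fun X hX Y hY => by
      have : cm (X * c) (Y * c') = star c * cm X Y * c' := by
        have b1 := (hc.commute hX).eq
        have b2 := (hcB.commute hY).eq
        have b3 := (hcA'.commute (mul_mem hX hc.1)).eq
        rw [sc, cm, cm, mul_assoc Y, ← b3, b1, mul_sub, sub_mul, ← mul_assoc c Y, ← b2]
        simp only [mul_assoc]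
      rw [this]
      exact ContinuousLinearMap.adjoint_inner_right c ξ _
    have e2 : ∀ {A : VN H} {c X : Op H}, Cen A c → star c = c → X ∈ A →
        star (X * c) ξ = star X (c ξ) := fun hc sc hX => by
      rw [star_mul, sc, ← (hc.commute (star_mem hX)).eq, mul_apply_eq_comp]
    obtain ⟨m, ⟨⟨m1, m2⟩, b1, b2⟩, b3, b4⟩ := ((((eventually_ge_atTop l).and
      (eventually_ge_atTop l')).and
      ((MP_ev h.fM (mul_mem (star_mem hX) hX) (mul_mem hX (star_mem hX)) a1 (norm_nonneg _) hε).and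
      (MP_ev h.fM (mul_mem hX (star_mem hX)) (mul_mem (star_mem hX) hX) a2 (norm_nonneg _) hε))).and
      ((MP_ev h.fN.swap (mul_mem (star_mem hY) hY) (mul_mem hY (star_mem hY)) a3 (norm_nonneg _)
        hε).and (MP_ev h.fN.swap (mul_mem hY (star_mem hY)) (mul_mem (star_mem hY) hY) a4
        (norm_nonneg _) hε))).exists
    simp only [← av_w] at b1 b2
    simp only [← av_w'] at b3 b4
    have := stage_bound hτ.le hσ.le (h.fM.stg m1) (h.fM.stg m2) (h.fN.stg' m1) (h.fN.stg' m2) hc hcB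
      hcA' hc' hd0 hK0 (L := 8) (by norm_num) hd (fun X hX Y hY => by
        rw [← e1 X hX Y hY, ← e2 hc sc hX, ← e2 hc' sc' hY]
        exact hK _ (mul_mem hX hc.1) _ (mul_mem hY hc'.1)) hX hY (by positivity) (by positivity)
      (by positivity) (by positivity) b1 b2 b3 b4
    rw [← nc, ← nc', Real.sqrt_sq (norm_nonneg _), Real.sqrt_sq (norm_nonneg _), e1 X hX Y hY]
    rw [← e2 hc sc hX, ← e2 hc' sc' hY] at this
    exact this
  have lim := ge_of_tendsto (x := 𝓝[>] (0 : ℝ)) ((Continuous.tendsto (by fun_prop) 0).mono_left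
    nhdsWithin_le_nhds) (eventually_nhdsWithin_of_forall key)
  have hs : 0 < √(τ * σ) := by positivity
  have hss := Real.mul_self_sqrt (mul_pos hτ hσ).le
  simp only [add_zero] at lim
  refine le_of_mul_le_mul_left ?_ hs
  generalize √(τ * σ) = s at *
  rw [← hss] at lim
  linarith

theorem MP_sel {A B A' B' : ℝ} (hA : 0 < A) (hB : 0 < B) (hA' : 0 < A') (hB' : 0 < B') :
    ∃ l l' : ℕ, 64 * √((1 / 2) ^ l * A ^ 2 + (1 / 2) ^ l' * B ^ 2) *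
      √((1 / 2) ^ l * A' ^ 2 + (1 / 2) ^ l' * B' ^ 2) ≤
      100 * √((1 / 2) ^ l * (1 / 2) ^ l') * (B * A' + A * B') := by
  obtain ⟨n, h1, h2⟩ := exists_mem_Ico_zpow (show 0 < B * B' / (A * A') by positivity)
    (one_lt_two (α := ℝ))
  obtain ⟨l, l', hl⟩ : ∃ l l' : ℕ, (1 / 2 : ℝ) ^ l = 2 ^ n * (1 / 2) ^ l' := by
    obtain ⟨a, rfl | rfl⟩ := n.eq_nat_or_neg
    · exact ⟨0, a, by simp⟩
    · exact ⟨a, 0, by simp⟩
  refine ⟨l, l', ?_⟩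
  rw [zpow_add_one₀ two_ne_zero, div_lt_iff₀ (by positivity)] at h2
  rw [le_div_iff₀ (by positivity)] at h1
  have hr : (0 : ℝ) < 2 ^ n := by positivity
  have hσ : (0 : ℝ) < (1 / 2) ^ l' := by positivity
  rw [hl]
  generalize (2 : ℝ) ^ n = r at *
  generalize (1 / 2 : ℝ) ^ l' = σ at *
  refine (abs_le_of_sq_le_sq' ?_ (by positivity)).2
  rw [mul_pow, mul_pow, mul_pow, mul_pow, Real.sq_sqrt (by positivity), Real.sq_sqrt (by positivity),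
    Real.sq_sqrt (by positivity)]
  have b1 := mul_le_mul_of_nonneg_left h1 (show 0 ≤ r * (A * A') by positivity)
  have b2 := mul_le_mul_of_nonneg_left h2.le (show 0 ≤ B * B' by positivity)
  have : 64 ^ 2 * ((r * A ^ 2 + B ^ 2) * (r * A' ^ 2 + B' ^ 2)) ≤
      100 ^ 2 * (r * (B * A' + A * B') ^ 2) := by
    have c1 : 0 ≤ r * (B * A') ^ 2 := by positivity
    have c2 : 0 ≤ r * (A * B') ^ 2 := by positivity
    have c3 : 0 ≤ r * (A * A') * (B * B') := by positivity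
    linarith
  nlinarith [mul_le_mul_of_nonneg_left this (sq_nonneg σ)]

theorem ineqP (h : Sit M N ξ F) {d : ℝ} (hd0 : 0 ≤ d)
    (hd : ∀ x ∈ M, ∀ y ∈ N.commutant, ‖cm x y‖ ≤ d * ‖x‖ * ‖y‖) :
    ∀ x ∈ M, ∀ y ∈ N.commutant, ‖⟪ξ, cm x y ξ⟫_ℂ‖ ≤
      200 * d * (‖star x ξ‖ * ‖y ξ‖ + ‖x ξ‖ * ‖star y ξ‖) := by
  have step : ∀ n : ℕ, ∀ x ∈ M, ∀ y ∈ N.commutant, ‖⟪ξ, cm x y ξ⟫_ℂ‖ ≤
      (200 * d + (1 / 2) ^ n) * (‖star x ξ‖ * ‖y ξ‖ + ‖x ξ‖ * ‖star y ξ‖) := by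
    intro n
    induction n with
    | zero =>
      intro x _ y _
      have e : ∀ x y : Op H, ‖⟪ξ, (x * y) ξ⟫_ℂ‖ ≤ ‖star x ξ‖ * ‖y ξ‖ := fun x y => by
        rw [mul_apply_eq_comp, ← ContinuousLinearMap.adjoint_inner_left]
        exact norm_inner_le_norm _ _
      rw [cm, sub_apply, inner_sub_right]
      refine (norm_sub_le_of_le (e x y) (e y x)).trans ?_
      rw [mul_comm ‖star y ξ‖]
      exact le_mul_of_one_le_left (by positivity) (by linarith)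
    | succ n ih =>
      intro x hx y hy
      by_cases x0 : x = 0
      · simp [x0, cm]
      by_cases y0 : y = 0
      · simp [y0, cm]
      have a1 : 0 < ‖x ξ‖ := norm_pos_iff.2 fun e => x0 (h.fM.cs.2.2.sep hx e)
      have a2 : 0 < ‖star x ξ‖ := norm_pos_iff.2 fun e =>
        x0 (star_eq_zero.1 (h.fM.cs.2.2.sep (star_mem hx) e))
      have a3 : 0 < ‖y ξ‖ := norm_pos_iff.2 fun e => y0 (h.fN.cs.2.1.sep' hy e)
      have a4 : 0 < ‖star y ξ‖ := norm_pos_iff.2 fun e =>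
        y0 (star_eq_zero.1 (h.fN.cs.2.1.sep' (star_mem hy) e))
      obtain ⟨l, l', hl⟩ := MP_sel a1 a2 a3 a4
      have h1 := ineqP_lim h hd0 (by positivity) hd ih hx hy l l'
      refine le_of_mul_le_mul_left (h1.trans ?_)
        (show 0 < √((1 / 2 : ℝ) ^ l * (1 / 2) ^ l') by positivity)
      have := mul_le_mul_of_nonneg_left hl hd0
      rw [pow_succ _ n]
      linarith
  intro x hx y hy
  have lim := ((tendsto_pow_atTop_nhds_zero_of_lt_one (r := (1 / 2 : ℝ)) (by norm_num)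
    (by norm_num)).const_add (200 * d)).mul_const (‖star x ξ‖ * ‖y ξ‖ + ‖x ξ‖ * ‖star y ξ‖)
  rw [add_zero] at lim
  exact ge_of_tendsto' lim fun n => step n x hx y hy

end Crest.Agent.R078
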