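import Crest.Agent.R078.MMain0
import Crest.Agent.R078.MMod
import Crest.Agent.R078.MP

/-! Row 78, stage 5: the modular groups of close algebras with a common frame are close. -/

set_option autoImplicit false

open scoped InnerProductSpace Topology BoundedContinuousFunction

namespace Crest.Agent.R078

open Crest.OpAlg Crest.OpAlg.LineCalculus Crest.Agent.R084 Filter Set Complex
open Crest.Agent.TT hiding jc jc_apply Cyc Std

variable {H : Type*} [NormedAddCommGroup H] [InnerProductSpace ℂ H] [CompleteSpace H]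
variable {A M N : VN H} {ξ : H} {F : Frame H} {D D' : LineCalculus H} {J J' : H ≃ₗᵢ⋆[ℂ] H}

lemma wave_uni (D : LineCalculus H) (t : ℝ) : D.wave t ∈ unitary (Op H) :=
  ⟨by rw [star_wave, ← wave_add, neg_add_cancel, wave_zero],
    by rw [star_wave, ← wave_add, add_neg_cancel, wave_zero]⟩

lemma Mod.bim_app (hM : Mod A ξ D J) (h : Framed A ξ F) (f : ℝ →ᵇ ℂ) : F.Bim A (D.apply f) := by
  refine ⟨fun a => (hM.commute_of_vac (h.w_mem a) (h.w'_mem a) (h.vac a) (h.star_vac a)).1 f,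
    fun a => ?_, fun c hc => (hM.commute_of_vac hc.1 hc.2 rfl rfl).1 f⟩
  obtain ⟨h1, h2⟩ := hM.commute_of_vac (star_mem (h.w_mem a)) (star_mem (h.w'_mem a))
    (h.star_vac a) (by rw [star_star, star_star, h.vac])
  rw [star_star] at h2
  rw [← h2]
  ext v
  have e (x : H) : D.apply f (J x) = J (D.apply (star (negF f)) x) := by
    rw [← hM.J_J x, ← hM.std.J_app, hM.J_J, hM.J_J]
  simp only [mul_apply_eq_comp, jc_apply]
  rw [e, hM.std.J_app f, ← mul_apply_eq_comp (D.apply _), (h1 _).eq, mul_apply_eq_comp]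

omit [CompleteSpace H] in
lemma commute_jj (hJ : ∀ x, J (J x) = x) (hJ' : ∀ x, J' (J' x) = x) {g : Op H}
    (h : jc J g = jc J' g) : Commute (jj J' J) g := by
  ext v
  have := congrArg (fun T : Op H => J' (T (J v))) h
  simpa only [jc_apply, hJ, hJ', mul_apply_eq_comp, jj_apply] using this

lemma Sit.bim_jj (h : Sit M N ξ F) (hM : Mod M ξ D J) (hN : Mod N ξ D' J') :
    F.Bim M (jj J' J) := by
  have key {A : VN H} {D : LineCalculus H} {J : H ≃ₗᵢ⋆[ℂ] H} (hA : Mod A ξ D J)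
      (h : Framed A ξ F) (a : Gam) : jc J (F.w a) = star (F.w' a) ∧ jc J (F.w' a) = star (F.w a) := by
    have := (hA.commute_of_vac (h.w_mem a) (h.w'_mem a) (h.vac a) (h.star_vac a)).2
    exact ⟨this, by rw [← star_star (F.w' a), ← this, hA.star_jc, hA.jc_jc]⟩
  refine ⟨fun a => commute_jj hM.J_J hN.J_J ?_, fun a => commute_jj hM.J_J hN.J_J ?_,
    fun c hc => commute_jj hM.J_J hN.J_J ?_⟩
  · rw [(key hM h.fM a).1, (key hN h.fN a).1]
  · rw [(key hM h.fM a).2, (key hN h.fN a).2]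
  · have hc' := (h.cen c).1 hc
    rw [(hM.commute_of_vac hc.1 hc.2 rfl rfl).2, (hN.commute_of_vac hc'.1 hc'.2 rfl rfl).2]

lemma Frame.Bim.norm_bavg_sub {S : Op H} (hS : F.Bim A S) (T : Op H) :
    ‖F.bavg A T - S‖ ≤ ‖T - S‖ := by
  rw [norm_sub_rev, norm_sub_rev T]
  exact ((prep_uz A).norm_sub_avg_le (fun a => hS.cen _ (cen_uz A a)) _).trans
    ((F.prep_w'.norm_sub_avg_le hS.w' _).trans (F.prep_w.norm_sub_avg_le hS.w _))

lemma Frame.Bim.bavg_mul {a b : Op H} (ha : F.Bim A a) (hb : F.Bim A b) (T : Op H) :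
    F.bavg A (a * T * b) = a * F.bavg A T * b := by
  rw [Frame.bavg, F.prep_w.avg_mul_right hb.w, F.prep_w.avg_mul_left ha.w,
    F.prep_w'.avg_mul_right hb.w', F.prep_w'.avg_mul_left ha.w',
    (prep_uz A).avg_mul_right fun a => hb.cen _ (cen_uz A a),
    (prep_uz A).avg_mul_left fun a => ha.cen _ (cen_uz A a), Frame.bavg]

lemma Sit.exists_sol (h : Sit M N ξ F) (hM : Mod M ξ D J) (hN : Mod N ξ D' J') {δ : ℝ}
    (hδ : 0 ≤ δ) (hn : Near M N δ) : ∃ W U : Op H, F.Bim M W ∧ F.Bim M U ∧ ‖W - 1‖ ≤ 800 * δ ∧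
      ‖U - jj J' J‖ ≤ 800 * δ ∧
      D'.apply rhoF * U * D.apply tauF = D'.apply tauF * W * D.apply rhoF := by
  obtain ⟨W, U, h1, h2, h3⟩ := R078.exists_sol hM hN (by positivity)
    (ineqP h (d := 2 * δ) (by positivity) fun x hx y hy => hn.norm_cm_le hx hy)
  refine ⟨_, _, h.fM.bim_bavg W, h.fM.bim_bavg U,
    (Frame.Bim.one.norm_bavg_sub W).trans (h1.trans_eq (by ring)),
    ((h.bim_jj hM hN).norm_bavg_sub U).trans (h2.trans_eq (by ring)), ?_⟩
  rw [← (h.bim_iff.2 (hN.bim_app h.fN _)).bavg_mul (hM.bim_app h.fM _), h3,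
    (h.bim_iff.2 (hN.bim_app h.fN _)).bavg_mul (hM.bim_app h.fM _)]

lemma Sit.exists_strAn (h : Sit M N ξ F) (hM : Mod M ξ D J) (hN : Mod N ξ D' J') {δ : ℝ}
    (hδ : 0 ≤ δ) (hn : Near M N δ) : ∃ (G : ℂ → Op H) (W U : Op H), StrAn (1 / 2) G ∧
      (∀ z ∈ cS (1 / 2), F.Bim M (G z)) ∧ ‖W - 1‖ ≤ 800 * δ ∧ ‖U - jj J' J‖ ≤ 800 * δ ∧
      (∀ t : ℝ, G (I * t) = D'.wave t * W * D.wave (-t)) ∧
      ∀ t : ℝ, G ((1 / 2 : ℝ) + I * t) = D'.wave t * U * D.wave (-t) := by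
  obtain ⟨W, U, bW, bU, h1, h2, h3⟩ := h.exists_sol hM hN hδ hn
  obtain ⟨G, hG, e0, e1⟩ := R078.exists_strAn h3
  refine ⟨G, W, U, hG, fun z hz => hG.bim one_half_pos (fun s => ?_) (fun s => ?_) hz, h1, h2, e0,
    e1⟩
  · rw [e0]; exact ((h.bim_iff.2 (hN.bim_app h.fN _)).mul bW).mul (hM.bim_app h.fM _)
  · rw [e1]; exact ((h.bim_iff.2 (hN.bim_app h.fN _)).mul bU).mul (hM.bim_app h.fM _)

/-- The boundary values. -/
noncomputable def bv (D D' : LineCalculus H) (p q : Op H) (s t : ℝ) : Op H :=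
  D'.wave s * (p * D.wave (t - s) * q) * D'.wave (-t)

lemma norm_sub_bv {X Y p q : Op H} {η : ℝ} (hX : ‖X - p‖ ≤ η) (hY : ‖Y - q‖ ≤ η) (hp : ‖p‖ ≤ 1)
    (hq : ‖q‖ ≤ 1) (hη : η ≤ 1) (s t : ℝ) :
    ‖D'.wave s * X * D.wave (-s) * (D.wave t * Y * D'.wave (-t)) - bv D D' p q s t‖ ≤ 3 * η := by
  have h0 : 0 ≤ η := (norm_nonneg _).trans hX
  calc _ = ‖D'.wave s * (X * D.wave (t - s) * Y - p * D.wave (t - s) * q) * D'.wave (-t)‖ := by
        rw [bv, ← neg_add_eq_sub s t, wave_add]; congr 1; noncomm_ring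
    _ ≤ 1 * (3 * η * 1) * 1 := norm_mul_le_of_le (norm_mul_le_of_le (norm_uni_le (wave_uni _ _))
        ((norm_mul_sub_mul hX hY hp hq hη _).trans (by gcongr; exact norm_uni_le (wave_uni _ _))))
        (norm_uni_le (wave_uni _ _))
    _ = _ := by ring

lemma Mod.an_bv (hN : Mod N ξ D' J') {p q : Op H} {ε : ℝ} (h : ∀ t, AN N ε (p * D.wave t * q))
    (h1 : star p = q) (h2 : p * q = 1) (s t : ℝ) : AN N ε (bv D D' p q s t) ∧
      star (bv D D' p q s t) = bv D D' p q t s ∧ bv D D' p q s s = 1 := by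
  refine ⟨((h _).mul_left (wave_uni _ _) fun y hy => ?_).mul_right (wave_uni _ _) fun x hx => ?_,
    ?_, ?_⟩
  · simpa only [star_wave, neg_neg] using hN.flow_mem' (-s) hy
  · simpa only [star_wave] using hN.flow_mem (-t) x hx
  · simp only [bv, star_mul, star_wave, neg_neg, neg_sub, ← h1, star_star, mul_assoc]
  · rw [bv, sub_self, wave_zero, mul_one, h2, mul_one, ← wave_add, add_neg_cancel, wave_zero]

lemma Mod.an_wave (hM : Mod M ξ D J) {δ : ℝ} (hδ : 0 ≤ δ) (hδ1 : δ ≤ 1) (h : Cl M N δ) (t : ℝ) :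
    AN N (6 * δ) (D.wave t) := ⟨wave_uni _ _, fun x hx y hy => by
  obtain ⟨a, ha, hxa⟩ := h.2 x hx
  have h1 := h.1.norm_cm_le (hM.flow_mem t a ha) hy
  rw [← star_wave, BMean_norm (wave_uni _ _)] at h1
  have h2 : ‖a‖ ≤ 2 * ‖x‖ := (norm_le_norm_add_norm_sub x a).trans (by nlinarith [norm_nonneg x])
  calc _ = ‖cm (D.wave t * a * star (D.wave t)) y + cm (D.wave t * (x - a) * star (D.wave t)) y‖ := by
        congr 1; simp only [cm]; noncomm_ring
    _ ≤ 2 * δ * (2 * ‖x‖) * ‖y‖ + 2 * (δ * ‖x‖) * ‖y‖ := norm_add_le_of_le (h1.trans (by gcongr))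
        ((norm_cm_le _ _).trans (by rw [BMean_norm (wave_uni _ _)]; gcongr))
    _ = _ := by ring⟩

lemma star_jj (hJ : ∀ x, J (J x) = x) (hJ' : ∀ x, J' (J' x) = x) : star (jj J J') = jj J' J := by
  symm
  rw [ContinuousLinearMap.star_eq_adjoint, ContinuousLinearMap.eq_adjoint_iff]
  intro x y
  rw [jj_apply, jj_apply, inner_J_left hJ', ← inner_J J, hJ]

omit [CompleteSpace H] in
lemma norm_jj_le (J J' : H ≃ₗᵢ⋆[ℂ] H) : ‖jj J J'‖ ≤ 1 :=
  ContinuousLinearMap.opNorm_le_bound _ zero_le_one fun x => by simp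

universe u

/-- The cocycle of the two modular groups is uniformly close to `1`. -/
theorem wave_close : ∃ C δ₀ : ℝ, 0 ≤ C ∧ 0 < δ₀ ∧ ∀ (H : Type u) [NormedAddCommGroup H]
    [InnerProductSpace ℂ H] [CompleteSpace H] (M N : VN H) (ξ : H) (F : Frame H)
    (D D' : LineCalculus H) (J J' : H ≃ₗᵢ⋆[ℂ] H) (δ : ℝ), Sit M N ξ F → Mod M ξ D J →
    Mod N ξ D' J' → 0 ≤ δ → δ ≤ δ₀ → Cl M N δ → ∀ t, ‖D'.wave t * D.wave (-t) - 1‖ ≤ C * δ := by
  obtain ⟨C, c₁, hC, hc₁, h⟩ := dv_cocycle.{u}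
  refine ⟨(C + 2) * 2400, min (1 / 800) (c₁ / 2400), by positivity, by positivity,
    fun H _ _ _ M N ξ F D D' J J' δ hS hM hN hδ hδ₀ hcl t => ?_⟩
  have hδ1 : 800 * δ ≤ 1 := by linarith [hδ₀.trans (min_le_left _ _)]
  have hδ2 : 3 * (800 * δ) ≤ c₁ := by linarith [hδ₀.trans (min_le_right _ _)]
  obtain ⟨G, W, U, hG, bG, hW, hU, e0, e1⟩ := hS.exists_strAn hM hN hδ hcl.1
  obtain ⟨G', W', U', hG', bG', hW', hU', e0', e1'⟩ := hS.symm.exists_strAn hN hM hδ hcl.2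
  have h1 : ‖(1 : Op H)‖ ≤ 1 := ContinuousLinearMap.norm_id_le
  have an (t : ℝ) : AN N (3 * (800 * δ)) (D.wave t) :=
    have := hM.an_wave hδ (by linarith) hcl t
    ⟨this.uni, fun x hx y hy => (this.cm_le x hx y hy).trans (by gcongr ?_ * _ * _; linarith)⟩
  have b0 (s t : ℝ) : ‖G (I * s) * G' (I * t) - bv D D' 1 1 s t‖ ≤ 3 * (800 * δ) := by
    rw [e0, e0']; exact norm_sub_bv hW hW' h1 h1 hδ1 s t
  have := h H N ξ F G G' (bv D D' 1 1) (bv D D' (jj J' J) (jj J J')) _ _ hS.fN one_half_pos hδ2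
    hG hG' (fun z hz => hS.bim_iff.1 (bG z hz)) bG' b0
    (fun s t => by rw [e1, e1']; exact norm_sub_bv hU hU' (norm_jj_le _ _) (norm_jj_le _ _) hδ1 s t)
    (hN.an_bv (fun t => by simpa using an t) (star_one _) (one_mul _))
    (hN.an_bv (fun t => ?_) (star_jj hN.J_J hM.J_J) (by ext x; simp [hM.J_J, hN.J_J])) t
  · have b1 := b0 t 0
    rw [ofReal_zero, mul_zero, norm_sub_rev, bv, one_mul, mul_one, neg_zero, wave_zero, mul_one,
      zero_sub] at b1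
    refine ((this.of_near hS.fN ((hS.bim_iff.1 (bG _ (by simp))).mul (bG' _ (by simp)))
      ((hN.bim_app hS.fN _).mul (hS.bim_iff.1 (hM.bim_app hS.fM _))) b1).norm_le hS.fN.cs.2.1
      (by positivity) cen_one ?_).trans_eq (by ring)
    change ξ = D'.wave t (D.wave (-t) ξ)
    rw [hM.wave_vac, hN.wave_vac]
  · convert (an (-t)).star.jc hN.J_J hN.jc_mem hN.jc_mem' using 1
    ext x
    simp [star_wave, hM.J_wave, hM.J_J]

end Crest.Agent.R078
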