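import Crest.Agent.R078.MStage
import Crest.Agent.R078.BFrame

/-! Row 78, stage 5: randomisation data of a frame, central normalisation. -/

set_option autoImplicit false
set_option linter.deprecated false

open scoped InnerProductSpace
open Filter Topology

namespace Crest.Agent.R078

open Crest.Agent.R124 (ex)

variable {H : Type*} [NormedAddCommGroup H] [InnerProductSpace ℂ H] [CompleteSpace H]
variable {A M N : VN H} {ξ : H} {F : Frame H}

theorem av_w (F : Frame H) (m : ℕ) (x : Op H) :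
    gav (fun a : Gl m => F.w (emb a)) x = F.EF m x := (F.EF_eq m x).symm

/-- Reindex by `a ↦ Prod.swap ∘ a` (`gflip (emb a) = emb (Prod.swap ∘ a)`). -/
theorem av_w' (F : Frame H) (m : ℕ) (x : Op H) :
    gav (fun a : Gl m => star (F.w' (emb a))) x = F.swap.EF m x := by
  let e : Gl m ≃ Gl m := Equiv.piCongrRight fun _ => Equiv.prodComm _ _
  unfold gav Frame.EF
  rw [Crest.Agent.R124.ex_def, Crest.Agent.R124.ex_def, ← e.sum_comp]
  congr 1
  refine Finset.sum_congr rfl fun a _ => ?_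
  have : F.swap.w (emb a) = F.w' (emb (e a)) := by
    show F.w' (gflip _) = _
    rw [BFrame1_gflip_emb]
    rfl
  rw [this, star_star]

theorem MP0_ex_w' (F : Frame H) (m : ℕ) (x : Op H) :
    ex (fun a : Gl m => star (F.w' (emb a)) * x * F.w' (emb a)) = F.swap.EF m x := by
  rw [← av_w']
  refine Crest.Agent.R124.ex_congr fun a => ?_
  beta_reduce
  rw [star_star, F.star_w', mul_smul_comm, smul_mul_assoc, smul_mul_assoc]

theorem MP0_commute_swap (F : Frame H) (m : ℕ) (x : Op H) (b : Gl m) :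
    Commute (F.swap.EF m x) (F.w' (emb b)) := by
  have h := F.swap.commute_EF m x fun i => (b i).swap
  have e : F.swap.w (emb fun i => (b i).swap) = F.w' (emb b) := by
    show F.w' (gflip _) = _
    rw [← BFrame1_gflip_emb, gflip_gflip]
  rwa [e] at h

theorem MP0_half (l : ℕ) : ((((1 / 2 : ℝ)) ^ l : ℝ) : ℂ) = (1 / 2 : ℂ) ^ l := by
  push_cast
  rfl

theorem Framed.stg (h : Framed A ξ F) {l m : ℕ} (hl : l ≤ m) :
    Stg A ξ (fun a : Gl m => F.w (emb a)) (fun a => F.w' (emb a)) (F.q l) (F.q' l)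
      ((1 / 2) ^ l) := by
  refine ⟨fun _ => h.w_mem _, fun _ => h.w'_mem _, fun _ => F.w_mem _, fun _ => F.w'_mem _,
    fun _ => h.vac _, h.q_mem l, h.q'_mem l, F.q_proj l, F.q'_proj l, h.q_vac l, ?_, ?_,
    fun T g => ?_, fun T => ?_⟩
  · rw [MP0_half, ← F.EF_q hl]
    rfl
  · rw [MP0_half, MP0_ex_w', F.swap_EF_q' hl]
  · rw [av_w]
    exact F.commute_EF m T g
  · rw [av_w]
    refine BFrame1_commute_ex fun b => ?_
    obtain ⟨c, hc⟩ := exists_emb_of_le hl fun i => ((0 : ZMod 2), b i)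
    rw [← hc]
    exact F.commute_EF m T c

theorem Framed.stg' (h : Framed A ξ F) {l m : ℕ} (hl : l ≤ m) :
    Stg A.commutant ξ (fun a : Gl m => star (F.w' (emb a))) (fun a => star (F.w (emb a)))
      (F.q' l) (F.q l) ((1 / 2) ^ l) := by
  refine ⟨fun _ => StarMemClass.star_mem (h.w'_mem _), fun _ => ?_,
    fun _ => Unitary.star_mem (F.w'_mem _), fun _ => Unitary.star_mem (F.w_mem _),
    fun _ => (h.star_vac _).symm, h.q'_mem l, ?_, F.q'_proj l, F.q_proj l, (h.q_vac l).symm, ?_, ?_,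
    fun T g => ?_, fun T => ?_⟩
  · rw [VonNeumannAlgebra.commutant_commutant]
    exact StarMemClass.star_mem (h.w_mem _)
  · rw [VonNeumannAlgebra.commutant_commutant]
    exact h.q_mem l
  · simp only [star_star]
    rw [MP0_half, MP0_ex_w', F.swap_EF_q' hl]
  · simp only [star_star]
    rw [MP0_half, ← F.EF_q hl]
    rfl
  · rw [av_w']
    exact F.commute_star_w' (MP0_commute_swap F m T g)
  · rw [av_w']
    refine BFrame1_commute_ex fun b => ?_
    obtain ⟨c, hc⟩ := exists_emb_of_le hl fun i => ((0 : ZMod 2), b i)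
    rw [← hc]
    exact MP0_commute_swap F m T c

theorem MP0_inner_left {a : Op H} (ha : star a = a) (η ζ : H) : ⟪a η, ζ⟫_ℂ = ⟪η, a ζ⟫_ℂ := by
  conv_lhs => rw [← ha]
  rw [ContinuousLinearMap.star_eq_adjoint, ContinuousLinearMap.adjoint_inner_left]

omit [CompleteSpace H] in
theorem MP0_re_smul (t : ℝ) (a : Op H) (η : H) :
    (⟪η, ((t : ℂ) • a) η⟫_ℂ).re = t * (⟪η, a η⟫_ℂ).re := by
  rw [ContinuousLinearMap.smul_apply, inner_smul_right, Complex.re_ofReal_mul]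

/-- `0 ≤ τ a ≤ 1` implies `τ a² ≤ a`. -/
theorem MP0_sq_le {a : Op H} (ha : star a = a) {τ : ℝ} (hτ : 0 ≤ τ)
    (h0 : ∀ v, 0 ≤ (⟪v, a v⟫_ℂ).re) (h1 : ∀ v, τ * (⟪v, a v⟫_ℂ).re ≤ ‖v‖ ^ 2) (v : H) :
    τ * ‖a v‖ ^ 2 ≤ (⟪v, a v⟫_ℂ).re := by
  have h2 := h0 (v - (τ : ℂ) • a v)
  have h3 := h1 (a v)
  have e1 : (⟪v, a (a v)⟫_ℂ).re = ‖a v‖ ^ 2 := by rw [← MP0_inner_left ha, MSign_re]
  simp only [map_sub, map_smul, inner_sub_left, inner_sub_right, inner_smul_left,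
    inner_smul_right, Complex.conj_ofReal, Complex.sub_re, Complex.re_ofReal_mul, MSign_re,
    e1] at h2
  nlinarith [mul_le_mul_of_nonneg_left h3 hτ]

/-- Central square roots of strictly positive central elements. -/
theorem MP0_sqrt {g : Op H} (hg : Cen A g) (hs : star g = g) {ε : ℝ} (hε : 0 < ε)
    (h : ∀ η, ε * ‖η‖ ^ 2 ≤ (⟪η, g η⟫_ℂ).re) : ∃ c c' : Op H, Cen A c ∧ Cen A c' ∧ star c = c ∧
      star c' = c' ∧ c * c = g ∧ c * c' = 1 ∧ c' * c = 1 := by
  have hsa : IsSelfAdjoint g := hs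
  have h0 : 0 ≤ g := by
    rw [ContinuousLinearMap.nonneg_iff_isPositive, ContinuousLinearMap.isPositive_def']
    refine ⟨hsa, fun η => ?_⟩
    rw [ContinuousLinearMap.reApplyInnerSelf_apply, MP0_inner_left hs]
    exact le_trans (by positivity) (h η)
  have hu : IsUnit g := by
    refine ContinuousLinearMap.isUnit_of_forall_le_norm_inner_map g (c := ⟨ε, hε.le⟩) hε
      fun η => ?_
    rw [MP0_inner_left hs, mul_comm]
    exact (h η).trans ((le_abs_self _).trans (Complex.abs_re_le_norm _))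
  set c := cfc (fun s : ℝ => √s) g with hc
  have hcc : c * c = g := by
    rw [hc, ← cfc_mul _ _ g]
    conv_rhs => rw [← cfc_id' ℝ g]
    exact cfc_congr fun s hs => Real.mul_self_sqrt (spectrum_nonneg_of_nonneg h0 hs)
  have hcu : IsUnit c := isUnit_mul_self_iff.1 (hcc ▸ hu)
  have hcs : star c = c := (cfc_predicate (fun s : ℝ => √s) g : IsSelfAdjoint c)
  have h1 : c * Ring.inverse c = 1 := Ring.mul_inverse_cancel c hcu
  have h2 : Ring.inverse c * c = 1 := Ring.inverse_mul_cancel c hcu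
  refine ⟨c, Ring.inverse c, ⟨cfc_real_mem _ hg.1, cfc_real_mem _ hg.2⟩,
    ⟨inverse_mem (cfc_real_mem _ hg.1), inverse_mem (cfc_real_mem _ hg.2)⟩, hcs, ?_, hcc, h1, h2⟩
  have h3 : star (Ring.inverse c) * c = 1 := by
    conv_lhs => rw [← hcs]
    rw [hcs, ← congrArg (star (Ring.inverse c) * ·) hcs, ← star_mul, h1, star_one]
  calc star (Ring.inverse c) = star (Ring.inverse c) * (c * Ring.inverse c) := by rw [h1, mul_one]
    _ = Ring.inverse c := by rw [← mul_assoc, h3, one_mul]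

/-- Central normalisation: `c = (τ E (x⋆x) + σ E (x x⋆) + ε)^{1/2}`, `x₁ = x c⁻¹`. -/
theorem Framed.exists_normal (h : Framed A ξ F) {x : Op H} (hx : x ∈ A) {τ σ ε : ℝ} (hτ : 0 ≤ τ)
    (hσ : 0 ≤ σ) (hε : 0 < ε) : ∃ x₁ ∈ A, ∃ c, Cen A c ∧ star c = c ∧ x = x₁ * c ∧
      ‖c ξ‖ ^ 2 = τ * ‖x ξ‖ ^ 2 + σ * ‖star x ξ‖ ^ 2 + ε ∧
      τ * ‖F.E (star x₁ * x₁) (c ξ)‖ ^ 2 +
        2 * σ * (⟪x₁ (c ξ), F.E (x₁ * star x₁) (x₁ (c ξ))⟫_ℂ).re ≤ 3 * ‖x ξ‖ ^ 2 ∧
      σ * ‖F.E (x₁ * star x₁) (c ξ)‖ ^ 2 +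
        2 * τ * (⟪star x₁ (c ξ), F.E (star x₁ * x₁) (star x₁ (c ξ))⟫_ℂ).re ≤
          3 * ‖star x ξ‖ ^ 2 := by
  have hx' : star x ∈ A := StarMemClass.star_mem hx
  set α := F.E (star x * x) with hα
  set β := F.E (x * star x) with hβ
  have cα : Cen A α := h.E_cen (mul_mem hx' hx)
  have cβ : Cen A β := h.E_cen (mul_mem hx hx')
  have sα : star α = α := by rw [hα, F.E_eq, ← F.prep_w.avg_star, star_mul, star_star]
  have sβ : star β = β := by rw [hβ, F.E_eq, ← F.prep_w.avg_star, star_mul, star_star]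
  have pα : ∀ η, 0 ≤ (⟪η, α η⟫_ℂ).re := F.prep_w.avg_nonneg fun η => by
    rw [← Framed.BFrame_norm_sq]; positivity
  have pβ : ∀ η, 0 ≤ (⟪η, β η⟫_ℂ).re := F.prep_w.avg_nonneg fun η => by
    have := Framed.BFrame_norm_sq (star x) η
    rw [star_star] at this
    rw [← this]; positivity
  have vα : (⟪ξ, α ξ⟫_ℂ).re = ‖x ξ‖ ^ 2 := by
    have := h.inner_E (mul_mem hx' hx) cen_one cen_one
    rw [Framed.BFrame_norm_sq]
    exact congrArg Complex.re this
  have vβ : (⟪ξ, β ξ⟫_ℂ).re = ‖star x ξ‖ ^ 2 := by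
    have := h.inner_E (mul_mem hx hx') cen_one cen_one
    rw [Framed.BFrame_norm_sq, star_star]
    exact congrArg Complex.re this
  set g : Op H := (τ : ℂ) • α + (σ : ℂ) • β + (ε : ℂ) • 1 with hg
  have hgre : ∀ η, (⟪η, g η⟫_ℂ).re =
      τ * (⟪η, α η⟫_ℂ).re + σ * (⟪η, β η⟫_ℂ).re + ε * ‖η‖ ^ 2 := by
    intro η
    rw [hg, ContinuousLinearMap.add_apply, ContinuousLinearMap.add_apply, inner_add_right,
      inner_add_right, Complex.add_re, Complex.add_re, MP0_re_smul, MP0_re_smul, MP0_re_smul,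
      ContinuousLinearMap.one_apply, MSign_re]
  obtain ⟨c, c', hc, hc', sc, sc', hcc, h1, h2⟩ := MP0_sqrt (A := A) (g := g)
    (((cα.smul _).add (cβ.smul _)).add (cen_one.smul _)) (by simp [hg, sα, sβ]) hε fun η => by
      rw [hgre]
      nlinarith [mul_nonneg hτ (pα η), mul_nonneg hσ (pβ η)]
  have hcn : ∀ η, ‖c η‖ ^ 2 = (⟪η, g η⟫_ℂ).re := fun η => by
    rw [Framed.BFrame_norm_sq, sc, hcc]
  have hc'c : ∀ η, c' (c η) = η := fun η => by
    rw [← ContinuousLinearMap.mul_apply, h2, ContinuousLinearMap.one_apply]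
  have hcc' : ∀ η, c (c' η) = η := fun η => by
    rw [← ContinuousLinearMap.mul_apply, h1, ContinuousLinearMap.one_apply]
  have hw : ∀ a, Commute c' (F.w a) := fun a => (hc'.commute (h.w_mem a)).symm
  have e1 : F.E (star (x * c') * (x * c')) = c' * α * c' := by
    rw [star_mul, sc', hα, F.E_eq, F.E_eq, ← F.prep_w.avg_mul_left hw, ← F.prep_w.avg_mul_right hw]
    simp only [mul_assoc]
  have e2 : F.E (x * c' * star (x * c')) = c' * β * c' := by
    rw [star_mul, sc', hβ, F.E_eq, F.E_eq, ← F.prep_w.avg_mul_left hw, ← F.prep_w.avg_mul_right hw,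
      (hc'.commute hx).eq, ← (hc'.commute hx').eq]
    simp only [mul_assoc]
  have q : ∀ (a : Op H) (v : H), ⟪v, (c' * a * c') v⟫_ℂ = ⟪c' v, a (c' v)⟫_ℂ := fun a v => by
    rw [MP0_inner_left sc']
    rfl
  have key : ∀ v, τ * (⟪v, (c' * α * c') v⟫_ℂ).re + σ * (⟪v, (c' * β * c') v⟫_ℂ).re ≤ ‖v‖ ^ 2 := by
    intro v
    have := hcn (c' v)
    rw [hcc', hgre] at this
    rw [q, q, this]
    exact le_add_of_nonneg_right (by positivity)
  have pa : ∀ v, 0 ≤ (⟪v, (c' * α * c') v⟫_ℂ).re := fun v => by rw [q]; exact pα _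
  have pb : ∀ v, 0 ≤ (⟪v, (c' * β * c') v⟫_ℂ).re := fun v => by rw [q]; exact pβ _
  have ka : ∀ v, τ * (⟪v, (c' * α * c') v⟫_ℂ).re ≤ ‖v‖ ^ 2 := fun v =>
    (le_add_of_nonneg_right (mul_nonneg hσ (pb v))).trans (key v)
  have kb : ∀ v, σ * (⟪v, (c' * β * c') v⟫_ℂ).re ≤ ‖v‖ ^ 2 := fun v =>
    (le_add_of_nonneg_left (mul_nonneg hτ (pa v))).trans (key v)
  have sa : star (c' * α * c') = c' * α * c' := by simp [sc', sα, mul_assoc]
  have sb : star (c' * β * c') = c' * β * c' := by simp [sc', sβ, mul_assoc]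
  have v1 : (x * c') (c ξ) = x ξ := by rw [ContinuousLinearMap.mul_apply, hc'c]
  have v2 : star (x * c') (c ξ) = star x ξ := by
    rw [star_mul, sc', ← (hc'.commute hx').eq, ContinuousLinearMap.mul_apply, hc'c]
  refine ⟨x * c', mul_mem hx hc'.1, c, hc, sc, by rw [mul_assoc, h2, mul_one], ?_, ?_, ?_⟩
  · rw [hcn, hgre, vα, vβ, h.cs.1]
    ring
  · rw [e1, e2, v1]
    have a1 := MP0_sq_le sa hτ pa ka (c ξ)
    rw [q, hc'c, vα] at a1
    linarith [kb (x ξ)]
  · rw [e1, e2, v2]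
    have a1 := MP0_sq_le sb hσ pb kb (c ξ)
    rw [q, hc'c, vβ] at a1
    linarith [ka (star x ξ)]

end Crest.Agent.R078
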