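import Crest.Agent.R078.MSign

/-! Row 78, stage 5: moments of the randomised elements `n^{-1/2} ∑ ± p u_g⋆ x u_h q`. -/

set_option autoImplicit false

open scoped InnerProductSpace

namespace Crest.Agent.R078

open Crest.Agent.R124 (ex)

variable {H : Type*} [NormedAddCommGroup H] [InnerProductSpace ℂ H] [CompleteSpace H]
variable {I : Type*} [Fintype I] [DecidableEq I] [Nonempty I]

/-- The average of `u⋆ T u`. -/
noncomputable def gav (u : I → Op H) (T : Op H) : Op H := ex fun g => star (u g) * T * u g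

/-- Finite randomisation data: unitaries `u` and a projection `p` of trace `τ` in `A`, with their
right versions `u'`, `p'`. -/
structure Stg (A : VN H) (ξ : H) (u u' : I → Op H) (p p' : Op H) (τ : ℝ) : Prop where
  u_mem : ∀ g, u g ∈ A
  u'_mem : ∀ g, u' g ∈ A.commutant
  u_un : ∀ g, u g ∈ unitary (Op H)
  u'_un : ∀ g, u' g ∈ unitary (Op H)
  vac : ∀ g, u g ξ = u' g ξ
  p_mem : p ∈ A
  p'_mem : p' ∈ A.commutant
  proj : IsStarProjection p
  proj' : IsStarProjection p'
  pvac : p ξ = p' ξ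
  avg : ex (fun g => u g * p * star (u g)) = (τ : ℂ) • (1 : Op H)
  avg' : ex (fun g => star (u' g) * p' * u' g) = (τ : ℂ) • (1 : Op H)
  av_u : ∀ T g, Commute (gav u T) (u g)
  av_p : ∀ T, Commute (gav u T) p

/-- The building blocks. -/
noncomputable def el (u : I → Op H) (p q x : Op H) (j : I × I) : Op H :=
  p * star (u j.1) * x * u j.2 * q

variable {A : VN H} {ξ : H} {u u' : I → Op H} {p p' q q' x c : Op H} {τ σ : ℝ}

section aux

open Crest.Agent.R124

omit [DecidableEq I] [Nonempty I] in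
theorem MRand_prod {V : Type*} [AddCommGroup V] [Module ℝ V] (f : I × I → V) :
    ex f = ex fun h => ex fun g => f (g, h) := by
  simp only [ex_def, Fintype.card_prod, Nat.cast_mul, mul_inv, ← Finset.smul_sum, smul_smul]
  rw [Fintype.sum_prod_type_right]

omit [DecidableEq I] [Nonempty I] in
theorem MRand_swap {V : Type*} [AddCommGroup V] [Module ℝ V] (f : I × I → V) :
    ex (fun j : I × I => f j.swap) = ex f := by
  rw [ex_def, ex_def, ← (Equiv.prodComm I I).sum_comp f]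
  rfl

theorem MRand_cm {a b : Op H} (ha : a ∈ A) (hb : b ∈ A.commutant) (w : H) : a (b w) = b (a w) :=
  congrArg (fun T : Op H => T w) (VonNeumannAlgebra.mem_commutant_iff.1 hb a ha)

omit [CompleteSpace H] in
theorem MRand_cma {a b : Op H} (h : Commute a b) (w : H) : a (b w) = b (a w) :=
  congrArg (fun T : Op H => T w) h.eq

omit [DecidableEq I] [Nonempty I] [CompleteSpace H] in
theorem MRand_ex_apply (f : I → Op H) (w : H) : ex f w = ex fun g => f g w :=
  map_ex' (fun T : Op H => T w) (fun _ _ => rfl) (fun _ _ => rfl) f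

omit [DecidableEq I] [Nonempty I] [CompleteSpace H] in
theorem MRand_map_ex (a : Op H) (f : I → H) : a (ex f) = ex fun g => a (f g) :=
  map_ex' (fun w => a w) (map_add a) (fun r w => a.map_smul_of_tower r w) f

theorem MRand_sl (a : Op H) (y z : H) : ⟪star a y, z⟫_ℂ = ⟪y, a z⟫_ℂ :=
  ContinuousLinearMap.adjoint_inner_left a z y

theorem MRand_sr (a : Op H) (y z : H) : ⟪y, star a z⟫_ℂ = ⟪a y, z⟫_ℂ :=
  ContinuousLinearMap.adjoint_inner_right a y z

theorem MRand_pp (hp : IsStarProjection p) (w : H) : p (p w) = p w :=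
  congrArg (fun T : Op H => T w) hp.isIdempotentElem.eq

theorem MRand_ps (hp : IsStarProjection p) (y z : H) : ⟪p y, z⟫_ℂ = ⟪y, p z⟫_ℂ := by
  rw [← MRand_sl p, hp.isSelfAdjoint.star_eq]

theorem MRand_nu {a : Op H} (ha : a ∈ unitary (Op H)) (w : H) : ‖a w‖ = ‖w‖ :=
  ContinuousLinearMap.norm_map_of_mem_unitary ha w

theorem MRand_vec {a a' : Op H} (ha : a ∈ A) (ha' : a' ∈ A.commutant) (h : a ξ = a' ξ)
    (hc : Cen A c) : a (c ξ) = a' (c ξ) := by
  rw [MRand_cm ha hc.2, h, MRand_cm hc.1 ha']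

omit [DecidableEq I] [Nonempty I] in
theorem MRand_pol {w : I → Op H} (hp : IsStarProjection p)
    (h : ex (fun g => star (w g) * p * w g) = (τ : ℂ) • (1 : Op H)) (y z : H) :
    ex (fun g => ⟪p (w g y), p (w g z)⟫_ℂ) = τ * ⟪y, z⟫_ℂ := by
  have h1 := congrArg (fun T : Op H => ⟪y, T z⟫_ℂ) h
  simp only [MRand_ex_apply, inner_ex, smul_apply, one_apply_eq_self, inner_smul_right,
    mul_apply_eq_comp, MRand_sr] at h1
  rw [← h1]
  exact ex_congr fun g => by rw [MRand_ps hp, MRand_pp hp]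

omit [DecidableEq I] [Nonempty I] in
theorem MRand_pol_re {w : I → Op H} (hp : IsStarProjection p)
    (h : ex (fun g => star (w g) * p * w g) = (τ : ℂ) • (1 : Op H)) (y z : H) :
    ex (fun g => (⟪p (w g y), p (w g z)⟫_ℂ).re) = τ * (⟪y, z⟫_ℂ).re := by
  rw [← re_ex, MRand_pol hp h, Complex.re_ofReal_mul]

omit [DecidableEq I] [Nonempty I] in
theorem MRand_pol_sq {w : I → Op H} (hp : IsStarProjection p)
    (h : ex (fun g => star (w g) * p * w g) = (τ : ℂ) • (1 : Op H)) (y : H) :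
    ex (fun g => ‖p (w g y)‖ ^ 2) = τ * ‖y‖ ^ 2 := by
  simpa only [MSign_re] using MRand_pol_re hp h y y

omit [DecidableEq I] [Nonempty I] in
theorem Stg.MRand_avg (S : Stg A ξ u u' p p' τ) :
    ex (fun g => star (star (u g)) * p * star (u g)) = (τ : ℂ) • (1 : Op H) := by
  simpa only [star_star] using S.avg

omit [DecidableEq I] [Nonempty I] in
theorem MRand_av_mem (hu : ∀ g, u g ∈ A) (hx : x ∈ A) : gav u x ∈ A :=
  A.toStarSubalgebra.smul_mem (sum_mem fun g _ => mul_mem (mul_mem (star_mem (hu g)) hx) (hu g))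
    (((Fintype.card I : ℝ)⁻¹ : ℝ) : ℂ)

omit [DecidableEq I] in
theorem Stg.MRand_norm (S : Stg A ξ u u' p p' τ) {w : H} (hw : ∀ g, u' g w = u g w) :
    ‖p' w‖ ^ 2 = τ * ‖w‖ ^ 2 := by
  rw [← MRand_pol_sq S.proj' S.avg' w]
  simp only [hw, ← MRand_cm (S.u_mem _) S.p'_mem, MRand_nu (S.u_un _), ex_const]

omit [DecidableEq I] [Nonempty I] in
theorem Stg.MRand_el (T : Stg A ξ u u' q q' σ) (hx : x ∈ A) (hc : Cen A c) (g h : I) :
    el u p q x (g, h) (c ξ) = p (star (u g) (q' (u' h (x (c ξ))))) := by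
  simp only [el, mul_apply_eq_comp]
  rw [MRand_vec T.p_mem T.p'_mem T.pvac hc, MRand_cm (T.u_mem h) T.p'_mem, MRand_cm hx T.p'_mem,
    MRand_vec (T.u_mem h) (T.u'_mem h) (T.vac h) hc, MRand_cm hx (T.u'_mem h)]

omit [DecidableEq I] [Nonempty I] in
theorem Stg.MRand_av_su (S : Stg A ξ u u' p p' τ) (a : Op H) (g : I) (w : H) :
    gav u a (star (u g) w) = star (u g) (gav u a w) := by
  have h1 : ∀ w, star (u g) (u g w) = w := fun w =>
    congrArg (fun T : Op H => T w) (Unitary.star_mul_self_of_mem (S.u_un g))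
  have h2 : ∀ w, u g (star (u g) w) = w := fun w =>
    congrArg (fun T : Op H => T w) (Unitary.mul_star_self_of_mem (S.u_un g))
  rw [← h1 (gav u a (star (u g) w)), ← MRand_cma (S.av_u a g), h2]

end aux

omit [Fintype I] [DecidableEq I] [Nonempty I] in
theorem star_el (hp : IsStarProjection p) (hq : IsStarProjection q) (j : I × I) :
    star (el u p q x j) = el u q p (star x) j.swap := by
  simp only [el, star_mul, star_star, hp.isSelfAdjoint.star_eq, hq.isSelfAdjoint.star_eq,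
    Prod.fst_swap, Prod.snd_swap, mul_assoc]

theorem Stg.star_vac (S : Stg A ξ u u' p p' τ) (g : I) : star (u g) ξ = star (u' g) ξ := by
  have h1 : ∀ w, star (u g) (u g w) = w := fun w =>
    congrArg (fun T : Op H => T w) (Unitary.star_mul_self_of_mem (S.u_un g))
  have h2 : ∀ w, star (u' g) (u' g w) = w := fun w =>
    congrArg (fun T : Op H => T w) (Unitary.star_mul_self_of_mem (S.u'_un g))
  rw [← h2 (star (u g) ξ), ← MRand_cm (star_mem (S.u_mem g)) (S.u'_mem g), ← S.vac, h1]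

/-- `‖p' (u' g w)‖ = ‖p' w‖` if `u' g w = u g w`; average over `g`. -/
theorem Stg.norm_p (S : Stg A ξ u u' p p' τ) (hc : Cen A c) :
    ‖p (c ξ)‖ ^ 2 = τ * ‖c ξ‖ ^ 2 := by
  rw [MRand_vec S.p_mem S.p'_mem S.pvac hc]
  exact S.MRand_norm fun g => (MRand_vec (S.u_mem g) (S.u'_mem g) (S.vac g) hc).symm

theorem Stg.el_l2 (S : Stg A ξ u u' p p' τ) (T : Stg A ξ u u' q q' σ) (hx : x ∈ A)
    (hc : Cen A c) : ex (fun j => ‖el u p q x j (c ξ)‖ ^ 2) = τ * σ * ‖x (c ξ)‖ ^ 2 := by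
  rw [MRand_prod]
  simp only [T.MRand_el hx hc, MRand_pol_sq S.proj S.MRand_avg, R124.ex_mul_left,
    MRand_pol_sq T.proj' T.avg', mul_assoc]

theorem Stg.rsum_l2 (S : Stg A ξ u u' p p' τ) (T : Stg A ξ u u' q q' σ) (hx : x ∈ A)
    (hc : Cen A c) :
    ex (fun θ => ‖rsum (el u p q x) θ (c ξ)‖ ^ 2) = τ * σ * ‖x (c ξ)‖ ^ 2 := by
  simp only [rsum_apply, ex_norm_sq_rsum]
  exact S.el_l2 T hx hc

theorem Stg.rsum_l2' (S : Stg A ξ u u' p p' τ) (T : Stg A ξ u u' q q' σ) (hx : x ∈ A)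
    (hc : Cen A c) :
    ex (fun θ => ‖star (rsum (el u p q x) θ) (c ξ)‖ ^ 2) = τ * σ * ‖star x (c ξ)‖ ^ 2 := by
  simp only [star_rsum, rsum_apply, ex_norm_sq_rsum, star_el S.proj T.proj]
  rw [MRand_swap fun j => ‖el u q p (star x) j (c ξ)‖ ^ 2, T.el_l2 S (star_mem hx) hc,
    mul_comm σ]

open Crest.Agent.R124 in
theorem Stg.MRand_l4 (S : Stg A ξ u u' p p' τ) (T : Stg A ξ u u' q q' σ) (hx : x ∈ A)
    (hc : Cen A c) :
    ‖ex fun j => star (el u p q x j) (el u p q x j (c ξ))‖ ^ 2 +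
      2 * ex (fun i => ex fun j => ‖star (el u p q x i) (el u p q x j (c ξ))‖ ^ 2) =
      τ * σ * (τ * ‖gav u (star x * x) (c ξ)‖ ^ 2 +
        2 * σ * (⟪x (c ξ), gav u (x * star x) (x (c ξ))⟫_ℂ).re) := by
  have hα := MRand_av_mem S.u_mem (mul_mem (star_mem hx) hx)
  have hβ := MRand_av_mem S.u_mem (mul_mem hx (star_mem hx))
  have hav : ∀ w, ex (fun g => u g (p (star (u g) w))) = (τ : ℂ) • w := fun w => by
    simpa only [MRand_ex_apply, mul_apply_eq_comp, smul_apply, one_apply_eq_self] using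
      congrArg (fun T : Op H => T w) S.avg
  have e1 : (ex fun j => star (el u p q x j) (el u p q x j (c ξ))) =
      (τ : ℂ) • q' (gav u (star x * x) (c ξ)) := by
    rw [MRand_prod]
    simp only [star_el S.proj T.proj]
    simp only [el, Prod.swap_prod_mk, mul_apply_eq_comp, MRand_pp S.proj,
      ← MRand_map_ex, hav, map_smul, ex_complex_smul]
    congr 1
    rw [← MRand_cm hα T.p'_mem, ← MRand_vec T.p_mem T.p'_mem T.pvac hc, ← MRand_pp T.proj (c ξ),
      MRand_cma (T.av_p _), MRand_pp T.proj, gav, MRand_ex_apply]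
    rfl
  have e2 : ‖q' (gav u (star x * x) (c ξ))‖ ^ 2 = σ * ‖gav u (star x * x) (c ξ)‖ ^ 2 :=
    T.MRand_norm fun g => by
      rw [← MRand_cm hα (T.u'_mem g), ← MRand_vec (T.u_mem g) (T.u'_mem g) (T.vac g) hc,
        MRand_cma (T.av_u _ g)]
  have e3 : ∀ w, ex (fun i => ‖star (el u p q x i) w‖ ^ 2) =
      σ * (⟪p w, gav u (x * star x) (p w)⟫_ℂ).re := fun w => by
    rw [MRand_prod, ex_comm]
    simp only [star_el S.proj T.proj]
    simp only [el, Prod.swap_prod_mk, mul_apply_eq_comp, MRand_pol_sq T.proj T.MRand_avg,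
      ex_mul_left]
    congr 1
    rw [gav, MRand_ex_apply, inner_ex, re_ex]
    refine ex_congr fun g => ?_
    simp only [mul_apply_eq_comp]
    rw [MRand_sr, ← MRand_sl x, MSign_re]
  have e4 : ex (fun i => ex fun j => ‖star (el u p q x i) (el u p q x j (c ξ))‖ ^ 2) =
      σ * (τ * (σ * (⟪x (c ξ), gav u (x * star x) (x (c ξ))⟫_ℂ).re)) := by
    rw [ex_comm]
    simp only [e3]
    rw [ex_mul_left, MRand_prod]
    simp only [T.MRand_el hx hc, MRand_pp S.proj, MRand_cma (S.av_p _), S.MRand_av_su,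
      MRand_pol_re S.proj S.MRand_avg, MRand_cm hβ T.p'_mem, MRand_cm hβ (T.u'_mem _),
      ex_mul_left, MRand_pol_re T.proj' T.avg']
  rw [e1, e4, norm_smul, mul_pow, e2, Complex.norm_real, Real.norm_eq_abs, sq_abs]
  ring

theorem Stg.rsum_l4 (S : Stg A ξ u u' p p' τ) (T : Stg A ξ u u' q q' σ) (hx : x ∈ A)
    (hc : Cen A c) :
    ex (fun θ => ‖star (rsum (el u p q x) θ) (rsum (el u p q x) θ (c ξ))‖ ^ 2) ≤
      τ * σ * (τ * ‖gav u (star x * x) (c ξ)‖ ^ 2 +
        2 * σ * (⟪x (c ξ), gav u (x * star x) (x (c ξ))⟫_ℂ).re) := by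
  simp only [star_rsum]
  exact (ex_norm_sq_rsum_rsum _ _ _).trans_eq (S.MRand_l4 T hx hc)

theorem Stg.rsum_l4' (S : Stg A ξ u u' p p' τ) (T : Stg A ξ u u' q q' σ) (hx : x ∈ A)
    (hc : Cen A c) :
    ex (fun θ => ‖rsum (el u p q x) θ (star (rsum (el u p q x) θ) (c ξ))‖ ^ 2) ≤
      τ * σ * (σ * ‖gav u (x * star x) (c ξ)‖ ^ 2 +
        2 * τ * (⟪star x (c ξ), gav u (star x * x) (star x (c ξ))⟫_ℂ).re) := by
  simp only [star_rsum]
  refine (ex_norm_sq_rsum_rsum _ _ _).trans_eq ?_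
  have h := T.MRand_l4 S (star_mem hx) hc
  rw [star_star, mul_comm σ τ] at h
  have e : ∀ j : I × I, el u p q x j = star (el u q p (star x) j.swap) := fun j => by
    rw [star_el T.proj S.proj, star_star, Prod.swap_swap]
  rw [← h, ← MRand_swap fun j => star (el u q p (star x) j) (el u q p (star x) j (c ξ)),
    ← MRand_swap fun i => ex fun j => ‖star (el u q p (star x) i) (el u q p (star x) j (c ξ))‖ ^ 2]
  simp only [← e, star_el S.proj T.proj]
  congr 2
  exact R124.ex_congr fun i =>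
    MRand_swap fun j => ‖el u p q x i (el u q p (star x) j (c ξ))‖ ^ 2

/-- The pairing of a randomised element with a randomised element of the other side. -/
theorem Stg.rsum_pair (S : Stg A ξ u u' p p' τ) (T : Stg A ξ u u' q q' σ) (hx : x ∈ A)
    {c' y : Op H} (hc : Cen A c) (hc' : Cen A c') (hyu : ∀ g, Commute y (u g))
    (hyu' : ∀ g, Commute y (star (u g))) (hyq : Commute y q) :
    ex (fun θ => ⟪c ξ, rsum (el u p q x) θ
      (rsum (el (fun g => star (u' g)) p' q' y) θ (c' ξ))⟫_ℂ) =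
      (τ * σ : ℝ) * ⟪c ξ, x (y (c' ξ))⟫_ℂ := by
  have hav : ∀ w, ex (fun g => u g (q (star (u g) w))) = (σ : ℂ) • w := fun w => by
    simpa only [MRand_ex_apply, mul_apply_eq_comp, smul_apply, one_apply_eq_self] using
      congrArg (fun T : Op H => T w) T.avg
  have e1 : ∀ g h, el (fun g => star (u' g)) p' q' y (g, h) (c' ξ) =
      q (star (u h) (p' (u' g (y (c' ξ))))) := fun g h => by
    simp only [el, mul_apply_eq_comp, star_star]
    rw [← MRand_vec T.p_mem T.p'_mem T.pvac hc', ← MRand_cm T.p_mem (star_mem (T.u'_mem h)),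
      ← MRand_vec (star_mem (T.u_mem h)) (star_mem (T.u'_mem h)) (T.star_vac h) hc',
      MRand_cma hyq, MRand_cma (hyu' h), MRand_cm (star_mem (T.u_mem h)) S.p'_mem,
      MRand_cm T.p_mem S.p'_mem, MRand_cm (star_mem (T.u_mem h)) (S.u'_mem g),
      MRand_cm T.p_mem (S.u'_mem g)]
  have e2 : ∀ g w, ⟪c ξ, p (star (u g) (x (p' (u' g w))))⟫_ℂ =
      ⟪p (star (u g) (c ξ)), p (star (u g) (x w))⟫_ℂ := fun g w => by
    rw [MRand_cm hx S.p'_mem, MRand_cm (star_mem (S.u_mem g)) S.p'_mem, MRand_cm S.p_mem S.p'_mem,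
      MRand_cm hx (S.u'_mem g), MRand_cm (star_mem (S.u_mem g)) (S.u'_mem g),
      MRand_cm S.p_mem (S.u'_mem g), ← MRand_ps S.proj', ← MRand_sl (u' g),
      ← MRand_vec S.p_mem S.p'_mem S.pvac hc, ← MRand_cm S.p_mem (star_mem (S.u'_mem g)),
      ← MRand_vec (star_mem (S.u_mem g)) (star_mem (S.u'_mem g)) (S.star_vac g) hc]
  rw [R124.ex_congr fun θ => (MRand_sl (rsum (el u p q x) θ) (c ξ) _).symm]
  simp only [star_rsum, rsum_apply, ex_inner_rsum]
  simp only [MRand_sl]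
  rw [MRand_prod, R124.ex_comm]
  simp only [e1]
  simp only [el, mul_apply_eq_comp, MRand_pp T.proj, ← R124.inner_ex, ← MRand_map_ex, hav,
    map_smul, inner_smul_right, e2]
  refine (R124.ex_complex_smul (σ : ℂ) _).trans ?_
  rw [MRand_pol S.proj S.MRand_avg, smul_eq_mul, Complex.ofReal_mul]
  ring

end Crest.Agent.R078
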