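import Crest.Agent.R078.MRand

/-! Row 78, stage 5: the self-improving inequality at a finite stage. -/

set_option autoImplicit false

open scoped InnerProductSpace

namespace Crest.Agent.R078

open Crest.Agent.R124 (ex)

variable {H : Type*} [NormedAddCommGroup H] [InnerProductSpace ℂ H] [CompleteSpace H]
variable {I : Type*} [Fintype I] [DecidableEq I] [Nonempty I]

theorem MStage_comm {A : VN H} {x t : Op H} (hx : x ∈ A) (ht : t ∈ A.commutant) : Commute x t :=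
  VonNeumannAlgebra.mem_commutant_iff.1 ht x hx

theorem MStage_cs {Ω : Type*} [Fintype Ω] {f g : Ω → ℝ} {t a b : ℝ} (ht : 0 ≤ t) (ha : 0 ≤ a)
    (hb : 0 ≤ b) (hf : ex (fun ω => f ω ^ 2) ≤ t * a ^ 2) (hg : ex (fun ω => g ω ^ 2) ≤ t * b ^ 2) :
    ex (fun ω => f ω * g ω) ≤ t * (a * b) := by
  refine (R124.ex_mul_le f g).trans ?_
  have h1 := Real.sqrt_le_sqrt hf
  have h2 := Real.sqrt_le_sqrt hg
  rw [Real.sqrt_mul ht, Real.sqrt_sq ha] at h1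
  rw [Real.sqrt_mul ht, Real.sqrt_sq hb] at h2
  refine (mul_le_mul h1 h2 (Real.sqrt_nonneg _) (by positivity)).trans_eq ?_
  rw [mul_mul_mul_comm, Real.mul_self_sqrt ht]

theorem MStage_trunc {A : VN H} {X p q : Op H} (hX : X ∈ A) (hq : IsStarProjection q)
    (hpX : p * X = X) (hXq : X * q = X) {L : ℝ} (hL : 0 < L) :
    ∃ Z ∈ A, p * Z = Z ∧ Z * q = Z ∧ ‖Z‖ ≤ L ∧ (∀ v, ‖Z v‖ ≤ ‖X v‖) ∧
      (∀ v, ‖star Z v‖ ≤ ‖star X v‖) ∧ (∀ v, ‖(X - Z) v‖ ≤ L⁻¹ * ‖star X (X v)‖) ∧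
      (∀ v, ‖star (X - Z) v‖ ≤ L⁻¹ * ‖X (star X v)‖) := by
  obtain ⟨f, h1, h2, h3, h4, h5, h6, h7⟩ := exists_trunc X hL
  have e1 : q * star X = star X := by
    have := congrArg star hXq
    rwa [star_mul, hq.isSelfAdjoint.star_eq] at this
  have e2 : f * q = q * f := h2 q (by
    change star X * X * q = q * (star X * X)
    rw [mul_assoc, hXq, ← mul_assoc, e1])
  exact ⟨X * f, mul_mem hX (h1 A hX), by rw [← mul_assoc, hpX],
    by rw [mul_assoc, e2, ← mul_assoc, hXq], h3, h4, h5, h6, h7⟩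

theorem MStage_pt {A B : VN H} {v v' : H} {p p' q q' : Op H} (hp : IsStarProjection p)
    (hp' : IsStarProjection p') (hq : IsStarProjection q) (hq' : IsStarProjection q')
    (hpv : p v = p' v) (hqv : q v' = q' v') {d K L : ℝ} (hd0 : 0 ≤ d) (hK0 : 0 ≤ K) (hL : 0 < L)
    (hd : ∀ x ∈ A, ∀ y ∈ B, ‖cm x y‖ ≤ d * ‖x‖ * ‖y‖)
    (hK : ∀ x ∈ A, ∀ y ∈ B, ‖⟪v, cm x y v'⟫_ℂ‖ ≤
      K * (‖star x v‖ * ‖y v'‖ + ‖x v‖ * ‖star y v'‖))
    {X Y : Op H} (hX : X ∈ A) (hY : Y ∈ B) (hpX : p * X = X) (hXq : X * q = X)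
    (hpY : p' * Y = Y) (hYq : Y * q' = Y) :
    ‖⟪v, cm X Y v'⟫_ℂ‖ ≤ d * L ^ 2 * (‖p v‖ * ‖q v'‖) +
      K * L⁻¹ * (‖X (star X v)‖ * ‖Y v'‖ + ‖star X (X v)‖ * ‖star Y v'‖ +
        ‖star X v‖ * ‖star Y (Y v')‖ + ‖X v‖ * ‖Y (star Y v')‖) := by
  obtain ⟨Z, hZ, a1, a2, a3, a4, a5, a6, a7⟩ := MStage_trunc hX hq hpX hXq hL
  obtain ⟨W, hW, b1, b2, b3, -, -, b6, b7⟩ := MStage_trunc hY hq' hpY hYq hL
  have e0 : cm X Y = cm (X - Z) Y + cm Z (Y - W) + cm Z W := by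
    simp only [cm, sub_mul, mul_sub]
    abel
  have key : ∀ {r s S T : Op H}, IsStarProjection r → r * S = S → T * s = T →
      ⟪v, (S * T) v'⟫_ℂ = ⟪r v, (S * T) (s v')⟫_ℂ := by
    intro r s S T hr h1 h2
    have e : S * T = star r * (S * T) * s := by
      rw [hr.isSelfAdjoint.star_eq, ← mul_assoc, h1, mul_assoc, h2]
    conv_lhs => rw [e]
    exact ContinuousLinearMap.adjoint_inner_right r v _
  have e1 : ⟪v, cm Z W v'⟫_ℂ = ⟪p v, cm Z W (q v')⟫_ℂ := by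
    have f1 := key hp a1 b2
    have f2 := key hp' b1 a2
    rw [← hqv] at f1
    rw [← hpv] at f2
    simp only [cm, ContinuousLinearMap.sub_apply, inner_sub_right, f1, f2]
  have t3 : ‖⟪v, cm Z W v'⟫_ℂ‖ ≤ d * L ^ 2 * (‖p v‖ * ‖q v'‖) := by
    have f1 : ‖cm Z W‖ ≤ d * L ^ 2 := (hd Z hZ W hW).trans (by
      rw [mul_assoc, sq]
      exact mul_le_mul_of_nonneg_left (mul_le_mul a3 b3 (norm_nonneg _) hL.le) hd0)
    have f2 : ‖cm Z W (q v')‖ ≤ d * L ^ 2 * ‖q v'‖ :=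
      (ContinuousLinearMap.le_opNorm _ _).trans (mul_le_mul_of_nonneg_right f1 (norm_nonneg _))
    rw [e1]
    refine (norm_inner_le_norm _ _).trans
      ((mul_le_mul_of_nonneg_left f2 (norm_nonneg _)).trans_eq (by ring))
  have t1 : ‖⟪v, cm (X - Z) Y v'⟫_ℂ‖ ≤
      K * (L⁻¹ * ‖X (star X v)‖ * ‖Y v'‖ + L⁻¹ * ‖star X (X v)‖ * ‖star Y v'‖) :=
    (hK _ (sub_mem hX hZ) _ hY).trans (mul_le_mul_of_nonneg_left (add_le_add
      (mul_le_mul_of_nonneg_right (a7 v) (norm_nonneg _))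
      (mul_le_mul_of_nonneg_right (a6 v) (norm_nonneg _))) hK0)
  have t2 : ‖⟪v, cm Z (Y - W) v'⟫_ℂ‖ ≤
      K * (‖star X v‖ * (L⁻¹ * ‖star Y (Y v')‖) + ‖X v‖ * (L⁻¹ * ‖Y (star Y v')‖)) :=
    (hK _ hZ _ (sub_mem hY hW)).trans (mul_le_mul_of_nonneg_left (add_le_add
      (mul_le_mul (a5 v) (b6 v') (norm_nonneg _) (norm_nonneg _))
      (mul_le_mul (a4 v) (b7 v') (norm_nonneg _) (norm_nonneg _))) hK0)
  rw [e0, ContinuousLinearMap.add_apply, ContinuousLinearMap.add_apply, inner_add_right,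
    inner_add_right]
  refine norm_add₃_le.trans ?_
  linarith

theorem MStage_el {A : VN H} {ξ : H} {u u' : I → Op H} {p p' q q' x : Op H} {τ σ : ℝ}
    (S : Stg A ξ u u' p p' τ) (T : Stg A ξ u u' q q' σ) (hx : x ∈ A) (θ : I × I → Bool) :
    rsum (el u p q x) θ ∈ A ∧ p * rsum (el u p q x) θ = rsum (el u p q x) θ ∧
      rsum (el u p q x) θ * q = rsum (el u p q x) θ := by
  have hp : p * p = p := S.proj.isIdempotentElem
  have hq : q * q = q := T.proj.isIdempotentElem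
  refine ⟨rsum_mem (fun j => mul_mem (mul_mem (mul_mem (mul_mem S.p_mem (star_mem (S.u_mem _))) hx)
    (S.u_mem _)) T.p_mem) θ, ?_, ?_⟩
  · rw [mul_rsum]
    congr 1
    funext j
    simp only [el, ← mul_assoc, hp]
  · rw [rsum_mul]
    congr 1
    funext j
    simp only [el, mul_assoc, hq]

theorem MStage_vac {A : VN H} {ξ : H} {u u' : I → Op H} {p p' c : Op H} {τ : ℝ}
    (S : Stg A ξ u u' p p' τ) (hc : Cen A c) : p (c ξ) = p' (c ξ) := by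
  have h1 : p * c = c * p := MStage_comm S.p_mem hc.2
  have h2 : c * p' = p' * c := MStage_comm hc.1 S.p'_mem
  rw [← mul_apply_eq_comp, h1, mul_apply_eq_comp, S.pvac, ← mul_apply_eq_comp, h2,
    mul_apply_eq_comp]

theorem stage_bound {A B : VN H} {ξ : H} {u u' : I → Op H} {p p' q q' : Op H} {τ σ : ℝ}
    (hτ : 0 ≤ τ) (hσ : 0 ≤ σ) (S : Stg A ξ u u' p p' τ) (T : Stg A ξ u u' q q' σ)
    (S' : Stg B ξ (fun g => star (u' g)) (fun g => star (u g)) p' p τ)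
    (T' : Stg B ξ (fun g => star (u' g)) (fun g => star (u g)) q' q σ)
    {c c' : Op H} (hcA : Cen A c) (hcB : Cen B c) (hcA' : Cen A c') (hcB' : Cen B c')
    {d K L : ℝ} (hd0 : 0 ≤ d) (hK0 : 0 ≤ K) (hL : 0 < L)
    (hd : ∀ x ∈ A, ∀ y ∈ B, ‖cm x y‖ ≤ d * ‖x‖ * ‖y‖)
    (hK : ∀ x ∈ A, ∀ y ∈ B, ‖⟪c ξ, cm x y (c' ξ)⟫_ℂ‖ ≤
      K * (‖star x (c ξ)‖ * ‖y (c' ξ)‖ + ‖x (c ξ)‖ * ‖star y (c' ξ)‖))
    {x y : Op H} (hx : x ∈ A) (hy : y ∈ B) {a a' b b' : ℝ} (ha : 0 ≤ a) (ha' : 0 ≤ a')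
    (hb : 0 ≤ b) (hb' : 0 ≤ b')
    (h1 : τ * ‖gav u (star x * x) (c ξ)‖ ^ 2 +
      2 * σ * (⟪x (c ξ), gav u (x * star x) (x (c ξ))⟫_ℂ).re ≤ a ^ 2)
    (h2 : σ * ‖gav u (x * star x) (c ξ)‖ ^ 2 +
      2 * τ * (⟪star x (c ξ), gav u (star x * x) (star x (c ξ))⟫_ℂ).re ≤ a' ^ 2)
    (h3 : τ * ‖gav (fun g => star (u' g)) (star y * y) (c' ξ)‖ ^ 2 +
      2 * σ * (⟪y (c' ξ), gav (fun g => star (u' g)) (y * star y) (y (c' ξ))⟫_ℂ).re ≤ b ^ 2)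
    (h4 : σ * ‖gav (fun g => star (u' g)) (y * star y) (c' ξ)‖ ^ 2 +
      2 * τ * (⟪star y (c' ξ), gav (fun g => star (u' g)) (star y * y) (star y (c' ξ))⟫_ℂ).re ≤
        b' ^ 2) :
    τ * σ * ‖⟪c ξ, cm x y (c' ξ)⟫_ℂ‖ ≤ d * L ^ 2 * √(τ * σ) * ‖c ξ‖ * ‖c' ξ‖ +
      K * (τ * σ) * L⁻¹ * (a' * ‖y (c' ξ)‖ + a * ‖star y (c' ξ)‖ + ‖star x (c ξ)‖ * b +
        ‖x (c ξ)‖ * b') := by
  have hτσ : 0 ≤ τ * σ := mul_nonneg hτ hσ
  have p1 := S.rsum_pair T hx (y := y) hcA hcA'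
    (fun g => by simpa using MStage_comm hy (star_mem (S'.u'_mem g)))
    (fun g => MStage_comm hy (S'.u'_mem g)) (MStage_comm hy T'.p'_mem)
  have p2 := S'.rsum_pair T' hy (y := x) hcB hcB'
    (fun g => MStage_comm hx (star_mem (S.u'_mem g)))
    (fun g => by simpa using MStage_comm hx (S.u'_mem g)) (MStage_comm hx T.p'_mem)
  simp only [star_star] at p2
  have e1 : ((τ * σ : ℝ) : ℂ) * ⟪c ξ, cm x y (c' ξ)⟫_ℂ =
      ex fun θ => ⟪c ξ, cm (rsum (el u p q x) θ)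
        (rsum (el (fun g => star (u' g)) p' q' y) θ) (c' ξ)⟫_ℂ := by
    simp only [cm, ContinuousLinearMap.sub_apply, inner_sub_right, mul_apply_eq_comp]
    rw [R124.ex_sub, p1, mul_sub]
    congr 1
    exact p2.symm
  have e2 : ‖p (c ξ)‖ * ‖q (c' ξ)‖ = √(τ * σ) * ‖c ξ‖ * ‖c' ξ‖ := by
    have f1 := congrArg Real.sqrt (S.norm_p hcA)
    have f2 := congrArg Real.sqrt (T.norm_p hcA')
    rw [Real.sqrt_sq (norm_nonneg _), Real.sqrt_mul hτ, Real.sqrt_sq (norm_nonneg _)] at f1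
    rw [Real.sqrt_sq (norm_nonneg _), Real.sqrt_mul hσ, Real.sqrt_sq (norm_nonneg _)] at f2
    rw [f1, f2, Real.sqrt_mul hτ]
    ring
  have e3 : τ * σ * ‖⟪c ξ, cm x y (c' ξ)⟫_ℂ‖ = ‖((τ * σ : ℝ) : ℂ) * ⟪c ξ, cm x y (c' ξ)⟫_ℂ‖ := by
    rw [norm_mul, Complex.norm_real, Real.norm_of_nonneg hτσ]
  have c1 := MStage_cs hτσ ha' (norm_nonneg (y (c' ξ)))
    ((S.rsum_l4' T hx hcA).trans (mul_le_mul_of_nonneg_left h2 hτσ)) (S'.rsum_l2 T' hy hcB').le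
  have c2 := MStage_cs hτσ ha (norm_nonneg (star y (c' ξ)))
    ((S.rsum_l4 T hx hcA).trans (mul_le_mul_of_nonneg_left h1 hτσ)) (S'.rsum_l2' T' hy hcB').le
  have c3 := MStage_cs hτσ (norm_nonneg (star x (c ξ))) hb (S.rsum_l2' T hx hcA).le
    ((S'.rsum_l4 T' hy hcB').trans (mul_le_mul_of_nonneg_left h3 hτσ))
  have c4 := MStage_cs hτσ (norm_nonneg (x (c ξ))) hb' (S.rsum_l2 T hx hcA).le
    ((S'.rsum_l4' T' hy hcB').trans (mul_le_mul_of_nonneg_left h4 hτσ))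
  rw [e3, e1]
  refine (R124.norm_ex_le _).trans ((R124.ex_mono fun θ =>
    MStage_pt S.proj S.proj' T.proj T.proj' (MStage_vac S hcA) (MStage_vac T hcA') hd0 hK0 hL hd hK
      (MStage_el S T hx θ).1 (MStage_el S' T' hy θ).1 (MStage_el S T hx θ).2.1
      (MStage_el S T hx θ).2.2 (MStage_el S' T' hy θ).2.1 (MStage_el S' T' hy θ).2.2).trans ?_)
  rw [R124.ex_add, R124.ex_const, R124.ex_mul_left, R124.ex_add, R124.ex_add, R124.ex_add, e2]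
  have c5 := mul_le_mul_of_nonneg_left (add_le_add (add_le_add (add_le_add c1 c2) c3) c4)
    (mul_nonneg hK0 (inv_pos.2 hL).le)
  refine (add_le_add le_rfl c5).trans_eq ?_
  ring

end Crest.Agent.R078
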