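import Crest.Agent.R078.Defs
import Crest.Agent.R078T.Main
import Crest.Agent.R121.Basic

/-! Row 78: the tracial stage in the form used by the chain of reductions. -/

set_option autoImplicit false

open scoped InnerProductSpace

namespace Crest.Agent.R078

open Crest.Agent.R121 (Mn Bd)
open Crest.Agent.R124 (ex)
open Crest.Agent.R078T (Base Close)

universe u

lemma tmain_mean : ∃ m : Mn Gam, InvM m := by
  classical
  obtain ⟨m, hm⟩ := R121.Mn.exists_of_approx_norm
    (I := {f : Gam → ℂ // Bd f} × Gam) (fun i x => i.1.1 (x + i.2) - i.1.1 x)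
    (fun i => by
      obtain ⟨C, hC⟩ := i.1.2
      exact R078T.bd_sub ⟨C, fun _ => hC _⟩ ⟨C, hC⟩) (fun _ => 0) fun s ε hε => by
      let S : Submodule (ZMod 2) Gam := Submodule.span _ (s.image Prod.snd : Set Gam)
      have : Finite S := Module.finite_of_finite (ZMod 2)
      let _ : Fintype S := Fintype.ofFinite S
      refine ⟨Mn.ofEx (fun x : S => x.1), fun i hi => ?_⟩
      have hi' : i.2 ∈ S := Submodule.subset_span (by simpa using ⟨i.1.1, i.1.2, hi⟩)
      rw [Mn.ofEx_apply, R124.ex_sub]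
      have := R121.ex_equiv (Equiv.addRight (⟨i.2, hi'⟩ : S)) fun x : S => i.1.1 x.1
      simp only [Equiv.coe_addRight, Submodule.coe_add] at this
      rw [this, sub_self, norm_zero]
      linarith
  refine ⟨m, fun f hf a => ?_⟩
  have := hm (⟨f, hf⟩, a)
  rwa [norm_le_zero_iff, m.map_sub, sub_eq_zero] at this

lemma tmain_sg (a b : Gam) : sg a b = 1 ∨ sg a b = -1 := by
  unfold sg
  split_ifs <;> simp

lemma tmain_add_self (a : Gam) : a + a = 0 := by
  ext n <;> simp [CharTwo.add_self_eq_zero]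

lemma tmain_beta (i j : ℕ) (x y : ZMod 2 × ZMod 2) :
    beta (Finsupp.single i x) (Finsupp.single j y) = if j = i then x.2 * y.1 else 0 := by
  unfold beta
  rw [Finsupp.sum_single_index (by simp), Finsupp.single_apply]
  split_ifs <;> simp

variable {H : Type*} [NormedAddCommGroup H] [InnerProductSpace ℂ H] [CompleteSpace H]

lemma tmain_w_zero (F : Frame H) : F.w 0 = 1 := by
  have h := F.w_mul 0 0
  rw [show sg 0 0 = 1 by simp [sg, beta], one_smul, add_zero] at h
  calc F.w 0 = star (F.w 0) * (F.w 0 * F.w 0) := by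
        rw [← mul_assoc, Unitary.star_mul_self_of_mem (F.w_mem 0), one_mul]
    _ = 1 := by rw [h, Unitary.star_mul_self_of_mem (F.w_mem 0)]

lemma tmain_mul (F : Frame H) (a b : Gam) :
    F.w a * F.w b = F.w (a + b) ∨ F.w a * F.w b = -F.w (a + b) := by
  rcases tmain_sg a b with h | h <;> simp [F.w_mul, h]

lemma tmain_star (F : Frame H) (a : Gam) : star (F.w a) = F.w a ∨ star (F.w a) = -F.w a := by
  have e : ∀ T, F.w a * F.w a = T → F.w a = star (F.w a) * T := fun T h => by
    rw [← h, ← mul_assoc, Unitary.star_mul_self_of_mem (F.w_mem a), one_mul]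
  have h := tmain_mul F a a
  rw [tmain_add_self, tmain_w_zero] at h
  rcases h with h | h
  · exact Or.inl (by simpa using (e _ h).symm)
  · exact Or.inr (by simpa [neg_eq_iff_eq_neg] using (e _ h).symm)

/-- The group `± w a`. -/
def tmainG (F : Frame H) : Subgroup (unitary (Op H)) where
  carrier := {U | ∃ a, U.1 = F.w a ∨ U.1 = -F.w a}
  one_mem' := ⟨0, Or.inl (tmain_w_zero F).symm⟩
  mul_mem' := by
    rintro U V ⟨a, ha⟩ ⟨b, hb⟩
    refine ⟨a + b, ?_⟩
    rw [Submonoid.coe_mul]
    rcases tmain_mul F a b with h | h <;> rcases ha with ha | ha <;> rcases hb with hb | hb <;>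
      simp [ha, hb, h]
  inv_mem' := by
    rintro U ⟨a, ha⟩
    refine ⟨a, ?_⟩
    change star U.1 = _ ∨ star U.1 = _
    rcases tmain_star F a with h | h <;> rcases ha with ha | ha <;> simp [ha, h]

/-- `w a` as a group element. -/
def tmainP (F : Frame H) (a : Gam) : tmainG F := ⟨⟨F.w a, F.w_mem a⟩, a, Or.inl rfl⟩

/-- `- w a` as a group element. -/
noncomputable def tmainQ (F : Frame H) (a : Gam) : tmainG F := ⟨-⟨F.w a, F.w_mem a⟩, a, Or.inr rfl⟩

lemma tmain_pair (F : Frame H) (f : tmainG F → ℂ) {g g' : tmainG F} {a : Gam}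
    (h : g.1.1 = F.w a ∨ g.1.1 = -F.w a) (h' : g'.1.1 = -g.1.1) :
    f g + f g' = f (tmainP F a) + f (tmainQ F a) := by
  rcases h with h | h
  · rw [show g = tmainP F a from Subtype.ext (Subtype.ext h),
      show g' = tmainQ F a from Subtype.ext (Subtype.ext (by rw [h', h]; rfl))]
  · rw [show g = tmainQ F a from Subtype.ext (Subtype.ext h),
      show g' = tmainP F a from Subtype.ext (Subtype.ext (by rw [h', h, neg_neg]; rfl)), add_comm]

lemma tmain_bd (F : Frame H) {f : tmainG F → ℂ} (hf : Bd f) :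
    Bd fun a => (1 / 2 : ℂ) * (f (tmainP F a) + f (tmainQ F a)) := by
  obtain ⟨C, hC⟩ := hf
  exact R078T.bd_mul_left _ (R078T.bd_add ⟨C, fun _ => hC _⟩ ⟨C, fun _ => hC _⟩)

/-- The mean on the group. -/
noncomputable def tmainM (F : Frame H) (m : Mn Gam) : Mn (tmainG F) where
  toLin :=
    { toFun := fun f => m fun a => (1 / 2 : ℂ) * (f (tmainP F a) + f (tmainQ F a))
      map_add' := fun f g => by
        rw [← m.map_add]
        congr 1
        ext a
        simp only [Pi.add_apply]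
        ring
      map_smul' := fun c f => by
        rw [RingHom.id_apply, smul_eq_mul, ← m.map_mul_left]
        congr 1
        ext a
        simp only [Pi.smul_apply, smul_eq_mul]
        ring }
  re_le' := fun f hf c h => m.re_le (tmain_bd F hf) fun a => by
    have h1 := h (tmainP F a)
    have h2 := h (tmainQ F a)
    simp
    linarith

lemma tmainM_apply (F : Frame H) (m : Mn Gam) (f : tmainG F → ℂ) :
    tmainM F m f = m fun a => (1 / 2 : ℂ) * (f (tmainP F a) + f (tmainQ F a)) := rfl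

/-- The common data of a tracial situation. -/
noncomputable def tmainB {M N : VN H} {ξ : H} {F : Frame H} {J : H ≃ₗᵢ⋆[ℂ] H}
    (h : TSit M N ξ F J) : Base H where
  ξ := ξ
  norm_ξ := h.sit.fM.cs.1
  J := J
  J_J := h.J_J
  G := tmainG F
  m := tmainM F tmain_mean.choose
  m_mul := fun f hf g => by
    obtain ⟨c, hc⟩ := g.2
    rw [tmainM_apply, tmainM_apply, ← tmain_mean.choose_spec _ (tmain_bd F hf) c]
    congr 1
    ext a
    congr 1
    refine tmain_pair F f ?_ (neg_mul (F.w a) g.1.1)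
    change F.w a * g.1.1 = _ ∨ F.w a * g.1.1 = _
    rcases tmain_mul F a c with h | h <;> rcases hc with hc | hc <;> simp [hc, h]
  m_inv := fun f _ => by
    rw [tmainM_apply, tmainM_apply]
    congr 1
    ext a
    congr 1
    exact tmain_pair F f (tmain_star F a) (star_neg (F.w a))
  Z := M.toStarSubalgebra ⊓ M.commutant.toStarSubalgebra
  X := fun i => tmainP F (gX i)
  Y := fun i => tmainP F (gZ i)
  Y_sq := fun i => Subtype.ext (Subtype.ext (by
    change F.w _ * F.w _ = 1
    rw [F.w_mul, tmain_add_self, tmain_w_zero]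
    simp [sg, gZ, tmain_beta]))
  Y_comm := fun i j => Subtype.ext (Subtype.ext (by
    change F.w _ * F.w _ = F.w _ * F.w _
    rw [F.w_mul, F.w_mul, add_comm]
    simp [sg, gZ, tmain_beta]))
  XY_anti := fun i => by
    change F.w _ * F.w _ = -(F.w _ * F.w _)
    rw [F.w_mul, F.w_mul, add_comm]
    simp [sg, gZ, gX, tmain_beta]
  XY_comm := fun i j hij => Subtype.ext (Subtype.ext (by
    change F.w _ * F.w _ = F.w _ * F.w _
    rw [F.w_mul, F.w_mul, add_comm]
    simp [sg, gZ, gX, tmain_beta, hij]))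

lemma tmain_R_mem (B : Base H) {M : VN H} (h1 : Cyc M B.ξ) (h2 : Cyc M.commutant B.ξ)
    (hJ : ∀ x ∈ M, B.J (x B.ξ) = star x B.ξ) {y : Op H} (hy : y ∈ M.commutant) : B.R y ∈ M := by
  have hJ' : ∀ y ∈ M.commutant, B.J (y B.ξ) = star y B.ξ := fun y hy => by
    refine ext_inner_right ℂ fun v => congrFun (Continuous.ext_on h1
      (continuous_const.inner continuous_id) (continuous_const.inner continuous_id) ?_) v
    rintro _ ⟨x, rfl⟩
    simp only [id]
    rw [B.inner_J_left, hJ x x.2, R078T.inner_star_left, R078T.inner_star_left,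
      ← mul_apply_eq_comp, ← mul_apply_eq_comp, R078T.vn_comm x.2 hy]
  have e : ∀ s ∈ M.commutant, B.R y (s B.ξ) = s (y B.ξ) := fun s hs => by
    rw [Base.R_apply, hJ' s hs, ← mul_apply_eq_comp, ← star_mul,
      hJ' _ (star_mem (mul_mem hs hy)), star_star, mul_apply_eq_comp]
  refine R078T.vn_mem_of_comm fun t ht => ContinuousLinearMap.ext fun v => congrFun
    (Continuous.ext_on h2 (t * B.R y).continuous (B.R y * t).continuous ?_) v
  rintro _ ⟨s, rfl⟩
  rw [mul_apply_eq_comp, mul_apply_eq_comp, e s s.2, ← mul_apply_eq_comp t (s : Op H) B.ξ,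
    e _ (mul_mem ht s.2), mul_apply_eq_comp]

lemma tmain_good {M N : VN H} {ξ : H} {F : Frame H} {J : H ≃ₗᵢ⋆[ℂ] H} (h : TSit M N ξ F J)
    {P : VN H} (hP : Framed P ξ F) (hJ : ∀ x ∈ P, J (x ξ) = star x ξ)
    (hZ : ∀ c, Cen M c ↔ Cen P c) : (tmainB h).Good P where
  cyc := hP.cs.2.1
  J_app := hJ
  R_mem := fun _ hy => tmain_R_mem (tmainB h) hP.cs.2.1 hP.cs.2.2 hJ hy
  u_mem := fun γ => by
    obtain ⟨a, ha | ha⟩ := γ.2
    · exact (show (tmainB h).u γ = _ from ha) ▸ hP.w_mem a
    · exact (show (tmainB h).u γ = _ from ha) ▸ neg_mem (hP.w_mem a)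
  Z_mem := fun z hz => ((hZ z).1 hz).1
  Z_comm := fun z hz _ hx => R078T.vn_comm hx ((hZ z).1 hz).2
  irr := fun x hx hc => (hZ x).2 ⟨hx, hP.irr x hx fun a => (hc (tmainP F a)).symm⟩

lemma tmain_conj {u : Op H} (hu : u ∈ unitary (Op H)) (M : VN H) :
    conjVN u M = R078T.conjVN u hu M := by
  have h1 := Unitary.mul_star_self_of_mem hu
  have h2 := Unitary.star_mul_self_of_mem hu
  ext x
  rw [R078T.mem_conjVN]
  change x ∈ StarSubalgebra.centralizer ℂ _ ↔ _
  rw [StarSubalgebra.mem_centralizer_iff]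
  constructor
  · intro h
    refine R078T.vn_mem_of_comm fun t ht => ?_
    have h3 := (h _ ⟨t, ht, rfl⟩).1
    calc t * (star u * x * u) = star u * (u * t * star u * x) * u := by
          simp only [← mul_assoc, h2, one_mul]
      _ = star u * x * u * t := by
          rw [h3]
          simp only [mul_assoc, h2, mul_one]
  · intro h
    have key : ∀ t ∈ M.commutant, u * t * star u * x = x * (u * t * star u) := fun t ht => by
      have h4 := R078T.vn_comm h ht
      calc u * t * star u * x = u * (t * (star u * x * u)) * star u := by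
            simp only [mul_assoc, h1, mul_one]
        _ = x * (u * t * star u) := by
            rw [h4]
            simp only [← mul_assoc, h1, one_mul]
    rintro _ ⟨t, ht, rfl⟩
    refine ⟨key t ht, ?_⟩
    simpa only [star_mul, star_star, mul_assoc] using key _ (star_mem ht)

lemma tmain_exists {M N : VN H} {ξ : H} {F : Frame H} {J : H ≃ₗᵢ⋆[ℂ] H} (h : TSit M N ξ F J)
    {d : ℝ} (hd : 0 ≤ d) (hd1 : d ≤ 1 / 10 ^ 35) (hc : Cl M N d) :
    ∃ u, ∃ hu : u ∈ unitary (Op H), ‖u - 1‖ ≤ 10 ^ 8 * d ∧ R078T.conjVN u hu M = N := by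
  rcases hd.eq_or_lt with rfl | hd
  · have e : ∀ {M N : VN H}, Near M N 0 → ∀ x ∈ M, x ∈ N := fun h x hx => by
      obtain ⟨y, hy, h1⟩ := h x hx
      rw [zero_mul, norm_le_zero_iff, sub_eq_zero] at h1
      exact h1 ▸ hy
    refine ⟨1, one_mem _, by simp, ?_⟩
    rw [R078T.conjVN_one]
    exact VonNeumannAlgebra.ext fun x => ⟨e hc.1 x, e hc.2 x⟩
  · exact R078T.tracial (tmain_good h h.sit.fM h.J_M fun _ => Iff.rfl)
      (tmain_good h h.sit.fN h.J_N h.sit.cen) hd hd1 hc.1 hc.2

/-- The tracial theorem. -/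
theorem thmT : ∃ C d₀ : ℝ, 0 < d₀ ∧ ∀ (H : Type u) [NormedAddCommGroup H] [InnerProductSpace ℂ H]
    [CompleteSpace H] (M N : VN H) (ξ : H) (F : Frame H) (J : H ≃ₗᵢ⋆[ℂ] H) (d : ℝ),
    TSit M N ξ F J → 0 ≤ d → d ≤ d₀ → Cl M N d →
      ∃ u ∈ unitary (Op H), ‖u - 1‖ ≤ C * d ∧ conjVN u M = N :=
  ⟨10 ^ 8, 1 / 10 ^ 35, by positivity, fun _ _ _ _ M _ _ _ _ _ h hd hd1 hc => by
    obtain ⟨u, hu, h1, h2⟩ := tmain_exists h hd hd1 hc
    exact ⟨u, hu, h1, (tmain_conj hu M).trans h2⟩⟩

lemma tmain_ns {M N : VN H} {u : Op H} (hu : u ∈ unitary (Op H))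
    (h : ∀ x ∈ M, u * x * star u ∈ N) {κ : ℝ} (hκ : ‖u - 1‖ ≤ κ) : NS M N κ (4 * κ ^ 2) := by
  refine ⟨u - 1, hκ, fun x hx y hy => ?_⟩
  set k := u - 1 with hk
  have h1 : star k * k = -(star k + k) := by
    rw [hk, star_sub, star_one, sub_mul, mul_sub, Unitary.star_mul_self_of_mem hu]
    noncomm_ring
  have h2 : u * x * star u = x + cm k x - (x * (star k * k) - k * x * star k) := by
    rw [h1, show u = 1 + k by rw [hk]; abel, star_add, star_one, cm]
    noncomm_ring
  have h3 := R078T.vn_comm (h x hx) hy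
  set r := x * (star k * k) - k * x * star k with hr
  have h4 : cm x y + cm (cm k x) y = r * y - y * r := by
    rw [h2] at h3
    have : cm x y + cm (cm k x) y = (x + cm k x - r) * y - y * (x + cm k x - r) +
      (r * y - y * r) := by
      unfold cm
      noncomm_ring
    rw [this, h3, sub_self, zero_add]
  have h0 : 0 ≤ κ := (norm_nonneg _).trans hκ
  have h5 : ‖r‖ ≤ 2 * κ ^ 2 * ‖x‖ := by
    have a1 : ‖x * (star k * k)‖ ≤ ‖x‖ * (κ * κ) := (norm_mul_le _ _).trans (by
      rw [CStarRing.norm_star_mul_self]; gcongr)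
    have a2 : ‖k * x * star k‖ ≤ κ * ‖x‖ * κ := (norm_mul₃_le).trans (by
      rw [norm_star]; gcongr)
    refine (norm_sub_le _ _).trans ?_
    nlinarith
  rw [h4]
  refine (norm_sub_le _ _).trans ?_
  have a3 := norm_mul_le r y
  have a4 := norm_mul_le y r
  have a5 := mul_le_mul_of_nonneg_right h5 (norm_nonneg y)
  nlinarith

/-- The tracial class is good. -/
theorem good_tsit : GoodOn Cls.tsit.{u} := by
  refine ⟨4 * 10 ^ 16, 1 / 10 ^ 35, by positivity, ?_⟩
  rintro H _ _ _ M N δ ⟨-, ξ, F, J, h⟩ hd hd1 hc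
  obtain ⟨u, hu, h1, h2⟩ := tmain_exists h hd hd1 hc
  obtain ⟨k, hk, hk'⟩ := tmain_ns (M := M) (N := N) hu
    (fun x hx => h2 ▸ R078T.conj_mem_conjVN hu hx) h1
  refine ⟨k, hk.trans (by nlinarith), fun x hx y hy => (hk' x hx y hy).trans_eq ?_⟩
  ring

end Crest.Agent.R078
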